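import Vale.Agent.P353.Ex.Defs
import Mathlib.Analysis.SpecialFunctions.Gaussian.GaussianIntegral
import Mathlib.Analysis.SpecialFunctions.JapaneseBracket
import Mathlib.MeasureTheory.Integral.Pi
import Mathlib.MeasureTheory.Measure.Haar.InnerProductSpace

/-! Task EX-15: integrability of the majorant.

With `R = sqrt (1 + |z|²)` one has `g |z|² ≥ R - 1` and `|w|⁴/16 ≥ |w|² - 4`, so the exponential is
at most `e⁴ e^{-R |w|²}`; one half of the exponent is used as a Gaussian in `w`, the other half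
gives `∏ 2 (R w_j²)^{-13/28}` over the 14 coordinates of `w`.  The majorant is then a product of
functions of one coordinate. -/

open MeasureTheory Filter Topology
open scoped ContDiff ComplexConjugate

namespace Vale.Agent.P353.Ex

open Fk

private theorem ig_abs : Integrable fun x : ℝ => |x| ^ (-(13 / 14) : ℝ) *
    Real.exp (-(1 / 2) * x ^ 2) := by
  have h0 : IntegrableOn (fun x : ℝ => x ^ (-(13 / 14) : ℝ) * Real.exp (-(1 / 2) * x ^ 2))
      (Set.Ioi 0) := integrableOn_rpow_mul_exp_neg_mul_sq (by norm_num) (by norm_num)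
  have h1 : IntegrableOn (fun x : ℝ => |x| ^ (-(13 / 14) : ℝ) * Real.exp (-(1 / 2) * x ^ 2))
      (Set.Ioi 0) := by
    refine h0.congr_fun (fun x hx => ?_) measurableSet_Ioi
    simp only [abs_of_pos (Set.mem_Ioi.1 hx)]
  rw [← integrableOn_univ, ← @Set.Iio_union_Ici _ _ (0 : ℝ), integrableOn_union,
    integrableOn_Ici_iff_integrableOn_Ioi]
  refine ⟨?_, h1⟩
  rw [← (Measure.measurePreserving_neg (volume : Measure ℝ)).integrableOn_comp_preimage
      (Homeomorph.neg ℝ).measurableEmbedding]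
  simp only [Function.comp_def, neg_sq, Set.neg_preimage, Set.neg_Iio, neg_zero, abs_neg]
  exact h1

private theorem ig_jap : Integrable fun x : ℝ => (1 + x ^ 2) ^ (-(5 / 8) : ℝ) := by
  have h := integrable_rpow_neg_one_add_norm_sq (E := ℝ) (μ := volume) (r := 5 / 4)
    (by simp; norm_num)
  refine h.congr (Eventually.of_forall fun x => ?_)
  simp only [Real.norm_eq_abs, sq_abs]
  norm_num

/-- The one-coordinate majorants. -/
private noncomputable def ff (s : ℝ) (p : Fin 9 × Fin 3) (y : ℝ) : ℝ :=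
  if p.2 = 2 then (if p.1.1 < 7 then Real.exp (-(1 / 16) * y ^ 2) else (1 + y ^ 2) ^ (-(5 / 8) : ℝ))
  else (if p.1.1 < 7 then |y| ^ (-(13 / 14) : ℝ) * Real.exp (-(1 / 2) * y ^ 2)
    else Real.exp (-s * y ^ 2))

private theorem ff_integrable {s : ℝ} (hs : 0 < s) (p : Fin 9 × Fin 3) :
    Integrable (ff s p) := by
  unfold ff
  split_ifs
  · exact integrable_exp_neg_mul_sq (by norm_num)
  · exact ig_jap
  · exact ig_abs
  · exact integrable_exp_neg_mul_sq hs

private theorem ff_prod_integrable {s : ℝ} (hs : 0 < s) :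
    Integrable fun x : X3 => ∏ p, ff s p (x p) := by
  have h : Integrable fun x : Fin 9 × Fin 3 → ℝ => ∏ p, ff s p (x p) :=
    Integrable.fintype_prod (μ := fun _ => volume) fun p => ff_integrable hs p
  exact (PiLp.volume_preserving_ofLp (Fin 9 × Fin 3)).integrable_comp_of_integrable h

/-- Value of the product. -/
private theorem ff_prod (s : ℝ) (x : X3) : ∏ p, ff s p (x p) =
    (∏ i : Fin 7, (|x (e9 i, 0)| ^ (-(13 / 14) : ℝ) * |x (e9 i, 1)| ^ (-(13 / 14) : ℝ))) *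
      Real.exp (-(1 / 2) * wsq x) * Real.exp (-(1 / 16) * x3sq x) * Real.exp (-s * perp2 x) *
      ((1 + x (7, 2) ^ 2) ^ (-(5 / 8) : ℝ) * (1 + x (8, 2) ^ 2) ^ (-(5 / 8) : ℝ)) := by
  have e1 : ∏ p, ff s p (x p) = ∏ i : Fin 9, ∏ A : Fin 3, ff s (i, A) (x (i, A)) :=
    Fintype.prod_prod_type _
  rw [e1, Fin.prod_univ_castSucc, Fin.prod_univ_castSucc]
  simp only [Fin.prod_univ_three]
  have e7 : (Fin.last 7).castSucc = (7 : Fin 9) := rfl
  have e8 : Fin.last 8 = (8 : Fin 9) := rfl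
  rw [e7, e8]
  have h0 : ∀ (i : Fin 7), ff s (i.castSucc.castSucc, 0) = fun y =>
      |y| ^ (-(13 / 14) : ℝ) * Real.exp (-(1 / 2) * y ^ 2) := by
    intro i; funext y; unfold ff
    rw [if_neg (show ¬ ((0 : Fin 3) = 2) by decide), if_pos (by simp)]
  have h1 : ∀ (i : Fin 7), ff s (i.castSucc.castSucc, 1) = fun y =>
      |y| ^ (-(13 / 14) : ℝ) * Real.exp (-(1 / 2) * y ^ 2) := by
    intro i; funext y; unfold ff
    rw [if_neg (show ¬ ((1 : Fin 3) = 2) by decide), if_pos (by simp)]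
  have h2 : ∀ (i : Fin 7), ff s (i.castSucc.castSucc, 2) = fun y =>
      Real.exp (-(1 / 16) * y ^ 2) := by
    intro i; funext y; unfold ff
    rw [if_pos rfl, if_pos (by simp)]
  have g0 : ∀ i : Fin 9, 7 ≤ i.1 → ∀ A : Fin 3, A ≠ 2 →
      ff s (i, A) = fun y => Real.exp (-s * y ^ 2) := by
    intro i hi A hA; funext y; unfold ff
    rw [if_neg hA, if_neg (by simpa using hi)]
  have g2 : ∀ i : Fin 9, 7 ≤ i.1 → ff s (i, 2) = fun y => (1 + y ^ 2) ^ (-(5 / 8) : ℝ) := by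
    intro i hi; funext y; unfold ff
    rw [if_pos rfl, if_neg (by simpa using hi)]
  simp only [h0, h1, h2]
  rw [g0 7 (by decide) 0 (by decide), g0 7 (by decide) 1 (by decide), g2 7 (by decide),
    g0 8 (by decide) 0 (by decide), g0 8 (by decide) 1 (by decide), g2 8 (by decide)]
  have k1 : Real.exp (-(1 / 2) * wsq x) = ∏ i : Fin 7,
      (Real.exp (-(1 / 2) * x (e9 i, 0) ^ 2) * Real.exp (-(1 / 2) * x (e9 i, 1) ^ 2)) := by
    unfold wsq
    rw [Finset.mul_sum, Real.exp_sum]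
    refine Finset.prod_congr rfl fun i _ => ?_
    rw [← Real.exp_add]; congr 1; ring
  have k2 : Real.exp (-(1 / 16) * x3sq x) = ∏ i : Fin 7,
      Real.exp (-(1 / 16) * x (e9 i, 2) ^ 2) := by
    unfold x3sq
    rw [Finset.mul_sum, Real.exp_sum]
  have k3 : Real.exp (-s * perp2 x) = Real.exp (-s * x (7, 0) ^ 2) *
      Real.exp (-s * x (7, 1) ^ 2) * (Real.exp (-s * x (8, 0) ^ 2) *
      Real.exp (-s * x (8, 1) ^ 2)) := by
    unfold perp2
    rw [← Real.exp_add, ← Real.exp_add, ← Real.exp_add]; congr 1; ring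
  rw [k1, k2, k3]
  simp only [Finset.prod_mul_distrib]
  ring

private theorem exp_le_rpow {u : ℝ} (hu : 0 < u) :
    Real.exp (-(u / 2)) ≤ 2 * u ^ (-(13 / 28) : ℝ) := by
  have h1 : u ^ (13 / 28 : ℝ) ≤ 1 + u := by
    rcases le_total u 1 with h | h
    · have := Real.rpow_le_one hu.le h (by norm_num : (0 : ℝ) ≤ 13 / 28)
      linarith
    · have := Real.rpow_le_rpow_of_exponent_le h (by norm_num : (13 / 28 : ℝ) ≤ 1)
      rw [Real.rpow_one] at this
      linarith
  have h2 : u / 2 + 1 ≤ Real.exp (u / 2) := Real.add_one_le_exp _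
  have h3 : 0 < u ^ (13 / 28 : ℝ) := Real.rpow_pos_of_pos hu _
  rw [Real.exp_neg, Real.rpow_neg hu.le, ← div_eq_mul_inv, inv_eq_one_div,
    div_le_div_iff₀ (Real.exp_pos _) h3]
  linarith

private theorem exp_le_rpow' {R y : ℝ} (hR : 0 < R) (hy : y ≠ 0) :
    Real.exp (-(1 / 2) * R * y ^ 2) ≤ 2 * R ^ (-(13 / 28) : ℝ) * |y| ^ (-(13 / 14) : ℝ) := by
  have hy' : 0 < |y| := abs_pos.2 hy
  have h := exp_le_rpow (u := R * |y| ^ 2) (by positivity)
  have e1 : (R * |y| ^ 2) ^ (-(13 / 28) : ℝ) = R ^ (-(13 / 28) : ℝ) * |y| ^ (-(13 / 14) : ℝ) := by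
    rw [Real.mul_rpow hR.le (by positivity), ← Real.rpow_natCast |y| 2, ← Real.rpow_mul hy'.le]
    norm_num
  rw [e1, sq_abs] at h
  have e2 : -(1 / 2) * R * y ^ 2 = -(R * y ^ 2 / 2) := by ring
  rw [e2, mul_assoc]
  exact h

/-- The pointwise bound. -/
private theorem ig_bound (s : ℝ) {x : X3} (hx : ∀ p, x p ≠ 0) :
    (1 + ze x) ^ 4 * Real.exp (-s * perp2 x) * B0 x ≤
      (16 * Real.exp 4 * 4 ^ 7) * ∏ p, ff s p (x p) := by
  rw [ff_prod]
  set P : ℝ := ∏ i : Fin 7, (|x (e9 i, 0)| ^ (-(13 / 14) : ℝ) * |x (e9 i, 1)| ^ (-(13 / 14) : ℝ))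
    with hP
  have hP0 : 0 ≤ P := Finset.prod_nonneg fun i _ =>
    mul_nonneg (Real.rpow_nonneg (abs_nonneg _) _) (Real.rpow_nonneg (abs_nonneg _) _)
  have hr0 : 0 ≤ r3 x := by unfold r3; positivity
  have hw0 : 0 ≤ wsq x := Finset.sum_nonneg fun i _ => by positivity
  set R : ℝ := Real.sqrt (1 + r3 x) with hR
  have hR1 : 1 ≤ R := by rw [hR]; exact Real.one_le_sqrt.2 (by linarith)
  have hR0 : 0 < R := by linarith
  have hRsq : R ^ 2 = 1 + r3 x := Real.sq_sqrt (by linarith)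
  -- the exponent
  have hg : R - 1 ≤ gg x * r3 x := by
    have e1 : gg x = R⁻¹ := rfl
    have e2 : r3 x = R ^ 2 - 1 := by linarith
    rw [e1, e2]
    have e3 : R⁻¹ * (R ^ 2 - 1) = R - R⁻¹ := by field_simp
    rw [e3]
    have : R⁻¹ ≤ 1 := inv_le_one_of_one_le₀ hR1
    linarith
  have hB : B0 x ≤ Real.exp 4 * (Real.exp (-(1 / 2) * R * wsq x) * Real.exp (-(1 / 2) * wsq x) *
      Real.exp (-(1 / 16) * x3sq x)) := by
    unfold B0
    rw [← Real.exp_add, ← Real.exp_add, ← Real.exp_add]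
    refine Real.exp_le_exp.2 ?_
    have h1 := mul_le_mul_of_nonneg_right hg hw0
    have h2 : 0 ≤ (wsq x / 4 - 2) ^ 2 := sq_nonneg _
    have h3 := mul_le_mul_of_nonneg_right hR1 hw0
    nlinarith only [h1, h2, h3]
  -- the product bound
  have hE : Real.exp (-(1 / 2) * R * wsq x) ≤ 4 ^ 7 * R ^ (-(13 / 2) : ℝ) * P := by
    have e1 : Real.exp (-(1 / 2) * R * wsq x) = ∏ i : Fin 7,
        (Real.exp (-(1 / 2) * R * x (e9 i, 0) ^ 2) *
          Real.exp (-(1 / 2) * R * x (e9 i, 1) ^ 2)) := by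
      unfold wsq
      rw [Finset.mul_sum, Real.exp_sum]
      refine Finset.prod_congr rfl fun i _ => ?_
      rw [← Real.exp_add]; congr 1; ring
    have e2 : 4 ^ 7 * R ^ (-(13 / 2) : ℝ) * P = ∏ i : Fin 7,
        ((2 * R ^ (-(13 / 28) : ℝ) * |x (e9 i, 0)| ^ (-(13 / 14) : ℝ)) *
          (2 * R ^ (-(13 / 28) : ℝ) * |x (e9 i, 1)| ^ (-(13 / 14) : ℝ))) := by
      have e3 : ∀ i : Fin 7, (2 * R ^ (-(13 / 28) : ℝ) * |x (e9 i, 0)| ^ (-(13 / 14) : ℝ)) *
          (2 * R ^ (-(13 / 28) : ℝ) * |x (e9 i, 1)| ^ (-(13 / 14) : ℝ)) =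
          (4 * R ^ (-(13 / 14) : ℝ)) *
            (|x (e9 i, 0)| ^ (-(13 / 14) : ℝ) * |x (e9 i, 1)| ^ (-(13 / 14) : ℝ)) := by
        intro i
        have e4 : R ^ (-(13 / 14) : ℝ) = R ^ (-(13 / 28) : ℝ) * R ^ (-(13 / 28) : ℝ) := by
          rw [← Real.rpow_add hR0]; norm_num
        rw [e4]; ring
      simp only [e3]
      rw [Finset.prod_mul_distrib, Finset.prod_const, Finset.card_univ, Fintype.card_fin,
        mul_pow, ← Real.rpow_natCast (R ^ (-(13 / 14) : ℝ)) 7, ← Real.rpow_mul hR0.le]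
      norm_num [hP]
    rw [e1, e2]
    refine Finset.prod_le_prod (fun i _ => by positivity) fun i _ => ?_
    exact mul_le_mul (exp_le_rpow' hR0 (hx _)) (exp_le_rpow' hR0 (hx _)) (Real.exp_pos _).le
      (mul_nonneg (mul_nonneg zero_le_two (Real.rpow_nonneg hR0.le _))
        (Real.rpow_nonneg (abs_nonneg _) _))
  -- the factor of `z`
  have hz : (1 + ze x) ^ 4 ≤ 16 * R ^ 4 := by
    have h1 : ze x ≤ R := Real.sqrt_le_sqrt (by linarith)
    have h2 : 0 ≤ ze x := Real.sqrt_nonneg _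
    calc (1 + ze x) ^ 4 ≤ (2 * R) ^ 4 := pow_le_pow_left₀ (by linarith) (by linarith) 4
      _ = 16 * R ^ 4 := by ring
  have hJ : R ^ 4 * R ^ (-(13 / 2) : ℝ) ≤
      (1 + x (7, 2) ^ 2) ^ (-(5 / 8) : ℝ) * (1 + x (8, 2) ^ 2) ^ (-(5 / 8) : ℝ) := by
    have a0 : 0 < 1 + x (7, 2) ^ 2 := by positivity
    have b0 : 0 < 1 + x (8, 2) ^ 2 := by positivity
    have e1 : R ^ 4 * R ^ (-(13 / 2) : ℝ) = (R ^ 4) ^ (-(5 / 8) : ℝ) := by
      rw [← Real.rpow_natCast R 4, ← Real.rpow_add hR0, ← Real.rpow_mul hR0.le]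
      norm_num
    rw [e1, ← Real.mul_rpow a0.le b0.le]
    refine Real.rpow_le_rpow_of_nonpos (by positivity) ?_ (by norm_num)
    have e2 : R ^ 4 = (1 + r3 x) ^ 2 := by rw [← hRsq]; ring
    rw [e2]
    unfold r3
    nlinarith only [sq_nonneg (x (7, 2)), sq_nonneg (x (8, 2)),
      mul_nonneg (sq_nonneg (x (7, 2))) (sq_nonneg (x (8, 2))), sq_nonneg (x (7, 2) ^ 2),
      sq_nonneg (x (8, 2) ^ 2)]
  have hs0 : 0 < Real.exp (-s * perp2 x) := Real.exp_pos _
  have hk0 : 0 ≤ Real.exp (-(1 / 2) * wsq x) * Real.exp (-(1 / 16) * x3sq x) := by positivity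
  calc (1 + ze x) ^ 4 * Real.exp (-s * perp2 x) * B0 x
      ≤ (16 * R ^ 4) * Real.exp (-s * perp2 x) * (Real.exp 4 *
        ((4 ^ 7 * R ^ (-(13 / 2) : ℝ) * P) * Real.exp (-(1 / 2) * wsq x) *
          Real.exp (-(1 / 16) * x3sq x))) := by
        refine mul_le_mul (mul_le_mul_of_nonneg_right hz hs0.le) (hB.trans ?_)
          (Real.exp_pos _).le (by positivity)
        refine mul_le_mul_of_nonneg_left ?_ (Real.exp_pos _).le
        rw [mul_assoc, mul_assoc (4 ^ 7 * R ^ (-(13 / 2) : ℝ) * P)]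
        exact mul_le_mul_of_nonneg_right hE hk0
    _ = (16 * Real.exp 4 * 4 ^ 7) * (P * Real.exp (-(1 / 2) * wsq x) *
        Real.exp (-(1 / 16) * x3sq x) * Real.exp (-s * perp2 x) *
          (R ^ 4 * R ^ (-(13 / 2) : ℝ))) := by ring
    _ ≤ _ := by
        refine mul_le_mul_of_nonneg_left ?_ (by positivity)
        exact mul_le_mul_of_nonneg_left hJ (by positivity)

theorem integrable_J {s : ℝ} (hs : 0 < s) :
    Integrable fun x : X3 => (1 + ze x) ^ 4 * Real.exp (-s * perp2 x) * B0 x := by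
  have hc : Continuous fun x : X3 => (1 + ze x) ^ 4 * Real.exp (-s * perp2 x) * B0 x := by
    have hr : Continuous fun x : X3 => r3 x := by unfold r3; fun_prop
    have hw : Continuous fun x : X3 => wsq x := by unfold wsq; fun_prop
    have h3 : Continuous fun x : X3 => x3sq x := by unfold x3sq; fun_prop
    have hp : Continuous fun x : X3 => perp2 x := by unfold perp2; fun_prop
    have hg : Continuous fun x : X3 => gg x := by
      unfold gg
      refine Continuous.inv₀ (by fun_prop) fun x => ?_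
      have : 0 ≤ r3 x := by unfold r3; positivity
      exact (Real.sqrt_pos.2 (by linarith)).ne'
    unfold ze B0
    fun_prop
  have hne : ∀ᵐ x : X3, ∀ p, x p ≠ 0 := by
    rw [ae_all_iff]
    intro p
    exact (PiLp.volume_preserving_ofLp (Fin 9 × Fin 3)).quasiMeasurePreserving.ae
      (Measure.ae_eval_ne (μ := fun _ : Fin 9 × Fin 3 => (volume : Measure ℝ)) p 0)
  refine ((ff_prod_integrable hs).const_mul (16 * Real.exp 4 * 4 ^ 7)).mono'
    hc.aestronglyMeasurable ?_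
  filter_upwards [hne] with x hx
  have h0 : 0 ≤ (1 + ze x) ^ 4 * Real.exp (-s * perp2 x) * B0 x := by
    have : 0 ≤ ze x := Real.sqrt_nonneg _
    unfold B0
    positivity
  rw [Real.norm_eq_abs, abs_of_nonneg h0]
  exact ig_bound s hx

end Vale.Agent.P353.Ex
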