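import Vale.Agent.P353.Ex.Sph
import Vale.Agent.P353.Ex.Integ

/-! Task EX-16: the averaging operator.

`B0 ≤ 1`, `ze (act U⁻¹ x) ≤ √(phsq x)`.
`Av_bound`: `(1+ze)³ ≤ (1+√phsq)³` and `sph_bound`.
`Av_memLp`: Cauchy-Schwarz in `v`:
`‖Av f x‖² ≤ (∫ e^{-|v|²} e^{-s perp2}) (∫ e^{-|v|²} e^{s perp2} ‖f(U⁻¹x)‖²)`, the first factor is
`≤ C/(1+phsq x)`, invariant; then Tonelli, `x ↦ act U x` measure preserving, and
`∫ (1+phsq)^{-1} e^{s perp2} ‖f‖² ≤ C ∫ (1+ze)⁴ e^{-s perp2} B0 < ∞` (`integrable_J`). -/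

open MeasureTheory Filter Topology
open scoped ContDiff ComplexConjugate

namespace Vale.Agent.P353.Ex

variable {F : Type*} [NormedAddCommGroup F] [InnerProductSpace ℂ F]

namespace Fk

variable (K : Fk F)

/-- the average over the group -/
noncomputable def Av (f : X3 → F) (x : X3) : F :=
  ∫ v : V4, (Real.exp (-‖v‖ ^ 2) : ℂ) • K.S (gU v) (f (act (gU v)⁻¹ x))

/-- admissible functions -/
def Adm (f : X3 → F) : Prop := Continuous f ∧ ∃ C s : ℝ, 0 < s ∧ ∀ x,
  ‖f x‖ ≤ C * (1 + ze x) ^ 3 * Real.exp (-s * perp2 x) * B0 x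

/-- `∫ e^{-|v|²}` -/
noncomputable def c0 : ℝ := ∫ v : V4, Real.exp (-‖v‖ ^ 2)

theorem c0_pos : 0 < c0 := by
  unfold c0
  rw [integral_pos_iff_support_of_nonneg (fun v => (Real.exp_pos _).le) integrable_gauss4]
  have h : Function.support (fun v : V4 => Real.exp (-‖v‖ ^ 2)) = Set.univ :=
    Set.eq_univ_of_forall fun v => (Real.exp_pos _).ne'
  rw [h]
  exact Measure.measure_univ_pos.2 (NeZero.ne _)

/-! ### elementary facts -/

private theorem r3_nonneg (x : X3) : 0 ≤ r3 x := by unfold r3; positivity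

private theorem perp2_nonnegA (x : X3) : 0 ≤ perp2 x := by unfold perp2; positivity

private theorem phsq_nonneg (x : X3) : 0 ≤ phsq x :=
  Finset.sum_nonneg fun A _ => by positivity

private theorem ze_nonnegA (x : X3) : 0 ≤ ze x := Real.sqrt_nonneg _

private theorem B0_pos (x : X3) : 0 < B0 x := Real.exp_pos _

private theorem B0_le_one (x : X3) : B0 x ≤ 1 := by
  unfold B0
  rw [Real.exp_le_one_iff]
  have h1 : 0 ≤ x3sq x := Finset.sum_nonneg fun i _ => sq_nonneg _
  have h2 : 0 ≤ wsq x := Finset.sum_nonneg fun i _ => by positivity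
  have h3 : 0 ≤ gg x := by unfold gg; positivity
  have h4 : 0 ≤ gg x * r3 x * wsq x := mul_nonneg (mul_nonneg h3 (r3_nonneg x)) h2
  have h5 : 0 ≤ wsq x ^ 2 := sq_nonneg _
  linarith

private theorem ze_le (x : X3) : ze x ≤ Real.sqrt (phsq x) := by
  unfold ze
  apply Real.sqrt_le_sqrt
  rw [phsq_eq]
  linarith [perp2_nonnegA x]

private theorem continuous_coord (p : Fin 9 × Fin 3) : Continuous fun x : X3 => x p :=
  (EuclideanSpace.proj (𝕜 := ℝ) p).continuous

private theorem continuous_perp2 : Continuous perp2 := by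
  unfold perp2
  exact ((((continuous_coord _).pow 2).add ((continuous_coord _).pow 2)).add
    ((continuous_coord _).pow 2)).add ((continuous_coord _).pow 2)

private theorem continuous_phsq : Continuous phsq := by
  unfold phsq
  exact continuous_finsetSum _ fun A _ => ((continuous_coord _).pow 2).add
    ((continuous_coord _).pow 2)

private theorem star_eq_inv (U : SU2) : ((U⁻¹ : SU2) : Matrix (Fin 2) (Fin 2) ℂ) =
    star (U : Matrix (Fin 2) (Fin 2) ℂ) := rfl

private theorem continuous_inv_SU2 : Continuous fun U : SU2 => U⁻¹ :=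
  continuous_induced_rng.2 (continuous_star.comp continuous_subtype_val)

private theorem S_joint : Continuous fun p : SU2 × F => K.S p.1 p.2 := by
  rw [continuous_iff_continuousAt]
  rintro ⟨U0, w0⟩
  rw [ContinuousAt, tendsto_iff_norm_sub_tendsto_zero]
  have h1 : Tendsto (fun p : SU2 × F => ‖p.2 - w0‖ + ‖K.S p.1 w0 - K.S U0 w0‖) (𝓝 (U0, w0))
      (𝓝 0) := by
    have hc : Continuous fun p : SU2 × F => ‖p.2 - w0‖ + ‖K.S p.1 w0 - K.S U0 w0‖ :=
      (continuous_snd.sub continuous_const).norm.add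
        (((K.S_continuous w0).comp continuous_fst).sub continuous_const).norm
    have := hc.tendsto (U0, w0)
    simpa only [sub_self, norm_zero, add_zero] using this
  refine squeeze_zero (fun _ => norm_nonneg _) (fun p => ?_) h1
  have e : K.S p.1 p.2 - K.S U0 w0 = K.S p.1 (p.2 - w0) + (K.S p.1 w0 - K.S U0 w0) := by
    rw [map_sub]; abel
  rw [e]
  refine (norm_add_le _ _).trans ?_
  rw [K.S_isometry]

/-! ### measurability off `v = 0` -/

private theorem contAt_act (v : V4) (hv : v ≠ 0) (x : X3) :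
    ContinuousAt (fun p : V4 × X3 => act (gU p.1)⁻¹ p.2) (v, x) := by
  have h1 : Tendsto (fun p : V4 × X3 => gU p.1) (𝓝 (v, x)) (𝓝 (gU v)) :=
    (continuousAt_gU v hv).tendsto.comp (continuous_fst.tendsto (v, x))
  have h2 : Tendsto (fun p : V4 × X3 => (gU p.1)⁻¹) (𝓝 (v, x)) (𝓝 (gU v)⁻¹) :=
    (continuous_inv_SU2.tendsto (gU v)).comp h1
  have h3 : Tendsto (fun p : V4 × X3 => ((gU p.1)⁻¹, p.2)) (𝓝 (v, x)) (𝓝 ((gU v)⁻¹, x)) :=
    h2.prodMk_nhds (continuous_snd.tendsto (v, x))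
  have h4 : Tendsto (fun p : SU2 × X3 => act p.1 p.2) (𝓝 ((gU v)⁻¹, x)) (𝓝 (act (gU v)⁻¹ x)) :=
    continuous_act.tendsto ((gU v)⁻¹, x)
  have h5 := h4.comp h3
  rw [Function.comp_def] at h5
  exact h5

private theorem ae_ne : ∀ᵐ v : V4, v ≠ 0 := by
  rw [ae_iff]
  simp

private theorem aesm_v {E : Type*} [NormedAddCommGroup E] {g : V4 → E}
    (hg : ∀ v, v ≠ 0 → ContinuousAt g v) : AEStronglyMeasurable g (volume : Measure V4) := by
  have h : ContinuousOn g {0}ᶜ := fun v hv => (hg v hv).continuousWithinAt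
  have h2 := h.aestronglyMeasurable (μ := (volume : Measure V4))
    (measurableSet_singleton (0 : V4)).compl
  rwa [Measure.restrict_eq_self_of_ae_mem] at h2
  exact ae_ne

private theorem aesm_prod {E : Type*} [NormedAddCommGroup E] {g : V4 × X3 → E}
    (hg : ∀ v, v ≠ 0 → ∀ x, ContinuousAt g (v, x)) :
    AEStronglyMeasurable g ((volume : Measure V4).prod (volume : Measure X3)) := by
  have h : ContinuousOn g (({0}ᶜ : Set V4) ×ˢ (Set.univ : Set X3)) := by
    rintro ⟨v, x⟩ hv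
    exact (hg v hv.1 x).continuousWithinAt
  have h2 := h.aestronglyMeasurable (μ := ((volume : Measure V4).prod (volume : Measure X3)))
    ((measurableSet_singleton (0 : V4)).compl.prod MeasurableSet.univ)
  rwa [Measure.restrict_eq_self_of_ae_mem] at h2
  have := (Measure.quasiMeasurePreserving_fst (μ := (volume : Measure V4))
    (ν := (volume : Measure X3))).ae ae_ne
  filter_upwards [this] with p hp
  exact ⟨hp, Set.mem_univ _⟩

/-! ### Fubini -/

private theorem mp_act (U : SU2) : MeasurePreserving (act U) (volume : Measure X3) volume :=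
  (actL U).measurePreserving

private theorem me_act (U : SU2) : MeasurableEmbedding (act U) :=
  (actL U).toHomeomorph.measurableEmbedding

private theorem integral_act {E : Type*} [NormedAddCommGroup E] [NormedSpace ℝ E] (U : SU2)
    (h : X3 → E) : ∫ x, h (act U x) = ∫ x, h x :=
  (mp_act U).integral_comp (me_act U) h

private theorem integrable_act {E : Type*} [NormedAddCommGroup E] (U : SU2) {h : X3 → E}
    (hh : Integrable h) : Integrable fun x => h (act U x) :=
  ((mp_act U).integrable_comp_emb (me_act U)).2 hh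

private theorem fub_integrable {E : Type*} [NormedAddCommGroup E] [NormedSpace ℝ E] {h : X3 → E}
    (hc : Continuous h) (hi : Integrable h) :
    Integrable (fun p : V4 × X3 => Real.exp (-‖p.1‖ ^ 2) • h (act (gU p.1)⁻¹ p.2))
      ((volume : Measure V4).prod (volume : Measure X3)) := by
  have hm : AEStronglyMeasurable
      (fun p : V4 × X3 => Real.exp (-‖p.1‖ ^ 2) • h (act (gU p.1)⁻¹ p.2))
      ((volume : Measure V4).prod (volume : Measure X3)) := by
    refine aesm_prod fun v hv x => ?_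
    have h1 : ContinuousAt (fun p : V4 × X3 => Real.exp (-‖p.1‖ ^ 2)) (v, x) :=
      (Real.continuous_exp.comp ((continuous_fst.norm.pow 2).neg)).continuousAt
    exact h1.smul (ContinuousAt.comp (g := h) hc.continuousAt (contAt_act v hv x))
  rw [integrable_prod_iff hm]
  constructor
  · filter_upwards with v
    exact (integrable_act _ hi).smul _
  · have e : (fun v : V4 => ∫ y : X3, ‖Real.exp (-‖v‖ ^ 2) • h (act (gU v)⁻¹ y)‖) =
        fun v : V4 => Real.exp (-‖v‖ ^ 2) * ∫ y : X3, ‖h y‖ := by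
      funext v
      rw [← integral_act (gU v)⁻¹ fun y => ‖h y‖, ← integral_const_mul]
      refine integral_congr_ae (Eventually.of_forall fun y => ?_)
      simp only [norm_smul, Real.norm_eq_abs, Real.abs_exp]
    rw [e]
    exact integrable_gauss4.mul_const _

private theorem fub_eq {E : Type*} [NormedAddCommGroup E] [NormedSpace ℝ E] [CompleteSpace E]
    {h : X3 → E} (hc : Continuous h) (hi : Integrable h) :
    ∫ x : X3, ∫ v : V4, Real.exp (-‖v‖ ^ 2) • h (act (gU v)⁻¹ x) = c0 • ∫ x, h x := by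
  rw [← integral_integral_swap (f := fun (v : V4) (x : X3) => Real.exp (-‖v‖ ^ 2) •
    h (act (gU v)⁻¹ x)) (fub_integrable hc hi)]
  have e : (fun v : V4 => ∫ x : X3, Real.exp (-‖v‖ ^ 2) • h (act (gU v)⁻¹ x)) =
      fun v : V4 => Real.exp (-‖v‖ ^ 2) • ∫ x : X3, h x := by
    funext v
    rw [integral_smul, integral_act]
  rw [e, integral_smul_const]
  rfl

/-! ### the integrand -/

private theorem Adm.C_nonneg {f : X3 → F} {C s : ℝ}
    (hb : ∀ x, ‖f x‖ ≤ C * (1 + ze x) ^ 3 * Real.exp (-s * perp2 x) * B0 x) : 0 ≤ C := by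
  by_contra hC
  have h1 := (norm_nonneg (f 0)).trans (hb 0)
  have h2 : 0 < (1 + ze (0 : X3)) ^ 3 * Real.exp (-s * perp2 (0 : X3)) * B0 (0 : X3) :=
    mul_pos (mul_pos (pow_pos (by linarith [ze_nonnegA (0 : X3)]) 3) (Real.exp_pos _)) (B0_pos _)
  have h3 : C * (1 + ze (0 : X3)) ^ 3 * Real.exp (-s * perp2 (0 : X3)) * B0 (0 : X3) =
      C * ((1 + ze (0 : X3)) ^ 3 * Real.exp (-s * perp2 (0 : X3)) * B0 (0 : X3)) := by ring
  rw [h3] at h1
  exact absurd (mul_neg_of_neg_of_pos (not_le.1 hC) h2) (not_lt.2 h1)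

private theorem norm_f_act {f : X3 → F} {C s : ℝ}
    (hb : ∀ x, ‖f x‖ ≤ C * (1 + ze x) ^ 3 * Real.exp (-s * perp2 x) * B0 x) (U : SU2) (x : X3) :
    ‖f (act U x)‖ ≤ C * (1 + Real.sqrt (phsq x)) ^ 3 * Real.exp (-s * perp2 (act U x)) := by
  have hC := Adm.C_nonneg hb
  have h1 := hb (act U x)
  have h2 : ze (act U x) ≤ Real.sqrt (phsq x) := by
    have := ze_le (act U x)
    rwa [phsq_act] at this
  have h0 := ze_nonnegA (act U x)
  have h3 : (1 + ze (act U x)) ^ 3 ≤ (1 + Real.sqrt (phsq x)) ^ 3 :=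
    pow_le_pow_left₀ (by linarith) (by linarith) 3
  have h4 := Real.exp_pos (-s * perp2 (act U x))
  have h5 := B0_le_one (act U x)
  calc ‖f (act U x)‖ ≤ C * (1 + ze (act U x)) ^ 3 * Real.exp (-s * perp2 (act U x)) *
        B0 (act U x) := h1
    _ ≤ C * (1 + ze (act U x)) ^ 3 * Real.exp (-s * perp2 (act U x)) * 1 :=
        mul_le_mul_of_nonneg_left h5 (mul_nonneg (mul_nonneg hC (pow_nonneg (by linarith) 3))
          h4.le)
    _ = C * (1 + ze (act U x)) ^ 3 * Real.exp (-s * perp2 (act U x)) := mul_one _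
    _ ≤ C * (1 + Real.sqrt (phsq x)) ^ 3 * Real.exp (-s * perp2 (act U x)) :=
        mul_le_mul_of_nonneg_right (mul_le_mul_of_nonneg_left h3 hC) h4.le

private theorem norm_f_act' {f : X3 → F} {C s : ℝ} (hs : 0 < s)
    (hb : ∀ x, ‖f x‖ ≤ C * (1 + ze x) ^ 3 * Real.exp (-s * perp2 x) * B0 x) (U : SU2) (x : X3) :
    ‖f (act U x)‖ ≤ C * (1 + Real.sqrt (phsq x)) ^ 3 := by
  have hC := Adm.C_nonneg hb
  have h1 := norm_f_act hb U x
  have h2 : Real.exp (-s * perp2 (act U x)) ≤ 1 := by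
    rw [Real.exp_le_one_iff]
    have := mul_nonneg hs.le (perp2_nonnegA (act U x))
    linarith
  have h3 : 0 ≤ C * (1 + Real.sqrt (phsq x)) ^ 3 :=
    mul_nonneg hC (pow_nonneg (by linarith [Real.sqrt_nonneg (phsq x)]) 3)
  calc ‖f (act U x)‖ ≤ _ := h1
    _ ≤ C * (1 + Real.sqrt (phsq x)) ^ 3 * 1 := mul_le_mul_of_nonneg_left h2 h3
    _ = _ := mul_one _

private theorem contAt_int {f : X3 → F} (hf : Continuous f) (v : V4) (hv : v ≠ 0) (x : X3) :
    ContinuousAt (fun p : V4 × X3 => (Real.exp (-‖p.1‖ ^ 2) : ℂ) •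
      K.S (gU p.1) (f (act (gU p.1)⁻¹ p.2))) (v, x) := by
  have h1 : Tendsto (fun p : V4 × X3 => (Real.exp (-‖p.1‖ ^ 2) : ℂ)) (𝓝 (v, x))
      (𝓝 (Real.exp (-‖v‖ ^ 2) : ℂ)) :=
    (Complex.continuous_ofReal.comp
      (Real.continuous_exp.comp ((continuous_fst.norm.pow 2).neg))).tendsto (v, x)
  have h2 : Tendsto (fun p : V4 × X3 => gU p.1) (𝓝 (v, x)) (𝓝 (gU v)) :=
    (continuousAt_gU v hv).tendsto.comp (continuous_fst.tendsto (v, x))
  have h3 : Tendsto (fun p : V4 × X3 => f (act (gU p.1)⁻¹ p.2)) (𝓝 (v, x))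
      (𝓝 (f (act (gU v)⁻¹ x))) := by
    have h := (hf.tendsto (act (gU v)⁻¹ x)).comp (contAt_act v hv x).tendsto
    rw [Function.comp_def] at h
    exact h
  have h4 : Tendsto (fun p : V4 × X3 => (gU p.1, f (act (gU p.1)⁻¹ p.2))) (𝓝 (v, x))
      (𝓝 (gU v, f (act (gU v)⁻¹ x))) := h2.prodMk_nhds h3
  have h5 : Tendsto (fun p : SU2 × F => K.S p.1 p.2) (𝓝 (gU v, f (act (gU v)⁻¹ x)))
      (𝓝 (K.S (gU v) (f (act (gU v)⁻¹ x)))) := K.S_joint.tendsto (gU v, f (act (gU v)⁻¹ x))
  have h6 := h5.comp h4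
  rw [Function.comp_def] at h6
  exact h1.smul h6

private theorem aesm_int {f : X3 → F} (hf : Continuous f) (x : X3) :
    AEStronglyMeasurable (fun v : V4 => (Real.exp (-‖v‖ ^ 2) : ℂ) •
      K.S (gU v) (f (act (gU v)⁻¹ x))) (volume : Measure V4) := by
  refine aesm_v fun v hv => ?_
  exact ContinuousAt.comp (g := fun p : V4 × X3 => (Real.exp (-‖p.1‖ ^ 2) : ℂ) •
      K.S (gU p.1) (f (act (gU p.1)⁻¹ p.2))) (f := fun v : V4 => (v, x))
      (K.contAt_int hf v hv x) (continuousAt_id.prodMk continuousAt_const)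

private theorem norm_int (f : X3 → F) (v : V4) (x : X3) :
    ‖(Real.exp (-‖v‖ ^ 2) : ℂ) • K.S (gU v) (f (act (gU v)⁻¹ x))‖ =
      Real.exp (-‖v‖ ^ 2) * ‖f (act (gU v)⁻¹ x)‖ := by
  rw [norm_smul, K.S_isometry, Complex.norm_real, Real.norm_eq_abs, Real.abs_exp]

private theorem integrable_int {f : X3 → F} (hf : Adm f) (x : X3) :
    Integrable fun v : V4 => (Real.exp (-‖v‖ ^ 2) : ℂ) •
      K.S (gU v) (f (act (gU v)⁻¹ x)) := by
  obtain ⟨hc, C, s, hs, hb⟩ := hf
  refine (integrable_gauss4.mul_const (C * (1 + Real.sqrt (phsq x)) ^ 3)).mono'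
    (K.aesm_int hc x) (Eventually.of_forall fun v => ?_)
  rw [K.norm_int]
  exact mul_le_mul_of_nonneg_left (norm_f_act' hs hb _ _) (Real.exp_pos _).le

variable [FiniteDimensional ℂ F]

theorem Av_continuous {f : X3 → F} (hf : Adm f) : Continuous (K.Av f) := by
  have hf' := hf
  obtain ⟨hc, C, s, hs, hb⟩ := hf'
  rw [continuous_iff_continuousAt]
  intro x0
  set R : ℝ := C * (1 + Real.sqrt (phsq x0)) ^ 3 + 1 with hR
  have hcont : Continuous fun x : X3 => C * (1 + Real.sqrt (phsq x)) ^ 3 :=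
    continuous_const.mul
      ((continuous_const.add (Real.continuous_sqrt.comp continuous_phsq)).pow 3)
  have hev : ∀ᶠ x in 𝓝 x0, C * (1 + Real.sqrt (phsq x)) ^ 3 < R :=
    hcont.continuousAt.eventually_lt continuousAt_const (by rw [hR]; linarith)
  refine continuousAt_of_dominated (bound := fun v : V4 => Real.exp (-‖v‖ ^ 2) * R)
    (Eventually.of_forall fun x => K.aesm_int hc x) ?_ (integrable_gauss4.mul_const _) ?_
  · filter_upwards [hev] with x hx
    refine Eventually.of_forall fun v => ?_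
    rw [K.norm_int]
    exact mul_le_mul_of_nonneg_left ((norm_f_act' hs hb _ _).trans hx.le) (Real.exp_pos _).le
  · filter_upwards [ae_ne] with v hv
    exact ContinuousAt.comp (g := fun p : V4 × X3 => (Real.exp (-‖p.1‖ ^ 2) : ℂ) •
      K.S (gU p.1) (f (act (gU p.1)⁻¹ p.2))) (f := fun x : X3 => (v, x))
      (K.contAt_int hc v hv x0) (continuousAt_const.prodMk continuousAt_id)

private theorem norm_Av_le (f : X3 → F) (x : X3) :
    ‖K.Av f x‖ ≤ ∫ v : V4, Real.exp (-‖v‖ ^ 2) * ‖f (act (gU v)⁻¹ x)‖ := by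
  unfold Av
  refine (norm_integral_le_integral_norm _).trans (le_of_eq ?_)
  exact integral_congr_ae (Eventually.of_forall fun v => K.norm_int f v x)

private theorem integrable_wexp {s : ℝ} (hs : 0 < s) (x : X3) :
    Integrable fun v : V4 => Real.exp (-‖v‖ ^ 2) * Real.exp (-s * perp2 (act (gU v)⁻¹ x)) := by
  refine integrable_gauss4.mono' (aesm_v fun v hv => ?_) (Eventually.of_forall fun v => ?_)
  · have h1 : ContinuousAt (fun v : V4 => act (gU v)⁻¹ x) v :=
      ContinuousAt.comp (g := fun p : V4 × X3 => act (gU p.1)⁻¹ p.2) (f := fun v : V4 => (v, x))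
        (contAt_act v hv x) (continuousAt_id.prodMk continuousAt_const)
    have h2 : Continuous fun y : X3 => Real.exp (-s * perp2 y) :=
      Real.continuous_exp.comp (continuous_const.mul continuous_perp2)
    exact (Real.continuous_exp.comp ((continuous_norm.pow 2).neg)).continuousAt.mul
      (ContinuousAt.comp (g := fun y : X3 => Real.exp (-s * perp2 y)) h2.continuousAt h1)
  · rw [Real.norm_eq_abs, abs_of_pos (mul_pos (Real.exp_pos _) (Real.exp_pos _))]
    refine mul_le_of_le_one_right (Real.exp_pos _).le ?_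
    rw [Real.exp_le_one_iff]
    have := mul_nonneg hs.le (perp2_nonnegA (act (gU v)⁻¹ x))
    linarith

private theorem sq_ratio {s : ℝ} (hs : 0 < s) {r : ℝ} (_hr : 0 ≤ r) {p : ℝ} (hp : r ^ 2 ≤ p) :
    (1 + r) ^ 2 ≤ 2 * (1 + 1 / s) * (1 + s * p) := by
  have h1 : s * r ^ 2 ≤ s * p := mul_le_mul_of_nonneg_left hp hs.le
  have h2 : (1 + r) ^ 2 ≤ 2 * (1 + r ^ 2) := by nlinarith only [sq_nonneg (1 - r)]
  have h3 : (1 + 1 / s) * (1 + s * p) = 1 + s * p + 1 / s + p := by
    field_simp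
    ring
  have h4 : 0 < 1 / s := by positivity
  have h5 : 0 ≤ s * p := le_trans (by positivity) h1
  nlinarith only [h2, h3, h4, h5, hp]

theorem Av_bound {f : X3 → F} (hf : Adm f) : ∃ C, ∀ x, ‖K.Av f x‖ ≤ C * (1 + Real.sqrt (phsq x)) := by
  obtain ⟨hc, C, s, hs, hb⟩ := hf
  have hC := Adm.C_nonneg hb
  obtain ⟨C1, hC1, hsph⟩ := sph_bound
  refine ⟨C * (C1 * (2 * (1 + 1 / s))), fun x => ?_⟩
  set r := Real.sqrt (phsq x) with hr
  have hr0 : 0 ≤ r := Real.sqrt_nonneg _
  have hr2 : r ^ 2 = phsq x := Real.sq_sqrt (phsq_nonneg x)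
  have h1 : ‖K.Av f x‖ ≤ ∫ v : V4, C * (1 + r) ^ 3 *
      (Real.exp (-‖v‖ ^ 2) * Real.exp (-s * perp2 (act (gU v)⁻¹ x))) := by
    refine (K.norm_Av_le f x).trans ?_
    refine integral_mono_of_nonneg (Eventually.of_forall fun v =>
      mul_nonneg (Real.exp_pos _).le (norm_nonneg _)) ((integrable_wexp hs x).const_mul _)
      (Eventually.of_forall fun v => ?_)
    have := mul_le_mul_of_nonneg_left (norm_f_act hb (gU v)⁻¹ x) (Real.exp_pos (-‖v‖ ^ 2)).le
    refine this.trans (le_of_eq ?_)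
    rw [← hr]; ring
  rw [integral_const_mul] at h1
  have h2 := hsph s hs x
  have hpos : 0 < 1 + s * phsq x := by
    have := mul_nonneg hs.le (phsq_nonneg x); linarith
  have h3 : C * (1 + r) ^ 3 * (C1 / (1 + s * phsq x)) ≤
      C * (C1 * (2 * (1 + 1 / s))) * (1 + r) := by
    have h4 := sq_ratio hs hr0 hr2.le
    have h5 : (1 + r) ^ 2 / (1 + s * phsq x) ≤ 2 * (1 + 1 / s) := by
      rw [div_le_iff₀ hpos]; exact h4
    have h6 : C * (1 + r) ^ 3 * (C1 / (1 + s * phsq x)) =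
        (C * C1 * (1 + r)) * ((1 + r) ^ 2 / (1 + s * phsq x)) := by ring
    rw [h6]
    have h7 : 0 ≤ C * C1 * (1 + r) := mul_nonneg (mul_nonneg hC hC1) (by linarith)
    refine (mul_le_mul_of_nonneg_left h5 h7).trans (le_of_eq ?_)
    ring
  refine (h1.trans ?_).trans h3
  exact mul_le_mul_of_nonneg_left h2 (mul_nonneg hC (pow_nonneg (by linarith) 3))

/-- Cauchy-Schwarz for a weight -/
private theorem cs_weight {w a b : V4 → ℝ} (hw : ∀ v, 0 ≤ w v)
    (haa : Integrable fun v => w v * a v ^ 2) (hab : Integrable fun v => w v * (a v * b v))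
    (hbb : Integrable fun v => w v * b v ^ 2) :
    (∫ v, w v * (a v * b v)) ^ 2 ≤ (∫ v, w v * a v ^ 2) * ∫ v, w v * b v ^ 2 := by
  have key : ∀ t : ℝ, 0 ≤ (∫ v, w v * a v ^ 2) * (t * t) + (2 * ∫ v, w v * (a v * b v)) * t +
      ∫ v, w v * b v ^ 2 := by
    intro t
    have h1 : 0 ≤ ∫ v, w v * (t * a v + b v) ^ 2 :=
      integral_nonneg fun v => mul_nonneg (hw v) (sq_nonneg _)
    have h2 : (∫ v, w v * (t * a v + b v) ^ 2) = ∫ v, ((t * t) * (w v * a v ^ 2) +
        (2 * t) * (w v * (a v * b v)) + w v * b v ^ 2) :=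
      integral_congr_ae (Eventually.of_forall fun v => by ring)
    have hi : Integrable fun v => (t * t) * (w v * a v ^ 2) + (2 * t) * (w v * (a v * b v)) :=
      (haa.const_mul _).add (hab.const_mul _)
    rw [h2, integral_add hi hbb,
      integral_add (haa.const_mul _) (hab.const_mul _), integral_const_mul,
      integral_const_mul] at h1
    refine h1.trans (le_of_eq ?_)
    ring
  have := discrim_le_zero key
  unfold discrim at this
  nlinarith only [this]

theorem Av_memLp {f : X3 → F} (hf : Adm f) : MemLp (K.Av f) 2 (volume : Measure X3) := by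
  have hAc := K.Av_continuous hf
  rw [memLp_two_iff_integrable_sq_norm hAc.aestronglyMeasurable]
  obtain ⟨hc, C, s, hs, hb⟩ := hf
  have hC := Adm.C_nonneg hb
  obtain ⟨C1, hC1, hsph⟩ := sph_bound
  set H : X3 → ℝ := fun y => Real.exp (s * perp2 y) * ‖f y‖ ^ 2 / (1 + s * phsq y) with hH
  have hpos : ∀ y, 0 < 1 + s * phsq y := fun y => by
    have := mul_nonneg hs.le (phsq_nonneg y); linarith
  have hHc : Continuous H :=
    ((Real.continuous_exp.comp (continuous_const.mul continuous_perp2)).mul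
      (hc.norm.pow 2)).div (continuous_const.add (continuous_const.mul continuous_phsq))
      fun y => (hpos y).ne'
  have hH0 : ∀ y, 0 ≤ H y := fun y =>
    div_nonneg (mul_nonneg (Real.exp_pos _).le (sq_nonneg _)) (hpos y).le
  have hHi : Integrable H := by
    refine ((integrable_J hs).const_mul (C ^ 2 * (2 * (1 + 1 / s)))).mono'
      hHc.aestronglyMeasurable (Eventually.of_forall fun y => ?_)
    rw [Real.norm_eq_abs, abs_of_nonneg (hH0 y)]
    have h1 := hb y
    have hz := ze_nonnegA y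
    have hB := B0_pos y
    have hB1 := B0_le_one y
    have h2 : ‖f y‖ ^ 2 ≤ (C * (1 + ze y) ^ 3 * Real.exp (-s * perp2 y) * B0 y) ^ 2 :=
      pow_le_pow_left₀ (norm_nonneg _) h1 2
    have he : Real.exp (s * perp2 y) * Real.exp (-s * perp2 y) = 1 := by
      rw [← Real.exp_add]; simp
    have h3 : Real.exp (s * perp2 y) * (C * (1 + ze y) ^ 3 * Real.exp (-s * perp2 y) * B0 y) ^ 2 =
        C ^ 2 * (1 + ze y) ^ 6 * Real.exp (-s * perp2 y) * B0 y ^ 2 := by
      calc _ = C ^ 2 * (1 + ze y) ^ 6 * Real.exp (-s * perp2 y) * B0 y ^ 2 *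
            (Real.exp (s * perp2 y) * Real.exp (-s * perp2 y)) := by ring
        _ = _ := by rw [he, mul_one]
    have h4 : B0 y ^ 2 ≤ B0 y := by nlinarith only [hB, hB1]
    have h5 : (1 + ze y) ^ 2 / (1 + s * phsq y) ≤ 2 * (1 + 1 / s) := by
      rw [div_le_iff₀ (hpos y)]
      refine sq_ratio hs hz ?_
      have : ze y ^ 2 = r3 y := Real.sq_sqrt (r3_nonneg y)
      rw [this, phsq_eq]
      linarith [perp2_nonnegA y]
    have h6 : H y ≤ (C ^ 2 * (1 + ze y) ^ 6 * Real.exp (-s * perp2 y) * B0 y ^ 2) /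
        (1 + s * phsq y) := by
      rw [hH]
      refine div_le_div_of_nonneg_right ?_ (hpos y).le
      rw [← h3]
      exact mul_le_mul_of_nonneg_left h2 (Real.exp_pos _).le
    have hE := Real.exp_pos (-s * perp2 y)
    calc H y ≤ _ := h6
      _ = (C ^ 2 * (1 + ze y) ^ 4 * Real.exp (-s * perp2 y)) * B0 y ^ 2 *
          ((1 + ze y) ^ 2 / (1 + s * phsq y)) := by ring
      _ ≤ (C ^ 2 * (1 + ze y) ^ 4 * Real.exp (-s * perp2 y)) * B0 y * (2 * (1 + 1 / s)) := by
          have h7 : 0 ≤ C ^ 2 * (1 + ze y) ^ 4 * Real.exp (-s * perp2 y) :=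
            mul_nonneg (mul_nonneg (sq_nonneg _) (pow_nonneg (by linarith) 4)) hE.le
          refine mul_le_mul (mul_le_mul_of_nonneg_left h4 h7) h5 ?_ (mul_nonneg h7 hB.le)
          exact div_nonneg (sq_nonneg _) (hpos y).le
      _ = _ := by ring
  have hfub : Integrable fun x : X3 => ∫ v : V4, Real.exp (-‖v‖ ^ 2) * H (act (gU v)⁻¹ x) :=
    (fub_integrable hHc hHi).integral_prod_right
  refine (hfub.const_mul C1).mono' (hAc.norm.pow 2).aestronglyMeasurable
    (Eventually.of_forall fun x => ?_)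
  rw [Real.norm_eq_abs, abs_of_nonneg (sq_nonneg _)]
  -- Cauchy-Schwarz
  set a : V4 → ℝ := fun v => Real.exp (-s / 2 * perp2 (act (gU v)⁻¹ x)) with ha
  set b : V4 → ℝ := fun v => Real.exp (s / 2 * perp2 (act (gU v)⁻¹ x)) *
    ‖f (act (gU v)⁻¹ x)‖ with hbdef
  have hcv : ∀ v : V4, v ≠ 0 → ContinuousAt (fun v : V4 => act (gU v)⁻¹ x) v := fun v hv =>
    ContinuousAt.comp (g := fun p : V4 × X3 => act (gU p.1)⁻¹ p.2) (f := fun v : V4 => (v, x))
        (contAt_act v hv x) (continuousAt_id.prodMk continuousAt_const)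
  have hwc : Continuous fun v : V4 => Real.exp (-‖v‖ ^ 2) :=
    Real.continuous_exp.comp ((continuous_norm.pow 2).neg)
  have hac : ∀ v : V4, v ≠ 0 → ContinuousAt a v := fun v hv =>
    ContinuousAt.comp (g := fun y : X3 => Real.exp (-s / 2 * perp2 y))
      (Real.continuous_exp.comp (continuous_const.mul continuous_perp2)).continuousAt (hcv v hv)
  have hbc : ∀ v : V4, v ≠ 0 → ContinuousAt b v := fun v hv =>
    ContinuousAt.comp (g := fun y : X3 => Real.exp (s / 2 * perp2 y) * ‖f y‖)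
      ((Real.continuous_exp.comp (continuous_const.mul continuous_perp2)).mul
        hc.norm).continuousAt (hcv v hv)
  have ha2 : ∀ v, a v ^ 2 = Real.exp (-s * perp2 (act (gU v)⁻¹ x)) := fun v => by
    rw [ha, ← Real.exp_nat_mul]
    congr 1
    push_cast; ring
  have hb2 : ∀ v, b v ^ 2 = Real.exp (s * perp2 (act (gU v)⁻¹ x)) *
      ‖f (act (gU v)⁻¹ x)‖ ^ 2 := fun v => by
    rw [hbdef, mul_pow, ← Real.exp_nat_mul]
    congr 2
    push_cast; ring
  have hab1 : ∀ v, a v * b v = ‖f (act (gU v)⁻¹ x)‖ := fun v => by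
    rw [ha, hbdef]
    have : Real.exp (-s / 2 * perp2 (act (gU v)⁻¹ x)) *
        Real.exp (s / 2 * perp2 (act (gU v)⁻¹ x)) = 1 := by
      rw [← Real.exp_add, ← Real.exp_zero]; congr 1; ring
    calc _ = (Real.exp (-s / 2 * perp2 (act (gU v)⁻¹ x)) *
        Real.exp (s / 2 * perp2 (act (gU v)⁻¹ x))) * ‖f (act (gU v)⁻¹ x)‖ := by ring
      _ = _ := by rw [this, one_mul]
  have i1 : Integrable fun v : V4 => Real.exp (-‖v‖ ^ 2) * a v ^ 2 := by
    simp only [ha2]
    exact integrable_wexp hs x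
  have i2 : Integrable fun v : V4 => Real.exp (-‖v‖ ^ 2) * (a v * b v) := by
    refine (integrable_gauss4.mul_const (C * (1 + Real.sqrt (phsq x)) ^ 3)).mono'
      (aesm_v fun v hv => hwc.continuousAt.mul ((hac v hv).mul (hbc v hv)))
      (Eventually.of_forall fun v => ?_)
    rw [hab1, norm_mul, Real.norm_eq_abs, Real.abs_exp, norm_norm]
    exact mul_le_mul_of_nonneg_left (norm_f_act' hs hb _ _) (Real.exp_pos _).le
  have i3 : Integrable fun v : V4 => Real.exp (-‖v‖ ^ 2) * b v ^ 2 := by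
    refine (integrable_gauss4.mul_const ((C * (1 + Real.sqrt (phsq x)) ^ 3) ^ 2)).mono'
      (aesm_v fun v hv => hwc.continuousAt.mul ((hbc v hv).pow 2))
      (Eventually.of_forall fun v => ?_)
    rw [norm_mul, Real.norm_eq_abs, Real.abs_exp, Real.norm_eq_abs, abs_of_nonneg (sq_nonneg _),
      hb2]
    refine mul_le_mul_of_nonneg_left ?_ (Real.exp_pos _).le
    have h1 := norm_f_act hb (gU v)⁻¹ x
    have h2 := norm_f_act' hs hb (gU v)⁻¹ x
    set E := Real.exp (-s * perp2 (act (gU v)⁻¹ x)) with hE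
    set N := ‖f (act (gU v)⁻¹ x)‖
    set R := C * (1 + Real.sqrt (phsq x)) ^ 3
    have hEE : Real.exp (s * perp2 (act (gU v)⁻¹ x)) * E = 1 := by
      rw [hE, ← Real.exp_add]; simp
    have hN : 0 ≤ N := norm_nonneg _
    have hR : 0 ≤ R := hN.trans h2
    have hE' := Real.exp_pos (s * perp2 (act (gU v)⁻¹ x))
    calc Real.exp (s * perp2 (act (gU v)⁻¹ x)) * N ^ 2
        = (Real.exp (s * perp2 (act (gU v)⁻¹ x)) * N) * N := by ring
      _ ≤ (Real.exp (s * perp2 (act (gU v)⁻¹ x)) * (R * E)) * R :=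
          mul_le_mul (mul_le_mul_of_nonneg_left h1 hE'.le) h2 hN
            (mul_nonneg hE'.le (hN.trans h1))
      _ = (Real.exp (s * perp2 (act (gU v)⁻¹ x)) * E) * R ^ 2 := by ring
      _ = R ^ 2 := by rw [hEE, one_mul]
  have hcs := cs_weight (w := fun v : V4 => Real.exp (-‖v‖ ^ 2)) (fun v => (Real.exp_pos _).le)
    i1 i2 i3
  have h1 : ‖K.Av f x‖ ≤ ∫ v : V4, Real.exp (-‖v‖ ^ 2) * (a v * b v) := by
    refine (K.norm_Av_le f x).trans (le_of_eq ?_)
    exact integral_congr_ae (Eventually.of_forall fun v => by simp only [hab1])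
  have h2 : (∫ v : V4, Real.exp (-‖v‖ ^ 2) * a v ^ 2) ≤ C1 / (1 + s * phsq x) := by
    have := hsph s hs x
    simpa only [ha2] using this
  have h3 : C1 / (1 + s * phsq x) * (∫ v : V4, Real.exp (-‖v‖ ^ 2) * b v ^ 2) =
      C1 * ∫ v : V4, Real.exp (-‖v‖ ^ 2) * H (act (gU v)⁻¹ x) := by
    have h4 : (fun v : V4 => Real.exp (-‖v‖ ^ 2) * H (act (gU v)⁻¹ x)) =
        fun v : V4 => (1 + s * phsq x)⁻¹ * (Real.exp (-‖v‖ ^ 2) * b v ^ 2) := by
      funext v
      rw [hb2]
      simp only [hH, phsq_act]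
      ring
    rw [h4, integral_const_mul]
    ring
  have h0 : 0 ≤ ∫ v : V4, Real.exp (-‖v‖ ^ 2) * b v ^ 2 :=
    integral_nonneg fun v => mul_nonneg (Real.exp_pos _).le (sq_nonneg _)
  calc ‖K.Av f x‖ ^ 2 ≤ (∫ v : V4, Real.exp (-‖v‖ ^ 2) * (a v * b v)) ^ 2 :=
        pow_le_pow_left₀ (norm_nonneg _) h1 2
    _ ≤ _ := hcs
    _ ≤ C1 / (1 + s * phsq x) * (∫ v : V4, Real.exp (-‖v‖ ^ 2) * b v ^ 2) :=
        mul_le_mul_of_nonneg_right h2 h0
    _ = _ := h3

theorem Av_act {f : X3 → F} (hf : Adm f) (U : SU2) (x : X3) :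
    K.Av f (act U x) = K.S U (K.Av f x) := by
  have : CompleteSpace F := FiniteDimensional.complete ℂ F
  obtain ⟨L, hL⟩ := gU_left U⁻¹
  unfold Av
  have h1 : (K.S U) (∫ v : V4, (Real.exp (-‖v‖ ^ 2) : ℂ) • K.S (gU v) (f (act (gU v)⁻¹ x))) =
      ∫ v : V4, (K.S U) ((Real.exp (-‖v‖ ^ 2) : ℂ) • K.S (gU v) (f (act (gU v)⁻¹ x))) :=
    (ContinuousLinearMap.integral_comp_comm (K.S U) (K.integrable_int hf x)).symm
  rw [h1]
  rw [← (L.measurePreserving).integral_comp L.toHomeomorph.measurableEmbedding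
    (fun v : V4 => (K.S U) ((Real.exp (-‖v‖ ^ 2) : ℂ) • K.S (gU v) (f (act (gU v)⁻¹ x))))]
  refine integral_congr_ae ?_
  filter_upwards [ae_ne] with v hv
  rw [L.norm_map, hL v hv, map_smul]
  congr 1
  rw [mul_inv_rev, inv_inv, act_mul, map_mul]
  change _ = K.S U (K.S U⁻¹ (K.S (gU v) _))
  rw [K.S_S_inv]

private theorem pair_aux {f : X3 → F} (hf : Adm f) {ξ : X3 → F} (hc : Continuous ξ)
    (hi : Integrable fun x => inner ℂ (f x) (ξ x)) (hξ : ∀ U x, ξ (act U x) = K.S U (ξ x)) :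
    ∫ x, inner ℂ (K.Av f x) (ξ x) = (c0 : ℂ) * ∫ x, inner ℂ (f x) (ξ x) := by
  have : CompleteSpace F := FiniteDimensional.complete ℂ F
  have hfc := hf.1
  have h1 := fub_eq (h := fun x => inner ℂ (f x) (ξ x)) (hfc.inner hc) hi
  have h2 : ∀ x, inner ℂ (K.Av f x) (ξ x) = ∫ v : V4, Real.exp (-‖v‖ ^ 2) •
      (fun x => inner ℂ (f x) (ξ x)) (act (gU v)⁻¹ x) := by
    intro x
    rw [← inner_conj_symm]
    unfold Av
    rw [← integral_inner (K.integrable_int hf x), ← integral_conj]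
    refine integral_congr_ae (Eventually.of_forall fun v => ?_)
    simp only
    have h3 : ξ x = K.S (gU v) (ξ (act (gU v)⁻¹ x)) := by
      rw [← hξ, act_act_inv]
    rw [inner_conj_symm, inner_smul_left, Complex.conj_ofReal, h3, K.S_inner]
    exact (Complex.real_smul ..).symm
  rw [integral_congr_ae (Eventually.of_forall h2), h1]
  rfl

theorem Av_pair {f : X3 → F} (hf : Adm f) {ξ : X3 → F} (hc : Continuous ξ)
    (hs : HasCompactSupport ξ) (hξ : ∀ U x, ξ (act U x) = K.S U (ξ x)) :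
    ∫ x, inner ℂ (K.Av f x) (ξ x) = (c0 : ℂ) * ∫ x, inner ℂ (f x) (ξ x) := by
  refine K.pair_aux hf hc ?_ hξ
  refine (hf.1.inner hc).integrable_of_hasCompactSupport ?_
  refine hs.mono fun x hx => ?_
  intro h
  apply hx
  simp only [h, inner_zero_right]

theorem Av_Av {f g : X3 → F} (hf : Adm f) (hg : Adm g) :
    ∫ x, inner ℂ (K.Av f x) (K.Av g x) = (c0 : ℂ) * ∫ x, inner ℂ (f x) (K.Av g x) := by
  have hgc := K.Av_continuous hg
  refine K.pair_aux hf hgc ?_ (K.Av_act hg)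
  obtain ⟨D, hD⟩ := K.Av_bound hg
  obtain ⟨hc, C, s, hs, hb⟩ := hf
  have hC := Adm.C_nonneg hb
  have hD0 : 0 ≤ D := by
    have h := (norm_nonneg _).trans (hD 0)
    have h2 : 0 < 1 + Real.sqrt (phsq (0 : X3)) := by linarith [Real.sqrt_nonneg (phsq (0 : X3))]
    exact nonneg_of_mul_nonneg_left h h2
  have hs2 : 0 < s / 2 := by linarith
  refine ((integrable_J hs2).const_mul (C * D * (2 + 2 / s))).mono'
    (hc.inner hgc).aestronglyMeasurable (Eventually.of_forall fun x => ?_)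
  have h1 := hb x
  have h2 := hD x
  have hz := ze_nonnegA x
  have hp := perp2_nonnegA x
  have hB := B0_pos x
  set q := Real.sqrt (perp2 x) with hq
  have hq0 : 0 ≤ q := Real.sqrt_nonneg _
  have hq2 : q ^ 2 = perp2 x := Real.sq_sqrt hp
  have hz2 : ze x ^ 2 = r3 x := Real.sq_sqrt (r3_nonneg x)
  have h3 : Real.sqrt (phsq x) ≤ ze x + q := by
    rw [phsq_eq, ← hq2, ← hz2]
    refine Real.sqrt_le_iff.2 ⟨by linarith, ?_⟩
    nlinarith only [mul_nonneg hz hq0]
  have h4 : 1 + Real.sqrt (phsq x) ≤ (1 + ze x) * (1 + q) := by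
    nlinarith only [h3, mul_nonneg hz hq0]
  -- `1 + q ≤ (2 + 2/s) e^{s q²/2}`
  have h5 : 1 + q ≤ (2 + 2 / s) * Real.exp (s / 2 * perp2 x) := by
    have h6 : s / 2 * perp2 x + 1 ≤ Real.exp (s / 2 * perp2 x) := Real.add_one_le_exp _
    have h7 : 0 < 2 / s := by positivity
    have h8 : (2 / s) * (s / 2 * perp2 x) = q ^ 2 := by
      rw [hq2]; field_simp
    have h9 : q ≤ 1 + q ^ 2 := by nlinarith only [sq_nonneg (q - 1)]
    have h10 : 0 ≤ s / 2 * perp2 x := mul_nonneg hs2.le hp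
    have h11 := mul_le_mul_of_nonneg_left h6 (show (0 : ℝ) ≤ 2 + 2 / s by linarith)
    refine le_trans ?_ h11
    have h12 : (2 + 2 / s) * (s / 2 * perp2 x + 1) = 2 * (s / 2 * perp2 x) +
        (2 / s) * (s / 2 * perp2 x) + 2 + 2 / s := by ring
    rw [h12, h8]
    linarith
  have hE : Real.exp (s / 2 * perp2 x) * Real.exp (-s * perp2 x) =
      Real.exp (-(s / 2) * perp2 x) := by
    rw [← Real.exp_add]; congr 1; ring
  have hE0 := Real.exp_pos (-s * perp2 x)
  calc ‖inner ℂ (f x) (K.Av g x)‖ ≤ ‖f x‖ * ‖K.Av g x‖ := norm_inner_le_norm _ _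
    _ ≤ (C * (1 + ze x) ^ 3 * Real.exp (-s * perp2 x) * B0 x) *
        (D * ((1 + ze x) * ((2 + 2 / s) * Real.exp (s / 2 * perp2 x)))) := by
        refine mul_le_mul h1 (h2.trans (mul_le_mul_of_nonneg_left (h4.trans
          (mul_le_mul_of_nonneg_left h5 (by linarith))) hD0)) (norm_nonneg _) ?_
        exact mul_nonneg (mul_nonneg (mul_nonneg hC (pow_nonneg (by linarith) 3)) hE0.le) hB.le
    _ = C * D * (2 + 2 / s) * ((1 + ze x) ^ 4 *
        (Real.exp (s / 2 * perp2 x) * Real.exp (-s * perp2 x)) * B0 x) := by ring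
    _ = _ := by rw [hE]

end Fk

end Vale.Agent.P353.Ex
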