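import Vale.Agent.P353.Ex.Calc

/-! Task EX-09: the `T`-level form is closed.

`D_T := d + ν φ_2 ι_2` (index 2 = third component, `z = φ_2`).  For functions `f` that do not
depend on `φ_0, φ_1` and `φ_2` only through ... one has the rules
`d (f ψ) = (df) ψ + f dψ`, `{D_T, df} = ι_V df`, `V = ν z R_2`, `R_2 x¹ = -x²`, `R_2 x² = x¹`,
`R_2 x³ = 0`: so `V w = -m z w` (`m = f0`), `V b = 0`, `V s = -2 m z s`, `V s̄ = 2 m z s̄`,
`{D_T, dκ} = {D_T, db} = 0`, `{D_T, dz̄} = 0`, `dz = 0`.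
* `τ = e^{-|s|²}(2z - (1/m) ds ds̄)` commutes with `D_T`:
  `[D_T, ds ds̄] = -2mz s ds̄ - 2mz s̄ ds` and `ds̄` terms cancel against `-d|s|²·2z`.
* `β = e^{-|b|²} ∏ db_k`: `D_T β = -β D_T` (7 anticommuting factors, `db_k ∏ db = 0`).
* `E_T`: `[D_T, (i/m) q' dz̄ μ] = -(i/m) q' dz̄ (dμ + ν z |w|²)`, `dμ = 2 ∑ dx¹_k dx²_k`,
  `[D_T, (2i/m) q dx¹_k dx²_k] = (2i/m) (q' dz̄ dx¹_k dx²_k - ν z q (x¹_k dx¹_k + x²_k dx²_k))`,
  `d (g|z|²|w|²) = z q' |w|² dz̄ + z q d|w|²` : everything cancels.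
* `a_2`-type operators kill the vacuum; constants are killed by `d`.
The form depends on `φ` only through `φ_2`, and only `dφ̄_2` occurs, hence `dph_*`, `a7_*`,
and `D0 a - D_T a = ν(φ_0 ι_0 + φ_1 ι_1) a` trivially. -/

open MeasureTheory Filter Topology
open scoped ContDiff ComplexConjugate

namespace Vale.Agent.P353.Ex

variable {F : Type*} [NormedAddCommGroup F] [InnerProductSpace ℂ F]

/-- direction of the coordinate `(i, A)` -/
noncomputable abbrev tcdir (i : Fin 9) (A : Fin 3) : X3 := EuclideanSpace.single (i, A) 1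

namespace Fk

variable (K : Fk F)

/-- exterior derivative of a scalar function, as an operator -/
noncomputable def tcdS (f : X3 → ℂ) (x : X3) : F →L[ℂ] F :=
  (∑ i : Fin 7, ∑ A, (fderiv ℝ f x (tcdir (e9 i) A)) • K.c (e8 i) A) +
    ∑ A, (fderiv ℝ f x (tcdir 7 A) + Complex.I * (K.sg : ℂ) * fderiv ℝ f x (tcdir 8 A)) • K.c 7 A

/-- exterior derivative of an operator function -/
noncomputable def tcdO (P : X3 → F →L[ℂ] F) (x : X3) : F →L[ℂ] F :=
  (∑ i : Fin 7, ∑ A, K.c (e8 i) A * (fderiv ℝ P x (tcdir (e9 i) A))) +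
    ∑ A, K.c 7 A * (fderiv ℝ P x (tcdir 7 A) + (Complex.I * (K.sg : ℂ)) • fderiv ℝ P x (tcdir 8 A))

/-- smooth scalar functions with exterior derivative `f'` -/
structure tcSD (f : X3 → ℂ) (f' : X3 → F →L[ℂ] F) : Prop where
  cd : ContDiff ℝ ∞ f
  eq : ∀ x, K.tcdS f x = f' x

/-- smooth exterior operators with parity `ε` and twisted derivative `P'` -/
structure tcGD (ε : ℂ) (P P' : X3 → F →L[ℂ] F) : Prop where
  cd : ContDiff ℝ ∞ P
  comm : ∀ x i A, K.c i A * P x = ε • (P x * K.c i A)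
  com7 : ∀ x A, A ≠ 2 → K.a 7 A * P x = ε • (P x * K.a 7 A)
  der : ∀ x, K.tcdO P x + (K.nu * K.ph 2 x) • (K.io 2 x * P x - ε • (P x * K.io 2 x)) = P' x

variable {K}

theorem tcSD.df {f : X3 → ℂ} {f' : X3 → F →L[ℂ] F} (h : K.tcSD f f') (x : X3) :
    DifferentiableAt ℝ f x := (h.cd.differentiable (by simp)) x

theorem tcGD.df {ε : ℂ} {P P' : X3 → F →L[ℂ] F} (h : K.tcGD ε P P') (x : X3) :
    DifferentiableAt ℝ P x := (h.cd.differentiable (by simp)) x

theorem tcSD.congr {f g : X3 → ℂ} {f' g' : X3 → F →L[ℂ] F} (h : K.tcSD f f') (hf : ∀ x, g x = f x)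
    (hg : ∀ x, g' x = f' x) : K.tcSD g g' := by
  obtain rfl : g = f := funext hf
  obtain rfl : g' = f' := funext hg
  exact h

theorem tcGD.congr {ε : ℂ} {f g : X3 → F →L[ℂ] F} {f' g' : X3 → F →L[ℂ] F} (h : K.tcGD ε f f')
    (hf : ∀ x, g x = f x) (hg : ∀ x, g' x = f' x) : K.tcGD ε g g' := by
  obtain rfl : g = f := funext hf
  obtain rfl : g' = f' := funext hg
  exact h

theorem tcSD.const (c : ℂ) : K.tcSD (fun _ => c) (fun _ => 0) := by
  refine ⟨contDiff_const, fun x => ?_⟩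
  simp [tcdS]

theorem tcSD.add {f g : X3 → ℂ} {f' g' : X3 → F →L[ℂ] F} (hf : K.tcSD f f') (hg : K.tcSD g g') :
    K.tcSD (fun x => f x + g x) (fun x => f' x + g' x) := by
  refine ⟨hf.cd.add hg.cd, fun x => ?_⟩
  rw [← hf.eq, ← hg.eq]
  simp only [tcdS, fderiv_fun_add (hf.df x) (hg.df x), add_apply, mul_add, add_smul,
    Finset.sum_add_distrib]
  abel

theorem tcSD.mul {f g : X3 → ℂ} {f' g' : X3 → F →L[ℂ] F} (hf : K.tcSD f f') (hg : K.tcSD g g') :
    K.tcSD (fun x => f x * g x) (fun x => f x • g' x + g x • f' x) := by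
  refine ⟨hf.cd.mul hg.cd, fun x => ?_⟩
  rw [← hf.eq, ← hg.eq]
  simp only [tcdS, fderiv_fun_mul (hf.df x) (hg.df x), add_apply,
    smul_apply, smul_eq_mul, smul_add, Finset.smul_sum, smul_smul]
  rw [add_add_add_comm, ← Finset.sum_add_distrib, ← Finset.sum_add_distrib]
  congr 1
  · refine Finset.sum_congr rfl fun i _ => ?_
    rw [← Finset.sum_add_distrib]
    refine Finset.sum_congr rfl fun A _ => ?_
    rw [← add_smul]
  · refine Finset.sum_congr rfl fun A _ => ?_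
    rw [← add_smul]
    congr 1
    ring


theorem tcSD.sum {ι : Type*} (s : Finset ι) {f : ι → X3 → ℂ} {f' : ι → X3 → F →L[ℂ] F}
    (h : ∀ i, K.tcSD (f i) (f' i)) : K.tcSD (fun x => ∑ i ∈ s, f i x) (fun x => ∑ i ∈ s, f' i x) := by
  classical
  induction s using Finset.induction_on with
  | empty => simpa using tcSD.const (K := K) 0
  | insert a s ha ih =>
    simp only [Finset.sum_insert ha]
    exact (h a).add ih

theorem tcSD.cmul (c : ℂ) {f : X3 → ℂ} {f' : X3 → F →L[ℂ] F} (h : K.tcSD f f') :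
    K.tcSD (fun x => c * f x) (fun x => c • f' x) :=
  ((tcSD.const c).mul h).congr (fun _ => rfl) (fun x => by simp)

theorem tcSD.sub {f g : X3 → ℂ} {f' g' : X3 → F →L[ℂ] F} (hf : K.tcSD f f') (hg : K.tcSD g g') :
    K.tcSD (fun x => f x - g x) (fun x => f' x - g' x) :=
  (hf.add (hg.cmul (-1))).congr (fun x => by ring) (fun x => by module)

theorem tcSD.neg {f : X3 → ℂ} {f' : X3 → F →L[ℂ] F} (hf : K.tcSD f f') :
    K.tcSD (fun x => -f x) (fun x => -f' x) :=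
  (hf.cmul (-1)).congr (fun x => by ring) (fun x => by module)

theorem tcSD.sq {f : X3 → ℂ} {f' : X3 → F →L[ℂ] F} (hf : K.tcSD f f') :
    K.tcSD (fun x => f x ^ 2) (fun x => (2 * f x) • f' x) :=
  (hf.mul hf).congr (fun x => by ring) (fun x => by module)

theorem tcSD.exp {f : X3 → ℂ} {f' : X3 → F →L[ℂ] F} (hf : K.tcSD f f') :
    K.tcSD (fun x => Complex.exp (f x)) (fun x => Complex.exp (f x) • f' x) := by
  refine ⟨hf.cd.cexp, fun x => ?_⟩
  rw [← hf.eq]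
  have h : ∀ v, fderiv ℝ (fun x => Complex.exp (f x)) x v = Complex.exp (f x) * fderiv ℝ f x v := by
    intro v
    rw [((hf.df x).hasFDerivAt.cexp).fderiv]
    simp
  simp only [tcdS, h, smul_add, Finset.smul_sum, smul_smul]
  congr 1
  refine Finset.sum_congr rfl fun A _ => ?_
  congr 1
  ring

theorem tcdco (p q : Fin 9 × Fin 3) (x : X3) :
    fderiv ℝ (fun x : X3 => ((x p : ℝ) : ℂ)) x (EuclideanSpace.single q (1 : ℝ)) =
      if q = p then 1 else 0 := by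
  have h : HasFDerivAt (fun x : X3 => ((x p : ℝ) : ℂ))
      (Complex.ofRealCLM.comp (EuclideanSpace.proj p : X3 →L[ℝ] ℝ)) x :=
    (Complex.ofRealCLM.hasFDerivAt (x := x p)).comp x (EuclideanSpace.proj p : X3 →L[ℝ] ℝ).hasFDerivAt
  rw [h.fderiv]
  by_cases hq : q = p
  · subst hq; simp
  · simp [hq, Ne.symm hq]

theorem tccdco (p : Fin 9 × Fin 3) : ContDiff ℝ ∞ (fun x : X3 => ((x p : ℝ) : ℂ)) :=
  Complex.ofRealCLM.contDiff.comp (EuclideanSpace.proj p : X3 →L[ℝ] ℝ).contDiff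

theorem tce9_ne7 (i : Fin 7) : e9 i ≠ 7 := by
  intro h
  have := congrArg Fin.val h
  simp at this
  omega

theorem tce9_ne8 (i : Fin 7) : e9 i ≠ 8 := by
  intro h
  have := congrArg Fin.val h
  simp at this
  omega

theorem tce9_inj {i j : Fin 7} (h : e9 i = e9 j) : i = j := by
  have := congrArg Fin.val h
  exact Fin.ext (by simpa using this)

/-- coordinates `x_k^B`, `k < 7` -/
theorem tcSD.co (k : Fin 7) (B : Fin 3) :
    K.tcSD (fun x => ((x (e9 k, B) : ℝ) : ℂ)) (fun _ => K.c (e8 k) B) := by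
  refine ⟨tccdco _, fun x => ?_⟩
  simp only [tcdS, tcdir, tcdco, Prod.mk.injEq]
  rw [Finset.sum_eq_single k, Finset.sum_eq_single B]
  · simp [(tce9_ne7 k).symm, (tce9_ne8 k).symm]
  · intro A _ hA; simp [hA]
  · simp
  · intro i _ hi
    refine Finset.sum_eq_zero fun A _ => ?_
    have : e9 i ≠ e9 k := fun h => hi (tce9_inj h)
    simp [this]
  · simp

theorem tcSD.ph (A : Fin 3) : K.tcSD (K.ph A) (fun _ => 0) := by
  have h7 : K.tcSD (fun x => ((x (7, A) : ℝ) : ℂ)) (fun _ => K.c 7 A) := by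
    refine ⟨tccdco _, fun x => ?_⟩
    simp only [tcdS, tcdir, tcdco, Prod.mk.injEq]
    rw [Finset.sum_eq_zero, Finset.sum_eq_single A]
    · simp
    · intro B _ hB; simp [hB]
    · simp
    · intro i _
      refine Finset.sum_eq_zero fun B _ => ?_
      simp [tce9_ne7 i]
  have h8 : K.tcSD (fun x => ((x (8, A) : ℝ) : ℂ))
      (fun _ => (Complex.I * (K.sg : ℂ)) • K.c 7 A) := by
    refine ⟨tccdco _, fun x => ?_⟩
    simp only [tcdS, tcdir, tcdco, Prod.mk.injEq]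
    rw [Finset.sum_eq_zero, Finset.sum_eq_single A]
    · simp
    · intro B _ hB; simp [hB]
    · simp
    · intro i _
      refine Finset.sum_eq_zero fun B _ => ?_
      simp [tce9_ne8 i]
  have hs : (K.sg : ℂ) * (K.sg : ℂ) = 1 := by
    rw [← Complex.ofReal_mul, K.sg_sq, Complex.ofReal_one]
  refine (h7.add (h8.cmul (Complex.I * (K.sg : ℂ)))).congr (fun x => rfl) (fun x => ?_)
  rw [smul_smul]
  have : Complex.I * (K.sg : ℂ) * (Complex.I * (K.sg : ℂ)) = -1 := by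
    calc Complex.I * (K.sg : ℂ) * (Complex.I * (K.sg : ℂ))
        = (Complex.I * Complex.I) * ((K.sg : ℂ) * (K.sg : ℂ)) := by ring
      _ = -1 := by rw [hs, Complex.I_mul_I]; ring
  rw [this]; module

theorem tcSD.phb (A : Fin 3) : K.tcSD (K.phb A) (fun _ => K.dpb A) := by
  have h7 : K.tcSD (fun x => ((x (7, A) : ℝ) : ℂ)) (fun _ => K.c 7 A) := by
    refine ⟨tccdco _, fun x => ?_⟩
    simp only [tcdS, tcdir, tcdco, Prod.mk.injEq]
    rw [Finset.sum_eq_zero, Finset.sum_eq_single A]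
    · simp
    · intro B _ hB; simp [hB]
    · simp
    · intro i _
      refine Finset.sum_eq_zero fun B _ => ?_
      simp [tce9_ne7 i]
  have hs : (K.sg : ℂ) * (K.sg : ℂ) = 1 := by
    rw [← Complex.ofReal_mul, K.sg_sq, Complex.ofReal_one]
  refine ((h7.cmul 2).sub (tcSD.ph A)).congr (fun x => ?_) (fun x => ?_)
  · simp only [Fk.ph, Fk.phb]; ring
  · simp only [dpb]; module


theorem tcfd_mul {P Q : X3 → F →L[ℂ] F} {x : X3} (hP : DifferentiableAt ℝ P x)
    (hQ : DifferentiableAt ℝ Q x) (v : X3) :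
    fderiv ℝ (fun y => P y * Q y) x v = fderiv ℝ P x v * Q x + P x * fderiv ℝ Q x v := by
  rw [fderiv_fun_mul' hP hQ]
  exact add_comm _ _

theorem tcfd_smul {f : X3 → ℂ} {Q : X3 → F →L[ℂ] F} {x : X3} (hf : DifferentiableAt ℝ f x)
    (hQ : DifferentiableAt ℝ Q x) (v : X3) :
    fderiv ℝ (fun y => f y • Q y) x v = fderiv ℝ f x v • Q x + f x • fderiv ℝ Q x v := by
  rw [fderiv_fun_smul hf hQ]
  exact add_comm _ _

theorem tcGD.mul {ε δ : ℂ} {P Q P' Q' : X3 → F →L[ℂ] F} (hP : K.tcGD ε P P') (hQ : K.tcGD δ Q Q') :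
    K.tcGD (ε * δ) (fun x => P x * Q x) (fun x => P' x * Q x + ε • (P x * Q' x)) := by
  refine ⟨hP.cd.mul hQ.cd, fun x i A => ?_, fun x A hA => ?_, fun x => ?_⟩
  · rw [← mul_assoc, hP.comm, smul_mul_assoc, mul_assoc, hQ.comm, mul_smul_comm, smul_smul, mul_assoc]
  · rw [← mul_assoc, hP.com7 x A hA, smul_mul_assoc, mul_assoc, hQ.com7 x A hA, mul_smul_comm,
      smul_smul, mul_assoc]
  · rw [← hP.der, ← hQ.der]
    have h1 : K.tcdO (fun x => P x * Q x) x = K.tcdO P x * Q x + ε • (P x * K.tcdO Q x) := by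
      simp only [tcdO, tcfd_mul (hP.df x) (hQ.df x), mul_add, add_mul, Finset.sum_mul, Finset.mul_sum,
        smul_add, Finset.smul_sum, Finset.sum_add_distrib, mul_smul_comm, smul_mul_assoc]
      have h2 : ∀ (i : Fin 8) (A : Fin 3) (T : F →L[ℂ] F),
          K.c i A * (P x * T) = ε • (P x * (K.c i A * T)) := by
        intro i A T
        rw [← mul_assoc, hP.comm, smul_mul_assoc, mul_assoc]
      simp only [h2, mul_assoc, smul_smul, mul_comm]
      abel
    rw [h1]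
    simp only [mul_add, mul_sub, add_mul, sub_mul, mul_smul_comm, smul_mul_assoc, mul_assoc,
      smul_sub, smul_add, smul_smul]
    module

theorem tcGD.smul {δ : ℂ} {f : X3 → ℂ} {Q f' Q' : X3 → F →L[ℂ] F} (hf : K.tcSD f f')
    (hQ : K.tcGD δ Q Q') : K.tcGD δ (fun x => f x • Q x) (fun x => f' x * Q x + f x • Q' x) := by
  refine ⟨hf.cd.smul hQ.cd, fun x i A => ?_, fun x A hA => ?_, fun x => ?_⟩
  · rw [mul_smul_comm, hQ.comm, smul_mul_assoc, smul_comm]
  · rw [mul_smul_comm, hQ.com7 x A hA, smul_mul_assoc, smul_comm]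
  · rw [← hf.eq, ← hQ.der]
    have h1 : K.tcdO (fun x => f x • Q x) x = K.tcdS f x * Q x + f x • K.tcdO Q x := by
      simp only [tcdO, tcdS, tcfd_smul (hf.df x) (hQ.df x), mul_add, add_mul, Finset.sum_mul,
        smul_add, Finset.smul_sum, Finset.sum_add_distrib, mul_smul_comm, smul_mul_assoc, add_smul,
        smul_smul]
      simp only [mul_comm, mul_left_comm]
      abel
    rw [h1]
    simp only [mul_smul_comm, smul_mul_assoc, smul_sub, smul_add, smul_smul]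
    module

theorem tcGD.add {ε : ℂ} {P Q P' Q' : X3 → F →L[ℂ] F} (hP : K.tcGD ε P P') (hQ : K.tcGD ε Q Q') :
    K.tcGD ε (fun x => P x + Q x) (fun x => P' x + Q' x) := by
  refine ⟨hP.cd.add hQ.cd, fun x i A => ?_, fun x A hA => ?_, fun x => ?_⟩
  · rw [mul_add, hP.comm, hQ.comm, add_mul, smul_add]
  · rw [mul_add, hP.com7 x A hA, hQ.com7 x A hA, add_mul, smul_add]
  · rw [← hP.der, ← hQ.der]
    simp only [tcdO, fderiv_fun_add (hP.df x) (hQ.df x), add_apply, mul_add, add_mul,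
      Finset.sum_add_distrib, smul_add, smul_sub]
    abel

theorem tcGD.zero (ε : ℂ) : K.tcGD ε (fun _ => 0) (fun _ => 0) := by
  refine ⟨contDiff_const, fun x i A => ?_, fun x A hA => ?_, fun x => ?_⟩ <;> simp [tcdO]

theorem tcGD.one : K.tcGD 1 (fun _ => 1) (fun _ => 0) := by
  refine ⟨contDiff_const, fun x i A => ?_, fun x A hA => ?_, fun x => ?_⟩ <;> simp [tcdO]

theorem tcGD.sum {ι : Type*} (s : Finset ι) {ε : ℂ} {f f' : ι → X3 → F →L[ℂ] F}
    (h : ∀ i, K.tcGD ε (f i) (f' i)) :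
    K.tcGD ε (fun x => ∑ i ∈ s, f i x) (fun x => ∑ i ∈ s, f' i x) := by
  classical
  induction s using Finset.induction_on with
  | empty => simpa using tcGD.zero (K := K) ε
  | insert a s ha ih =>
    simp only [Finset.sum_insert ha]
    exact (h a).add ih

theorem tcGD.cmul (c : ℂ) {ε : ℂ} {P P' : X3 → F →L[ℂ] F} (h : K.tcGD ε P P') :
    K.tcGD ε (fun x => c • P x) (fun x => c • P' x) :=
  (tcGD.smul (tcSD.const c) h).congr (fun _ => rfl) (fun x => by simp)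

theorem tcGD.sub {ε : ℂ} {P Q P' Q' : X3 → F →L[ℂ] F} (hP : K.tcGD ε P P') (hQ : K.tcGD ε Q Q') :
    K.tcGD ε (fun x => P x - Q x) (fun x => P' x - Q' x) :=
  (hP.add (hQ.cmul (-1))).congr (fun x => by module) (fun x => by module)

theorem tcGD.scal {f : X3 → ℂ} {f' : X3 → F →L[ℂ] F} (hf : K.tcSD f f') :
    K.tcGD 1 (fun x => f x • (1 : F →L[ℂ] F)) f' :=
  (tcGD.smul hf tcGD.one).congr (fun _ => rfl) (fun x => by simp)

/-- contraction of `ι_2` with the one-form `c_k^B`, `k < 7` -/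
theorem tcio_c (k : Fin 7) (B : Fin 3) (x : X3) :
    K.io 2 x * K.c (e8 k) B + K.c (e8 k) B * K.io 2 x =
      (∑ C, (eps B 2 C : ℂ) * (x (e9 k, C) : ℂ)) • (1 : F →L[ℂ] F) := by
  have h1 : ∀ (j : Fin 8) (A : Fin 3), K.a j A * K.c (e8 k) B =
      (if j = e8 k ∧ A = B then 1 else 0) - K.c (e8 k) B * K.a j A := by
    intro j A
    rw [← K.ac j A (e8 k) B]; abel
  have h7 : (7 : Fin 8) ≠ e8 k := by
    intro h
    have := congrArg Fin.val h
    simp at this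
    omega
  simp only [io, add_mul, mul_add, Finset.sum_mul, Finset.mul_sum, smul_mul_assoc, mul_smul_comm, h1,
    smul_sub, Finset.sum_sub_distrib, h7, false_and, if_false]
  rw [Finset.sum_smul]
  have h2 : (∑ i : Fin 7, ∑ A : Fin 3, ∑ C : Fin 3, ((eps A 2 C : ℂ) * (x (e9 i, C) : ℂ)) •
      (if e8 i = e8 k ∧ A = B then (1 : F →L[ℂ] F) else 0)) =
      ∑ C, ((eps B 2 C : ℂ) * (x (e9 k, C) : ℂ)) • (1 : F →L[ℂ] F) := by
    rw [Finset.sum_eq_single k, Finset.sum_eq_single B]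
    · simp
    · intro A _ hA; simp [hA]
    · simp
    · intro i _ hi
      have : e8 i ≠ e8 k := fun h => hi (Fin.castSucc_injective _ h)
      simp [this]
    · simp
  rw [h2]
  simp only [smul_zero, Finset.sum_const_zero]
  abel

theorem tcio_c7 (x : X3) :
    K.io 2 x * K.c 7 2 + K.c 7 2 * K.io 2 x = 0 := by
  have h1 : ∀ (j : Fin 8) (A : Fin 3), K.a j A * K.c 7 2 =
      (if j = 7 ∧ A = 2 then 1 else 0) - K.c 7 2 * K.a j A := by
    intro j A
    rw [← K.ac j A 7 2]; abel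
  have h7 : ∀ k : Fin 7, e8 k ≠ 7 := by
    intro k h
    have := congrArg Fin.val h
    simp at this
    omega
  have he : ∀ C, eps 2 2 C = 0 := by decide
  simp only [io, add_mul, mul_add, Finset.sum_mul, Finset.mul_sum, smul_mul_assoc, mul_smul_comm, h1,
    smul_sub, Finset.sum_sub_distrib, h7, false_and, if_false, true_and]
  have h2 : (∑ A : Fin 3, ∑ C : Fin 3, ((eps A 2 C : ℂ) * K.phb C x) •
      (if A = 2 then (1 : F →L[ℂ] F) else 0)) = 0 := by
    refine Finset.sum_eq_zero fun A _ => Finset.sum_eq_zero fun C _ => ?_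
    by_cases hA : A = 2
    · subst hA; simp [he]
    · simp [hA]
  rw [h2]
  simp only [smul_zero, Finset.sum_const_zero]
  abel

theorem tcGD.c (k : Fin 7) (B : Fin 3) : K.tcGD (-1) (fun _ => K.c (e8 k) B)
    (fun x => (K.nu * K.ph 2 x * (∑ C, (eps B 2 C : ℂ) * (x (e9 k, C) : ℂ))) • 1) := by
  refine ⟨contDiff_const, fun x i A => ?_, fun x A hA => ?_, fun x => ?_⟩
  · rw [neg_one_smul, eq_neg_iff_add_eq_zero]; exact K.cc _ _ _ _
  · rw [neg_one_smul, eq_neg_iff_add_eq_zero, K.ac, if_neg]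
    rintro ⟨h, -⟩
    have := congrArg Fin.val h
    simp at this
    omega
  · have h : K.tcdO (fun _ => K.c (e8 k) B) x = 0 := by simp [tcdO]
    rw [h, zero_add, neg_one_smul, sub_neg_eq_add, tcio_c, smul_smul]

theorem tcGD.dz : K.tcGD (-1) (fun _ => K.dpb 2) (fun _ => 0) := by
  have h7 : K.tcGD (-1) (fun _ => K.c 7 2) (fun _ => 0) := by
    refine ⟨contDiff_const, fun x i A => ?_, fun x A hA => ?_, fun x => ?_⟩
    · rw [neg_one_smul, eq_neg_iff_add_eq_zero]; exact K.cc _ _ _ _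
    · rw [neg_one_smul, eq_neg_iff_add_eq_zero, K.ac, if_neg]
      rintro ⟨-, h⟩
      exact hA h
    · have h : K.tcdO (fun _ => K.c 7 2) x = 0 := by simp [tcdO]
      rw [h, zero_add, neg_one_smul, sub_neg_eq_add, tcio_c7, smul_zero]
  exact (h7.cmul 2).congr (fun _ => rfl) (fun _ => by simp)


variable (K) in
/-- operators of one-forms -/
def tcL1 : Submodule ℂ (F →L[ℂ] F) := Submodule.span ℂ (Set.range fun p : Fin 8 × Fin 3 => K.c p.1 p.2)

theorem tcc_mem (i : Fin 8) (A : Fin 3) : K.c i A ∈ K.tcL1 :=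
  Submodule.subset_span ⟨(i, A), rfl⟩

theorem tcL1_comm {ε : ℂ} {P : F →L[ℂ] F} (h : ∀ i A, K.c i A * P = ε • (P * K.c i A))
    {v : F →L[ℂ] F} (hv : v ∈ K.tcL1) : v * P = ε • (P * v) := by
  induction hv using Submodule.span_induction with
  | mem x hx => obtain ⟨p, rfl⟩ := hx; exact h _ _
  | zero => simp
  | add x y _ _ hx hy => rw [add_mul, hx, hy, mul_add, smul_add]
  | smul a x _ hx => rw [smul_mul_assoc, hx, mul_smul_comm, smul_comm]

theorem tcL1_anti {v w : F →L[ℂ] F} (hv : v ∈ K.tcL1) (hw : w ∈ K.tcL1) : v * w = -(w * v) := by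
  have h : v * w = (-1 : ℂ) • (w * v) := by
    refine tcL1_comm (fun i A => ?_) hv
    have h2 : w * K.c i A = (-1 : ℂ) • (K.c i A * w) := by
      refine tcL1_comm (fun j B => ?_) hw
      rw [neg_one_smul, eq_neg_iff_add_eq_zero]; exact K.cc _ _ _ _
    rw [h2, smul_smul]; simp
  rw [h, neg_one_smul]

theorem tcL1_sq {v : F →L[ℂ] F} (hv : v ∈ K.tcL1) : v * v = 0 := by
  have h := tcL1_anti hv hv
  have h2 : (2 : ℂ) • (v * v) = 0 := by
    rw [two_smul]
    nth_rewrite 1 [h]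
    exact neg_add_cancel _
  exact (smul_eq_zero.mp h2).resolve_left two_ne_zero

theorem tcm_ne : (K.f0 : ℂ) ≠ 0 := by
  intro h
  have h1 : K.f0 = 0 := by exact_mod_cast h
  have := K.f0_sq
  rw [h1] at this
  norm_num at this

theorem tcInu : Complex.I * K.nu = -(K.f0 : ℂ) := by
  rw [nu, ← mul_assoc, Complex.I_mul_I]; ring

/-! ### the factor `τ` -/

variable (K) in
/-- `w_k` -/
noncomputable def tcwk (k : Fin 7) (x : X3) : ℂ :=
  (x (e9 k, 0) : ℂ) + Complex.I * (x (e9 k, 1) : ℂ)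

variable (K) in
/-- `dw_k` -/
noncomputable def tcdwk (k : Fin 7) : F →L[ℂ] F := K.c (e8 k) 0 + Complex.I • K.c (e8 k) 1

/-- complex conjugate of `w_k` -/
noncomputable def tcwb (k : Fin 7) (x : X3) : ℂ :=
  (x (e9 k, 0) : ℂ) - Complex.I * (x (e9 k, 1) : ℂ)

variable (K) in
/-- its differential -/
noncomputable def tcdwb (k : Fin 7) : F →L[ℂ] F := K.c (e8 k) 0 - Complex.I • K.c (e8 k) 1

/-- complex conjugate of `s` -/
noncomputable def tcsb (x : X3) : ℂ := ∑ i : Fin 7, tcwb i x ^ 2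

theorem tcdwk_mem (k : Fin 7) : K.tcdwk k ∈ K.tcL1 :=
  K.tcL1.add_mem (tcc_mem _ _) (K.tcL1.smul_mem _ (tcc_mem _ _))

theorem tcdwb_mem (k : Fin 7) : K.tcdwb k ∈ K.tcL1 :=
  K.tcL1.sub_mem (tcc_mem _ _) (K.tcL1.smul_mem _ (tcc_mem _ _))

theorem tcds_mem (x : X3) : K.ds x ∈ K.tcL1 :=
  K.tcL1.sum_mem fun k _ => K.tcL1.smul_mem _ (tcdwk_mem k)

theorem tcdsb_mem (x : X3) : K.dsb x ∈ K.tcL1 :=
  K.tcL1.sum_mem fun k _ => K.tcL1.smul_mem _ (tcdwb_mem k)

theorem tcSD.tcwk (k : Fin 7) : K.tcSD (tcwk k) (fun _ => K.tcdwk k) :=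
  (tcSD.co k 0).add ((tcSD.co k 1).cmul Complex.I)

theorem tcSD.tcwb (k : Fin 7) : K.tcSD (tcwb k) (fun _ => K.tcdwb k) :=
  (tcSD.co k 0).sub ((tcSD.co k 1).cmul Complex.I)

theorem tceps_c0 (k : Fin 7) (x : X3) :
    (∑ C, (eps 0 2 C : ℂ) * (x (e9 k, C) : ℂ)) = -(x (e9 k, 1) : ℂ) := by
  have h0 : eps 0 2 0 = 0 := by decide
  have h1 : eps 0 2 1 = -1 := by decide
  have h2 : eps 0 2 2 = 0 := by decide
  simp [Fin.sum_univ_three, h0, h1, h2]

theorem tceps_c1 (k : Fin 7) (x : X3) :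
    (∑ C, (eps 1 2 C : ℂ) * (x (e9 k, C) : ℂ)) = (x (e9 k, 0) : ℂ) := by
  have h0 : eps 1 2 0 = 1 := by decide
  have h1 : eps 1 2 1 = 0 := by decide
  have h2 : eps 1 2 2 = 0 := by decide
  simp [Fin.sum_univ_three, h0, h1, h2]

theorem tceps_c2 (k : Fin 7) (x : X3) :
    (∑ C, (eps 2 2 C : ℂ) * (x (e9 k, C) : ℂ)) = 0 := by
  have h0 : ∀ C, eps 2 2 C = 0 := by decide
  simp [h0]

theorem tcGD.c0 (k : Fin 7) : K.tcGD (-1) (fun _ => K.c (e8 k) 0)
    (fun x => (-(K.nu * K.ph 2 x) * (x (e9 k, 1) : ℂ)) • 1) :=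
  (tcGD.c k 0).congr (fun _ => rfl) (fun x => by rw [tceps_c0]; congr 1; ring)

theorem tcGD.c1 (k : Fin 7) : K.tcGD (-1) (fun _ => K.c (e8 k) 1)
    (fun x => (K.nu * K.ph 2 x * (x (e9 k, 0) : ℂ)) • 1) :=
  (tcGD.c k 1).congr (fun _ => rfl) (fun x => by rw [tceps_c1])

theorem tcGD.c2 (k : Fin 7) : K.tcGD (-1) (fun _ => K.c (e8 k) 2) (fun _ => 0) :=
  (tcGD.c k 2).congr (fun _ => rfl) (fun x => by rw [tceps_c2]; simp)

theorem tcGD.tcdwk (k : Fin 7) : K.tcGD (-1) (fun _ => K.tcdwk k)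
    (fun x => (-(K.f0 * K.ph 2 x) * tcwk k x) • 1) :=
  ((tcGD.c0 k).add ((tcGD.c1 k).cmul Complex.I)).congr (fun _ => rfl) (fun x => by
    rw [smul_smul, ← add_smul]; congr 1
    simp only [Fk.tcwk, nu]
    linear_combination (-(K.f0 : ℂ) * K.ph 2 x * (x (e9 k, 0) : ℂ)) * Complex.I_sq)

theorem tcGD.tcdwb (k : Fin 7) : K.tcGD (-1) (fun _ => K.tcdwb k)
    (fun x => ((K.f0 * K.ph 2 x) * Fk.tcwb k x) • 1) :=
  ((tcGD.c0 k).sub ((tcGD.c1 k).cmul Complex.I)).congr (fun _ => rfl) (fun x => by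
    rw [smul_smul, ← sub_smul]; congr 1
    simp only [Fk.tcwb, nu]
    linear_combination ((K.f0 : ℂ) * K.ph 2 x * (x (e9 k, 0) : ℂ)) * Complex.I_sq)

theorem tcGD.ds : K.tcGD (-1) K.ds (fun x => (-(2 * K.f0 * K.ph 2 x) * ss x) • 1) := by
  have h : ∀ k : Fin 7, K.tcGD (-1) (fun x => (2 * Fk.tcwk k x) • K.tcdwk k)
      (fun x => (-(2 * K.f0 * K.ph 2 x) * Fk.tcwk k x ^ 2) • 1) := by
    intro k
    refine (tcGD.smul ((tcSD.tcwk k).cmul 2) (tcGD.tcdwk k)).congr (fun _ => rfl) (fun x => ?_)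
    rw [smul_mul_assoc, tcL1_sq (tcdwk_mem k), smul_zero, zero_add, smul_smul]
    congr 1; ring
  refine (tcGD.sum Finset.univ h).congr (fun _ => rfl) (fun x => ?_)
  rw [← Finset.sum_smul, ← Finset.mul_sum]; rfl

theorem tcGD.dsb : K.tcGD (-1) K.dsb (fun x => ((2 * K.f0 * K.ph 2 x) * tcsb x) • 1) := by
  have h : ∀ k : Fin 7, K.tcGD (-1) (fun x => (2 * Fk.tcwb k x) • K.tcdwb k)
      (fun x => ((2 * K.f0 * K.ph 2 x) * Fk.tcwb k x ^ 2) • 1) := by
    intro k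
    refine (tcGD.smul ((tcSD.tcwb k).cmul 2) (tcGD.tcdwb k)).congr (fun _ => rfl) (fun x => ?_)
    rw [smul_mul_assoc, tcL1_sq (tcdwb_mem k), smul_zero, zero_add, smul_smul]
    congr 1; ring
  refine (tcGD.sum Finset.univ h).congr (fun _ => rfl) (fun x => ?_)
  rw [← Finset.sum_smul, ← Finset.mul_sum]; rfl

theorem tcSD.ss : K.tcSD ss K.ds :=
  (tcSD.sum Finset.univ fun k => (tcSD.tcwk (K := K) k).sq).congr (fun _ => rfl) (fun _ => rfl)

theorem tcSD.tcsb : K.tcSD tcsb K.dsb :=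
  (tcSD.sum Finset.univ fun k => (tcSD.tcwb (K := K) k).sq).congr (fun _ => rfl) (fun _ => rfl)

theorem tcGD.mul_oo {P Q P' Q' : X3 → F →L[ℂ] F} (hP : K.tcGD (-1) P P') (hQ : K.tcGD (-1) Q Q') :
    K.tcGD 1 (fun x => P x * Q x) (fun x => P' x * Q x - P x * Q' x) := by
  have h := hP.mul hQ
  rw [neg_mul_neg, one_mul] at h
  exact h.congr (fun _ => rfl) (fun x => by rw [neg_one_smul, sub_eq_add_neg])

theorem tcGD.mul_ee {P Q P' Q' : X3 → F →L[ℂ] F} (hP : K.tcGD 1 P P') (hQ : K.tcGD 1 Q Q') :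
    K.tcGD 1 (fun x => P x * Q x) (fun x => P' x * Q x + P x * Q' x) := by
  have h := hP.mul hQ
  rw [one_mul] at h
  exact h.congr (fun _ => rfl) (fun x => by rw [one_smul])

theorem tcGD.P1 : K.tcGD 1 (fun x => Complex.exp (-(Vale.Agent.P353.Ex.Fk.ss x * Fk.tcsb x)) • K.tau0 x)
    (fun _ => 0) := by
  have h1 := (tcGD.scal ((tcSD.ph (K := K) 2).cmul 2)).sub ((tcGD.ds.mul_oo tcGD.dsb).cmul (1 / (K.f0 : ℂ)))
  have h2 := tcGD.smul ((tcSD.ss (K := K)).mul tcSD.tcsb).neg.exp h1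
  refine h2.congr (fun _ => rfl) (fun x => ?_)
  have hm := tcm_ne (K := K)
  have e1 := tcL1_sq (K := K) (tcds_mem x)
  have e2 := tcL1_sq (K := K) (tcdsb_mem x)
  have e3 := tcL1_anti (K := K) (tcdsb_mem x) (tcds_mem x)
  generalize K.ds x = A at e1 e3 ⊢
  generalize K.dsb x = B at e2 e3 ⊢
  generalize Complex.exp _ = E
  generalize K.ph 2 x = z
  generalize Fk.ss x = s
  generalize Fk.tcsb x = t
  generalize (K.f0 : ℂ) = m at hm ⊢
  have e4 : B * (A * B) = 0 := by rw [← mul_assoc, e3, neg_mul, mul_assoc, e2, mul_zero, neg_zero]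
  have e5 : A * (A * B) = 0 := by rw [← mul_assoc, e1, zero_mul]
  simp only [smul_mul_assoc, mul_smul_comm, mul_sub, neg_mul, add_mul, mul_one, one_mul, e4, e5,
    smul_zero, sub_zero, zero_sub, add_zero, neg_zero]
  match_scalars
  · field_simp; ring
  · field_simp; ring


/-! ### the factor `β` -/

theorem tcdkap_mem (k : Fin 7) (x : X3) : K.dkap k x ∈ K.tcL1 :=
  K.tcL1.sum_mem fun _ _ => K.tcL1.sum_mem fun _ _ => K.tcL1.smul_mem _
    (K.tcL1.add_mem (K.tcL1.smul_mem _ (tcc_mem _ _)) (K.tcL1.smul_mem _ (tcc_mem _ _)))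

theorem tcdb_mem (k : Fin 7) (x : X3) : K.db k x ∈ K.tcL1 :=
  K.tcL1.sub_mem (tcc_mem _ _) (K.tcL1.smul_mem _ (tcdkap_mem k x))

theorem tcSD.kap (k : Fin 7) : K.tcSD (fun x => (K.kap k x : ℂ)) (K.dkap k) := by
  have h := tcSD.sum (K := K) Finset.univ fun i : Fin 7 => tcSD.sum (K := K) Finset.univ fun j : Fin 7 =>
    ((tcSD.co i 0).mul (tcSD.co j 1)).cmul (K.t k i j : ℂ)
  refine h.congr (fun x => ?_) (fun x => ?_)
  · simp only [Fk.kap, Complex.ofReal_sum, Complex.ofReal_mul, mul_assoc]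
  · simp only [Fk.dkap]
    refine Finset.sum_congr rfl fun i _ => Finset.sum_congr rfl fun j _ => ?_
    rw [add_comm]

theorem tcSD.bb (k : Fin 7) : K.tcSD (fun x => (K.bb k x : ℂ)) (K.db k) :=
  ((tcSD.co k 2).sub ((tcSD.kap k).cmul (K.f0 : ℂ))).congr
    (fun x => by simp only [Fk.bb, Complex.ofReal_sub, Complex.ofReal_mul]) (fun _ => rfl)

theorem tcGD.dkap (k : Fin 7) : K.tcGD (-1) (K.dkap k) (fun _ => 0) := by
  have h := tcGD.sum (K := K) Finset.univ fun i : Fin 7 => tcGD.sum (K := K) Finset.univ fun j : Fin 7 =>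
    ((tcGD.smul (tcSD.co j 1) (tcGD.c0 i)).add (tcGD.smul (tcSD.co i 0) (tcGD.c1 j))).cmul (K.t k i j : ℂ)
  refine h.congr (fun _ => rfl) (fun x => ?_)
  have h1 : ∀ i j : Fin 7, (K.t k i j : ℂ) • (K.c (e8 j) 1 * K.c (e8 i) 0 +
      (x (e9 j, 1) : ℂ) • (-(K.nu * K.ph 2 x) * (x (e9 i, 1) : ℂ)) • (1 : F →L[ℂ] F) +
      (K.c (e8 i) 0 * K.c (e8 j) 1 +
        (x (e9 i, 0) : ℂ) • (K.nu * K.ph 2 x * (x (e9 j, 0) : ℂ)) • (1 : F →L[ℂ] F))) =
      (K.nu * K.ph 2 x * ((K.t k i j : ℂ) * ((x (e9 i, 0) : ℂ) * (x (e9 j, 0) : ℂ) -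
        (x (e9 i, 1) : ℂ) * (x (e9 j, 1) : ℂ)))) • (1 : F →L[ℂ] F) := by
    intro i j
    have e := K.cc (e8 i) 0 (e8 j) 1
    rw [eq_neg_of_add_eq_zero_right e]
    module
  rw [Finset.sum_congr rfl fun i _ => Finset.sum_congr rfl fun j _ => h1 i j]
  have h2 : (∑ i : Fin 7, ∑ j : Fin 7, (K.nu * K.ph 2 x * ((K.t k i j : ℂ) *
      ((x (e9 i, 0) : ℂ) * (x (e9 j, 0) : ℂ) - (x (e9 i, 1) : ℂ) * (x (e9 j, 1) : ℂ))))) = 0 := by
    set S := ∑ i : Fin 7, ∑ j : Fin 7, (K.nu * K.ph 2 x * ((K.t k i j : ℂ) *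
      ((x (e9 i, 0) : ℂ) * (x (e9 j, 0) : ℂ) - (x (e9 i, 1) : ℂ) * (x (e9 j, 1) : ℂ)))) with hS
    have h3 : S = -S := by
      conv_lhs => rw [hS, Finset.sum_comm]
      rw [hS, ← Finset.sum_neg_distrib]
      refine Finset.sum_congr rfl fun i _ => ?_
      rw [← Finset.sum_neg_distrib]
      refine Finset.sum_congr rfl fun j _ => ?_
      rw [K.t_swap k j i]
      push_cast
      ring
    exact self_eq_neg.mp h3
  simp only [← Finset.sum_smul]
  rw [h2, zero_smul]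

theorem tcGD.db (k : Fin 7) : K.tcGD (-1) (K.db k) (fun _ => 0) :=
  ((tcGD.c2 k).sub ((tcGD.dkap k).cmul (K.f0 : ℂ))).congr (fun _ => rfl) (fun x => by simp)

theorem tcGD.prod_odd {ι : Type*} (l : List ι) {P : ι → X3 → F →L[ℂ] F}
    (h : ∀ i, K.tcGD (-1) (P i) (fun _ => 0)) :
    K.tcGD ((-1) ^ l.length) (fun x => (l.map fun i => P i x).prod) (fun _ => 0) := by
  induction l with
  | nil => simpa using tcGD.one (K := K)
  | cons a l ih =>
    simp only [List.map_cons, List.prod_cons, List.length_cons, pow_succ']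
    exact ((h a).mul ih).congr (fun _ => rfl) (fun x => by simp)

theorem tcL1_prod {ι : Type*} (l : List ι) {v : ι → F →L[ℂ] F} (h : ∀ i, v i ∈ K.tcL1) {j : ι}
    (hj : j ∈ l) : v j * (l.map v).prod = 0 := by
  induction l with
  | nil => simp at hj
  | cons a l ih =>
    rw [List.map_cons, List.prod_cons]
    rcases List.mem_cons.mp hj with rfl | h1
    · rw [← mul_assoc, tcL1_sq (h _), zero_mul]
    · rw [← mul_assoc, tcL1_anti (h _) (h _), neg_mul, mul_assoc, ih h1, mul_zero, neg_zero]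

theorem tcGD.bet : K.tcGD (-1) K.bet (fun _ => 0) := by
  have h := tcGD.prod_odd (K := K) (List.finRange 7) (P := K.db) tcGD.db
  rw [List.length_finRange] at h
  have e : ((-1 : ℂ)) ^ 7 = -1 := by norm_num
  rw [e] at h
  exact h.congr (fun x => by rw [Fk.bet, List.ofFn_eq_map]) (fun _ => rfl)

theorem tcGD.P2 : K.tcGD (-1) (fun x => Complex.exp (-(∑ k, (K.bb k x : ℂ) ^ 2)) • K.bet x)
    (fun _ => 0) := by
  have h1 := (tcSD.sum (K := K) Finset.univ fun k : Fin 7 => (tcSD.bb k).sq).neg.exp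
  refine (tcGD.smul h1 tcGD.bet).congr (fun _ => rfl) (fun x => ?_)
  have e : (∑ k, (2 * (K.bb k x : ℂ)) • K.db k x) * K.bet x = 0 := by
    rw [Finset.sum_mul]
    refine Finset.sum_eq_zero fun k _ => ?_
    rw [smul_mul_assoc, Fk.bet, List.ofFn_eq_map,
      tcL1_prod (List.finRange 7) (fun i => tcdb_mem i x) (List.mem_finRange k), smul_zero]
  rw [smul_zero, add_zero, smul_mul_assoc, neg_mul, e, neg_zero, smul_zero]

/-! ### the factor `E_T` -/

variable (K) in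
/-- `θ_k = x_k^0 c_k^0 + x_k^1 c_k^1` -/
noncomputable def tcthk (k : Fin 7) (x : X3) : F →L[ℂ] F :=
  (x (e9 k, 0) : ℂ) • K.c (e8 k) 0 + (x (e9 k, 1) : ℂ) • K.c (e8 k) 1

variable (K) in
/-- `c_k^0 c_k^1` -/
noncomputable def tccck (k : Fin 7) : F →L[ℂ] F := K.c (e8 k) 0 * K.c (e8 k) 1

theorem tcthk_mem (k : Fin 7) (x : X3) : K.tcthk k x ∈ K.tcL1 :=
  K.tcL1.add_mem (K.tcL1.smul_mem _ (tcc_mem _ _)) (K.tcL1.smul_mem _ (tcc_mem _ _))

theorem tcmu_mem (x : X3) : K.mu x ∈ K.tcL1 :=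
  K.tcL1.sum_mem fun _ _ =>
    (K.tcL1.sub_mem (K.tcL1.smul_mem _ (tcc_mem _ _)) (K.tcL1.smul_mem _ (tcc_mem _ _)))

theorem tcdz_mem : K.dpb 2 ∈ K.tcL1 := K.tcL1.smul_mem _ (tcc_mem _ _)

theorem tcr3_eq (x : X3) : ((r3 x : ℝ) : ℂ) = K.ph 2 x * K.phb 2 x := by
  have hs : (K.sg : ℂ) * (K.sg : ℂ) = 1 := by
    rw [← Complex.ofReal_mul, K.sg_sq, Complex.ofReal_one]
  simp only [r3, ph, phb]
  push_cast
  linear_combination (-(x (8, 2) : ℂ) ^ 2) * hs + ((x (8, 2) : ℂ) ^ 2 * (K.sg : ℂ) ^ 2) * Complex.I_sq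

theorem tcr3_nonneg (x : X3) : 0 ≤ r3 x := by unfold r3; positivity

theorem tccontDiff_gg : ContDiff ℝ ∞ gg := by
  have hr : ContDiff ℝ ∞ (fun x : X3 => 1 + r3 x) := by
    unfold r3
    have h7 : ContDiff ℝ ∞ (fun x : X3 => x (7, 2)) := (EuclideanSpace.proj (7, 2) : X3 →L[ℝ] ℝ).contDiff
    have h8 : ContDiff ℝ ∞ (fun x : X3 => x (8, 2)) := (EuclideanSpace.proj (8, 2) : X3 →L[ℝ] ℝ).contDiff
    exact contDiff_const.add ((h7.pow 2).add (h8.pow 2))
  have hp : ∀ x : X3, 0 < 1 + r3 x := fun x => by have := tcr3_nonneg x; linarith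
  exact (hr.sqrt fun x => (hp x).ne').inv fun x => (Real.sqrt_pos.mpr (hp x)).ne'

theorem tcgg_sq (x : X3) : gg x * gg x * (1 + r3 x) = 1 := by
  have hp : 0 < 1 + r3 x := by have := tcr3_nonneg x; linarith
  have h := Real.mul_self_sqrt hp.le
  have hne : Real.sqrt (1 + r3 x) ≠ 0 := (Real.sqrt_pos.mpr hp).ne'
  unfold gg
  field_simp
  nlinarith only [h]

theorem tcSD.gg : K.tcSD (fun x => (gg x : ℂ)) (fun x => (-(1 / 2) * (gg x : ℂ) ^ 3 * K.ph 2 x) • K.dpb 2) := by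
  have h0 : K.tcSD (fun x => (Fk.gg x : ℂ)) (K.tcdS fun x => (Fk.gg x : ℂ)) :=
    ⟨Complex.ofRealCLM.contDiff.comp tccontDiff_gg, fun _ => rfl⟩
  have h1 := (h0.mul h0).mul ((tcSD.const 1).add ((tcSD.ph 2).mul (tcSD.phb 2)))
  have h2 : (fun x => (Fk.gg x : ℂ) * (Fk.gg x : ℂ) * (1 + K.ph 2 x * K.phb 2 x)) = fun _ => 1 := by
    funext x
    rw [← tcr3_eq]
    exact_mod_cast tcgg_sq x
  rw [h2] at h1
  refine h0.congr (fun _ => rfl) (fun x => ?_)
  have h3 := (h1.eq x).symm.trans ((tcSD.const (K := K) 1).eq x)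
  have h4 := congrFun h2 x
  generalize K.tcdS (fun x => (Fk.gg x : ℂ)) x = G at h3 ⊢
  generalize (Fk.gg x : ℂ) = g at h3 h4 ⊢
  generalize K.ph 2 x = z at h3 h4 ⊢
  generalize K.phb 2 x = y at h3 h4 ⊢
  have h5 : G = (g * g * (1 + z * y)) • G := by rw [h4, one_smul]
  have h6 : (g / 2) • ((g * g) • ((0 : F →L[ℂ] F) + (z • K.dpb 2 + y • 0)) +
    (1 + z * y) • (g • G + g • G)) = 0 := by rw [h3, smul_zero]
  rw [h5, eq_comm, ← sub_eq_zero, ← h6]
  module


theorem tcSD.qq : K.tcSD K.qq (fun x => (qp x : ℂ) • K.dpb 2) := by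
  refine (tcSD.gg.mul (tcSD.phb 2)).congr (fun _ => rfl) (fun x => ?_)
  have h : (Fk.gg x : ℂ) * (Fk.gg x : ℂ) * (1 + K.ph 2 x * K.phb 2 x) = 1 := by
    rw [← tcr3_eq]
    exact_mod_cast tcgg_sq x
  rw [smul_smul, ← add_smul]
  congr 1
  simp only [qp]
  push_cast
  rw [tcr3_eq (K := K)]
  linear_combination (Fk.gg x : ℂ) * h

theorem tcSD.qp : ∃ f : X3 → ℂ, K.tcSD (fun x => (qp x : ℂ)) (fun x => f x • K.dpb 2) := by
  refine ⟨fun x => (1 + 1 / 2 * (K.ph 2 x * K.phb 2 x)) * (-(3 / 2) * (Fk.gg x : ℂ) ^ 5 * K.ph 2 x) +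
    (Fk.gg x : ℂ) ^ 3 * (1 / 2 * K.ph 2 x), ?_⟩
  refine (((tcSD.const 1).add (((tcSD.ph 2).mul (tcSD.phb 2)).cmul (1 / 2))).mul
    ((tcSD.gg.mul tcSD.gg).mul tcSD.gg)).congr (fun x => ?_) (fun x => ?_)
  · simp only [Fk.qp]
    push_cast
    rw [tcr3_eq (K := K)]
    ring
  · match_scalars
    ring

theorem tcSD.wsq : K.tcSD (fun x => (wsq x : ℂ)) (fun x => (2 : ℂ) • ∑ k, K.tcthk k x) := by
  refine (tcSD.sum Finset.univ fun k => ((tcSD.co (K := K) k 0).sq.add (tcSD.co k 1).sq)).congr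
    (fun x => ?_) (fun x => ?_)
  · simp only [Fk.wsq]
    push_cast
    rfl
  · rw [Finset.smul_sum]
    refine Finset.sum_congr rfl fun k _ => ?_
    simp only [tcthk]
    module

theorem tcGD.mu : K.tcGD (-1) K.mu
    (fun x => (2 : ℂ) • (∑ k, K.tccck k) + (K.nu * K.ph 2 x * (wsq x : ℂ)) • 1) := by
  have h := tcGD.sum (K := K) Finset.univ fun k : Fin 7 =>
    (tcGD.smul (tcSD.co k 0) (tcGD.c1 k)).sub (tcGD.smul (tcSD.co k 1) (tcGD.c0 k))
  refine h.congr (fun _ => rfl) (fun x => ?_)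
  have e : (wsq x : ℂ) = ∑ k : Fin 7, ((x (e9 k, 0) : ℂ) ^ 2 + (x (e9 k, 1) : ℂ) ^ 2) := by
    simp only [wsq]
    push_cast
    rfl
  rw [e, Finset.mul_sum, Finset.sum_smul, Finset.smul_sum, ← Finset.sum_add_distrib]
  refine Finset.sum_congr rfl fun k _ => ?_
  have e := K.cc (e8 k) 0 (e8 k) 1
  rw [eq_neg_of_add_eq_zero_right e, tccck]
  module

theorem tcGD.dzmu : K.tcGD 1 (fun x => K.dpb 2 * K.mu x)
    (fun x => -(K.dpb 2 * ((2 : ℂ) • (∑ k, K.tccck k) + (K.nu * K.ph 2 x * (wsq x : ℂ)) • 1))) :=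
  (tcGD.dz.mul_oo tcGD.mu).congr (fun _ => rfl) (fun x => by rw [zero_mul, zero_sub])

theorem tcGD.rho : K.tcGD 1 K.rho (fun x => -((Complex.I / (K.f0 : ℂ) * (qp x : ℂ)) •
    (K.dpb 2 * ((2 : ℂ) • (∑ k, K.tccck k) + (K.nu * K.ph 2 x * (wsq x : ℂ)) • 1)))) := by
  obtain ⟨f, hf⟩ := tcSD.qp (K := K)
  refine (tcGD.one.add (tcGD.smul (hf.cmul (Complex.I / (K.f0 : ℂ))) tcGD.dzmu)).congr
    (fun _ => rfl) (fun x => ?_)
  have e : ((Complex.I / (K.f0 : ℂ)) • f x • K.dpb 2) * (K.dpb 2 * K.mu x) = 0 := by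
    rw [smul_mul_assoc, smul_mul_assoc, ← mul_assoc, tcL1_sq tcdz_mem, zero_mul, smul_zero, smul_zero]
  rw [e, zero_add, zero_add, smul_neg]

theorem tcGD.tccck (k : Fin 7) : K.tcGD 1 (fun _ => K.tccck k) (fun x => (-(K.nu * K.ph 2 x)) • K.tcthk k x) := by
  refine ((tcGD.c0 k).mul_oo (tcGD.c1 k)).congr (fun _ => rfl) (fun x => ?_)
  simp only [tcthk, smul_mul_assoc, mul_smul_comm, one_mul, mul_one]
  module

variable (K) in
/-- the logarithmic derivative of the factors of `E_T` -/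
noncomputable def tceta (k : Fin 7) (x : X3) : F →L[ℂ] F :=
  (2 * Complex.I / (K.f0 : ℂ) * (qp x : ℂ)) • (K.dpb 2 * K.tccck k) -
    (2 * Complex.I / (K.f0 : ℂ) * (K.qq x * (K.nu * K.ph 2 x))) • K.tcthk k x

variable (K) in
/-- the factors of `E_T` -/
noncomputable def tcfac (k : Fin 7) (x : X3) : F →L[ℂ] F :=
  1 + (2 * Complex.I / (K.f0 : ℂ) * K.qq x) • K.tccck k

theorem tcGD.tcfac (k : Fin 7) : K.tcGD 1 (K.tcfac k) (K.tceta k) := by
  refine (tcGD.one.add (tcGD.smul (tcSD.qq.cmul (2 * Complex.I / (K.f0 : ℂ))) (tcGD.tccck k))).congr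
    (fun _ => rfl) (fun x => ?_)
  rw [tceta, smul_mul_assoc, smul_mul_assoc]
  module

theorem tcc_cck (k : Fin 7) : K.c (e8 k) 0 * K.tccck k = 0 ∧ K.c (e8 k) 1 * K.tccck k = 0 := by
  constructor
  · rw [tccck, ← mul_assoc, tcL1_sq (tcc_mem _ _), zero_mul]
  · rw [tccck, ← mul_assoc, tcL1_anti (tcc_mem _ _) (tcc_mem _ _), neg_mul, mul_assoc, tcL1_sq (tcc_mem _ _),
      mul_zero, neg_zero]

theorem tceta_fac (k : Fin 7) (x : X3) : K.tceta k x * K.tcfac k x = K.tceta k x := by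
  have e1 : K.tcthk k x * K.tccck k = 0 := by
    rw [tcthk, add_mul, smul_mul_assoc, smul_mul_assoc, (tcc_cck k).1, (tcc_cck k).2, smul_zero, smul_zero,
      add_zero]
  have e2 : K.tccck k * K.tccck k = 0 := by
    nth_rewrite 1 [tccck]
    rw [mul_assoc, (tcc_cck k).2, mul_zero]
  rw [tcfac, mul_add, mul_one, mul_smul_comm]
  have e3 : K.tceta k x * K.tccck k = 0 := by
    rw [tceta, sub_mul, smul_mul_assoc, smul_mul_assoc, mul_assoc, e2, e1, mul_zero, smul_zero, smul_zero,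
      sub_zero]
  rw [e3, smul_zero, add_zero]

theorem tcfac_comm (j k : Fin 7) (x : X3) : K.tcfac j x * K.tceta k x = K.tceta k x * K.tcfac j x := by
  have h : ∀ i A, Commute (K.tcfac j x) (K.c i A) := fun i A => by
    have := (tcGD.tcfac (K := K) j).comm x i A
    rw [one_smul] at this
    exact this.symm
  have h1 : Commute (K.tcfac j x) (K.dpb 2) := (h 7 2).smul_right _
  have h2 : Commute (K.tcfac j x) (K.tccck k) := (h _ _).mul_right (h _ _)
  have h3 : Commute (K.tcfac j x) (K.tcthk k x) := ((h _ _).smul_right _).add_right ((h _ _).smul_right _)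
  exact (((h1.mul_right h2).smul_right _).sub_right (h3.smul_right _))

theorem tcGD.prod_fac (l : List (Fin 7)) :
    K.tcGD 1 (fun x => (l.map fun i => K.tcfac i x).prod)
      (fun x => (l.map fun i => K.tceta i x).sum * (l.map fun i => K.tcfac i x).prod) := by
  induction l with
  | nil => exact (tcGD.one (K := K)).congr (fun _ => by simp) (fun _ => by simp)
  | cons a l ih =>
    refine ((tcGD.tcfac a).mul_ee ih).congr (fun x => by simp) (fun x => ?_)
    simp only [List.map_cons, List.prod_cons, List.sum_cons]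
    have e : K.tcfac a x * (l.map fun i => K.tceta i x).sum = (l.map fun i => K.tceta i x).sum * K.tcfac a x := by
      clear ih
      induction l with
      | nil => simp
      | cons b l ih =>
        simp only [List.map_cons, List.sum_cons]
        rw [mul_add, add_mul, ih, tcfac_comm]
    rw [add_mul, ← mul_assoc, ← mul_assoc, ← mul_assoc, e, tceta_fac]

theorem tcGD.eeT : K.tcGD 1 K.eeT (fun x => (∑ k, K.tceta k x) * K.eeT x) := by
  refine (tcGD.prod_fac (K := K) (List.finRange 7)).congr (fun x => ?_) (fun x => ?_)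
  · rw [Fk.eeT, List.ofFn_eq_map]; rfl
  · rw [Fk.eeT, List.ofFn_eq_map]
    congr 1

theorem tcGD.P3 : K.tcGD 1 (fun x => Complex.exp (-(K.qq x * K.ph 2 x * (wsq x : ℂ))) • (K.rho x * K.eeT x))
    (fun _ => 0) := by
  have h1 := ((tcSD.qq (K := K)).mul (tcSD.ph 2)).mul tcSD.wsq
  have h2 := tcGD.smul h1.neg.exp (tcGD.rho.mul_ee tcGD.eeT)
  refine h2.congr (fun _ => rfl) (fun x => ?_)
  have e : (∑ k, K.tceta k x) = (2 * Complex.I / (K.f0 : ℂ) * (qp x : ℂ)) • (K.dpb 2 * ∑ k, K.tccck k) -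
      (2 * Complex.I / (K.f0 : ℂ) * (K.qq x * (K.nu * K.ph 2 x))) • ∑ k, K.tcthk k x := by
    simp only [tceta, Finset.sum_sub_distrib, Finset.smul_sum, Finset.mul_sum]
  have hth : (∑ k, K.tcthk k x) ∈ K.tcL1 := K.tcL1.sum_mem fun k _ => tcthk_mem k x
  have e1 := tcL1_sq (tcdz_mem (K := K))
  have e2 : (∑ k, K.tcthk k x) * (K.dpb 2 * K.mu x) = K.dpb 2 * K.mu x * ∑ k, K.tcthk k x := by
    rw [← mul_assoc, tcL1_anti hth tcdz_mem, neg_mul, mul_assoc, tcL1_anti hth (tcmu_mem x), mul_neg, neg_neg,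
      mul_assoc]
  have e3 : K.dpb 2 * K.mu x * (K.dpb 2 * ∑ k, K.tccck k) = 0 := by
    rw [mul_assoc, ← mul_assoc (K.mu x), tcL1_anti (tcmu_mem x) tcdz_mem, neg_mul, mul_neg, ← mul_assoc,
      ← mul_assoc, e1, zero_mul, zero_mul, neg_zero]
  have e4 : K.dpb 2 * (K.dpb 2 * K.mu x) = 0 := by rw [← mul_assoc, e1, zero_mul]
  rw [e]
  simp only [Fk.rho, nu]
  generalize (∑ k, K.tcthk k x) = th at e2 ⊢
  generalize (∑ k, K.tccck k) = C at e3 ⊢
  generalize K.mu x = μ at e2 e3 e4 ⊢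
  generalize K.dpb 2 = d at e1 e2 e3 e4 ⊢
  generalize K.eeT x = T
  generalize Complex.exp _ = E
  have hm := tcm_ne (K := K)
  generalize (K.f0 : ℂ) = m at hm ⊢
  generalize (qp x : ℂ) = q'
  generalize (wsq x : ℂ) = N
  generalize K.qq x = q
  generalize K.ph 2 x = z
  have e5 : ∀ X : F →L[ℂ] F, th * (d * (μ * X)) = d * (μ * (th * X)) := by
    intro X
    have := congrArg (· * X) e2
    simpa only [mul_assoc] using this
  have e6 : ∀ X : F →L[ℂ] F, d * (μ * (d * (C * X))) = 0 := by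
    intro X
    have := congrArg (· * X) e3
    simpa only [mul_assoc, zero_mul] using this
  have e7 : ∀ X : F →L[ℂ] F, d * (d * X) = 0 := by
    intro X
    rw [← mul_assoc, e1, zero_mul]
  simp only [smul_mul_assoc, mul_smul_comm, mul_add, add_mul, sub_mul, mul_sub, neg_mul,
    mul_one, one_mul, mul_assoc, e5, e6, e7, smul_zero, add_zero, zero_add, smul_add,
    smul_neg, smul_sub, smul_smul]
  clear e2 e3 e4 e5 e6 e7 h1 h2 e hth e1
  have hI := Complex.I_sq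
  match_scalars
  · field_simp
    linear_combination (2 * E * q * z) * hI
  · field_simp
    linear_combination (E * N * z * q') * hI
  · field_simp
    linear_combination (2 * Complex.I * q' * E * q * z) * hI
  · field_simp
    ring

/-! ### the theorems -/

variable (K) in
/-- the operator form of `aT` -/
noncomputable def tcPT (x : X3) : F →L[ℂ] F :=
  K.ph 2 x • ((Complex.exp (-(ss x * tcsb x)) • K.tau0 x) *
    (Complex.exp (-(∑ k, (K.bb k x : ℂ) ^ 2)) • K.bet x) *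
    (Complex.exp (-(K.qq x * K.ph 2 x * (wsq x : ℂ))) • (K.rho x * K.eeT x)))

theorem tcGD.tcPT : K.tcGD (-1) K.tcPT (fun _ => 0) := by
  have h := tcGD.smul (tcSD.ph (K := K) 2) ((tcGD.P1.mul tcGD.P2).mul tcGD.P3)
  rw [one_mul, mul_one] at h
  exact h.congr (fun x => by rw [Fk.tcPT]) (fun x => by simp)

theorem tcss_sb (x : X3) : ss x * tcsb x = ((‖ss x‖ ^ 2 : ℝ) : ℂ) := by
  have h : tcsb x = (starRingEnd ℂ) (ss x) := by
    simp only [tcsb, ss, tcwb, map_sum, map_pow, map_add, map_mul, Complex.conj_ofReal, Complex.conj_I]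
    refine Finset.sum_congr rfl fun k _ => ?_
    ring
  rw [h, Complex.mul_conj, Complex.normSq_eq_norm_sq]

theorem tcaT_eq (x : X3) : K.aT x = K.tcPT x K.vac := by
  have h1 : ((Real.exp (-K.expo x) : ℝ) : ℂ) = Complex.exp (-(ss x * tcsb x)) *
      Complex.exp (-(∑ k, (K.bb k x : ℂ) ^ 2)) * Complex.exp (-(K.qq x * K.ph 2 x * (wsq x : ℂ))) := by
    rw [← Complex.exp_add, ← Complex.exp_add, Complex.ofReal_exp, tcss_sb]
    congr 1
    simp only [expo, qq]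
    push_cast
    rw [tcr3_eq (K := K)]
    ring
  rw [aT, tcPT, h1]
  simp only [smul_mul_assoc, mul_smul_comm, smul_smul, mul_assoc, smul_apply]
  congr 1
  ring

theorem tcmulA (S T : F →L[ℂ] F) (v : F) : (S * T) v = S (T v) := rfl

theorem tcclm_eval {P : X3 → F →L[ℂ] F} {x : X3} (hP : DifferentiableAt ℝ P x) (v : F) (i : Fin 9)
    (A : Fin 3) : pd i A (fun y => P y v) x = fderiv ℝ P x (tcdir i A) v := by
  rw [pd_clm_apply (u := fun _ => v) hP (differentiableAt_const v)]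
  simp [pd]


variable (K)

theorem contDiff_aT : ContDiff ℝ ∞ K.aT := by
  have h : K.aT = fun x => K.tcPT x K.vac := funext tcaT_eq
  rw [h]
  exact Setup.contDiff_clm_apply' (tcGD.tcPT).cd contDiff_const

theorem tccontDiff_phb (A : Fin 3) : ContDiff ℝ ∞ (K.phb A) := (tcSD.phb A).cd

theorem tccontDiff_perp2 : ContDiff ℝ ∞ perp2 := by
  unfold perp2
  exact (((Setup.contDiff_coord _).pow 2).add ((Setup.contDiff_coord _).pow 2)).add
    ((Setup.contDiff_coord _).pow 2) |>.add ((Setup.contDiff_coord _).pow 2)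

theorem tccontDiff_dph (A : Fin 3) {u : X3 → F} (hu : ContDiff ℝ ∞ u) :
    ContDiff ℝ ∞ (K.dph A u) := by
  unfold dph
  exact ((contDiff_pd hu).sub ((contDiff_pd hu).const_smul _)).const_smul _

theorem tccontDiff_clm (T : F →L[ℂ] F) {u : X3 → F} (hu : ContDiff ℝ ∞ u) :
    ContDiff ℝ ∞ (fun x => T (u x)) := Setup.contDiff_clm_apply' contDiff_const hu

theorem tccontDiff_KK0 (t : ℝ) : ContDiff ℝ ∞ (K.KK0 t) := by
  have h := K.contDiff_aT
  have hi : ∀ A, ContDiff ℝ ∞ fun x => K.io A x (K.aT x) := fun A =>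
    Setup.contDiff_clm_apply' (K.contDiff_io A) h
  unfold KK0
  refine ((((ContDiff.neg ((K.tccontDiff_dph 2 h).const_smul _)).add ?_).sub ?_).sub ?_).add ?_
  · exact Setup.contDiff_clm_apply' (K.contDiff_io 1) (hi 0)
  · exact (contDiff_const.mul (K.tccontDiff_phb 2)).smul h
  · exact (tccontDiff_clm _ (tccontDiff_clm _ h)).const_smul _
  · exact ((tccontDiff_clm _ (hi 1)).sub (tccontDiff_clm _ (hi 0))).const_smul _

theorem contDiff_KK (t : ℝ) : ContDiff ℝ ∞ (K.KK t) := by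
  unfold KK
  exact (Setup.contDiff_ofReal (contDiff_const.mul tccontDiff_perp2).exp).smul (K.tccontDiff_KK0 t)

theorem contDiff_Ps (t : ℝ) : ContDiff ℝ ∞ (K.Ps t) := by
  unfold Ps
  exact (Setup.contDiff_ofReal K.contDiff_hh.neg.exp).smul (K.contDiff_KK t)

theorem contDiff_uu (t : ℝ) (A : Fin 3) : ContDiff ℝ ∞ (K.uu t A) := by
  unfold uu
  exact (Setup.contDiff_ofReal (contDiff_const.mul tccontDiff_perp2).exp).smul
    ((Setup.contDiff_clm_apply' (K.contDiff_io A) K.contDiff_aT).sub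
      ((tccontDiff_clm _ K.contDiff_aT).const_smul _))

theorem tcio_vac (A : Fin 3) (x : X3) : K.io A x K.vac = 0 := by
  simp [io, K.a_vac]

theorem D0_aT (x : X3) : K.D0 K.aT x =
    K.nu • (K.ph 0 x • K.io 0 x (K.aT x) + K.ph 1 x • K.io 1 x (K.aT x)) := by
  have hP := tcGD.tcPT (K := K)
  have h : K.aT = fun x => K.tcPT x K.vac := funext tcaT_eq
  have h1 : K.dd K.aT x = K.tcdO K.tcPT x K.vac := by
    simp only [h, dd, tcdO, tcclm_eval (hP.df x), add_apply, sum_apply, smul_apply,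
      tcmulA, tcdir]
  have h2 := congrArg (fun T : F →L[ℂ] F => T K.vac) (hP.der x)
  simp only [neg_one_smul, sub_neg_eq_add, add_apply, smul_apply, tcmulA,
    K.tcio_vac, map_zero, add_zero, zero_apply] at h2
  rw [← h1, ← tcaT_eq] at h2
  rw [D0, Fin.sum_univ_three, eq_neg_of_add_eq_zero_left h2]
  module

theorem tcaT_congr {x y : X3} (h : ∀ k A, x (e9 k, A) = y (e9 k, A)) (h7 : x (7, 2) = y (7, 2))
    (h8 : x (8, 2) = y (8, 2)) : K.aT x = K.aT y := by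
  simp only [aT, expo, ss, bb, kap, gg, r3, wsq, ph, tau0, ds, dsb, bet, db, dkap, rho, qp, mu, eeT,
    qq, phb, h, h7, h8]

theorem tcpd_aT (i : Fin 9) (hi : i = 7 ∨ i = 8) (A : Fin 3) (hA : A ≠ 2) (x : X3) :
    pd i A K.aT x = 0 := by
  have hd : DifferentiableAt ℝ K.aT x := (K.contDiff_aT.differentiable (by simp)) x
  rw [pd, ← hd.lineDeriv_eq_fderiv, lineDeriv]
  have h : (fun t : ℝ => K.aT (x + t • (EuclideanSpace.single (i, A) (1 : ℝ) : X3))) =
      fun _ => K.aT x := by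
    funext t
    refine K.tcaT_congr (fun k B => ?_) ?_ ?_
    · have : (e9 k, B) ≠ (i, A) := by
        rintro ⟨⟩
        rcases hi with h | h
        · exact tce9_ne7 k h
        · exact tce9_ne8 k h
      simp [this]
    · have : ((7 : Fin 9), (2 : Fin 3)) ≠ (i, A) := by
        rintro ⟨⟩
        exact hA rfl
      simp [this]
    · have : ((8 : Fin 9), (2 : Fin 3)) ≠ (i, A) := by
        rintro ⟨⟩
        exact hA rfl
      simp [this]
  rw [h, deriv_const]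

theorem dph_aT_0 (x : X3) : K.dph 0 K.aT x = 0 := by
  rw [dph, K.tcpd_aT 7 (Or.inl rfl) 0 (by decide), K.tcpd_aT 8 (Or.inr rfl) 0 (by decide)]
  simp

theorem dph_aT_1 (x : X3) : K.dph 1 K.aT x = 0 := by
  rw [dph, K.tcpd_aT 7 (Or.inl rfl) 1 (by decide), K.tcpd_aT 8 (Or.inr rfl) 1 (by decide)]
  simp

theorem tca7_aT (A : Fin 3) (hA : A ≠ 2) (x : X3) : K.a 7 A (K.aT x) = 0 := by
  have h := congrArg (fun T : F →L[ℂ] F => T K.vac) ((tcGD.tcPT (K := K)).com7 x A hA)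
  simp only [smul_apply, tcmulA, K.a_vac, map_zero, smul_zero] at h
  rw [tcaT_eq]
  exact h

theorem a7_aT_0 (x : X3) : K.a 7 0 (K.aT x) = 0 := K.tca7_aT 0 (by decide) x

theorem a7_aT_1 (x : X3) : K.a 7 1 (K.aT x) = 0 := K.tca7_aT 1 (by decide) x

end Fk

end Vale.Agent.P353.Ex
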