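import Vale.Agent.P353.Ex.Group
import Vale.Agent.P353.Ex.TClosed

/-! Task EX-17: equivariance of the `T`-level form and of the induced form.

Under `Tel θ`: `w → e^{∓2iθ} w`, `s` gets a phase, `κ, b, μ, |w|², φ_2, db, dκ, ds ds̄, dx¹dx²`
(summed or single `k`) are invariant.  Under `Wel` (`x¹ → x¹, x² → -x², x³ → -x³`,
`φ_2 → -φ_2`): `s ↔ s̄` (`ds ↔ ds̄`), `κ → -κ`, `b → -b`, `μ → -μ`, so
`tau0 → -tau0` (uses `ds̄ ds = - ds ds̄`), `bet → -bet` (7 factors), `rho, eeT` invariant, and the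
prefactor `z → -z`; total sign `-1`. -/

open MeasureTheory Filter Topology
open scoped ContDiff ComplexConjugate

namespace Vale.Agent.P353.Ex

variable {F : Type*} [NormedAddCommGroup F] [InnerProductSpace ℂ F]

private lemma act_coord (U : SU2) (x : X3) (i : Fin 9) (B : Fin 3) :
    act U x (i, B) = rotm U B 0 * x (i, 0) + rotm U B 1 * x (i, 1) + rotm U B 2 * x (i, 2) := by
  simp only [act, Fin.sum_univ_three]

private lemma wel_0 (x : X3) (i : Fin 9) : act Wel x (i, 0) = x (i, 0) := by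
  rw [act_coord]; simp [rotm_Wel]

private lemma wel_1 (x : X3) (i : Fin 9) : act Wel x (i, 1) = - x (i, 1) := by
  rw [act_coord]; simp [rotm_Wel]

private lemma wel_2 (x : X3) (i : Fin 9) : act Wel x (i, 2) = - x (i, 2) := by
  rw [act_coord]; simp [rotm_Wel]

private lemma tel_0 (θ : ℝ) (x : X3) (i : Fin 9) :
    act (Tel θ) x (i, 0) = Real.cos (2 * θ) * x (i, 0) + Real.sin (2 * θ) * x (i, 1) := by
  rw [act_coord]; simp [rotm_Tel]

private lemma tel_1 (θ : ℝ) (x : X3) (i : Fin 9) :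
    act (Tel θ) x (i, 1) = -Real.sin (2 * θ) * x (i, 0) + Real.cos (2 * θ) * x (i, 1) := by
  rw [act_coord]; simp [rotm_Tel]

private lemma tel_2 (θ : ℝ) (x : X3) (i : Fin 9) : act (Tel θ) x (i, 2) = x (i, 2) := by
  rw [act_coord]; simp [rotm_Tel]

namespace Fk

variable (K : Fk F)

private lemma wc0 (i : Fin 8) : K.S Wel * K.c i 0 = K.c i 0 * K.S Wel := by
  rw [K.S_c, Fin.sum_univ_three]; simp [rotm_Wel]

private lemma wc1 (i : Fin 8) : K.S Wel * K.c i 1 = -(K.c i 1 * K.S Wel) := by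
  rw [K.S_c, Fin.sum_univ_three]; simp [rotm_Wel]

private lemma wc2 (i : Fin 8) : K.S Wel * K.c i 2 = -(K.c i 2 * K.S Wel) := by
  rw [K.S_c, Fin.sum_univ_three]; simp [rotm_Wel]

private lemma wa0 (i : Fin 8) : K.S Wel * K.a i 0 = K.a i 0 * K.S Wel := by
  rw [K.S_a, Fin.sum_univ_three]; simp [rotm_Wel]

private lemma wa1 (i : Fin 8) : K.S Wel * K.a i 1 = -(K.a i 1 * K.S Wel) := by
  rw [K.S_a, Fin.sum_univ_three]; simp [rotm_Wel]

private lemma wa2 (i : Fin 8) : K.S Wel * K.a i 2 = -(K.a i 2 * K.S Wel) := by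
  rw [K.S_a, Fin.sum_univ_three]; simp [rotm_Wel]

private lemma tc0 (θ : ℝ) (i : Fin 8) : K.S (Tel θ) * K.c i 0 =
    ((Real.cos (2 * θ) : ℝ) : ℂ) • (K.c i 0 * K.S (Tel θ)) -
    ((Real.sin (2 * θ) : ℝ) : ℂ) • (K.c i 1 * K.S (Tel θ)) := by
  rw [K.S_c, Fin.sum_univ_three, sub_eq_add_neg, ← neg_smul]; simp [rotm_Tel]

private lemma tc1 (θ : ℝ) (i : Fin 8) : K.S (Tel θ) * K.c i 1 =
    ((Real.sin (2 * θ) : ℝ) : ℂ) • (K.c i 0 * K.S (Tel θ)) +
    ((Real.cos (2 * θ) : ℝ) : ℂ) • (K.c i 1 * K.S (Tel θ)) := by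
  rw [K.S_c, Fin.sum_univ_three]; simp [rotm_Tel]

private lemma tc2 (θ : ℝ) (i : Fin 8) : K.S (Tel θ) * K.c i 2 = K.c i 2 * K.S (Tel θ) := by
  rw [K.S_c, Fin.sum_univ_three]; simp [rotm_Tel]


private lemma anti_c (i : Fin 8) (A : Fin 3) (j : Fin 8) (B : Fin 3) :
    K.c i A * K.c j B = -(K.c j B * K.c i A) := eq_neg_of_add_eq_zero_left (K.cc i A j B)

/-! ### Weyl element, algebra -/

private lemma wel_ds (x : X3) : K.ds (act Wel x) * K.S Wel = K.S Wel * K.dsb x := by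
  unfold ds dsb
  rw [Finset.sum_mul, Finset.mul_sum]
  refine Finset.sum_congr rfl fun i _ => ?_
  rw [wel_0, wel_1, smul_mul_assoc, mul_smul_comm, add_mul, mul_sub (K.S Wel), mul_smul_comm,
    smul_mul_assoc,
    K.wc0, K.wc1]
  push_cast
  module

private lemma wel_dsb (x : X3) : K.dsb (act Wel x) * K.S Wel = K.S Wel * K.ds x := by
  unfold ds dsb
  rw [Finset.sum_mul, Finset.mul_sum]
  refine Finset.sum_congr rfl fun i _ => ?_
  rw [wel_0, wel_1, smul_mul_assoc, mul_smul_comm, sub_mul, mul_add (K.S Wel), mul_smul_comm,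
    smul_mul_assoc,
    K.wc0, K.wc1]
  push_cast
  module

/-- linear combinations of creation operators anticommute -/
private lemma lin_anti {ι : Type*} (s t : Finset ι) (f g : ι → F →L[ℂ] F)
    (h : ∀ i j, f i * g j = -(g j * f i)) :
    (∑ i ∈ s, f i) * (∑ j ∈ t, g j) = -((∑ j ∈ t, g j) * (∑ i ∈ s, f i)) := by
  rw [Finset.sum_mul_sum, Finset.sum_mul_sum, Finset.sum_comm, ← Finset.sum_neg_distrib]
  refine Finset.sum_congr rfl fun i _ => ?_
  rw [← Finset.sum_neg_distrib]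
  exact Finset.sum_congr rfl fun j _ => h j i

private lemma ds_dsb (x : X3) : K.ds x * K.dsb x = -(K.dsb x * K.ds x) := by
  unfold ds dsb
  refine lin_anti _ _ _ _ fun i j => ?_
  simp only [smul_mul_assoc, mul_smul_comm, add_mul, mul_sub, mul_add, sub_mul, smul_smul]
  rw [K.anti_c (e8 i) 0 (e8 j) 0, K.anti_c (e8 i) 0 (e8 j) 1, K.anti_c (e8 i) 1 (e8 j) 0,
    K.anti_c (e8 i) 1 (e8 j) 1]
  module

private lemma wel_ph2 (x : X3) : K.ph 2 (act Wel x) = - K.ph 2 x := by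
  unfold ph
  rw [wel_2, wel_2]; push_cast; ring

private lemma wel_phb2 (x : X3) : K.phb 2 (act Wel x) = - K.phb 2 x := by
  unfold phb
  rw [wel_2, wel_2]; push_cast; ring

private lemma wel_phb1 (x : X3) : K.phb 1 (act Wel x) = - K.phb 1 x := by
  unfold phb
  rw [wel_1, wel_1]; push_cast; ring

private lemma wel_phb0 (x : X3) : K.phb 0 (act Wel x) = K.phb 0 x := by
  unfold phb
  rw [wel_0, wel_0]

private lemma wel_tau0 (x : X3) : K.tau0 (act Wel x) * K.S Wel = -(K.S Wel * K.tau0 x) := by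
  have h1 : K.ds (act Wel x) * K.dsb (act Wel x) * K.S Wel = -(K.S Wel * (K.ds x * K.dsb x)) := by
    rw [mul_assoc, wel_dsb, ← mul_assoc, wel_ds, mul_assoc, K.ds_dsb x, mul_neg, neg_neg]
  unfold tau0
  rw [sub_mul, mul_sub, smul_mul_assoc, smul_mul_assoc, h1, wel_ph2, mul_smul_comm, mul_smul_comm,
    one_mul, mul_one]
  module

private lemma wel_r3 (x : X3) : r3 (act Wel x) = r3 x := by
  unfold r3; rw [wel_2, wel_2]; ring

private lemma wel_gg (x : X3) : gg (act Wel x) = gg x := by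
  unfold gg; rw [wel_r3]

private lemma wel_qq (x : X3) : K.qq (act Wel x) = - K.qq x := by
  unfold qq; rw [wel_gg, wel_phb2]; ring

private lemma wel_qp (x : X3) : qp (act Wel x) = qp x := by
  unfold qp; rw [wel_gg, wel_r3]

private lemma wel_wsq (x : X3) : wsq (act Wel x) = wsq x := by
  unfold wsq
  refine Finset.sum_congr rfl fun i _ => ?_
  rw [wel_0, wel_1]; ring

private lemma wel_ss (x : X3) : ss (act Wel x) = conj (ss x) := by
  unfold ss
  rw [map_sum]
  refine Finset.sum_congr rfl fun i _ => ?_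
  rw [wel_0, wel_1]
  simp only [map_pow, map_add, map_mul, Complex.conj_ofReal, Complex.conj_I]
  push_cast; ring

private lemma wel_kap (k : Fin 7) (x : X3) : K.kap k (act Wel x) = - K.kap k x := by
  unfold kap
  rw [← Finset.sum_neg_distrib]
  refine Finset.sum_congr rfl fun i _ => ?_
  rw [← Finset.sum_neg_distrib]
  refine Finset.sum_congr rfl fun j _ => ?_
  rw [wel_0, wel_1]; ring

private lemma wel_bb (k : Fin 7) (x : X3) : K.bb k (act Wel x) = - K.bb k x := by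
  unfold bb
  rw [wel_kap, wel_2]; ring

private lemma wel_expo (x : X3) : K.expo (act Wel x) = K.expo x := by
  unfold expo
  rw [wel_ss, wel_gg, wel_r3, wel_wsq, RCLike.norm_conj]
  congr 2
  refine Finset.sum_congr rfl fun k _ => ?_
  rw [wel_bb, neg_sq]

private lemma wel_dkap (k : Fin 7) (x : X3) :
    K.dkap k (act Wel x) * K.S Wel = -(K.S Wel * K.dkap k x) := by
  unfold dkap
  simp only [Finset.sum_mul, Finset.mul_sum, ← Finset.sum_neg_distrib]
  refine Finset.sum_congr rfl fun i _ => Finset.sum_congr rfl fun j _ => ?_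
  rw [wel_0, wel_1]
  simp only [smul_mul_assoc, mul_smul_comm, add_mul, mul_add, K.wc0, K.wc1]
  push_cast
  module

private lemma wel_db (k : Fin 7) (x : X3) :
    K.db k (act Wel x) * K.S Wel = -(K.S Wel * K.db k x) := by
  unfold db
  rw [sub_mul, mul_sub, smul_mul_assoc, mul_smul_comm, wel_dkap, K.wc2]
  module

private lemma wel_mu (x : X3) : K.mu (act Wel x) * K.S Wel = -(K.S Wel * K.mu x) := by
  unfold mu
  simp only [Finset.sum_mul, Finset.mul_sum, ← Finset.sum_neg_distrib]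
  refine Finset.sum_congr rfl fun i _ => ?_
  rw [wel_0, wel_1]
  simp only [smul_mul_assoc, mul_smul_comm, sub_mul, mul_sub, K.wc0, K.wc1]
  push_cast
  module

/-- intertwining of products of lists -/
private lemma list_prod_tw (S : F →L[ℂ] F) {n : ℕ} (f g : Fin n → F →L[ℂ] F)
    (h : ∀ k, f k * S = S * g k) : (List.ofFn f).prod * S = S * (List.ofFn g).prod := by
  induction n with
  | zero => simp
  | succ n ih =>
    rw [List.ofFn_succ, List.ofFn_succ, List.prod_cons, List.prod_cons, mul_assoc,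
      ih (fun k => f k.succ) (fun k => g k.succ) fun k => h _, ← mul_assoc, h, mul_assoc]

private lemma list_prod_anti (S : F →L[ℂ] F) {n : ℕ} (f g : Fin n → F →L[ℂ] F)
    (h : ∀ k, f k * S = -(S * g k)) :
    (List.ofFn f).prod * S = (-1 : ℂ) ^ n • (S * (List.ofFn g).prod) := by
  induction n with
  | zero => simp
  | succ n ih =>
    rw [List.ofFn_succ, List.ofFn_succ, List.prod_cons, List.prod_cons, mul_assoc,
      ih (fun k => f k.succ) (fun k => g k.succ) fun k => h _, mul_smul_comm, ← mul_assoc, h,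
      pow_succ, mul_smul, neg_mul, mul_assoc, smul_comm, neg_one_smul, smul_neg]

private lemma wel_bet (x : X3) : K.bet (act Wel x) * K.S Wel = -(K.S Wel * K.bet x) := by
  unfold bet
  rw [list_prod_anti _ _ _ fun k => K.wel_db k x]
  norm_num

private lemma wel_rho (x : X3) : K.rho (act Wel x) * K.S Wel = K.S Wel * K.rho x := by
  have h : K.dpb 2 * K.mu (act Wel x) * K.S Wel = K.S Wel * (K.dpb 2 * K.mu x) := by
    unfold dpb
    rw [mul_assoc, wel_mu, smul_mul_assoc, smul_mul_assoc, mul_smul_comm, mul_neg, ← mul_assoc,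
      ← mul_assoc, K.wc2, neg_mul]
  unfold rho
  rw [add_mul, mul_add, one_mul, mul_one, smul_mul_assoc, h, mul_smul_comm, wel_qp]

private lemma wel_eeT (x : X3) : K.eeT (act Wel x) * K.S Wel = K.S Wel * K.eeT x := by
  unfold eeT
  refine list_prod_tw _ _ _ fun k => ?_
  have h : K.c (e8 k) 0 * K.c (e8 k) 1 * K.S Wel = -(K.S Wel * (K.c (e8 k) 0 * K.c (e8 k) 1)) := by
    rw [← mul_assoc, K.wc0, mul_assoc (K.c (e8 k) 0) (K.S Wel), K.wc1, mul_neg, neg_neg, mul_assoc]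
  rw [add_mul, mul_add, one_mul, mul_one, smul_mul_assoc, h, mul_smul_comm, wel_qq]
  module

theorem aT_Wel (x : X3) : K.aT (act Wel x) = - K.S Wel (K.aT x) := by
  have h : K.tau0 (act Wel x) * K.bet (act Wel x) * K.rho (act Wel x) * K.eeT (act Wel x) *
      K.S Wel = K.S Wel * (K.tau0 x * K.bet x * K.rho x * K.eeT x) := by
    rw [mul_assoc, wel_eeT, ← mul_assoc, mul_assoc _ (K.rho (act Wel x)), wel_rho, ← mul_assoc,
      mul_assoc (K.tau0 (act Wel x)), wel_bet, mul_neg, ← mul_assoc, wel_tau0]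
    simp only [neg_mul, neg_neg, mul_assoc]
  have h2 := congrArg (fun T : F →L[ℂ] F => T K.vac) h
  simp only [mul_apply_eq_comp, K.S_vac] at h2
  unfold aT
  simp only [mul_apply_eq_comp, wel_expo, wel_ph2, map_smul, h2]
  module

/-! ### torus, algebra -/

private lemma cs_sq (θ : ℝ) : Real.cos (2 * θ) ^ 2 + Real.sin (2 * θ) ^ 2 = 1 := by
  rw [add_comm]; exact Real.sin_sq_add_cos_sq _

private lemma cs_mul (θ : ℝ) : ((Real.cos (2 * θ) : ℂ) - Complex.I * (Real.sin (2 * θ) : ℂ)) *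
    ((Real.cos (2 * θ) : ℂ) + Complex.I * (Real.sin (2 * θ) : ℂ)) = 1 := by
  have h : ((Real.cos (2 * θ) : ℂ)) ^ 2 + (Real.sin (2 * θ) : ℂ) ^ 2 = 1 := by
    exact_mod_cast cs_sq θ
  have h2 := Complex.I_sq
  linear_combination h - (Real.sin (2 * θ) : ℂ) ^ 2 * h2

private lemma tel_w (θ : ℝ) (x : X3) (i : Fin 9) :
    (act (Tel θ) x (i, 0) : ℂ) + Complex.I * (act (Tel θ) x (i, 1) : ℂ) =
    ((Real.cos (2 * θ) : ℂ) - Complex.I * (Real.sin (2 * θ) : ℂ)) *
      ((x (i, 0) : ℂ) + Complex.I * (x (i, 1) : ℂ)) := by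
  rw [tel_0, tel_1]
  push_cast
  have h2 := Complex.I_sq
  linear_combination (Complex.sin (2 * θ) * (x (i, 1) : ℂ)) * h2

private lemma tel_wb (θ : ℝ) (x : X3) (i : Fin 9) :
    (act (Tel θ) x (i, 0) : ℂ) - Complex.I * (act (Tel θ) x (i, 1) : ℂ) =
    ((Real.cos (2 * θ) : ℂ) + Complex.I * (Real.sin (2 * θ) : ℂ)) *
      ((x (i, 0) : ℂ) - Complex.I * (x (i, 1) : ℂ)) := by
  rw [tel_0, tel_1]
  push_cast
  have h2 := Complex.I_sq
  linear_combination (Complex.sin (2 * θ) * (x (i, 1) : ℂ)) * h2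

private lemma tel_ds (θ : ℝ) (x : X3) : K.ds (act (Tel θ) x) =
    ((Real.cos (2 * θ) : ℂ) - Complex.I * (Real.sin (2 * θ) : ℂ)) • K.ds x := by
  unfold ds
  rw [Finset.smul_sum]
  refine Finset.sum_congr rfl fun i _ => ?_
  rw [tel_w, smul_smul]
  congr 1
  ring

private lemma tel_dsb (θ : ℝ) (x : X3) : K.dsb (act (Tel θ) x) =
    ((Real.cos (2 * θ) : ℂ) + Complex.I * (Real.sin (2 * θ) : ℂ)) • K.dsb x := by
  unfold dsb
  rw [Finset.smul_sum]
  refine Finset.sum_congr rfl fun i _ => ?_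
  rw [tel_wb, smul_smul]
  congr 1
  ring

private lemma tel_S_ds (θ : ℝ) (x : X3) : K.S (Tel θ) * K.ds x =
    ((Real.cos (2 * θ) : ℂ) + Complex.I * (Real.sin (2 * θ) : ℂ)) • (K.ds x * K.S (Tel θ)) := by
  have h0 := K.tc0 θ
  have h1 := K.tc1 θ
  generalize Real.cos (2 * θ) = c at *
  generalize Real.sin (2 * θ) = s at *
  unfold ds
  rw [Finset.sum_mul, Finset.mul_sum, Finset.smul_sum]
  refine Finset.sum_congr rfl fun i _ => ?_
  simp only [smul_mul_assoc, mul_smul_comm, add_mul, mul_add (K.S (Tel θ)), h0, h1]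
  match_scalars
  · ring
  · linear_combination (-2 * (s : ℂ) *
      ((x (e9 i, 0) : ℂ) + Complex.I * (x (e9 i, 1) : ℂ))) * Complex.I_sq

private lemma tel_S_dsb (θ : ℝ) (x : X3) : K.S (Tel θ) * K.dsb x =
    ((Real.cos (2 * θ) : ℂ) - Complex.I * (Real.sin (2 * θ) : ℂ)) • (K.dsb x * K.S (Tel θ)) := by
  have h0 := K.tc0 θ
  have h1 := K.tc1 θ
  generalize Real.cos (2 * θ) = c at *
  generalize Real.sin (2 * θ) = s at *
  unfold dsb
  rw [Finset.sum_mul, Finset.mul_sum, Finset.smul_sum]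
  refine Finset.sum_congr rfl fun i _ => ?_
  simp only [smul_mul_assoc, mul_smul_comm, sub_mul, mul_sub (K.S (Tel θ)), h0, h1]
  match_scalars
  · ring
  · linear_combination (-2 * (s : ℂ) *
      ((x (e9 i, 0) : ℂ) - Complex.I * (x (e9 i, 1) : ℂ))) * Complex.I_sq

private lemma tel_dsdsb (θ : ℝ) (x : X3) :
    K.ds (act (Tel θ) x) * K.dsb (act (Tel θ) x) * K.S (Tel θ) =
      K.S (Tel θ) * (K.ds x * K.dsb x) := by
  have h := cs_mul θ
  rw [← mul_assoc (K.S (Tel θ)), K.tel_S_ds, smul_mul_assoc, mul_assoc (K.ds x), K.tel_S_dsb,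
    mul_smul_comm, smul_smul, K.tel_ds, K.tel_dsb, smul_mul_assoc, mul_smul_comm, smul_smul, h,
    mul_comm, h, one_smul, one_smul, mul_assoc]

private lemma tel_ph2 (θ : ℝ) (x : X3) : K.ph 2 (act (Tel θ) x) = K.ph 2 x := by
  unfold ph
  rw [tel_2, tel_2]

private lemma tel_phb2 (θ : ℝ) (x : X3) : K.phb 2 (act (Tel θ) x) = K.phb 2 x := by
  unfold phb
  rw [tel_2, tel_2]

private lemma tel_tau0 (θ : ℝ) (x : X3) :
    K.tau0 (act (Tel θ) x) * K.S (Tel θ) = K.S (Tel θ) * K.tau0 x := by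
  unfold tau0
  rw [sub_mul, mul_sub, smul_mul_assoc, smul_mul_assoc, K.tel_dsdsb, tel_ph2, mul_smul_comm,
    mul_smul_comm, one_mul, mul_one]

private lemma tel_r3 (θ : ℝ) (x : X3) : r3 (act (Tel θ) x) = r3 x := by
  unfold r3; rw [tel_2, tel_2]

private lemma tel_gg (θ : ℝ) (x : X3) : gg (act (Tel θ) x) = gg x := by
  unfold gg; rw [tel_r3]

private lemma tel_qq (θ : ℝ) (x : X3) : K.qq (act (Tel θ) x) = K.qq x := by
  unfold qq; rw [tel_gg, tel_phb2]

private lemma tel_qp (θ : ℝ) (x : X3) : qp (act (Tel θ) x) = qp x := by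
  unfold qp; rw [tel_gg, tel_r3]

private lemma tel_wsq (θ : ℝ) (x : X3) : wsq (act (Tel θ) x) = wsq x := by
  unfold wsq
  refine Finset.sum_congr rfl fun i _ => ?_
  rw [tel_0, tel_1]
  linear_combination (x (e9 i, 0) ^ 2 + x (e9 i, 1) ^ 2) * cs_sq θ

private lemma tel_ss (θ : ℝ) (x : X3) : ‖ss (act (Tel θ) x)‖ = ‖ss x‖ := by
  have h : ss (act (Tel θ) x) =
      ((Real.cos (2 * θ) : ℂ) - Complex.I * (Real.sin (2 * θ) : ℂ)) ^ 2 * ss x := by
    unfold ss
    rw [Finset.mul_sum]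
    refine Finset.sum_congr rfl fun i _ => ?_
    rw [tel_w, mul_pow]
  have h1 : ‖((Real.cos (2 * θ) : ℂ) - Complex.I * (Real.sin (2 * θ) : ℂ))‖ = 1 := by
    have h2 : ((Real.cos (2 * θ) : ℂ) - Complex.I * (Real.sin (2 * θ) : ℂ)) =
        Complex.exp (((-(2 * θ) : ℝ) : ℂ) * Complex.I) := by
      rw [Complex.exp_mul_I, ← Complex.ofReal_cos, ← Complex.ofReal_sin, Real.cos_neg, Real.sin_neg]
      push_cast; ring
    rw [h2, Complex.norm_exp_ofReal_mul_I]
  rw [h, norm_mul, norm_pow, h1, one_pow, one_mul]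

/-- antisymmetry of `t` for sums -/
private lemma t_anti {M : Type*} [AddCommGroup M] [Module ℂ M] (k : Fin 7) (f : Fin 7 → ℂ)
    (P : Fin 7 → M) : ∑ i, ∑ j, (K.t k i j : ℂ) • (f j • P i) =
      -∑ i, ∑ j, (K.t k i j : ℂ) • (f i • P j) := by
  rw [Finset.sum_comm, ← Finset.sum_neg_distrib]
  refine Finset.sum_congr rfl fun i _ => ?_
  rw [← Finset.sum_neg_distrib]
  refine Finset.sum_congr rfl fun j _ => ?_
  rw [K.t_swap k j i]
  push_cast
  rw [neg_smul]

private lemma t_self (k : Fin 7) (f : Fin 7 → ℝ) : ∑ i, ∑ j, K.t k i j * (f i * f j) = 0 := by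
  have h : ∑ i, ∑ j, K.t k i j * (f i * f j) = -∑ i, ∑ j, K.t k i j * (f i * f j) := by
    conv_lhs => rw [Finset.sum_comm]
    rw [← Finset.sum_neg_distrib]
    refine Finset.sum_congr rfl fun i _ => ?_
    rw [← Finset.sum_neg_distrib]
    refine Finset.sum_congr rfl fun j _ => ?_
    rw [K.t_swap k j i]
    ring
  linarith

private lemma t_cross (k : Fin 7) (f g : Fin 7 → ℝ) : ∑ i, ∑ j, K.t k i j * (g i * f j) =
    -∑ i, ∑ j, K.t k i j * (f i * g j) := by
  rw [Finset.sum_comm, ← Finset.sum_neg_distrib]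
  refine Finset.sum_congr rfl fun i _ => ?_
  rw [← Finset.sum_neg_distrib]
  refine Finset.sum_congr rfl fun j _ => ?_
  rw [K.t_swap k j i]
  ring

private lemma tel_kap (θ : ℝ) (k : Fin 7) (x : X3) : K.kap k (act (Tel θ) x) = K.kap k x := by
  have h1 := K.t_self k fun i => x (e9 i, 0)
  have h2 := K.t_self k fun i => x (e9 i, 1)
  have h3 := K.t_cross k (fun i => x (e9 i, 0)) fun i => x (e9 i, 1)
  have h4 : K.kap k x = ∑ i, ∑ j, K.t k i j * (x (e9 i, 0) * x (e9 j, 1)) := by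
    unfold kap
    exact Finset.sum_congr rfl fun i _ => Finset.sum_congr rfl fun j _ => mul_assoc _ _ _
  have h5 : K.kap k (act (Tel θ) x) =
      Real.cos (2 * θ) ^ 2 * ∑ i, ∑ j, K.t k i j * (x (e9 i, 0) * x (e9 j, 1)) -
      Real.sin (2 * θ) ^ 2 * ∑ i, ∑ j, K.t k i j * (x (e9 i, 1) * x (e9 j, 0)) +
      Real.cos (2 * θ) * Real.sin (2 * θ) * ∑ i, ∑ j, K.t k i j * (x (e9 i, 1) * x (e9 j, 1)) -
      Real.cos (2 * θ) * Real.sin (2 * θ) * ∑ i, ∑ j, K.t k i j * (x (e9 i, 0) * x (e9 j, 0)) := by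
    unfold kap
    simp only [Finset.mul_sum, ← Finset.sum_add_distrib, ← Finset.sum_sub_distrib]
    refine Finset.sum_congr rfl fun i _ => Finset.sum_congr rfl fun j _ => ?_
    rw [tel_0, tel_1]
    ring
  rw [h5, h1, h2, h3, ← h4]
  linear_combination (K.kap k x) * cs_sq θ

private lemma tel_bb (θ : ℝ) (k : Fin 7) (x : X3) : K.bb k (act (Tel θ) x) = K.bb k x := by
  unfold bb
  rw [tel_kap, tel_2]

private lemma tel_expo (θ : ℝ) (x : X3) : K.expo (act (Tel θ) x) = K.expo x := by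
  unfold expo
  rw [tel_ss, tel_gg, tel_r3, tel_wsq]
  simp only [tel_bb]

private lemma dkap_eq (k : Fin 7) (x : X3) : K.dkap k x =
    ∑ i, ∑ j, (K.t k i j : ℂ) • ((x (e9 i, 0) : ℂ) • K.c (e8 j) 1 - (x (e9 i, 1) : ℂ) • K.c (e8 j) 0) := by
  have h := K.t_anti k (fun i => (x (e9 i, 1) : ℂ)) fun i => K.c (e8 i) 0
  unfold dkap
  simp only [smul_add, smul_sub, Finset.sum_add_distrib, Finset.sum_sub_distrib]
  rw [h]
  abel

private lemma tel_dkap (θ : ℝ) (k : Fin 7) (x : X3) :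
    K.dkap k (act (Tel θ) x) * K.S (Tel θ) = K.S (Tel θ) * K.dkap k x := by
  have h0 := K.tc0 θ
  have h1 := K.tc1 θ
  have h2 := tel_0 θ x
  have h3 := tel_1 θ x
  rw [K.dkap_eq, K.dkap_eq]
  generalize Real.cos (2 * θ) = c at *
  generalize Real.sin (2 * θ) = s at *
  simp only [Finset.sum_mul, Finset.mul_sum]
  refine Finset.sum_congr rfl fun i _ => Finset.sum_congr rfl fun j _ => ?_
  rw [h2, h3]
  simp only [smul_mul_assoc, mul_smul_comm, sub_mul, mul_sub (K.S (Tel θ)), h0, h1]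
  push_cast
  module

private lemma tel_db (θ : ℝ) (k : Fin 7) (x : X3) :
    K.db k (act (Tel θ) x) * K.S (Tel θ) = K.S (Tel θ) * K.db k x := by
  unfold db
  rw [sub_mul, mul_sub, smul_mul_assoc, mul_smul_comm, tel_dkap, K.tc2]

private lemma tel_mu (θ : ℝ) (x : X3) :
    K.mu (act (Tel θ) x) * K.S (Tel θ) = K.S (Tel θ) * K.mu x := by
  have h0 := K.tc0 θ
  have h1 := K.tc1 θ
  have h2 := tel_0 θ x
  have h3 := tel_1 θ x
  generalize Real.cos (2 * θ) = c at *
  generalize Real.sin (2 * θ) = s at *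
  unfold mu
  simp only [Finset.sum_mul, Finset.mul_sum]
  refine Finset.sum_congr rfl fun i _ => ?_
  rw [h2, h3]
  simp only [smul_mul_assoc, mul_smul_comm, sub_mul, mul_sub (K.S (Tel θ)), h0, h1]
  push_cast
  module

private lemma tel_bet (θ : ℝ) (x : X3) :
    K.bet (act (Tel θ) x) * K.S (Tel θ) = K.S (Tel θ) * K.bet x :=
  list_prod_tw _ _ _ fun k => K.tel_db θ k x

private lemma tel_rho (θ : ℝ) (x : X3) :
    K.rho (act (Tel θ) x) * K.S (Tel θ) = K.S (Tel θ) * K.rho x := by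
  have h : K.dpb 2 * K.mu (act (Tel θ) x) * K.S (Tel θ) = K.S (Tel θ) * (K.dpb 2 * K.mu x) := by
    unfold dpb
    rw [mul_assoc, tel_mu, smul_mul_assoc, smul_mul_assoc, mul_smul_comm, ← mul_assoc,
      ← mul_assoc, K.tc2]
  unfold rho
  rw [add_mul, mul_add, one_mul, mul_one, smul_mul_assoc, h, mul_smul_comm, tel_qp]

private lemma tel_eeT (θ : ℝ) (x : X3) :
    K.eeT (act (Tel θ) x) * K.S (Tel θ) = K.S (Tel θ) * K.eeT x := by
  unfold eeT
  refine list_prod_tw _ _ _ fun k => ?_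
  have h : K.S (Tel θ) * (K.c (e8 k) 0 * K.c (e8 k) 1) =
      K.c (e8 k) 0 * K.c (e8 k) 1 * K.S (Tel θ) := by
    have h0 := K.tc0 θ
    have h1 := K.tc1 θ
    have h2 : K.c (e8 k) 0 * K.c (e8 k) 0 = 0 := by
      have := K.cc (e8 k) 0 (e8 k) 0
      rw [← two_smul ℂ] at this
      exact (smul_eq_zero.mp this).resolve_left two_ne_zero
    have h3 : K.c (e8 k) 1 * K.c (e8 k) 1 = 0 := by
      have := K.cc (e8 k) 1 (e8 k) 1
      rw [← two_smul ℂ] at this
      exact (smul_eq_zero.mp this).resolve_left two_ne_zero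
    have h4 := K.anti_c (e8 k) 1 (e8 k) 0
    have h5 : ((Real.cos (2 * θ) : ℝ) : ℂ) ^ 2 + ((Real.sin (2 * θ) : ℝ) : ℂ) ^ 2 = 1 := by
      exact_mod_cast cs_sq θ
    generalize Real.cos (2 * θ) = c at *
    generalize Real.sin (2 * θ) = s at *
    rw [← mul_assoc, h0, sub_mul, smul_mul_assoc, smul_mul_assoc, mul_assoc, mul_assoc, h1]
    simp only [mul_add, mul_smul_comm, ← mul_assoc, h2, h3, h4]
    simp only [zero_mul, smul_zero, zero_add, add_zero, neg_mul, smul_neg, sub_neg_eq_add,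
      smul_smul, ← add_smul, ← pow_two, h5, one_smul]
  rw [add_mul, mul_add, one_mul, mul_one, smul_mul_assoc, mul_smul_comm, h, tel_qq]

theorem aT_Tel (θ : ℝ) (x : X3) : K.aT (act (Tel θ) x) = K.S (Tel θ) (K.aT x) := by
  have h : K.tau0 (act (Tel θ) x) * K.bet (act (Tel θ) x) * K.rho (act (Tel θ) x) *
      K.eeT (act (Tel θ) x) * K.S (Tel θ) =
      K.S (Tel θ) * (K.tau0 x * K.bet x * K.rho x * K.eeT x) := by
    rw [mul_assoc, tel_eeT, ← mul_assoc, mul_assoc _ (K.rho (act (Tel θ) x)), tel_rho, ← mul_assoc,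
      mul_assoc (K.tau0 (act (Tel θ) x)), tel_bet, ← mul_assoc, tel_tau0]
    simp only [mul_assoc]
  have h2 := congrArg (fun T : F →L[ℂ] F => T K.vac) h
  simp only [mul_apply_eq_comp, K.S_vac] at h2
  unfold aT
  simp only [mul_apply_eq_comp, tel_expo, tel_ph2, map_smul, h2]

/-! ### the induced form -/

private lemma io0_eq (x : X3) : K.io 0 x = (∑ i : Fin 7, ((x (e9 i, 1) : ℂ) • K.a (e8 i) 2 -
    (x (e9 i, 2) : ℂ) • K.a (e8 i) 1)) +
    (1 / 2 : ℂ) • (K.phb 1 x • K.a 7 2 - K.phb 2 x • K.a 7 1) := by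
  simp only [io, Fin.sum_univ_three, eps]
  congr 1
  · refine Finset.sum_congr rfl fun i _ => ?_
    simp
    module
  · simp
    module

private lemma io1_eq (x : X3) : K.io 1 x = (∑ i : Fin 7, ((x (e9 i, 2) : ℂ) • K.a (e8 i) 0 -
    (x (e9 i, 0) : ℂ) • K.a (e8 i) 2)) +
    (1 / 2 : ℂ) • (K.phb 2 x • K.a 7 0 - K.phb 0 x • K.a 7 2) := by
  simp only [io, Fin.sum_univ_three, eps]
  congr 1
  · refine Finset.sum_congr rfl fun i _ => ?_
    simp
    module
  · simp
    module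

private lemma wel_io0 (x : X3) : K.io 0 (act Wel x) * K.S Wel = K.S Wel * K.io 0 x := by
  rw [io0_eq, io0_eq, add_mul, mul_add, Finset.sum_mul, Finset.mul_sum]
  congr 1
  · refine Finset.sum_congr rfl fun i _ => ?_
    rw [wel_1, wel_2]
    simp only [smul_mul_assoc, mul_smul_comm, sub_mul, mul_sub (K.S Wel), K.wa1, K.wa2]
    push_cast
    module
  · rw [K.wel_phb1, K.wel_phb2]
    simp only [smul_mul_assoc, mul_smul_comm, sub_mul, mul_sub (K.S Wel), K.wa1, K.wa2]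
    module

private lemma wel_io1 (x : X3) : K.io 1 (act Wel x) * K.S Wel = -(K.S Wel * K.io 1 x) := by
  rw [io1_eq, io1_eq, add_mul, mul_add, neg_add, Finset.sum_mul, Finset.mul_sum,
    ← Finset.sum_neg_distrib]
  congr 1
  · refine Finset.sum_congr rfl fun i _ => ?_
    rw [wel_0, wel_2]
    simp only [smul_mul_assoc, mul_smul_comm, sub_mul, mul_sub (K.S Wel), K.wa0, K.wa2]
    push_cast
    module
  · rw [K.wel_phb0, K.wel_phb2]
    simp only [smul_mul_assoc, mul_smul_comm, sub_mul, mul_sub (K.S Wel), K.wa0, K.wa2]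
    module

private lemma app_of_mul {P S T : F →L[ℂ] F} (h : P * S = S * T) (v : F) : P (S v) = S (T v) :=
  congrArg (fun R : F →L[ℂ] F => R v) h

private lemma app_of_mul_neg {P S T : F →L[ℂ] F} (h : P * S = -(S * T)) (v : F) :
    P (S v) = -S (T v) :=
  congrArg (fun R : F →L[ℂ] F => R v) h

private lemma wel_pd (i : Fin 9) (x : X3) :
    pd i 2 K.aT (act Wel x) = K.S Wel (pd i 2 K.aT x) := by
  have hd : Differentiable ℝ K.aT := K.contDiff_aT.differentiable (by simp)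
  have h1 : (fun y => K.aT (act Wel y)) = fun y => -K.S Wel (K.aT y) := by
    funext y; exact K.aT_Wel y
  have h2 : fderiv ℝ (fun y => K.aT (act Wel y)) x (EuclideanSpace.single (i, 2) 1) =
      fderiv ℝ K.aT (act Wel x) (act Wel (EuclideanSpace.single (i, 2) 1)) := by
    have h3 := (hd (act Wel x)).hasFDerivAt.comp x
      (f := act Wel) (actL Wel).toContinuousLinearEquiv.hasFDerivAt
    have h4 := h3.fderiv
    have h5 : (K.aT ∘ act Wel) = fun y => K.aT (act Wel y) := rfl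
    rw [h5] at h4
    rw [h4]
    rfl
  have h3 : act Wel (EuclideanSpace.single (i, 2) 1 : X3) = -(EuclideanSpace.single (i, 2) 1) := by
    ext p
    obtain ⟨j, A⟩ := p
    fin_cases A
    · simp only [Fin.zero_eta]; rw [wel_0]; simp
    · simp only [Fin.mk_one]; rw [wel_1]; simp
    · simp only [Fin.reduceFinMk]; rw [wel_2]; simp
  have h4 : fderiv ℝ (fun y => -K.S Wel (K.aT y)) x (EuclideanSpace.single (i, 2) 1) =
      -K.S Wel (pd i 2 K.aT x) := by
    have h5 := pd_clm (i := i) (A := (2 : Fin 3)) (K.S Wel) (hd x)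
    rw [fderiv_fun_neg, ← h5]
    rfl
  unfold pd at *
  rw [h1, h4, h3, map_neg] at h2
  exact (neg_injective h2).symm

private lemma wel_dph (x : X3) : K.dph 2 K.aT (act Wel x) = K.S Wel (K.dph 2 K.aT x) := by
  unfold dph
  rw [wel_pd, wel_pd, map_smul, map_sub, map_smul]

theorem Ps_Wel (t : ℝ) (x : X3) : K.Ps t (act Wel x) = K.S Wel (K.Ps t x) := by
  have e0 : ∀ v, K.dpb 0 (K.S Wel v) = K.S Wel (K.dpb 0 v) := app_of_mul (by
    unfold dpb; rw [smul_mul_assoc, mul_smul_comm, K.wc0])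
  have e1 : ∀ v, K.dpb 1 (K.S Wel v) = -K.S Wel (K.dpb 1 v) := app_of_mul_neg (by
    unfold dpb; rw [smul_mul_assoc, mul_smul_comm, K.wc1, smul_neg, neg_neg])
  have e2 := app_of_mul (K.wel_io0 x)
  have e3 := app_of_mul_neg (K.wel_io1 x)
  have hp : perp2 (act Wel x) = perp2 x := by
    unfold perp2; rw [wel_0, wel_0, wel_1, wel_1]; ring
  have hK : K.KK0 t (act Wel x) = K.S Wel (K.KK0 t x) := by
    unfold KK0
    rw [wel_dph, K.aT_Wel, wel_phb2]
    simp only [map_neg, map_add, map_sub, map_smul, e0, e1, e2, e3]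
    module
  unfold Ps KK
  rw [K.hh_act, hp, hK, map_smul, map_smul]

end Fk

end Vale.Agent.P353.Ex
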