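import Vale.Agent.P353.Ex.Lim1
import Vale.Agent.P353.Ex.Equiv

/-! Task EX-19: second limit `t → ∞` (localisation of the group average at the torus).

At `pr x` (`φ = z e_2`): `⟨xi, S(U) Ps_t(U⁻¹ pr x)⟩` is the sum of
(1) terms of order `t⁰`, (2) `t · f₂`, `f₂ = -(2/ν) φ̄_2(U⁻¹·) ⟨xi, S(U) e^{-h} aT(U⁻¹·)⟩`,
(3) `t · f₃` (the `dφ̄ ι` terms), (4) the `t²` term, which is zero: it contains the product of four
operators `c 7 _` between `vacb`-side and `vac`-side (`(a_7^0 a_7^1)* = c_7^1 c_7^0`, and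
`S(U) c_7^0 c_7^1` is a combination of products of two `c_7`'s times `S(U)`; among four there are
two equal).  On the torus (`vb v = 0`): `f₃ = 0` (three `c_7^{0,1}`'s) and
`f₂ = -(2/ν) z̄ ⟨xi, e^{-h} aT⟩` (`aT_Tel`); both are invariant under `v ↦ R v` (`Ps_Wel`, `aT_Wel`,
or term by term).  Pointwise limit for `z ≠ 0` by `sph_limit`, `sph_limit0`.
Outer dominated convergence: with `sph_bound` the integrand is bounded by
`C ze (1+ze) B0 (pr x) · (1+ze)² (1 + 1/ze) e^{-perp2 x} ≤ C (1+ze)⁴ e^{-perp2} B0`. -/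

open MeasureTheory Filter Topology
open scoped ContDiff ComplexConjugate

namespace Vale.Agent.P353.Ex

variable {F : Type*} [NormedAddCommGroup F] [InnerProductSpace ℂ F]

/-! ### the projection `pr` -/

private lemma l2_pr_e9 (x : X3) (i : Fin 7) (A : Fin 3) : pr x (e9 i, A) = x (e9 i, A) := by
  have h7 : (e9 i : Fin 9) ≠ 7 := by
    intro h; have := congrArg Fin.val h; simp at this; omega
  have h8 : (e9 i : Fin 9) ≠ 8 := by
    intro h; have := congrArg Fin.val h; simp at this; omega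
  simp [pr, h7, h8]

private lemma l2_pr_2 (x : X3) (i : Fin 9) : pr x (i, 2) = x (i, 2) := by simp [pr]

private lemma l2_perp_pr (x : X3) : Fk.perp2 (pr x) = 0 := by simp [Fk.perp2, pr]

private lemma l2_r3_pr (x : X3) : Fk.r3 (pr x) = Fk.r3 x := by simp [Fk.r3, l2_pr_2]

private lemma l2_ze_pr (x : X3) : Fk.ze (pr x) = Fk.ze x := by simp [Fk.ze, l2_r3_pr]

private lemma l2_B0_pr (x : X3) : Fk.B0 (pr x) = Fk.B0 x := by
  simp only [Fk.B0, Fk.x3sq, Fk.wsq, Fk.gg, l2_r3_pr, l2_pr_e9]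

private lemma l2_phb_pr (K : Fk F) (x : X3) : K.phb 2 (pr x) = K.phb 2 x := by
  simp [Fk.phb, l2_pr_2]

private lemma l2_continuous_pr : Continuous pr := by
  unfold pr
  refine (PiLp.continuous_toLp 2 _).comp (continuous_pi fun p => ?_)
  split_ifs
  · exact continuous_const
  · exact (EuclideanSpace.proj p).continuous

private lemma l2_phsq_pr (x : X3) : phsq (pr x) = Fk.r3 x := by
  rw [phsq_eq, l2_perp_pr, l2_r3_pr, zero_add]

private lemma l2_r3_nonneg (x : X3) : 0 ≤ Fk.r3 x := by unfold Fk.r3; positivity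

private lemma l2_perp_nonneg (x : X3) : 0 ≤ Fk.perp2 x := by unfold Fk.perp2; positivity

private lemma l2_ze_sq (x : X3) : Fk.ze x ^ 2 = Fk.r3 x := Real.sq_sqrt (l2_r3_nonneg x)

private lemma l2_ze_nonneg (x : X3) : 0 ≤ Fk.ze x := Real.sqrt_nonneg _

private lemma l2_ze_le (x : X3) : Fk.ze x ≤ Real.sqrt (phsq x) := by
  refine Real.sqrt_le_sqrt ?_
  rw [phsq_eq]
  linarith [l2_perp_nonneg x]

private lemma l2_perp_le (x : X3) : Real.sqrt (Fk.perp2 x) ≤ Real.sqrt (phsq x) := by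
  refine Real.sqrt_le_sqrt ?_
  rw [phsq_eq]
  linarith [l2_r3_nonneg x]

private lemma l2_B0_nonneg (x : X3) : 0 ≤ Fk.B0 x := (Real.exp_pos _).le

private lemma l2_B0_le (x : X3) : Fk.B0 x ≤ 1 := by
  unfold Fk.B0
  rw [Real.exp_le_one_iff]
  have h1 : 0 ≤ Fk.x3sq x := by unfold Fk.x3sq; positivity
  have h2 : 0 ≤ Fk.wsq x := by unfold Fk.wsq; positivity
  have h3 : 0 ≤ Fk.gg x := by unfold Fk.gg; positivity
  have h4 := mul_nonneg (mul_nonneg h3 (l2_r3_nonneg x)) h2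
  have h5 := sq_nonneg (Fk.wsq x)
  linarith

/-- the radius of the group translate of `pr x` is `|z|` -/
private lemma l2_rad (U : SU2) (x : X3) : Real.sqrt (phsq (act U (pr x))) = Fk.ze x := by
  rw [phsq_act, l2_phsq_pr, Fk.ze]

/-! ### the group -/

private lemma l2_act_inv (U : SU2) (x : X3) : act U⁻¹ x =
    WithLp.toLp 2 fun p => ∑ A, rotm U A p.2 * x (p.1, A) := by
  unfold act
  congr 1
  funext p
  refine Finset.sum_congr rfl fun A _ => ?_
  rw [rotm_inv]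

private lemma l2_continuous_act_inv (x : X3) : Continuous fun U : SU2 => act U⁻¹ x := by
  simp only [l2_act_inv]
  refine (PiLp.continuous_toLp 2 _).comp (continuous_pi fun p => ?_)
  exact continuous_finsetSum _ fun A _ => (continuous_rotm A p.2).mul continuous_const

private lemma l2_perp_Wel (x : X3) : Fk.perp2 (act Wel x) = Fk.perp2 x := by
  simp [Fk.perp2, act, rotm_Wel]

private lemma l2_act_Tel_inv (θ : ℝ) (x : X3) (i : Fin 9) : act (Tel θ)⁻¹ x (i, 2) = x (i, 2) := by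
  rw [act_inv_two]
  simp [rotm_Tel, Fin.sum_univ_three]

namespace Fk

variable (K : Fk F)

private lemma l2_c_sq (i : Fin 8) (A : Fin 3) (v : F) : K.c i A (K.c i A v) = 0 := by
  have h := congrArg (fun T : F →L[ℂ] F => T v) (K.cc i A i A)
  simp only [add_apply, mul_apply_eq_comp,
    zero_apply] at h
  have h2 : (2 : ℂ) • K.c i A (K.c i A v) = 0 := by rw [two_smul]; exact h
  exact (smul_eq_zero.mp h2).resolve_left two_ne_zero

private lemma l2_c_swap (i j : Fin 8) (A B : Fin 3) (v : F) :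
    K.c i A (K.c j B v) = -K.c j B (K.c i A v) := by
  have h := congrArg (fun T : F →L[ℂ] F => T v) (K.cc i A j B)
  simp only [add_apply, mul_apply_eq_comp,
    zero_apply] at h
  exact eq_neg_of_add_eq_zero_left h

/-- three `c_7^0, c_7^1` -/
private lemma l2_c3 (B : Fin 3) (hB : B ≠ 2) (v : F) : K.c 7 1 (K.c 7 0 (K.c 7 B v)) = 0 := by
  fin_cases B
  · simp [K.l2_c_sq]
  · change K.c 7 1 (K.c 7 0 (K.c 7 1 v)) = 0
    rw [K.l2_c_swap 7 7 0 1, map_neg, K.l2_c_sq, neg_zero]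
  · exact absurd rfl hB

/-- four `c_7`'s -/
private lemma l2_c4 (B C : Fin 3) (v : F) : K.c 7 1 (K.c 7 0 (K.c 7 B (K.c 7 C v))) = 0 := by
  by_cases hB : B = 2
  · subst hB
    by_cases hC : C = 2
    · subst hC
      rw [K.l2_c_sq, map_zero, map_zero]
    · rw [K.l2_c_swap 7 7 2 C, map_neg, map_neg, K.l2_c3 C hC, neg_zero]
  · exact K.l2_c3 B hB _

private lemma l2_S_c (U : SU2) (i : Fin 8) (A : Fin 3) (v : F) :
    K.S U (K.c i A v) = ∑ B, ((rotm U B A : ℝ) : ℂ) • K.c i B (K.S U v) := by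
  have h := congrArg (fun T : F →L[ℂ] F => T v) (K.S_c U i A)
  simpa only [mul_apply_eq_comp, sum_apply,
    smul_apply] using h

private lemma l2_inner_a (i : Fin 8) (A : Fin 3) (v w : F) :
    inner ℂ (K.a i A v) w = inner ℂ v (K.c i A w) := K.flip.adj i A v w

/-- the covector `ξ` as a multiple of `a_7^0 a_7^1 α'` -/
private lemma l2_xi_eq (y : X3) : K.flip.xi y =
    (-(4 * (Real.exp (-K.flip.hh y) : ℂ) / K.nu ^ 2)) • K.a 7 0 (K.a 7 1 (K.flip.aT y)) := by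
  have hnu : K.flip.nu = K.nu := rfl
  have hd : ∀ A v, K.flip.dpb A v = (2 : ℂ) • K.a 7 A v := fun A v => rfl
  rw [xi, hd, hd, hnu, map_smul, smul_smul, smul_smul, ← neg_smul, smul_smul]
  congr 1
  ring

private lemma l2_pair (y : X3) (w : F) (hw : K.c 7 1 (K.c 7 0 w) = 0) :
    inner ℂ (K.flip.xi y) w = 0 := by
  rw [l2_xi_eq, inner_smul_left, l2_inner_a, l2_inner_a, hw, inner_zero_right, mul_zero]

/-! ### decomposition of `Ps t` -/

/-- coefficient of `t⁰` -/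
private noncomputable def l2G0 (y : X3) : F :=
  (Real.exp (-K.hh y) : ℂ) • (-((1 / K.nu) • K.dph 2 K.aT y) + K.io 1 y (K.io 0 y (K.aT y)))

/-- coefficient of `t` -/
private noncomputable def l2G1 (y : X3) : F :=
  (Real.exp (-K.hh y) : ℂ) • (-((2 / K.nu * K.phb 2 y) • K.aT y) +
    (1 / K.nu) • (K.dpb 0 (K.io 1 y (K.aT y)) - K.dpb 1 (K.io 0 y (K.aT y))))

/-- coefficient of `-t²` -/
private noncomputable def l2G2 (y : X3) : F :=
  (Real.exp (-K.hh y) : ℂ) • ((1 / K.nu ^ 2) • K.dpb 0 (K.dpb 1 (K.aT y)))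

private lemma l2_Ps (t : ℝ) (y : X3) : K.Ps t y = (Real.exp (-t * perp2 y) : ℂ) •
    (K.l2G0 y + (t : ℂ) • K.l2G1 y - ((t : ℂ) ^ 2) • K.l2G2 y) := by
  unfold Ps KK KK0 l2G0 l2G1 l2G2
  rw [smul_comm]
  congr 1
  simp only [smul_add, smul_sub, smul_neg, smul_smul]
  have e1 : (Real.exp (-K.hh y) : ℂ) * (2 * (t : ℂ) / K.nu * K.phb 2 y) =
    (t : ℂ) * ((Real.exp (-K.hh y) : ℂ) * (2 / K.nu * K.phb 2 y)) := by ring
  have e2 : (Real.exp (-K.hh y) : ℂ) * ((t : ℂ) ^ 2 / K.nu ^ 2) =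
    (t : ℂ) ^ 2 * ((Real.exp (-K.hh y) : ℂ) * (1 / K.nu ^ 2)) := by ring
  have e3 : (Real.exp (-K.hh y) : ℂ) * ((t : ℂ) / K.nu) =
    (t : ℂ) * ((Real.exp (-K.hh y) : ℂ) * (1 / K.nu)) := by ring
  rw [e1, e2, e3]
  abel

private lemma l2_G1_Wel (y : X3) : K.l2G1 (act Wel y) = K.S Wel (K.l2G1 y) := by
  have key : ∀ t : ℝ, K.l2G0 (act Wel y) + (t : ℂ) • K.l2G1 (act Wel y) -
      ((t : ℂ) ^ 2) • K.l2G2 (act Wel y) = K.S Wel (K.l2G0 y) + (t : ℂ) • K.S Wel (K.l2G1 y) -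
      ((t : ℂ) ^ 2) • K.S Wel (K.l2G2 y) := by
    intro t
    have h := K.Ps_Wel t y
    rw [l2_Ps, l2_Ps, l2_perp_Wel, map_smul] at h
    have hne : (Real.exp (-t * perp2 y) : ℂ) ≠ 0 := by
      exact_mod_cast (Real.exp_pos _).ne'
    have h2 := smul_right_injective F hne h
    simpa only [map_sub, map_add, map_smul] using h2
  have k1 := key 1
  have k2 := key (-1)
  have h3 : (2 : ℂ) • K.l2G1 (act Wel y) = (2 : ℂ) • K.S Wel (K.l2G1 y) := by
    have := congrArg₂ (fun a b => a - b) k1 k2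
    simp only [Complex.ofReal_one, Complex.ofReal_neg, one_pow, neg_smul, one_smul,
      neg_sq] at this
    rw [two_smul, two_smul]
    have e1 : ∀ a b c : F, a + b - c - (a + -b - c) = b + b := fun a b c => by abel
    rwa [e1, e1] at this
  exact smul_right_injective F (two_ne_zero : (2 : ℂ) ≠ 0) h3

/-- the pairing of the `t²` term vanishes -/
private lemma l2_pair_G2 (U : SU2) (y y' : X3) :
    inner ℂ (K.flip.xi y') (K.S U (K.l2G2 y)) = 0 := by
  refine K.l2_pair _ _ ?_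
  have hd : ∀ A v, K.dpb A v = (2 : ℂ) • K.c 7 A v := fun A v => rfl
  rw [l2G2, hd, hd]
  simp only [map_smul, l2_S_c, map_sum, Finset.smul_sum, l2_c4, smul_zero, Finset.sum_const_zero]

/-- the pairing with the linear term on the torus -/
private lemma l2_pair_G1 (θ : ℝ) (y : X3) (y' : X3) :
    inner ℂ (K.flip.xi y') (K.S (Tel θ) (K.l2G1 (act (Tel θ)⁻¹ y))) =
      -(2 / K.nu) * K.phb 2 y *
        inner ℂ (K.flip.xi y') ((Real.exp (-K.hh y) : ℂ) • K.aT y) := by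
  have hd : ∀ A v, K.dpb A v = (2 : ℂ) • K.c 7 A v := fun A v => rfl
  set x := act (Tel θ)⁻¹ y with hx
  have hxy : act (Tel θ) x = y := act_act_inv _ _
  have h1 : K.S (Tel θ) (K.aT x) = K.aT y := by rw [← aT_Tel, hxy]
  have h2 : K.hh x = K.hh y := (K.hh_act (Tel θ) x).symm.trans (congrArg K.hh hxy)
  have h3 : K.phb 2 x = K.phb 2 y := by
    simp only [phb, hx, l2_act_Tel_inv]
  have h4 : ∀ A : Fin 3, A ≠ 2 → ∀ w, K.c 7 1 (K.c 7 0 (K.S (Tel θ) (K.dpb A w))) = 0 := by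
    intro A hA w
    rw [hd, map_smul, map_smul, map_smul, l2_S_c, map_sum, map_sum]
    rw [Finset.sum_eq_zero, smul_zero]
    intro B _
    rw [map_smul, map_smul]
    by_cases hB : B = 2
    · have : rotm (Tel θ) B A = 0 := by
        subst hB
        rw [rotm_Tel]
        fin_cases A
        · simp
        · simp
        · exact absurd rfl hA
      rw [this, Complex.ofReal_zero, zero_smul]
    · rw [K.l2_c3 B hB, smul_zero]
  rw [l2G1, map_smul, map_add, map_neg, map_smul, map_smul, map_sub, h1, h2, h3, smul_add,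
    inner_add_right]
  have h5 : inner ℂ (K.flip.xi y') ((Real.exp (-K.hh y) : ℂ) • (1 / K.nu) •
      (K.S (Tel θ) (K.dpb 0 (K.io 1 x (K.aT x))) -
        K.S (Tel θ) (K.dpb 1 (K.io 0 x (K.aT x))))) = 0 := by
    refine K.l2_pair _ _ ?_
    rw [map_smul, map_smul, map_smul, map_smul, map_sub, map_sub, h4 0 (by decide),
      h4 1 (by decide), sub_zero, smul_zero, smul_zero]
  rw [h5, add_zero, smul_neg, inner_neg_right, smul_comm, inner_smul_right]
  ring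


/-! ### bounds -/

private lemma l2_nu_norm : ‖K.nu‖ ^ 2 = 2 := by
  have h := K.f0_sq
  rw [nu, norm_mul, Complex.norm_I, one_mul, Complex.norm_real, Real.norm_eq_abs, sq_abs, sq, h]

private lemma l2_nu_ge : 1 ≤ ‖K.nu‖ := by
  have h := K.l2_nu_norm
  nlinarith [norm_nonneg K.nu]

private lemma l2_nu_ne : K.nu ≠ 0 := by
  intro h
  have := K.l2_nu_ge
  rw [h, norm_zero] at this
  linarith

private lemma l2_phb_norm (y : X3) : ‖K.phb 2 y‖ = ze y := by
  have h : ‖K.phb 2 y‖ ^ 2 = r3 y := by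
    rw [← Complex.normSq_eq_norm_sq, phb, Complex.normSq_apply, r3]
    have hs := K.sg_sq
    simp
    linear_combination y (8, 2) ^ 2 * hs
  rw [ze, ← h, Real.sqrt_sq (norm_nonneg _)]

private lemma l2_real1 {C z ρ p b : ℝ} (hC : 0 ≤ C) (hz0 : 0 ≤ z) (hz : z ≤ ρ) (hp0 : 0 ≤ p)
    (hp : p ≤ ρ) (hb0 : 0 ≤ b) (hb1 : b ≤ 1) :
    C * z * (1 + z) * b ≤ C * (ρ * (1 + ρ)) ∧
    C * (1 + z) ^ 2 * b ≤ C * (1 + ρ) ^ 2 ∧
    C * z * (1 + z) * (1 + p) ^ 2 * b ≤ C * (ρ * (1 + ρ) ^ 3) ∧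
    C * z * (1 + z) * (1 + p) * b ≤ C * (ρ * (1 + ρ) ^ 2) := by
  have hρ : 0 ≤ ρ := hz0.trans hz
  refine ⟨?_, ?_, ?_, ?_⟩
  · calc C * z * (1 + z) * b ≤ C * ρ * (1 + ρ) * 1 := by gcongr
      _ = _ := by ring
  · calc C * (1 + z) ^ 2 * b ≤ C * (1 + ρ) ^ 2 * 1 := by gcongr
      _ = _ := by ring
  · calc C * z * (1 + z) * (1 + p) ^ 2 * b ≤ C * ρ * (1 + ρ) * (1 + ρ) ^ 2 * 1 := by gcongr
      _ = _ := by ring
  · calc C * z * (1 + z) * (1 + p) * b ≤ C * ρ * (1 + ρ) * (1 + ρ) * 1 := by gcongr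
      _ = _ := by ring

private lemma l2_b4 : ∃ C : ℝ, 0 ≤ C ∧ ∀ y : X3,
    Real.exp (-K.hh y) * ‖K.aT y‖ ≤
      C * (Real.sqrt (phsq y) * (1 + Real.sqrt (phsq y))) ∧
    Real.exp (-K.hh y) * ‖K.dph 2 K.aT y‖ ≤ C * (1 + Real.sqrt (phsq y)) ^ 2 ∧
    Real.exp (-K.hh y) * ‖K.io 1 y (K.io 0 y (K.aT y))‖ ≤
      C * (Real.sqrt (phsq y) * (1 + Real.sqrt (phsq y)) ^ 3) ∧
    Real.exp (-K.hh y) * ‖K.dpb 0 (K.io 1 y (K.aT y)) - K.dpb 1 (K.io 0 y (K.aT y))‖ ≤
      C * (Real.sqrt (phsq y) * (1 + Real.sqrt (phsq y)) ^ 2) := by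
  obtain ⟨C, hC, hb⟩ := K.exists_bounds
  refine ⟨C, hC, fun y => ?_⟩
  obtain ⟨b1, b2, b3, b4⟩ := hb y
  obtain ⟨r1, r2, r3', r4⟩ := l2_real1 hC (l2_ze_nonneg y) (l2_ze_le y) (Real.sqrt_nonneg _)
    (l2_perp_le y) (l2_B0_nonneg y) (l2_B0_le y)
  exact ⟨b1.trans r1, b2.trans r2, b3.trans r3', b4.trans r4⟩

private lemma l2_nu_inv : ‖(1 / K.nu : ℂ)‖ ≤ 1 := by
  rw [norm_div, norm_one]
  exact div_le_one_of_le₀ K.l2_nu_ge (norm_nonneg _)

private lemma l2_En (y : X3) (w : F) :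
    ‖(Real.exp (-K.hh y) : ℂ) • w‖ = Real.exp (-K.hh y) * ‖w‖ := by
  rw [norm_smul, Complex.norm_real, Real.norm_of_nonneg (Real.exp_pos _).le]

private lemma l2_abs0 {c : ℂ} (hc : ‖c‖ ≤ 1) (a b : F) : ‖-(c • a) + b‖ ≤ ‖a‖ + ‖b‖ := by
  refine (norm_add_le _ _).trans (add_le_add ?_ le_rfl)
  rw [norm_neg, norm_smul]
  exact mul_le_of_le_one_left (norm_nonneg _) hc

private lemma l2_abs1 {c : ℂ} (hc : ‖c‖ ≤ 1) {p : ℂ} {z : ℝ} (hz : ‖p‖ = z) (a b : F) :
    ‖-((2 * c * p) • a) + c • b‖ ≤ 2 * z * ‖a‖ + ‖b‖ := by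
  have hz0 : 0 ≤ z := hz ▸ norm_nonneg p
  refine (norm_add_le _ _).trans (add_le_add ?_ ?_)
  · rw [norm_neg, norm_smul, norm_mul, hz, norm_mul, Complex.norm_ofNat]
    refine mul_le_mul_of_nonneg_right ?_ (norm_nonneg _)
    refine mul_le_mul_of_nonneg_right ?_ hz0
    linarith only [hc]
  · rw [norm_smul]
    exact mul_le_of_le_one_left (norm_nonneg _) hc

private lemma l2_bG0 (y : X3) : ‖K.l2G0 y‖ ≤ Real.exp (-K.hh y) * ‖K.dph 2 K.aT y‖ +
    Real.exp (-K.hh y) * ‖K.io 1 y (K.io 0 y (K.aT y))‖ := by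
  rw [l2G0, l2_En, ← mul_add]
  refine mul_le_mul_of_nonneg_left ?_ (Real.exp_pos (-K.hh y)).le
  have h := l2_abs0 K.l2_nu_inv (K.dph 2 K.aT y) (K.io 1 y (K.io 0 y (K.aT y)))
  generalize K.dph 2 K.aT y = aa at h ⊢
  generalize K.io 1 y (K.io 0 y (K.aT y)) = bb at h ⊢
  exact h

private lemma l2_bG1 (y : X3) : ‖K.l2G1 y‖ ≤ 2 * ze y * (Real.exp (-K.hh y) * ‖K.aT y‖) +
    Real.exp (-K.hh y) * ‖K.dpb 0 (K.io 1 y (K.aT y)) - K.dpb 1 (K.io 0 y (K.aT y))‖ := by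
  rw [l2G1, l2_En, mul_left_comm, ← mul_add]
  refine mul_le_mul_of_nonneg_left ?_ (Real.exp_pos (-K.hh y)).le
  have h := l2_abs1 K.l2_nu_inv (K.l2_phb_norm y) (K.aT y)
    (K.dpb 0 (K.io 1 y (K.aT y)) - K.dpb 1 (K.io 0 y (K.aT y)))
  have h3 : (2 * (1 / K.nu) * K.phb 2 y : ℂ) = 2 / K.nu * K.phb 2 y := by ring
  rw [h3] at h
  generalize K.dpb 0 (K.io 1 y (K.aT y)) - K.dpb 1 (K.io 0 y (K.aT y)) = bb at h ⊢
  generalize K.aT y = aa at h ⊢
  exact h

private lemma l2_real2 {C ρ : ℝ} (hC : 0 ≤ C) (hρ : 0 ≤ ρ) :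
    C * (1 + ρ) ^ 2 + C * (ρ * (1 + ρ) ^ 3) ≤ 3 * C * (1 + ρ) ^ 4 := by
  have d1 : (1 + ρ) ^ 2 ≤ (1 + ρ) ^ 4 := pow_le_pow_right₀ (by linarith) (by norm_num)
  have d2 : ρ * (1 + ρ) ^ 3 ≤ (1 + ρ) ^ 4 := by
    calc ρ * (1 + ρ) ^ 3 ≤ (1 + ρ) * (1 + ρ) ^ 3 := by gcongr; linarith
      _ = _ := by ring
  have e1 := mul_le_mul_of_nonneg_left d1 hC
  have e2 := mul_le_mul_of_nonneg_left d2 hC
  have e3 : 0 ≤ C * (1 + ρ) ^ 4 := by positivity
  rw [mul_assoc]
  linarith only [e1, e2, e3]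

private lemma l2_real3 {C ρ z : ℝ} (hC : 0 ≤ C) (hz : 0 ≤ z) (hρ : z ≤ ρ) :
    2 * z * (C * (ρ * (1 + ρ))) + C * (ρ * (1 + ρ) ^ 2) ≤ 3 * C * (ρ * (1 + ρ) ^ 2) := by
  have hρ0 : 0 ≤ ρ := hz.trans hρ
  have e1 : 2 * z * (C * (ρ * (1 + ρ))) ≤ 2 * (1 + ρ) * (C * (ρ * (1 + ρ))) := by
    gcongr
    linarith
  have e2 : 2 * (1 + ρ) * (C * (ρ * (1 + ρ))) = 2 * (C * (ρ * (1 + ρ) ^ 2)) := by ring
  rw [e2] at e1
  rw [mul_assoc]
  linarith only [e1]

private lemma l2_bounds : ∃ C : ℝ, 0 ≤ C ∧ ∀ y : X3,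
    ‖K.l2G0 y‖ ≤ C * (1 + Real.sqrt (phsq y)) ^ 4 ∧
    ‖K.l2G1 y‖ ≤ C * (Real.sqrt (phsq y) * (1 + Real.sqrt (phsq y)) ^ 2) := by
  obtain ⟨C, hC, hb⟩ := K.l2_b4
  refine ⟨3 * C, by positivity, fun y => ?_⟩
  obtain ⟨b1, b2, b3, b4⟩ := hb y
  constructor
  · exact (K.l2_bG0 y).trans ((add_le_add b2 b3).trans (l2_real2 hC (Real.sqrt_nonneg _)))
  · refine (K.l2_bG1 y).trans (le_trans (add_le_add (mul_le_mul_of_nonneg_left b1 ?_) b4)
      (l2_real3 hC (l2_ze_nonneg y) (l2_ze_le y)))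
    have := l2_ze_nonneg y
    positivity

private lemma l2_xi_bound : ∃ C : ℝ, 0 ≤ C ∧ ∀ y : X3,
    ‖K.flip.xi y‖ ≤ C * (ze y * (1 + ze y)) * B0 y := by
  obtain ⟨C, hC, hb⟩ := K.flip.exists_bounds
  refine ⟨2 * C, by positivity, fun y => ?_⟩
  obtain ⟨b1, -, -, -⟩ := hb y
  have h1 : ‖K.a 7 0 (K.a 7 1 (K.flip.aT y))‖ ≤ ‖K.flip.aT y‖ :=
    (K.flip.norm_c_le 7 0 _).trans (K.flip.norm_c_le 7 1 _)
  rw [l2_xi_eq, norm_smul, norm_neg, norm_div, norm_mul, Complex.norm_real,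
    Real.norm_of_nonneg (Real.exp_pos _).le, norm_pow, K.l2_nu_norm, Complex.norm_ofNat]
  calc 4 * Real.exp (-K.flip.hh y) / 2 * ‖K.a 7 0 (K.a 7 1 (K.flip.aT y))‖ ≤
      4 * Real.exp (-K.flip.hh y) / 2 * ‖K.flip.aT y‖ := by gcongr
    _ = 2 * (Real.exp (-K.flip.hh y) * ‖K.flip.aT y‖) := by ring
    _ ≤ 2 * (C * ze y * (1 + ze y) * B0 y) := by gcongr
    _ = _ := by ring

/-! ### continuity -/

private lemma l2_S_cont : Continuous fun p : SU2 × F => K.S p.1 p.2 := by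
  rw [continuous_iff_continuousAt]
  rintro ⟨U, w⟩
  have h1 : Tendsto (fun p : SU2 × F => K.S p.1 w) (𝓝 (U, w)) (𝓝 (K.S U w)) :=
    ((K.S_continuous w).comp continuous_fst).continuousAt
  have h2 : Tendsto (fun p : SU2 × F => K.S p.1 (p.2 - w)) (𝓝 (U, w)) (𝓝 0) := by
    rw [tendsto_zero_iff_norm_tendsto_zero]
    simp only [K.S_isometry]
    have : Tendsto (fun p : SU2 × F => ‖p.2 - w‖) (𝓝 (U, w)) (𝓝 ‖w - w‖) :=
      (continuous_snd.sub continuous_const).norm.continuousAt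
    simpa using this
  have h3 := h1.add h2
  rw [add_zero] at h3
  refine h3.congr fun p => ?_
  rw [← map_add, add_sub_cancel]

private lemma l2_cont_io (A : Fin 3) {u : X3 → F} (hu : Continuous u) :
    Continuous fun y => K.io A y (u y) :=
  (K.contDiff_io A).continuous.clm_apply hu

private lemma l2_cont_dph : Continuous (K.dph 2 K.aT) := by
  have h : ∀ i : Fin 9, Continuous (pd i 2 K.aT) := fun i =>
    ((K.contDiff_aT.continuous_fderiv (by simp)).clm_apply continuous_const)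
  unfold dph
  exact ((h 7).sub ((h 8).const_smul _)).const_smul _

private lemma l2_cont_E : Continuous fun y => (Real.exp (-K.hh y) : ℂ) :=
  Complex.continuous_ofReal.comp (Real.continuous_exp.comp K.contDiff_hh.continuous.neg)

private lemma l2_cont_G0 : Continuous K.l2G0 := by
  have ha := K.contDiff_aT.continuous
  unfold l2G0
  exact K.l2_cont_E.smul ((K.l2_cont_dph.const_smul _).neg.add
    (K.l2_cont_io 1 (K.l2_cont_io 0 ha)))

private lemma l2_cont_phb : Continuous (K.phb 2) := by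
  unfold phb
  have h : ∀ p : Fin 9 × Fin 3, Continuous fun x : X3 => (x p : ℂ) := fun p =>
    Complex.continuous_ofReal.comp (EuclideanSpace.proj p).continuous
  exact (h _).sub (continuous_const.mul (h _))

private lemma l2_cont_G1 : Continuous K.l2G1 := by
  have ha := K.contDiff_aT.continuous
  unfold l2G1
  refine K.l2_cont_E.smul ((((continuous_const.mul K.l2_cont_phb).smul ha).neg).add ?_)
  exact (((K.dpb 0).continuous.comp (K.l2_cont_io 1 ha)).sub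
    ((K.dpb 1).continuous.comp (K.l2_cont_io 0 ha))).const_smul _

private lemma l2_cont_xi : Continuous K.flip.xi := by
  have ha := K.flip.contDiff_aT.continuous
  unfold xi
  exact K.flip.l2_cont_E.smul
    ((((K.flip.dpb 0).continuous.comp ((K.flip.dpb 1).continuous.comp ha)).const_smul _).neg)

/-! ### the integral over the group -/

private lemma l2_aesm {E : Type*} [NormedAddCommGroup E] {f : V4 → E}
    (h : ∀ v, v ≠ 0 → ContinuousAt f v) : AEStronglyMeasurable f (volume : Measure V4) := by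
  have h1 : ContinuousOn f ({0}ᶜ : Set V4) := fun v hv => (h v hv).continuousWithinAt
  have h2 := h1.aestronglyMeasurable (μ := (volume : Measure V4))
    (measurableSet_singleton (0 : V4)).compl
  rwa [restrict_compl_singleton] at h2

private lemma l2_int {f : V4 → ℂ} (h : ∀ v, v ≠ 0 → ContinuousAt f v) {M : ℝ}
    (hb : ∀ v, ‖f v‖ ≤ M) {w : V4 → ℝ} (hw : ∀ v, v ≠ 0 → ContinuousAt w v) {W : ℝ}
    (hwb : ∀ v, |w v| ≤ W) :
    Integrable (fun v : V4 => ((Real.exp (-‖v‖ ^ 2) * w v : ℝ) : ℂ) * f v) := by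
  have hW : 0 ≤ W := (abs_nonneg _).trans (hwb 0)
  refine (integrable_gauss4.mul_const (W * M)).mono' ?_ (Filter.Eventually.of_forall fun v => ?_)
  · refine l2_aesm fun v hv => ?_
    refine ContinuousAt.mul ?_ (h v hv)
    refine Complex.continuous_ofReal.continuousAt.comp ?_
    exact (Real.continuous_exp.comp (continuous_norm.pow 2).neg).continuousAt.mul (hw v hv)
  · rw [norm_mul, Complex.norm_real, norm_mul, Real.norm_of_nonneg (Real.exp_pos _).le, mul_assoc]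
    refine mul_le_mul_of_nonneg_left ?_ (Real.exp_pos _).le
    exact mul_le_mul (hwb v) (hb v) (norm_nonneg _) hW

private lemma l2_contAt {G : X3 → F} (hG : Continuous G) (y : X3) (v : V4) (hv : v ≠ 0) :
    ContinuousAt (fun v => K.S (gU v) (G (act (gU v)⁻¹ y))) v := by
  have h1 : Continuous fun U : SU2 => K.S U (G (act U⁻¹ y)) :=
    K.l2_S_cont.comp (continuous_id.prodMk (hG.comp (l2_continuous_act_inv y)))
  exact h1.continuousAt.comp (continuousAt_gU v hv)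

private lemma l2_P_contAt (y : X3) (v : V4) (hv : v ≠ 0) :
    ContinuousAt (fun v => perp2 (act (gU v)⁻¹ y)) v := by
  have hp : Continuous perp2 := by
    unfold perp2
    have h : ∀ p : Fin 9 × Fin 3, Continuous fun x : X3 => x p := fun p =>
      (EuclideanSpace.proj p).continuous
    exact ((((h _).pow 2).add ((h _).pow 2)).add ((h _).pow 2)).add ((h _).pow 2)
  exact (hp.comp (l2_continuous_act_inv y)).continuousAt.comp (continuousAt_gU v hv)

/-- matrix element of a coefficient -/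
private noncomputable def l2g (G : X3 → F) (x : X3) (v : V4) : ℂ :=
  inner ℂ (K.flip.xi (pr x)) (K.S (gU v) (G (act (gU v)⁻¹ (pr x))))

private lemma l2g_contAt {G : X3 → F} (hG : Continuous G) (x : X3) (v : V4) (hv : v ≠ 0) :
    ContinuousAt (K.l2g G x) v :=
  ContinuousAt.inner continuousAt_const (K.l2_contAt hG (pr x) v hv)

private lemma l2g_bound {G : X3 → F} {b : ℝ → ℝ} (hb : ∀ y, ‖G y‖ ≤ b (Real.sqrt (phsq y)))
    (x : X3) (v : V4) : ‖K.l2g G x v‖ ≤ ‖K.flip.xi (pr x)‖ * b (ze x) := by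
  refine (norm_inner_le_norm _ _).trans ?_
  refine mul_le_mul_of_nonneg_left ?_ (norm_nonneg _)
  rw [K.S_isometry]
  refine (hb _).trans (le_of_eq ?_)
  rw [l2_rad]

private lemma l2g1_Wel (x : X3) (R : V4 ≃ₗᵢ[ℝ] V4)
    (hR : ∀ v, v ≠ 0 → gU (R v) = gU v * Wel) (v : V4) (hv : v ≠ 0) :
    K.l2g K.l2G1 x (R v) = K.l2g K.l2G1 x v := by
  unfold l2g
  rw [hR v hv, mul_inv_rev, act_mul, map_mul, mul_apply_eq_comp, ← l2_G1_Wel, act_act_inv]

private lemma l2g1_torus (x : X3) (v : V4) (hv : v ≠ 0) (hb : vb v = 0) :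
    K.l2g K.l2G1 x v = -(2 / K.nu) * K.phb 2 x *
      inner ℂ (K.flip.xi (pr x)) ((Real.exp (-K.hh (pr x)) : ℂ) • K.aT (pr x)) := by
  obtain ⟨θ, hθ⟩ := gU_of_vb v hv hb
  unfold l2g
  rw [hθ, l2_pair_G1, l2_phb_pr]

variable [FiniteDimensional ℂ F]

private lemma l2_split {t : ℝ} (ht : 0 < t) (x : X3) {M0 M1 : ℝ}
    (h0 : ∀ v, ‖K.l2g K.l2G0 x v‖ ≤ M0) (h1 : ∀ v, ‖K.l2g K.l2G1 x v‖ ≤ M1) :
    inner ℂ (K.flip.xi (pr x)) (K.Av (K.Ps t) (pr x)) =
      (∫ v : V4, ((Real.exp (-‖v‖ ^ 2) * Real.exp (-t * perp2 (act (gU v)⁻¹ (pr x))) : ℝ) : ℂ) *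
        K.l2g K.l2G0 x v) +
      ∫ v : V4, ((Real.exp (-‖v‖ ^ 2) *
        (t * Real.exp (-t * perp2 (act (gU v)⁻¹ (pr x)))) : ℝ) : ℂ) * K.l2g K.l2G1 x v := by
  have : CompleteSpace F := FiniteDimensional.complete ℂ F
  have hE : ∀ v : V4, |Real.exp (-t * perp2 (act (gU v)⁻¹ (pr x)))| ≤ 1 := by
    intro v
    rw [abs_of_pos (Real.exp_pos _), Real.exp_le_one_iff, neg_mul]
    exact neg_nonpos.mpr (mul_nonneg ht.le (l2_perp_nonneg _))
  have hEc : ∀ v : V4, v ≠ 0 →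
      ContinuousAt (fun v => Real.exp (-t * perp2 (act (gU v)⁻¹ (pr x)))) v := fun v hv =>
    Real.continuous_exp.continuousAt.comp (continuousAt_const.mul (l2_P_contAt (pr x) v hv))
  have i0 := l2_int (K.l2g_contAt K.l2_cont_G0 x) h0 hEc hE
  have i1 := l2_int (K.l2g_contAt K.l2_cont_G1 x) h1
    (w := fun v => t * Real.exp (-t * perp2 (act (gU v)⁻¹ (pr x))))
    (fun v hv => continuousAt_const.mul (hEc v hv)) (W := t * 1)
    (fun v => by rw [abs_mul, abs_of_pos ht]; exact mul_le_mul_of_nonneg_left (hE v) ht.le)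
  rw [← integral_add i0 i1, Av, ← integral_inner]
  · refine integral_congr_ae (Filter.Eventually.of_forall fun v => ?_)
    simp only
    rw [inner_smul_right, l2_Ps, map_smul, inner_smul_right, map_sub, map_add, map_smul, map_smul,
      inner_sub_right, inner_add_right, inner_smul_right, inner_smul_right, l2_pair_G2, mul_zero,
      sub_zero]
    push_cast
    unfold l2g
    ring
  · obtain ⟨hc, C, s, hs, hb⟩ := K.Ps_adm ht
    refine (integrable_gauss4.mul_const (|C| * (1 + ze x) ^ 3)).mono' ?_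
      (Filter.Eventually.of_forall fun v => ?_)
    · refine l2_aesm fun v hv => ?_
      refine ContinuousAt.smul ?_ (K.l2_contAt hc (pr x) v hv)
      exact (Complex.continuous_ofReal.comp
        (Real.continuous_exp.comp (continuous_norm.pow 2).neg)).continuousAt
    · rw [norm_smul, Complex.norm_real, Real.norm_of_nonneg (Real.exp_pos _).le, K.S_isometry]
      refine mul_le_mul_of_nonneg_left ?_ (Real.exp_pos _).le
      set y := act (gU v)⁻¹ (pr x) with hy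
      have hz : ze y ≤ ze x := by rw [← l2_rad (gU v)⁻¹ x]; exact l2_ze_le y
      have hz0 := l2_ze_nonneg y
      have hp : Real.exp (-s * perp2 y) ≤ 1 := by
        rw [Real.exp_le_one_iff, neg_mul]
        exact neg_nonpos.mpr (mul_nonneg hs.le (l2_perp_nonneg _))
      have hB0 := l2_B0_nonneg y
      have hB1 := l2_B0_le y
      have hpp := (Real.exp_pos (-s * perp2 y)).le
      have hzx := l2_ze_nonneg x
      calc ‖K.Ps t y‖ ≤ C * (1 + ze y) ^ 3 * Real.exp (-s * perp2 y) * B0 y := hb y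
        _ ≤ |C| * (1 + ze y) ^ 3 * Real.exp (-s * perp2 y) * B0 y := by
          gcongr
          exact le_abs_self C
        _ ≤ |C| * (1 + ze x) ^ 3 * 1 * 1 := by gcongr
        _ = _ := by ring

omit [FiniteDimensional ℂ F] in
/-- pointwise limits -/
private lemma l2_tendsto0 {x : X3} (hx : 0 < r3 x) {M0 : ℝ}
    (h0 : ∀ v, ‖K.l2g K.l2G0 x v‖ ≤ M0) :
    Tendsto (fun t : ℝ => ∫ v : V4, ((Real.exp (-‖v‖ ^ 2) *
      Real.exp (-t * perp2 (act (gU v)⁻¹ (pr x))) : ℝ) : ℂ) * K.l2g K.l2G0 x v) atTop (𝓝 0) := by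
  refine (sph_limit0 hx (K.l2g_contAt K.l2_cont_G0 x) ⟨M0, h0⟩).congr fun t => ?_
  refine integral_congr_ae ?_
  filter_upwards [compl_mem_ae_iff.mpr (measure_singleton (0 : V4))] with v hv
  rw [perp2_pr v hv]

omit [FiniteDimensional ℂ F] in
private lemma l2_tendsto1 {x : X3} (hx : 0 < r3 x) {M1 : ℝ}
    (h1 : ∀ v, ‖K.l2g K.l2G1 x v‖ ≤ M1) :
    Tendsto (fun t : ℝ => ∫ v : V4, ((Real.exp (-‖v‖ ^ 2) *
      (t * Real.exp (-t * perp2 (act (gU v)⁻¹ (pr x)))) : ℝ) : ℂ) * K.l2g K.l2G1 x v) atTop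
      (𝓝 (((Real.pi ^ 2 / (2 * r3 x) : ℝ) : ℂ) * (-(2 / K.nu) * K.phb 2 x *
      inner ℂ (K.flip.xi (pr x)) ((Real.exp (-K.hh (pr x)) : ℂ) • K.aT (pr x))))) := by
  refine (sph_limit hx (K.l2g_contAt K.l2_cont_G1 x) ⟨M1, h1⟩ _ (K.l2g1_torus x)
    (fun R hR => K.l2g1_Wel x R hR)).congr fun t => ?_
  refine integral_congr_ae ?_
  filter_upwards [compl_mem_ae_iff.mpr (measure_singleton (0 : V4))] with v hv
  rw [perp2_pr v hv]

omit [FiniteDimensional ℂ F] in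
private lemma l2_norm_int {f : V4 → ℂ} {M : ℝ} (hb : ∀ v, ‖f v‖ ≤ M) {w : V4 → ℝ}
    (hw : ∀ v, 0 ≤ w v) (hi : Integrable fun v : V4 => Real.exp (-‖v‖ ^ 2) * w v) :
    ‖∫ v : V4, ((Real.exp (-‖v‖ ^ 2) * w v : ℝ) : ℂ) * f v‖ ≤
      (∫ v : V4, Real.exp (-‖v‖ ^ 2) * w v) * M := by
  refine (norm_integral_le_of_norm_le (hi.mul_const M) (Filter.Eventually.of_forall
    fun v => ?_)).trans (le_of_eq (integral_mul_const M _))
  rw [norm_mul, Complex.norm_real, Real.norm_of_nonneg (mul_nonneg (Real.exp_pos _).le (hw v))]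
  exact mul_le_mul_of_nonneg_left (hb v) (mul_nonneg (Real.exp_pos _).le (hw v))

private lemma l2_real4 {t z : ℝ} (ht : 1 ≤ t) (hz : 0 < z) :
    z * (1 + z) * ((1 + z) ^ 4) * (1 / (1 + t * z ^ 2)) ≤ 2 * (1 + z) ^ 4 ∧
    z * (1 + z) * (z * (1 + z) ^ 2) * (t * (1 / (1 + t * z ^ 2))) ≤ (1 + z) ^ 4 := by
  have hd : 0 < 1 + t * z ^ 2 := by positivity
  constructor
  · rw [mul_one_div, div_le_iff₀ hd]
    have h1 : z * (1 + z) ≤ 2 * (1 + t * z ^ 2) := by
      have h2 : z ^ 2 ≤ t * z ^ 2 := le_mul_of_one_le_left (sq_nonneg z) ht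
      linarith only [h2, sq_nonneg (z - 1), sq_nonneg z]
    calc z * (1 + z) * (1 + z) ^ 4 ≤ 2 * (1 + t * z ^ 2) * (1 + z) ^ 4 := by gcongr
      _ = _ := by ring
  · rw [mul_one_div, mul_div_assoc', div_le_iff₀ hd]
    calc z * (1 + z) * (z * (1 + z) ^ 2) * t = (1 + z) ^ 3 * (t * z ^ 2) := by ring
      _ ≤ (1 + z) ^ 4 * (1 + t * z ^ 2) := by
        gcongr
        · linarith
        · norm_num
        · linarith

private lemma l2_dom : ∃ C : ℝ, 0 ≤ C ∧ ∀ t : ℝ, 1 ≤ t → ∀ x : X3, 0 < r3 x →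
    ‖inner ℂ (K.flip.xi (pr x)) (K.Av (K.Ps t) (pr x))‖ ≤ C * (1 + ze x) ^ 4 * B0 x := by
  obtain ⟨C0, hC0, hG⟩ := K.l2_bounds
  obtain ⟨C1, hC1, hX⟩ := K.l2_xi_bound
  obtain ⟨C2, hC2, hS⟩ := sph_bound
  refine ⟨3 * (C0 * C1 * C2), by positivity, fun t ht x hx => ?_⟩
  have ht0 : 0 < t := by linarith
  have hz : 0 < ze x := Real.sqrt_pos.mpr hx
  have b0 := K.l2g_bound (G := K.l2G0) (b := fun ρ => C0 * (1 + ρ) ^ 4) (fun y => (hG y).1) x
  have b1 := K.l2g_bound (G := K.l2G1) (b := fun ρ => C0 * (ρ * (1 + ρ) ^ 2))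
    (fun y => (hG y).2) x
  rw [K.l2_split ht0 x b0 b1]
  have hx' := hX (pr x)
  rw [l2_ze_pr, l2_B0_pr] at hx'
  have hS' := hS t ht0 (pr x)
  rw [l2_phsq_pr, ← l2_ze_sq] at hS'
  have hEc : ∀ v : V4, v ≠ 0 →
      ContinuousAt (fun v => Real.exp (-t * perp2 (act (gU v)⁻¹ (pr x)))) v := fun v hv =>
    Real.continuous_exp.continuousAt.comp (continuousAt_const.mul (l2_P_contAt (pr x) v hv))
  have hi : Integrable fun v : V4 =>
      Real.exp (-‖v‖ ^ 2) * Real.exp (-t * perp2 (act (gU v)⁻¹ (pr x))) := by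
    refine (integrable_gauss4.mul_const 1).mono' ?_ (Filter.Eventually.of_forall fun v => ?_)
    · exact l2_aesm fun v hv => (Real.continuous_exp.comp
        (continuous_norm.pow 2).neg).continuousAt.mul (hEc v hv)
    · rw [Real.norm_of_nonneg (by positivity)]
      refine mul_le_mul_of_nonneg_left ?_ (Real.exp_pos _).le
      rw [Real.exp_le_one_iff, neg_mul]
      exact neg_nonpos.mpr (mul_nonneg ht0.le (l2_perp_nonneg _))
  have hi1 : Integrable fun v : V4 =>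
      Real.exp (-‖v‖ ^ 2) * (t * Real.exp (-t * perp2 (act (gU v)⁻¹ (pr x)))) := by
    refine (hi.const_mul t).congr (Filter.Eventually.of_forall fun v => ?_)
    simp only
    ring
  have e0 := l2_norm_int b0 (fun v => (Real.exp_pos _).le) hi
  have e1 := l2_norm_int b1 (w := fun v => t * Real.exp (-t * perp2 (act (gU v)⁻¹ (pr x))))
    (fun v => mul_nonneg ht0.le (Real.exp_pos _).le) hi1
  have e2 : ∫ v : V4, Real.exp (-‖v‖ ^ 2) * (t * Real.exp (-t * perp2 (act (gU v)⁻¹ (pr x)))) =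
      t * ∫ v : V4, Real.exp (-‖v‖ ^ 2) * Real.exp (-t * perp2 (act (gU v)⁻¹ (pr x))) := by
    rw [← integral_const_mul]
    refine integral_congr_ae (Filter.Eventually.of_forall fun v => ?_)
    simp only
    ring
  rw [e2] at e1
  set J := ∫ v : V4, Real.exp (-‖v‖ ^ 2) * Real.exp (-t * perp2 (act (gU v)⁻¹ (pr x))) with hJ
  have hJ0 : 0 ≤ J := integral_nonneg fun v => by positivity
  refine (norm_add_le _ _).trans ((add_le_add e0 e1).trans ?_)
  set X := ‖K.flip.xi (pr x)‖ with hXd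
  have hXn : 0 ≤ X := norm_nonneg _
  set z := ze x with hzd
  set B := B0 x with hB
  have hBn : 0 ≤ B := l2_B0_nonneg x
  have hJ1 : J ≤ C2 * (1 / (1 + t * z ^ 2)) := by rw [mul_one_div]; exact hS'
  obtain ⟨r1, r2⟩ := l2_real4 ht hz
  have hd : 0 ≤ 1 / (1 + t * z ^ 2) := by positivity
  have f0 : J * (X * (C0 * (1 + z) ^ 4)) ≤ C0 * C1 * C2 * B * (2 * (1 + z) ^ 4) := by
    calc J * (X * (C0 * (1 + z) ^ 4)) ≤
        (C2 * (1 / (1 + t * z ^ 2))) * ((C1 * (z * (1 + z)) * B) * (C0 * (1 + z) ^ 4)) := by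
          gcongr
      _ = C0 * C1 * C2 * B * (z * (1 + z) * ((1 + z) ^ 4) * (1 / (1 + t * z ^ 2))) := by ring
      _ ≤ _ := mul_le_mul_of_nonneg_left r1 (by positivity)
  have f1 : t * J * (X * (C0 * (z * (1 + z) ^ 2))) ≤ C0 * C1 * C2 * B * (1 + z) ^ 4 := by
    calc t * J * (X * (C0 * (z * (1 + z) ^ 2))) ≤
        t * (C2 * (1 / (1 + t * z ^ 2))) *
          ((C1 * (z * (1 + z)) * B) * (C0 * (z * (1 + z) ^ 2))) := by
          gcongr
      _ = C0 * C1 * C2 * B *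
          (z * (1 + z) * (z * (1 + z) ^ 2) * (t * (1 / (1 + t * z ^ 2)))) := by ring
      _ ≤ _ := mul_le_mul_of_nonneg_left r2 (by positivity)
  calc _ ≤ C0 * C1 * C2 * B * (2 * (1 + z) ^ 4) + C0 * C1 * C2 * B * (1 + z) ^ 4 :=
        add_le_add f0 f1
    _ = _ := by ring

private lemma l2_ae_r3 : ∀ᵐ x : X3, 0 < r3 x := by
  have h1 : (volume : Measure X3)
      ((LinearMap.ker (EuclideanSpace.proj (𝕜 := ℝ) (7, 2) : X3 →L[ℝ] ℝ).toLinearMap :
        Submodule ℝ X3) : Set X3) = 0 := by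
    refine Measure.addHaar_submodule _ _ fun h => ?_
    have h2 : (EuclideanSpace.single ((7, 2) : Fin 9 × Fin 3) (1 : ℝ) : X3) ∈
        (LinearMap.ker (EuclideanSpace.proj (𝕜 := ℝ) (7, 2) : X3 →L[ℝ] ℝ).toLinearMap :
        Submodule ℝ X3) := by rw [h]; trivial
    simp at h2
  filter_upwards [compl_mem_ae_iff.mpr h1] with x hx
  have hx' : x (7, 2) ≠ 0 := by
    intro h
    exact hx (by simpa using h)
  unfold r3
  positivity

theorem lim2 :
    Tendsto (fun t : ℝ => ∫ x, (Real.exp (-perp2 x) : ℂ) *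
      inner ℂ (K.flip.xi (pr x)) (K.Av (K.Ps t) (pr x))) atTop
      (𝓝 (∫ x, (Real.exp (-perp2 x) : ℂ) * (-((Real.pi ^ 2 : ℝ) : ℂ) / K.nu) *
        (K.phb 2 x / (r3 x : ℂ)) *
        inner ℂ (K.flip.xi (pr x)) ((Real.exp (-K.hh (pr x)) : ℂ) • K.aT (pr x)))) := by
  obtain ⟨C, hC, hd⟩ := K.l2_dom
  have hpc : Continuous fun x : X3 => (Real.exp (-perp2 x) : ℂ) := by
    have h : ∀ p : Fin 9 × Fin 3, Continuous fun x : X3 => x p := fun p =>
      (EuclideanSpace.proj p).continuous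
    have hp : Continuous perp2 := by
      unfold perp2
      exact ((((h _).pow 2).add ((h _).pow 2)).add ((h _).pow 2)).add ((h _).pow 2)
    exact Complex.continuous_ofReal.comp (Real.continuous_exp.comp hp.neg)
  refine tendsto_integral_filter_of_dominated_convergence
    (fun x => C * ((1 + ze x) ^ 4 * Real.exp (-1 * perp2 x) * B0 x)) ?_ ?_
    ((integrable_J one_pos).const_mul C) ?_
  · filter_upwards [Filter.eventually_gt_atTop (0 : ℝ)] with t ht
    exact (hpc.mul ((K.l2_cont_xi.comp l2_continuous_pr).inner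
      ((K.Av_continuous (K.Ps_adm ht)).comp l2_continuous_pr))).aestronglyMeasurable
  · filter_upwards [Filter.eventually_ge_atTop (1 : ℝ)] with t ht
    filter_upwards [l2_ae_r3] with x hx
    rw [norm_mul, Complex.norm_real, Real.norm_of_nonneg (Real.exp_pos _).le, neg_one_mul]
    calc Real.exp (-perp2 x) * ‖inner ℂ (K.flip.xi (pr x)) (K.Av (K.Ps t) (pr x))‖ ≤
        Real.exp (-perp2 x) * (C * (1 + ze x) ^ 4 * B0 x) :=
          mul_le_mul_of_nonneg_left (hd t ht x hx) (Real.exp_pos _).le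
      _ = _ := by ring
  · filter_upwards [l2_ae_r3] with x hx
    obtain ⟨C0, -, hG⟩ := K.l2_bounds
    have b0 := K.l2g_bound (G := K.l2G0) (b := fun ρ => C0 * (1 + ρ) ^ 4) (fun y => (hG y).1) x
    have b1 := K.l2g_bound (G := K.l2G1) (b := fun ρ => C0 * (ρ * (1 + ρ) ^ 2))
      (fun y => (hG y).2) x
    have hl := ((K.l2_tendsto0 hx b0).add (K.l2_tendsto1 hx b1)).const_mul
      (Real.exp (-perp2 x) : ℂ)
    have hr : (r3 x : ℂ) ≠ 0 := by exact_mod_cast hx.ne'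
    have hnu := K.l2_nu_ne
    have e : (Real.exp (-perp2 x) : ℂ) * (-((Real.pi ^ 2 : ℝ) : ℂ) / K.nu) *
        (K.phb 2 x / (r3 x : ℂ)) *
        inner ℂ (K.flip.xi (pr x)) ((Real.exp (-K.hh (pr x)) : ℂ) • K.aT (pr x)) =
        (Real.exp (-perp2 x) : ℂ) * (0 + ((Real.pi ^ 2 / (2 * r3 x) : ℝ) : ℂ) *
          (-(2 / K.nu) * K.phb 2 x *
          inner ℂ (K.flip.xi (pr x)) ((Real.exp (-K.hh (pr x)) : ℂ) • K.aT (pr x)))) := by
      push_cast
      field_simp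
      ring
    rw [e]
    refine hl.congr' ?_
    filter_upwards [Filter.eventually_gt_atTop (0 : ℝ)] with t ht
    rw [K.l2_split ht x b0 b1]

end Fk

end Vale.Agent.P353.Ex
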