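import Vale.Agent.P353.Ex.PosDef

/-! Task EX-22: adapted frames for the cross product.

From `t_swap`, `t_cyc`, `t_norm` (polarised): `a×(a×b) = (a·b) a - |a|² b`, and for orthonormal
`a, b` and `c ⟂ a, b, a×b`: `a×(b×c) = -b×(a×c)`, which is orthogonal to everything before.
Given `e_0, e_1` orthonormal: `e_2 = e_0×e_1`, choose a unit vector `e_3 ⟂ e_0,e_1,e_2`,
`e_4 = e_0×e_3`, `e_5 = e_1×e_3`, `e_6 = e_0×e_5`. -/

open MeasureTheory Filter Topology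
open scoped ContDiff ComplexConjugate
open Matrix

namespace Vale.Agent.P353.Ex

/-- the cross product with structure constants `t` -/
private def pfCr (t : Fin 7 → Fin 7 → Fin 7 → ℝ) (x y : Fin 7 → ℝ) : Fin 7 → ℝ :=
  fun k => ∑ i, ∑ j, t k i j * x i * y j

private lemma pfCr_add (t : Fin 7 → Fin 7 → Fin 7 → ℝ) (x y z : Fin 7 → ℝ) :
    pfCr t x (y + z) = pfCr t x y + pfCr t x z := by
  funext k
  simp only [pfCr, Pi.add_apply, mul_add, Finset.sum_add_distrib]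

private lemma pfCr_add_left (t : Fin 7 → Fin 7 → Fin 7 → ℝ) (x y z : Fin 7 → ℝ) :
    pfCr t (x + y) z = pfCr t x z + pfCr t y z := by
  funext k
  simp only [pfCr, Pi.add_apply, mul_add, add_mul, Finset.sum_add_distrib]

private lemma pfCr_smul (t : Fin 7 → Fin 7 → Fin 7 → ℝ) (x y : Fin 7 → ℝ) (r : ℝ) :
    pfCr t x (r • y) = r • pfCr t x y := by
  funext k
  simp only [pfCr, Pi.smul_apply, smul_eq_mul, Finset.mul_sum]
  exact Finset.sum_congr rfl fun i _ => Finset.sum_congr rfl fun j _ => by ring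

private lemma pfCr_neg (t : Fin 7 → Fin 7 → Fin 7 → ℝ) (x y : Fin 7 → ℝ) :
    pfCr t x (-y) = - pfCr t x y := by
  have := pfCr_smul t x y (-1)
  simpa using this

private lemma pfCr_swap {t : Fin 7 → Fin 7 → Fin 7 → ℝ} (t_swap : ∀ k i j, t k i j = - t k j i)
    (x y : Fin 7 → ℝ) : pfCr t x y = - pfCr t y x := by
  funext k
  simp only [pfCr, Pi.neg_apply, ← Finset.sum_neg_distrib]
  rw [Finset.sum_comm]
  refine Finset.sum_congr rfl fun i _ => Finset.sum_congr rfl fun j _ => ?_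
  rw [t_swap k j i]; ring

private lemma pfCr_cyc {t : Fin 7 → Fin 7 → Fin 7 → ℝ} (t_cyc : ∀ k i j, t k i j = t i j k)
    (x y z : Fin 7 → ℝ) : z ⬝ᵥ pfCr t x y = x ⬝ᵥ pfCr t y z := by
  simp only [dotProduct, pfCr, Finset.mul_sum]
  rw [Finset.sum_comm]
  refine Finset.sum_congr rfl fun i _ => ?_
  rw [Finset.sum_comm]
  refine Finset.sum_congr rfl fun j _ => Finset.sum_congr rfl fun k _ => ?_
  rw [t_cyc k i j]; ring

private lemma pfCr_self {t : Fin 7 → Fin 7 → Fin 7 → ℝ} (t_swap : ∀ k i j, t k i j = - t k j i)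
    (x : Fin 7 → ℝ) : pfCr t x x = 0 := by
  have h := pfCr_swap t_swap x x
  exact self_eq_neg.mp h

private lemma pfCr_norm {t : Fin 7 → Fin 7 → Fin 7 → ℝ}
    (t_norm : ∀ x y : Fin 7 → ℝ, ∑ k, (∑ i, ∑ j, t k i j * x i * y j) ^ 2 =
      (∑ i, x i ^ 2) * (∑ i, y i ^ 2) - (∑ i, x i * y i) ^ 2) (x y : Fin 7 → ℝ) :
    pfCr t x y ⬝ᵥ pfCr t x y = (x ⬝ᵥ x) * (y ⬝ᵥ y) - (x ⬝ᵥ y) ^ 2 := by
  have h := t_norm x y
  simp only [dotProduct, pfCr, ← pow_two]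
  exact h

private lemma pfCr_polar {t : Fin 7 → Fin 7 → Fin 7 → ℝ}
    (t_norm : ∀ x y : Fin 7 → ℝ, ∑ k, (∑ i, ∑ j, t k i j * x i * y j) ^ 2 =
      (∑ i, x i ^ 2) * (∑ i, y i ^ 2) - (∑ i, x i * y i) ^ 2) (x y z : Fin 7 → ℝ) :
    pfCr t x y ⬝ᵥ pfCr t x z = (x ⬝ᵥ x) * (y ⬝ᵥ z) - (x ⬝ᵥ y) * (x ⬝ᵥ z) := by
  have h1 := pfCr_norm t_norm x (y + z)
  have h2 := pfCr_norm t_norm x y
  have h3 := pfCr_norm t_norm x z
  rw [pfCr_add] at h1
  simp only [add_dotProduct, dotProduct_add] at h1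
  rw [dotProduct_comm (pfCr t x z) (pfCr t x y), dotProduct_comm z y] at h1
  linear_combination h1 / 2 - h2 / 2 - h3 / 2

private lemma pfCr_skew {t : Fin 7 → Fin 7 → Fin 7 → ℝ} (t_swap : ∀ k i j, t k i j = - t k j i)
    (t_cyc : ∀ k i j, t k i j = t i j k) (x y z : Fin 7 → ℝ) :
    pfCr t x y ⬝ᵥ z = - (y ⬝ᵥ pfCr t x z) := by
  rw [dotProduct_comm, pfCr_cyc t_cyc, pfCr_cyc t_cyc, pfCr_swap t_swap z x, dotProduct_neg]

private lemma pfCr_cr {t : Fin 7 → Fin 7 → Fin 7 → ℝ} (t_swap : ∀ k i j, t k i j = - t k j i)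
    (t_cyc : ∀ k i j, t k i j = t i j k)
    (t_norm : ∀ x y : Fin 7 → ℝ, ∑ k, (∑ i, ∑ j, t k i j * x i * y j) ^ 2 =
      (∑ i, x i ^ 2) * (∑ i, y i ^ 2) - (∑ i, x i * y i) ^ 2) (x y : Fin 7 → ℝ) :
    pfCr t x (pfCr t x y) = (x ⬝ᵥ y) • x - (x ⬝ᵥ x) • y := by
  refine dotProduct_eq _ _ fun z => ?_
  rw [pfCr_skew t_swap t_cyc, pfCr_polar t_norm, sub_dotProduct, smul_dotProduct,
    smul_dotProduct, smul_eq_mul, smul_eq_mul]
  ring

private lemma pfCr_cr2 {t : Fin 7 → Fin 7 → Fin 7 → ℝ} (t_swap : ∀ k i j, t k i j = - t k j i)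
    (t_cyc : ∀ k i j, t k i j = t i j k)
    (t_norm : ∀ x y : Fin 7 → ℝ, ∑ k, (∑ i, ∑ j, t k i j * x i * y j) ^ 2 =
      (∑ i, x i ^ 2) * (∑ i, y i ^ 2) - (∑ i, x i * y i) ^ 2) (a b c : Fin 7 → ℝ)
    (hab : a ⬝ᵥ b = 0) (hac : a ⬝ᵥ c = 0) (hbc : b ⬝ᵥ c = 0) :
    pfCr t a (pfCr t b c) = - pfCr t b (pfCr t a c) := by
  have h1 := pfCr_cr t_swap t_cyc t_norm (a + b) c
  have h2 := pfCr_cr t_swap t_cyc t_norm a c
  have h3 := pfCr_cr t_swap t_cyc t_norm b c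
  simp only [pfCr_add_left, pfCr_add, add_dotProduct, dotProduct_add, hab, hac, hbc,
    dotProduct_comm b a, add_zero, zero_add, zero_smul, zero_sub, h2, h3, add_smul] at h1
  funext k
  have h4 := congrFun h1 k
  simp only [Pi.add_apply, Pi.neg_apply] at h4 ⊢
  linarith only [h4]

private lemma pf_unit (u v w : Fin 7 → ℝ) :
    ∃ x : Fin 7 → ℝ, x ⬝ᵥ x = 1 ∧ u ⬝ᵥ x = 0 ∧ v ⬝ᵥ x = 0 ∧ w ⬝ᵥ x = 0 := by
  have hk : LinearMap.ker (Matrix.mulVecLin (Matrix.of ![u, v, w])) ≠ ⊥ := by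
    apply LinearMap.ker_ne_bot_of_finrank_lt
    simp
  obtain ⟨y, hy, hy0⟩ := (Submodule.ne_bot_iff _).1 hk
  rw [LinearMap.mem_ker, Matrix.mulVecLin_apply] at hy
  have h0 : u ⬝ᵥ y = 0 := by simpa [Matrix.mulVec] using congrFun hy 0
  have h1 : v ⬝ᵥ y = 0 := by simpa [Matrix.mulVec] using congrFun hy 1
  have h2 : w ⬝ᵥ y = 0 := by simpa [Matrix.mulVec] using congrFun hy 2
  have hpos : 0 < y ⬝ᵥ y := by
    have hnn : 0 ≤ y ⬝ᵥ y := Finset.sum_nonneg fun i _ => mul_self_nonneg _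
    rcases hnn.lt_or_eq with h | h
    · exact h
    · exact absurd (dotProduct_self_eq_zero.1 h.symm) hy0
  refine ⟨(Real.sqrt (y ⬝ᵥ y))⁻¹ • y, ?_, ?_, ?_, ?_⟩
  · rw [smul_dotProduct, dotProduct_smul, smul_eq_mul, smul_eq_mul]
    have hs : Real.sqrt (y ⬝ᵥ y) * Real.sqrt (y ⬝ᵥ y) = y ⬝ᵥ y := Real.mul_self_sqrt hpos.le
    have hs0 : Real.sqrt (y ⬝ᵥ y) ≠ 0 := (Real.sqrt_pos.2 hpos).ne'
    rw [← mul_assoc]
    field_simp
    rw [pow_two, hs]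
  · rw [dotProduct_smul, h0, smul_zero]
  · rw [dotProduct_smul, h1, smul_zero]
  · rw [dotProduct_smul, h2, smul_zero]


private lemma pf_dot_smul_unit {y : Fin 7 → ℝ} (hy : y ≠ 0) :
    ∃ (x : Fin 7 → ℝ) (p : ℝ), x ⬝ᵥ x = 1 ∧ y = p • x ∧ ∃ r : ℝ, x = r • y := by
  have hpos : 0 < y ⬝ᵥ y := by
    have hnn : 0 ≤ y ⬝ᵥ y := Finset.sum_nonneg fun i _ => mul_self_nonneg _
    rcases hnn.lt_or_eq with h | h
    · exact h
    · exact absurd (dotProduct_self_eq_zero.1 h.symm) hy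
  have hs : Real.sqrt (y ⬝ᵥ y) * Real.sqrt (y ⬝ᵥ y) = y ⬝ᵥ y := Real.mul_self_sqrt hpos.le
  have hs0 : Real.sqrt (y ⬝ᵥ y) ≠ 0 := (Real.sqrt_pos.2 hpos).ne'
  refine ⟨(Real.sqrt (y ⬝ᵥ y))⁻¹ • y, Real.sqrt (y ⬝ᵥ y), ?_, ?_, _, rfl⟩
  · rw [smul_dotProduct, dotProduct_smul, smul_eq_mul, smul_eq_mul, ← mul_assoc]
    field_simp
    rw [pow_two, hs]
  · rw [smul_smul, mul_inv_cancel₀ hs0, one_smul]

private lemma pf_start (a b : Fin 7 → ℝ) (hab : a ⬝ᵥ b = 0) :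
    ∃ (x y : Fin 7 → ℝ) (p q : ℝ), x ⬝ᵥ x = 1 ∧ y ⬝ᵥ y = 1 ∧ x ⬝ᵥ y = 0 ∧
      a = p • x ∧ b = q • y := by
  obtain ⟨x, p, hx, hp, hxb⟩ : ∃ (x : Fin 7 → ℝ) (p : ℝ), x ⬝ᵥ x = 1 ∧ a = p • x ∧
      x ⬝ᵥ b = 0 := by
    by_cases ha : a = 0
    · obtain ⟨x, hx, h1, _, _⟩ := pf_unit b b b
      exact ⟨x, 0, hx, by rw [ha, zero_smul], by rw [dotProduct_comm]; exact h1⟩
    · obtain ⟨x, p, hx, hp, r, hr⟩ := pf_dot_smul_unit ha
      exact ⟨x, p, hx, hp, by rw [hr, smul_dotProduct, hab, smul_zero]⟩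
  by_cases hb : b = 0
  · obtain ⟨y, hy, h1, _, _⟩ := pf_unit x x x
    exact ⟨x, y, p, 0, hx, hy, h1, hp, by rw [hb, zero_smul]⟩
  · obtain ⟨y, q, hy, hq, r, hr⟩ := pf_dot_smul_unit hb
    exact ⟨x, y, p, q, hx, hy, by rw [hr, dotProduct_smul, hxb, smul_zero], hp, hq⟩

theorem exists_frame (t : Fin 7 → Fin 7 → Fin 7 → ℝ) (t_swap : ∀ k i j, t k i j = - t k j i)
    (t_cyc : ∀ k i j, t k i j = t i j k)
    (t_norm : ∀ x y : Fin 7 → ℝ, ∑ k, (∑ i, ∑ j, t k i j * x i * y j) ^ 2 =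
      (∑ i, x i ^ 2) * (∑ i, y i ^ 2) - (∑ i, x i * y i) ^ 2)
    (a b : Fin 7 → ℝ) (hab : ∑ i, a i * b i = 0) :
    ∃ (O : Matrix (Fin 7) (Fin 7) ℝ) (p q : ℝ), O * O.transpose = 1 ∧
      (∀ i, ∑ l, O i l * a l = if i = 0 then p else 0) ∧
      (∀ i, ∑ l, O i l * b l = if i = 1 then q else 0) ∧
      (∀ k j, ∑ a, ∑ b, ∑ c, O k a * O 0 b * O j c * t a b c = L1 k j) ∧
      (∀ k j, ∑ a, ∑ b, ∑ c, O k a * O 1 b * O j c * t a b c = L2 k j) := by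
  obtain ⟨e0, e1, p, q, h00, h11, h01, ha, hb⟩ := pf_start a b hab
  have nrm := pfCr_norm t_norm
  have pol := pfCr_polar t_norm
  have skw := pfCr_skew t_swap t_cyc
  have crcr := pfCr_cr t_swap t_cyc t_norm
  obtain ⟨e2, he2⟩ : ∃ e2, e2 = pfCr t e0 e1 := ⟨_, rfl⟩
  have h22 : e2 ⬝ᵥ e2 = 1 := by rw [he2, nrm, h00, h11, h01]; norm_num
  have self0 : pfCr t e0 e0 = 0 := pfCr_self t_swap e0
  have self1 : pfCr t e1 e1 = 0 := pfCr_self t_swap e1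
  have h02 : e0 ⬝ᵥ e2 = 0 := by
    rw [he2, dotProduct_comm, skw, self0, dotProduct_zero, neg_zero]
  have h12 : e1 ⬝ᵥ e2 = 0 := by
    rw [he2, pfCr_cyc t_cyc, self1, dotProduct_zero]
  obtain ⟨e3, h33, h03, h13, h23⟩ := pf_unit e0 e1 e2
  obtain ⟨e4, he4⟩ : ∃ e4, e4 = pfCr t e0 e3 := ⟨_, rfl⟩
  obtain ⟨e5, he5⟩ : ∃ e5, e5 = pfCr t e1 e3 := ⟨_, rfl⟩
  obtain ⟨e6, he6⟩ : ∃ e6, e6 = pfCr t e0 e5 := ⟨_, rfl⟩
  have h44 : e4 ⬝ᵥ e4 = 1 := by rw [he4, nrm, h00, h33, h03]; norm_num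
  have h55 : e5 ⬝ᵥ e5 = 1 := by rw [he5, nrm, h11, h33, h13]; norm_num
  have h34 : e3 ⬝ᵥ e4 = 0 := by
    rw [he4, pfCr_cyc t_cyc, pfCr_self t_swap, dotProduct_zero]
  have h35 : e3 ⬝ᵥ e5 = 0 := by
    rw [he5, pfCr_cyc t_cyc, pfCr_self t_swap, dotProduct_zero]
  have h04 : e0 ⬝ᵥ e4 = 0 := by
    rw [he4, dotProduct_comm, skw, self0, dotProduct_zero, neg_zero]
  have h15 : e1 ⬝ᵥ e5 = 0 := by
    rw [he5, dotProduct_comm, skw, self1, dotProduct_zero, neg_zero]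
  have h14 : e1 ⬝ᵥ e4 = 0 := by
    rw [he4, dotProduct_comm, skw, ← he2, dotProduct_comm, h23, neg_zero]
  have h24 : e2 ⬝ᵥ e4 = 0 := by
    rw [he4, he2, pol, h13, h01, h03]; norm_num
  have h05 : e0 ⬝ᵥ e5 = 0 := by
    rw [he5, dotProduct_comm, skw, pfCr_swap t_swap e1 e0, ← he2, dotProduct_neg,
      dotProduct_comm, h23]; norm_num
  have h25 : e2 ⬝ᵥ e5 = 0 := by
    rw [he5, he2, pfCr_swap t_swap e0 e1, neg_dotProduct, pol, h03, h13]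
    rw [dotProduct_comm e1 e0, h01]; norm_num
  have h45 : e4 ⬝ᵥ e5 = 0 := by
    rw [he4, he5, pfCr_swap t_swap e0 e3, pfCr_swap t_swap e1 e3, neg_dotProduct,
      dotProduct_neg, pol, h01, dotProduct_comm e3 e0, h03]; norm_num
  have h66 : e6 ⬝ᵥ e6 = 1 := by rw [he6, nrm, h00, h55, h05]; norm_num
  have h06 : e0 ⬝ᵥ e6 = 0 := by
    rw [he6, dotProduct_comm, skw, self0, dotProduct_zero, neg_zero]
  have h56 : e5 ⬝ᵥ e6 = 0 := by
    rw [he6, pfCr_cyc t_cyc, pfCr_self t_swap, dotProduct_zero]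
  have h16 : e1 ⬝ᵥ e6 = 0 := by
    rw [he6, dotProduct_comm, skw, ← he2, dotProduct_comm, h25, neg_zero]
  have h26 : e2 ⬝ᵥ e6 = 0 := by
    rw [he6, he2, pol, h15, h01, h05]; norm_num
  have h36 : e3 ⬝ᵥ e6 = 0 := by
    rw [he6, dotProduct_comm, skw, ← he4, dotProduct_comm, h45, neg_zero]
  have h46 : e4 ⬝ᵥ e6 = 0 := by
    rw [he6, he4, pol, h35, h03, h05]; norm_num
  -- products
  have c02 : pfCr t e0 e2 = - e1 := by
    rw [he2, crcr, h01, h00, zero_smul, one_smul, zero_sub]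
  have c04 : pfCr t e0 e4 = - e3 := by
    rw [he4, crcr, h03, h00, zero_smul, one_smul, zero_sub]
  have c06 : pfCr t e0 e6 = - e5 := by
    rw [he6, crcr, h05, h00, zero_smul, one_smul, zero_sub]
  have c10 : pfCr t e1 e0 = - e2 := by rw [he2, pfCr_swap t_swap]
  have c12 : pfCr t e1 e2 = e0 := by
    rw [he2, pfCr_swap t_swap e0 e1, pfCr_neg, crcr, dotProduct_comm, h01, h11, zero_smul,
      one_smul, zero_sub, neg_neg]
  have c15 : pfCr t e1 e5 = - e3 := by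
    rw [he5, crcr, h13, h11, zero_smul, one_smul, zero_sub]
  have c14 : pfCr t e1 e4 = - e6 := by
    have h := pfCr_cr2 t_swap t_cyc t_norm e0 e1 e3 h01 h03 h13
    rw [← he5, ← he6, ← he4] at h
    rw [h, neg_neg]
  have c16 : pfCr t e1 e6 = e4 := by
    have h := pfCr_cr2 t_swap t_cyc t_norm e0 e1 e5 h01 h05 h15
    rw [← he6, c15, pfCr_neg, ← he4, neg_inj] at h
    exact h.symm
  obtain ⟨e, he⟩ : ∃ e : Fin 7 → Fin 7 → ℝ, e = ![e0, e1, e2, e3, e4, e5, e6] := ⟨_, rfl⟩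
  have E0 : e 0 = e0 := by rw [he]; rfl
  have E1 : e 1 = e1 := by rw [he]; rfl
  have E2 : e 2 = e2 := by rw [he]; rfl
  have E3 : e 3 = e3 := by rw [he]; rfl
  have E4 : e 4 = e4 := by rw [he]; rfl
  have E5 : e 5 = e5 := by rw [he]; rfl
  have E6 : e 6 = e6 := by rw [he]; rfl
  have gle : ∀ i j : Fin 7, i < j → e i ⬝ᵥ e j = 0 := by
    intro i j hij
    fin_cases i <;> fin_cases j <;> first
      | exact absurd hij (by decide)
      | (simp only [Fin.zero_eta, Fin.mk_one, Fin.reduceFinMk, E0, E1, E2, E3, E4, E5, E6]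
         assumption)
  have gd : ∀ i : Fin 7, e i ⬝ᵥ e i = 1 := by
    intro i
    fin_cases i <;>
      (simp only [Fin.zero_eta, Fin.mk_one, Fin.reduceFinMk, E0, E1, E2, E3, E4, E5, E6]
       assumption)
  have gram : ∀ i j : Fin 7, e i ⬝ᵥ e j = if i = j then 1 else 0 := by
    intro i j
    rcases lt_trichotomy i j with h | h | h
    · rw [gle i j h, if_neg h.ne]
    · rw [h, gd, if_pos rfl]
    · rw [dotProduct_comm, gle j i h, if_neg h.ne']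
  have key : ∀ i k j : Fin 7, ∑ a, ∑ b, ∑ c, e k a * e i b * e j c * t a b c =
      e k ⬝ᵥ pfCr t (e i) (e j) := by
    intro i k j
    simp only [dotProduct, pfCr, Finset.mul_sum]
    refine Finset.sum_congr rfl fun x _ => Finset.sum_congr rfl fun y _ =>
      Finset.sum_congr rfl fun z _ => by ring
  refine ⟨Matrix.of e, p, q, ?_, ?_, ?_, ?_, ?_⟩
  · ext i j
    rw [Matrix.mul_apply, Matrix.one_apply]
    exact gram i j
  · intro i
    have h : ∑ l, Matrix.of e i l * a l = p * (e i ⬝ᵥ e 0) := by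
      rw [ha, E0, ← smul_eq_mul, ← dotProduct_smul]; rfl
    rw [h, gram]
    split_ifs <;> simp
  · intro i
    have h : ∑ l, Matrix.of e i l * b l = q * (e i ⬝ᵥ e 1) := by
      rw [hb, E1, ← smul_eq_mul, ← dotProduct_smul]; rfl
    rw [h, gram]
    split_ifs <;> simp
  · intro k j
    refine (key 0 k j).trans ?_
    rw [E0]
    have hc : ∃ v : ℝ, ∃ m : Fin 7, pfCr t e0 (e j) = v • e m ∧
        ∀ k, v * (if k = m then 1 else 0) = L1 k j := by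
      fin_cases j
      · exact ⟨0, 0, by simpa [E0] using self0, by simp [L1, Fin.forall_fin_succ]⟩
      · exact ⟨1, 2, by simp [E1, E2, he2], by simp [L1, Fin.forall_fin_succ]⟩
      · exact ⟨-1, 1, by simpa [E1, E2] using c02, by simp [L1, Fin.forall_fin_succ]⟩
      · exact ⟨1, 4, by simp [E3, E4, he4], by simp [L1, Fin.forall_fin_succ]⟩
      · exact ⟨-1, 3, by simpa [E3, E4] using c04, by simp [L1, Fin.forall_fin_succ]⟩
      · exact ⟨1, 6, by simp [E5, E6, he6], by simp [L1, Fin.forall_fin_succ]⟩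
      · exact ⟨-1, 5, by simpa [E5, E6] using c06, by simp [L1, Fin.forall_fin_succ]⟩
    obtain ⟨v, m, hv, hm⟩ := hc
    rw [hv, dotProduct_smul, gram, smul_eq_mul, hm]
  · intro k j
    refine (key 1 k j).trans ?_
    rw [E1]
    have hc : ∃ v : ℝ, ∃ m : Fin 7, pfCr t e1 (e j) = v • e m ∧
        ∀ k, v * (if k = m then 1 else 0) = L2 k j := by
      fin_cases j
      · exact ⟨-1, 2, by simpa [E0, E2] using c10, by simp [L2, Fin.forall_fin_succ]⟩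
      · exact ⟨0, 1, by simpa [E1] using self1, by simp [L2, Fin.forall_fin_succ]⟩
      · exact ⟨1, 0, by simpa [E0, E2] using c12, by simp [L2, Fin.forall_fin_succ]⟩
      · exact ⟨1, 5, by simp [E3, E5, he5], by simp [L2, Fin.forall_fin_succ]⟩
      · exact ⟨-1, 6, by simpa [E4, E6] using c14, by simp [L2, Fin.forall_fin_succ]⟩
      · exact ⟨-1, 3, by simpa [E3, E5] using c15, by simp [L2, Fin.forall_fin_succ]⟩
      · exact ⟨1, 4, by simpa [E4, E6] using c16, by simp [L2, Fin.forall_fin_succ]⟩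
    obtain ⟨v, m, hv, hm⟩ := hc
    rw [hv, dotProduct_smul, gram, smul_eq_mul, hm]

end Vale.Agent.P353.Ex
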