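import Vale.Agent.P353.Ex.Cov

/-! Task EX-13: parametrisation of `SU(2)` by `ℝ⁴ ∖ 0`. -/

open MeasureTheory Filter Topology
open scoped ContDiff ComplexConjugate

namespace Vale.Agent.P353.Ex

/-- parameter space of the average over `SU(2)` -/
abbrev V4 : Type := EuclideanSpace ℝ (Fin 4)

noncomputable def va (v : V4) : ℂ := ⟨v 0, v 1⟩
noncomputable def vb (v : V4) : ℂ := ⟨v 2, v 3⟩

/-- `!![a, -b̄; b, ā] / |v|` -/
noncomputable def gM (v : V4) : Matrix (Fin 2) (Fin 2) ℂ :=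
  ((‖v‖⁻¹ : ℝ) : ℂ) • !![va v, -conj (vb v); vb v, conj (va v)]

private lemma grp_mem (a b : ℂ) (h : a * conj a + b * conj b = 1) :
    !![a, -conj b; b, conj a] ∈ Matrix.specialUnitaryGroup (Fin 2) ℂ := by
  rw [Matrix.mem_specialUnitaryGroup_iff, Matrix.mem_unitaryGroup_iff]
  constructor
  · ext i j
    fin_cases i <;> fin_cases j <;>
      simp [Matrix.mul_apply, Fin.sum_univ_two, Matrix.star_apply]
    · linear_combination h
    · ring
    · ring
    · linear_combination h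
  · rw [Matrix.det_fin_two_of]
    linear_combination h

theorem norm_sq_eq (v : V4) : ‖v‖ ^ 2 = ‖va v‖ ^ 2 + ‖vb v‖ ^ 2 := by
  rw [EuclideanSpace.norm_sq_eq, Fin.sum_univ_four, Complex.sq_norm, Complex.sq_norm,
    Complex.normSq_apply, Complex.normSq_apply]
  simp only [va, vb, Real.norm_eq_abs, sq_abs]
  ring

private lemma gM_eq (v : V4) : gM v = !![((‖v‖⁻¹ : ℝ) : ℂ) * va v,
    -conj (((‖v‖⁻¹ : ℝ) : ℂ) * vb v); ((‖v‖⁻¹ : ℝ) : ℂ) * vb v,
    conj (((‖v‖⁻¹ : ℝ) : ℂ) * va v)] := by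
  rw [gM]
  ext i j
  fin_cases i <;> fin_cases j <;> simp

private lemma grp_norm (v : V4) (hv : v ≠ 0) :
    ((‖v‖⁻¹ : ℝ) : ℂ) * va v * conj (((‖v‖⁻¹ : ℝ) : ℂ) * va v) +
      ((‖v‖⁻¹ : ℝ) : ℂ) * vb v * conj (((‖v‖⁻¹ : ℝ) : ℂ) * vb v) = 1 := by
  have h1 : ‖v‖ ≠ 0 := norm_ne_zero_iff.2 hv
  rw [Complex.mul_conj, Complex.mul_conj, Complex.normSq_eq_norm_sq, Complex.normSq_eq_norm_sq,
    norm_mul, norm_mul, Complex.norm_real, norm_inv, norm_norm, mul_pow, mul_pow, ← Complex.ofReal_add,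
    ← mul_add, ← norm_sq_eq, inv_pow, inv_mul_cancel₀ (pow_ne_zero 2 h1), Complex.ofReal_one]

theorem gM_mem (v : V4) (hv : v ≠ 0) : gM v ∈ Matrix.specialUnitaryGroup (Fin 2) ℂ := by
  rw [gM_eq]
  exact grp_mem _ _ (grp_norm v hv)

open Classical in
noncomputable def gU (v : V4) : SU2 := if h : v = 0 then 1 else ⟨gM v, gM_mem v h⟩

private lemma coe_gU (v : V4) (hv : v ≠ 0) : (gU v : Matrix (Fin 2) (Fin 2) ℂ) = gM v := by
  rw [gU, dif_neg hv]

/-- the torus element `diag(e^{iθ}, e^{-iθ})` -/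
noncomputable def Tel (θ : ℝ) : SU2 := ⟨!![Complex.exp (Complex.I * θ), 0; 0,
  Complex.exp (-(Complex.I * θ))], by
    have h := grp_mem (Complex.exp (Complex.I * θ)) 0 (by
      rw [zero_mul, add_zero, ← Complex.exp_conj, ← Complex.exp_add, map_mul, Complex.conj_I,
        Complex.conj_ofReal, neg_mul, add_neg_cancel, Complex.exp_zero])
    rwa [← Complex.exp_conj, map_mul, Complex.conj_I, Complex.conj_ofReal, map_zero, neg_zero,
      neg_mul] at h⟩

/-- the Weyl element `!![0, -i; -i, 0]` (rotation by `π` about `e_0`) -/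
noncomputable def Wel : SU2 := ⟨!![0, -Complex.I; -Complex.I, 0], by
    have h := grp_mem 0 (-Complex.I) (by
      rw [zero_mul, zero_add, map_neg, Complex.conj_I, neg_neg, neg_mul, Complex.I_mul_I, neg_neg])
    rwa [map_neg, Complex.conj_I, neg_neg, map_zero] at h⟩

private lemma grp_r2 : ((Real.sqrt 2 : ℝ) : ℂ)⁻¹ * ((Real.sqrt 2 : ℝ) : ℂ)⁻¹ = 1 / 2 := by
  rw [← mul_inv, ← Complex.ofReal_mul, Real.mul_self_sqrt (by norm_num)]
  norm_num

/-- Pauli matrices -/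
private def sig : Fin 3 → Matrix (Fin 2) (Fin 2) ℂ
  | 0 => !![0, 1; 1, 0]
  | 1 => !![0, -Complex.I; Complex.I, 0]
  | 2 => !![1, 0; 0, -1]

private lemma rotm_sig (U : SU2) {p q r t : ℂ}
    (hU : (U : Matrix (Fin 2) (Fin 2) ℂ) = !![p, q; r, t]) (B A : Fin 3) :
    rotm U B A = (1 / 2) *
      (sig B * (!![p, q; r, t] * sig A * !![conj p, conj r; conj q, conj t])).trace.re := by
  have h0 : ∀ A, pauliT A = (((Real.sqrt 2)⁻¹ : ℝ) : ℂ) • sig A := by
    intro A
    fin_cases A <;> simp only [pauliT, sig, Complex.ofReal_inv]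
  have h1 : (!![p, q; r, t] : Matrix (Fin 2) (Fin 2) ℂ).conjTranspose =
      !![conj p, conj r; conj q, conj t] := by
    ext i j
    fin_cases i <;> fin_cases j <;> rfl
  rw [rotm, adCoeff, h0, h0, hU, h1, Matrix.mul_smul, Matrix.smul_mul, Matrix.smul_mul,
    Matrix.mul_smul, smul_smul, Matrix.trace_smul, smul_eq_mul, ← Complex.ofReal_mul,
    Complex.re_ofReal_mul, ← mul_inv, Real.mul_self_sqrt (by norm_num), one_div]

/-- the entries `rotm U B 2` -/
private lemma rotm_two (U : SU2) (a b : ℂ)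
    (hU : (U : Matrix (Fin 2) (Fin 2) ℂ) = !![a, -conj b; b, conj a]) :
    rotm U 0 2 = 2 * (a * conj b).re ∧ rotm U 1 2 = -2 * (a * conj b).im ∧
      rotm U 2 2 = ‖a‖ ^ 2 - ‖b‖ ^ 2 := by
  refine ⟨?_, ?_, ?_⟩ <;>
    simp only [rotm_sig U hU, sig, Matrix.mul_fin_two, Matrix.trace_fin_two_of,
      Complex.sq_norm, Complex.normSq_apply, Complex.add_re, Complex.mul_re, Complex.mul_im,
      Complex.neg_re, Complex.neg_im, Complex.conj_re, Complex.conj_im, Complex.add_im,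
      Complex.I_re, Complex.I_im, Complex.zero_re, Complex.zero_im, Complex.one_re,
      Complex.one_im, map_neg, Complex.conj_conj] <;> ring

theorem rotm_Wel (B A : Fin 3) : rotm Wel B A = if B = A then (if A = 0 then 1 else -1) else 0 := by
  have hW : ((Wel : SU2) : Matrix (Fin 2) (Fin 2) ℂ) = !![0, -Complex.I; -Complex.I, 0] := rfl
  rw [rotm_sig Wel hW]
  fin_cases B <;> fin_cases A <;> simp [sig, Matrix.trace_fin_two_of] <;> norm_num

theorem rotm_Tel (θ : ℝ) (B A : Fin 3) : rotm (Tel θ) B A =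
    !![Real.cos (2 * θ), Real.sin (2 * θ), 0; -Real.sin (2 * θ), Real.cos (2 * θ), 0; 0, 0, 1] B A := by
  have he : Complex.exp (Complex.I * θ) = ((Real.cos θ : ℝ) : ℂ) + ((Real.sin θ : ℝ) : ℂ) * Complex.I := by
    rw [mul_comm, Complex.exp_mul_I, Complex.ofReal_cos, Complex.ofReal_sin]
  have he' : Complex.exp (-(Complex.I * θ)) = ((Real.cos θ : ℝ) : ℂ) - ((Real.sin θ : ℝ) : ℂ) * Complex.I := by
    rw [← neg_mul, mul_comm, ← neg_one_mul, ← mul_assoc, mul_comm _ (-1 : ℂ), neg_one_mul,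
      Complex.exp_mul_I, Complex.cos_neg, Complex.sin_neg, Complex.ofReal_cos, Complex.ofReal_sin]
    ring
  have hT : ((Tel θ : SU2) : Matrix (Fin 2) (Fin 2) ℂ) =
      !![((Real.cos θ : ℝ) : ℂ) + ((Real.sin θ : ℝ) : ℂ) * Complex.I, 0; 0,
        ((Real.cos θ : ℝ) : ℂ) - ((Real.sin θ : ℝ) : ℂ) * Complex.I] := by
    rw [← he, ← he']
    rfl
  have hc := Real.cos_sq_add_sin_sq θ
  rw [rotm_sig _ hT, Real.cos_two_mul, Real.sin_two_mul]
  generalize Real.cos θ = c at hc ⊢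
  generalize Real.sin θ = s at hc ⊢
  fin_cases B <;> fin_cases A <;> simp [sig, Matrix.trace_fin_two_of]
  · linear_combination -hc
  · ring
  · ring
  · linear_combination -hc
  · linear_combination hc

/-- the vector with given `va`, `vb` -/
private noncomputable def mkV (a b : ℂ) : V4 := WithLp.toLp 2 ![a.re, a.im, b.re, b.im]

private lemma va_mkV (a b : ℂ) : va (mkV a b) = a := by
  apply Complex.ext <;> simp [va, mkV]

private lemma vb_mkV (a b : ℂ) : vb (mkV a b) = b := by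
  apply Complex.ext <;> simp [vb, mkV]

private lemma V4_ext {v w : V4} (ha : va v = va w) (hb : vb v = vb w) : v = w := by
  have h0 := congrArg Complex.re ha
  have h1 := congrArg Complex.im ha
  have h2 := congrArg Complex.re hb
  have h3 := congrArg Complex.im hb
  ext i
  fin_cases i
  · exact h0
  · exact h1
  · exact h2
  · exact h3

private lemma va_add (v w : V4) : va (v + w) = va v + va w := by
  apply Complex.ext <;> simp [va]

private lemma vb_add (v w : V4) : vb (v + w) = vb v + vb w := by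
  apply Complex.ext <;> simp [vb]

private lemma va_smul (c : ℝ) (v : V4) : va (c • v) = c * va v := by
  apply Complex.ext <;> simp [va]

private lemma vb_smul (c : ℝ) (v : V4) : vb (c • v) = c * vb v := by
  apply Complex.ext <;> simp [vb]

private lemma exists_iso (f g : V4 → ℂ) (hf : ∀ v w, f (v + w) = f v + f w)
    (hf' : ∀ (c : ℝ) v, f (c • v) = c * f v) (hg : ∀ v w, g (v + w) = g v + g w)
    (hg' : ∀ (c : ℝ) v, g (c • v) = c * g v)
    (hn : ∀ v, ‖f v‖ ^ 2 + ‖g v‖ ^ 2 = ‖va v‖ ^ 2 + ‖vb v‖ ^ 2) :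
    ∃ L : V4 ≃ₗᵢ[ℝ] V4, ∀ v, va (L v) = f v ∧ vb (L v) = g v := by
  let L0 : V4 →ₗᵢ[ℝ] V4 :=
    { toFun := fun v => mkV (f v) (g v)
      map_add' := fun v w => V4_ext
        (by rw [va_add, va_mkV, va_mkV, va_mkV, hf]) (by rw [vb_add, vb_mkV, vb_mkV, vb_mkV, hg])
      map_smul' := fun c v => V4_ext
        (by rw [RingHom.id_apply, va_smul, va_mkV, va_mkV, hf'])
        (by rw [RingHom.id_apply, vb_smul, vb_mkV, vb_mkV, hg'])
      norm_map' := fun v => by
        have h : ‖mkV (f v) (g v)‖ ^ 2 = ‖v‖ ^ 2 := by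
          rw [norm_sq_eq, norm_sq_eq, va_mkV, vb_mkV, hn]
        exact (sq_eq_sq₀ (norm_nonneg _) (norm_nonneg _)).1 h }
  refine ⟨L0.toLinearIsometryEquiv rfl, fun v => ?_⟩
  rw [LinearIsometry.coe_toLinearIsometryEquiv]
  exact ⟨va_mkV _ _, vb_mkV _ _⟩

private lemma SU2_form (U : SU2) : ∃ p q : ℂ, (U : Matrix (Fin 2) (Fin 2) ℂ) =
    !![p, -conj q; q, conj p] ∧ ‖p‖ ^ 2 + ‖q‖ ^ 2 = 1 := by
  obtain ⟨M, hM⟩ := U
  rw [Matrix.mem_specialUnitaryGroup_iff, Matrix.mem_unitaryGroup_iff'] at hM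
  obtain ⟨h1, h2⟩ := hM
  have h3 : star M = M.adjugate := by
    have := congrArg (fun X => star M * X) (Matrix.mul_adjugate M)
    simp only [← mul_assoc, h1, one_mul, h2, one_smul, mul_one] at this
    exact this.symm
  rw [Matrix.adjugate_fin_two] at h3
  have h4 := congrFun (congrFun h3 0) 0
  have h5 := congrFun (congrFun h3 0) 1
  simp only [Matrix.star_apply, Matrix.of_apply, Matrix.cons_val', Matrix.cons_val_zero,
    Matrix.cons_val_one, Matrix.cons_val_fin_one] at h4 h5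
  have h6 : M 1 1 = conj (M 0 0) := h4.symm
  have h7 : M 0 1 = -conj (M 1 0) := by
    have : conj (M 1 0) = -M 0 1 := h5
    rw [this, neg_neg]
  refine ⟨M 0 0, M 1 0, ?_, ?_⟩
  · rw [← h6, ← h7]
    exact Matrix.eta_fin_two M
  · rw [Matrix.det_fin_two, h6, h7, neg_mul, sub_neg_eq_add, mul_comm (conj (M 1 0)),
      Complex.mul_conj, Complex.mul_conj, Complex.normSq_eq_norm_sq, Complex.normSq_eq_norm_sq] at h2
    exact_mod_cast h2

/-- left translations are linear isometries of `V4` -/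
theorem gU_left (U : SU2) : ∃ L : V4 ≃ₗᵢ[ℝ] V4, ∀ v, v ≠ 0 → gU (L v) = U * gU v := by
  obtain ⟨p, q, hU, hn⟩ := SU2_form U
  obtain ⟨L, hL⟩ := exists_iso (fun v => p * va v - conj q * vb v)
    (fun v => q * va v + conj p * vb v) (fun v w => by rw [va_add, vb_add]; ring)
    (fun c v => by rw [va_smul, vb_smul]; ring) (fun v w => by rw [va_add, vb_add]; ring)
    (fun c v => by rw [va_smul, vb_smul]; ring) (fun v => by
      rw [Complex.sq_norm, Complex.sq_norm, Complex.normSq_apply, Complex.normSq_apply] at hn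
      simp only [Complex.sq_norm, Complex.normSq_apply, Complex.add_re, Complex.mul_re,
        Complex.mul_im, Complex.sub_re, Complex.sub_im, Complex.conj_re, Complex.conj_im,
        Complex.add_im]
      linear_combination ((va v).re * (va v).re + (va v).im * (va v).im +
        (vb v).re * (vb v).re + (vb v).im * (vb v).im) * hn)
  refine ⟨L, fun v hv => Subtype.ext ?_⟩
  have hLv : L v ≠ 0 := by
    rw [Ne, LinearIsometryEquiv.map_eq_zero_iff]
    exact hv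
  rw [Submonoid.coe_mul, coe_gU _ hLv, coe_gU _ hv, gM, gM, LinearIsometryEquiv.norm_map,
    (hL v).1, (hL v).2, hU, Matrix.mul_smul, Matrix.mul_fin_two]
  congr 1
  ext i j
  fin_cases i <;> fin_cases j <;> simp <;> ring

/-- right translation by the Weyl element -/
theorem gU_right : ∃ R : V4 ≃ₗᵢ[ℝ] V4, (∀ v, v ≠ 0 → gU (R v) = gU v * Wel) ∧
    (∀ v, ‖va (R v)‖ = ‖vb v‖) ∧ (∀ v, ‖vb (R v)‖ = ‖va v‖) := by
  obtain ⟨L, hL⟩ := exists_iso (fun v => Complex.I * conj (vb v))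
    (fun v => -Complex.I * conj (va v)) (fun v w => by rw [vb_add, map_add]; ring)
    (fun c v => by rw [vb_smul, map_mul, Complex.conj_ofReal]; ring)
    (fun v w => by rw [va_add, map_add]; ring)
    (fun c v => by rw [va_smul, map_mul, Complex.conj_ofReal]; ring) (fun v => by
      simp [add_comm])
  have ha : ∀ v, ‖va (L v)‖ = ‖vb v‖ := fun v => by rw [(hL v).1]; simp
  have hb : ∀ v, ‖vb (L v)‖ = ‖va v‖ := fun v => by rw [(hL v).2]; simp
  refine ⟨L, fun v hv => Subtype.ext ?_, ha, hb⟩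
  have hLv : L v ≠ 0 := by
    rw [Ne, LinearIsometryEquiv.map_eq_zero_iff]
    exact hv
  have hW : ((Wel : SU2) : Matrix (Fin 2) (Fin 2) ℂ) = !![0, -Complex.I; -Complex.I, 0] := rfl
  rw [Submonoid.coe_mul, coe_gU _ hLv, coe_gU _ hv, gM, gM, LinearIsometryEquiv.norm_map,
    (hL v).1, (hL v).2, hW, Matrix.smul_mul, Matrix.mul_fin_two]
  congr 1
  ext i j
  fin_cases i <;> fin_cases j <;> simp <;> ring

theorem continuousAt_gU (v : V4) (hv : v ≠ 0) : ContinuousAt gU v := by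
  rw [Topology.IsInducing.subtypeVal.continuousAt_iff]
  have h1 : (fun w => ((gU w : SU2) : Matrix (Fin 2) (Fin 2) ℂ)) =ᶠ[𝓝 v] gM := by
    filter_upwards [isOpen_ne.mem_nhds hv] with w hw
    exact coe_gU w hw
  have ha : Continuous va := by
    have : va = fun v : V4 => ((v 0 : ℝ) : ℂ) + ((v 1 : ℝ) : ℂ) * Complex.I := by
      funext v
      rw [va, Complex.mk_eq_add_mul_I]
    rw [this]
    fun_prop
  have hb : Continuous vb := by
    have : vb = fun v : V4 => ((v 2 : ℝ) : ℂ) + ((v 3 : ℝ) : ℂ) * Complex.I := by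
      funext v
      rw [vb, Complex.mk_eq_add_mul_I]
    rw [this]
    fun_prop
  refine ContinuousAt.congr ?_ h1.symm
  have h2 : gM = fun w : V4 => ((‖w‖⁻¹ : ℝ) : ℂ) • !![va w, -conj (vb w); vb w, conj (va w)] := rfl
  rw [h2]
  refine ContinuousAt.smul (M := ℂ) (X := Matrix (Fin 2) (Fin 2) ℂ) ?_ ?_
  · exact Complex.continuous_ofReal.continuousAt.comp
      (continuous_norm.continuousAt.inv₀ (norm_ne_zero_iff.2 hv))
  · refine (continuous_matrix fun i j => ?_).continuousAt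
    fin_cases i <;> fin_cases j <;> simp <;> fun_prop

theorem gU_of_vb (v : V4) (hv : v ≠ 0) (hb : vb v = 0) : ∃ θ, gU v = Tel θ := by
  have hn : ‖v‖ = ‖va v‖ := by
    have h := norm_sq_eq v
    rw [hb, norm_zero, zero_pow two_ne_zero, add_zero] at h
    exact (sq_eq_sq₀ (norm_nonneg _) (norm_nonneg _)).1 h
  have h0 : ‖va v‖ ≠ 0 := by
    rw [← hn]
    exact norm_ne_zero_iff.2 hv
  refine ⟨Complex.arg (va v), Subtype.ext ?_⟩
  have he : ((‖v‖⁻¹ : ℝ) : ℂ) * va v = Complex.exp (Complex.I * Complex.arg (va v)) := by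
    have h := Complex.norm_mul_exp_arg_mul_I (va v)
    rw [hn, mul_comm Complex.I]
    nth_rewrite 2 [← h]
    rw [Complex.ofReal_inv, inv_mul_cancel_left₀ (Complex.ofReal_ne_zero.2 h0)]
  have he' : conj (((‖v‖⁻¹ : ℝ) : ℂ) * va v) = Complex.exp (-(Complex.I * Complex.arg (va v))) := by
    rw [he, ← Complex.exp_conj, map_mul, Complex.conj_I, Complex.conj_ofReal, neg_mul]
  rw [coe_gU v hv, gM_eq, he', he, hb, mul_zero, map_zero, neg_zero]
  rfl

theorem rotm_gU_22 (v : V4) (hv : v ≠ 0) :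
    rotm (gU v) 2 2 = (‖va v‖ ^ 2 - ‖vb v‖ ^ 2) / ‖v‖ ^ 2 := by
  have h := (rotm_two (gU v) _ _ ((coe_gU v hv).trans (gM_eq v))).2.2
  rw [h, norm_mul, norm_mul, Complex.norm_real, norm_inv, norm_norm]
  ring

/-- every unit vector is the image of `e_2` -/
theorem exists_rot (m : Fin 3 → ℝ) (hm : ∑ B, m B ^ 2 = 1) : ∃ U : SU2, ∀ B, rotm U B 2 = m B := by
  rw [Fin.sum_univ_three] at hm
  by_cases h : m 2 = -1
  · have h0 : m 0 = 0 := by nlinarith only [hm, h, sq_nonneg (m 0), sq_nonneg (m 1)]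
    have h1 : m 1 = 0 := by nlinarith only [hm, h, sq_nonneg (m 0), sq_nonneg (m 1)]
    have hw : ((Wel : SU2) : Matrix (Fin 2) (Fin 2) ℂ) =
        !![0, -conj (-Complex.I); -Complex.I, conj 0] := by
      rw [map_neg, Complex.conj_I, neg_neg, map_zero]
      rfl
    obtain ⟨r0, r1, r2⟩ := rotm_two Wel 0 (-Complex.I) hw
    refine ⟨Wel, fun B => ?_⟩
    fin_cases B
    · exact r0.trans (by simp [h0])
    · exact r1.trans (by simp [h1])
    · exact r2.trans (by simp [h])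
  · have h2 : -1 < m 2 := by
      refine lt_of_le_of_ne ?_ (Ne.symm h)
      nlinarith only [hm, sq_nonneg (m 0), sq_nonneg (m 1), sq_nonneg (m 2 - 1), sq_nonneg (m 2 + 1)]
    set s : ℝ := Real.sqrt ((1 + m 2) / 2) with hs
    have hs0 : 0 < s := Real.sqrt_pos.2 (by linarith)
    have hs2 : s ^ 2 = (1 + m 2) / 2 := Real.sq_sqrt (by linarith)
    set b : ℂ := ⟨m 0 / (2 * s), m 1 / (2 * s)⟩ with hb
    have hbn : ‖b‖ ^ 2 = (1 - m 2) / 2 := by
      rw [Complex.sq_norm, Complex.normSq_apply]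
      have : m 0 / (2 * s) * (m 0 / (2 * s)) + m 1 / (2 * s) * (m 1 / (2 * s)) =
          (m 0 ^ 2 + m 1 ^ 2) / (4 * s ^ 2) := by
        field_simp
        ring
      rw [hb]
      simp only [this]
      rw [hs2, div_eq_iff (by linarith)]
      linear_combination hm
    have hmem : (s : ℂ) * conj (s : ℂ) + b * conj b = 1 := by
      rw [Complex.mul_conj, Complex.mul_conj, Complex.normSq_eq_norm_sq, Complex.normSq_eq_norm_sq,
        Complex.norm_real, Real.norm_eq_abs, sq_abs, hs2, hbn, ← Complex.ofReal_add]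
      have : (1 + m 2) / 2 + (1 - m 2) / 2 = 1 := by ring
      rw [this, Complex.ofReal_one]
    obtain ⟨r0, r1, r2⟩ := rotm_two ⟨_, grp_mem (s : ℂ) b hmem⟩ (s : ℂ) b rfl
    refine ⟨⟨_, grp_mem (s : ℂ) b hmem⟩, fun B => ?_⟩
    fin_cases B
    · refine r0.trans ?_
      rw [Complex.re_ofReal_mul, Complex.conj_re, ← mul_assoc]
      exact mul_div_cancel₀ _ (by positivity)
    · refine r1.trans ?_
      rw [Complex.im_ofReal_mul, Complex.conj_im, mul_neg, neg_mul_neg, ← mul_assoc]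
      exact mul_div_cancel₀ _ (by positivity)
    · refine r2.trans ?_
      rw [Complex.norm_real, Real.norm_eq_abs, sq_abs, hs2, hbn]
      ring_nf
      rfl

/-- `|φ|²` -/
noncomputable def phsq (x : X3) : ℝ := ∑ A, (x (7, A) ^ 2 + x (8, A) ^ 2)

theorem phsq_eq (x : X3) : phsq x = Fk.perp2 x + Fk.r3 x := by
  rw [phsq, Fin.sum_univ_three, Fk.perp2, Fk.r3]
  ring

theorem phsq_act (U : SU2) (x : X3) : phsq (act U x) = phsq x := by
  have key : ∀ y : Fin 3 → ℝ, ∑ B, (∑ A, rotm U B A * y A) ^ 2 = ∑ A, y A ^ 2 := by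
    intro y
    have h00 := rotm_orth U 0 0
    have h11 := rotm_orth U 1 1
    have h22 := rotm_orth U 2 2
    have h01 := rotm_orth U 0 1
    have h02 := rotm_orth U 0 2
    have h12 := rotm_orth U 1 2
    simp only [Fin.sum_univ_three, if_true, if_neg (show ¬ (0 : Fin 3) = 1 by decide),
      if_neg (show ¬ (0 : Fin 3) = 2 by decide), if_neg (show ¬ (1 : Fin 3) = 2 by decide)] at h00 h11 h22 h01 h02 h12 ⊢
    linear_combination y 0 ^ 2 * h00 + y 1 ^ 2 * h11 + y 2 ^ 2 * h22 + 2 * y 0 * y 1 * h01 +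
      2 * y 0 * y 2 * h02 + 2 * y 1 * y 2 * h12
  rw [phsq, phsq, Finset.sum_add_distrib, Finset.sum_add_distrib]
  exact congrArg₂ (· + ·) (key fun A => x (7, A)) (key fun A => x (8, A))

theorem act_inv_two (U : SU2) (x : X3) (i : Fin 9) : act U⁻¹ x (i, 2) = ∑ B, rotm U B 2 * x (i, B) := by
  have : act U⁻¹ x (i, 2) = ∑ B, rotm U⁻¹ 2 B * x (i, B) := rfl
  rw [this]
  refine Finset.sum_congr rfl fun B _ => ?_
  rw [rotm_inv]

/-- for `φ_⊥ = 0` -/
theorem perp2_pr (v : V4) (hv : v ≠ 0) (x : X3) : Fk.perp2 (act (gU v)⁻¹ (pr x)) =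
    4 * ‖va v‖ ^ 2 * ‖vb v‖ ^ 2 / ‖v‖ ^ 4 * Fk.r3 x := by
  have h1 : ∀ (i : Fin 9), (i = 7 ∨ i = 8) → ∀ A, act (gU v)⁻¹ (pr x) (i, A) =
      rotm (gU v) 2 A * x (i, 2) := by
    intro i hi A
    have : act (gU v)⁻¹ (pr x) (i, A) = ∑ C, rotm (gU v)⁻¹ A C *
        (if (i = 7 ∨ i = 8) ∧ C ≠ 2 then 0 else x (i, C)) := rfl
    rw [this, Fin.sum_univ_three, if_pos ⟨hi, by decide⟩, if_pos ⟨hi, by decide⟩,
      if_neg (fun h => h.2 rfl), mul_zero, mul_zero, zero_add, zero_add, rotm_inv]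
  have h2 := rotm_orth' (gU v) 2 2
  rw [Fin.sum_univ_three, if_pos rfl, rotm_gU_22 v hv] at h2
  have h3 : ‖v‖ ^ 2 ≠ 0 := pow_ne_zero 2 (norm_ne_zero_iff.2 hv)
  have h4 := norm_sq_eq v
  rw [Fk.perp2, h1 7 (Or.inl rfl), h1 8 (Or.inr rfl), h1 7 (Or.inl rfl), h1 8 (Or.inr rfl), Fk.r3]
  have h5 : rotm (gU v) 2 0 ^ 2 + rotm (gU v) 2 1 ^ 2 =
      4 * ‖va v‖ ^ 2 * ‖vb v‖ ^ 2 / ‖v‖ ^ 4 := by
    have h6 : 4 * ‖va v‖ ^ 2 * ‖vb v‖ ^ 2 / ‖v‖ ^ 4 =
        1 - (‖va v‖ ^ 2 - ‖vb v‖ ^ 2) / ‖v‖ ^ 2 * ((‖va v‖ ^ 2 - ‖vb v‖ ^ 2) / ‖v‖ ^ 2) := by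
      rw [div_mul_div_comm, ← pow_add, eq_sub_iff_add_eq, ← add_div, div_eq_one_iff_eq
        (pow_ne_zero _ (norm_ne_zero_iff.2 hv))]
      linear_combination (-(‖v‖ ^ 2) - ‖va v‖ ^ 2 - ‖vb v‖ ^ 2) * h4
    rw [h6]
    linear_combination h2
  rw [← h5]
  ring

end Vale.Agent.P353.Ex
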