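import Vale.Agent.P353.Ex.PosDef
import Vale.Agent.P353.Ex.Group

/-! Task EX-21: frame change, and invariance under the torus.

The structure `Fk.rot` is in `PosDef.lean`.
`B`, `μ`, `ds`, `ds̄` and `∑_k c_k^2 dκ_k` are invariant under orthogonal changes of frame, and
`∏_k (c_k^2 dκ_k) = (∑_k c_k^2 dκ_k)^7 / 7!` (commuting elements of square zero).
`Ctop`: `∏_k X_k Y_k Z_k` is up to the same sign `(∏X)(∏Y)(∏Z)` and each `∏ X'_k = det O ∏ X_k`
(alternating multilinear map), `(det O)³ = det O`.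
Torus: `S(Tel θ)` conjugation, `S vac = vac`, `S vacb = vacb`; all factors are invariant. -/

open MeasureTheory Filter Topology
open scoped ContDiff ComplexConjugate

namespace Vale.Agent.P353.Ex

variable {F : Type*} [NormedAddCommGroup F] [InnerProductSpace ℂ F]

/-! ### pure algebra -/

section alg

variable {R : Type*} [Ring R]

private theorem rot_comm_of_anti {a b c : R} (h1 : a * c = -(c * a)) (h2 : b * c = -(c * b)) :
    Commute (a * b) c := by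
  show a * b * c = c * (a * b)
  rw [mul_assoc, h2, mul_neg, ← mul_assoc, h1, neg_mul, neg_neg, mul_assoc]

private theorem rot_sq_zero {a b : R} (h : a * b = -(b * a)) (ha : a * a = 0) :
    (a * b) * (a * b) = 0 := by
  rw [h, neg_mul_neg, mul_assoc, ← mul_assoc a b a, h, neg_mul, mul_neg, mul_assoc b a a, ha,
    mul_zero, mul_zero, neg_zero]

private theorem rot_add_pow {s q : R} (h : Commute s q) (hq : q * q = 0) (n : ℕ) :
    (s + q) ^ (n + 1) = s ^ (n + 1) + ((n + 1 : ℕ) : R) * (s ^ n * q) := by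
  induction n with
  | zero => simp only [zero_add, pow_one, pow_zero, one_mul, Nat.cast_one]
  | succ n ih =>
    rw [pow_succ (s + q), ih, add_mul, mul_add, mul_add, ← pow_succ, mul_assoc _ _ q,
      mul_assoc (s ^ n) q q, hq, mul_zero, mul_zero, add_zero, mul_assoc _ _ s, mul_assoc (s ^ n) q s,
      ← h.eq, ← mul_assoc (s ^ n) s q, ← pow_succ, add_assoc]
    congr 1
    push_cast
    ring_nf
    noncomm_ring

private theorem rot_sum_pow (n : ℕ) : ∀ p : Fin n → R, (∀ i j, Commute (p i) (p j)) →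
    (∀ i, p i * p i = 0) → (∑ i, p i) ^ n = ((n.factorial : ℕ) : R) * (List.ofFn p).prod ∧
      (∑ i, p i) ^ (n + 1) = 0 := by
  induction n with
  | zero => intro p _ _; simp
  | succ n ih =>
    intro p hc hs
    obtain ⟨h1, h2⟩ := ih (fun i => p i.succ) (fun i j => hc _ _) (fun i => hs _)
    have hq : Commute (∑ i : Fin n, p i.succ) (p 0) :=
      (Finset.sum_induction _ (fun x => Commute x (p 0)) (fun a b ha hb => ha.add_left hb)
        (Commute.zero_left _) (fun i _ => hc _ _))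
    rw [Fin.sum_univ_succ, add_comm (p 0), rot_add_pow hq (hs 0) n, rot_add_pow hq (hs 0) (n + 1),
      h2, h1, List.ofFn_succ, List.prod_cons, pow_succ (∑ i : Fin n, p i.succ) (n + 1), h2]
    refine ⟨?_, by simp⟩
    have h3 : Commute (List.ofFn fun i : Fin n => p i.succ).prod (p 0) := by
      refine Commute.list_prod_left _ _ fun x hx => ?_
      obtain ⟨i, rfl⟩ := (List.mem_ofFn' _ _).1 hx
      exact hc _ _
    rw [zero_add, mul_assoc ((n.factorial : ℕ) : R), h3.eq, ← mul_assoc, ← Nat.cast_mul,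
      Nat.factorial_succ]

/-- moving one odd element past a product of odd elements -/
private theorem rot_move {n : ℕ} (v : R) (X : Fin n → R) (h : ∀ i, v * X i = -(X i * v)) :
    v * (List.ofFn X).prod = (-1) ^ n * ((List.ofFn X).prod * v) := by
  induction n with
  | zero => simp
  | succ n ih =>
    rw [List.ofFn_succ, List.prod_cons, ← mul_assoc, h, neg_mul, mul_assoc,
      ih (fun i => X i.succ) (fun i => h _), pow_succ, ← mul_assoc (X 0),
      ((Commute.neg_one_left (X 0)).pow_left n).symm.eq]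
    noncomm_ring

/-- `∏ X_k Y_k Z_k = ± (∏ X) (∏ Y) (∏ Z)` with a universal sign -/
private theorem rot_shuffle (n : ℕ) : ∃ e : ℤ, ∀ X Y Z : Fin n → R,
    (∀ i j, Y i * X j = -(X j * Y i)) → (∀ i j, Z i * X j = -(X j * Z i)) →
    (∀ i j, Z i * Y j = -(Y j * Z i)) →
    (List.ofFn fun k => X k * Y k * Z k).prod =
      (e : R) * ((List.ofFn X).prod * (List.ofFn Y).prod * (List.ofFn Z).prod) := by
  induction n with
  | zero => exact ⟨1, fun X Y Z _ _ _ => by simp⟩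
  | succ n ih =>
    obtain ⟨e, he⟩ := ih
    refine ⟨e * (-1) ^ n, fun X Y Z hYX hZX hZY => ?_⟩
    rw [List.ofFn_succ, List.prod_cons, he (fun i => X i.succ) (fun i => Y i.succ)
      (fun i => Z i.succ) (fun i j => hYX _ _) (fun i j => hZX _ _) (fun i j => hZY _ _),
      List.ofFn_succ (f := X), List.ofFn_succ (f := Y), List.ofFn_succ (f := Z),
      List.prod_cons, List.prod_cons, List.prod_cons]
    set PX := (List.ofFn fun i : Fin n => X i.succ).prod with hPX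
    set PY := (List.ofFn fun i : Fin n => Y i.succ).prod with hPY
    set PZ := (List.ofFn fun i : Fin n => Z i.succ).prod
    have h1 : Z 0 * PX = (-1) ^ n * (PX * Z 0) := rot_move _ _ fun i => hZX _ _
    have h2 : Z 0 * PY = (-1) ^ n * (PY * Z 0) := rot_move _ _ fun i => hZY _ _
    have h3 : Y 0 * PX = (-1) ^ n * (PX * Y 0) := rot_move _ _ fun i => hYX _ _
    have hc : ∀ a : R, a * (-1) ^ n = (-1) ^ n * a := fun a =>
      ((Commute.neg_one_left a).pow_left n).symm.eq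
    have hh : ((-1 : R) ^ n) * (-1) ^ n = 1 := by
      rw [← pow_add, ← two_mul, pow_mul, neg_one_sq, one_pow]
    have hz : Z 0 * (PX * PY * PZ) = PX * PY * (Z 0 * PZ) := by
      calc Z 0 * (PX * PY * PZ) = (Z 0 * PX) * PY * PZ := by simp only [mul_assoc]
        _ = (-1) ^ n * (PX * (Z 0 * PY)) * PZ := by rw [h1]; simp only [mul_assoc]
        _ = (-1) ^ n * ((PX * (-1) ^ n) * (PY * Z 0)) * PZ := by rw [h2]; simp only [mul_assoc]
        _ = ((-1) ^ n * (-1) ^ n) * (PX * (PY * (Z 0 * PZ))) := by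
          rw [hc PX]; simp only [mul_assoc]
        _ = _ := by rw [hh, one_mul, mul_assoc]
    have hy : Y 0 * (PX * PY * (Z 0 * PZ)) = (-1) ^ n * (PX * (Y 0 * PY) * (Z 0 * PZ)) := by
      calc Y 0 * (PX * PY * (Z 0 * PZ)) = (Y 0 * PX) * PY * (Z 0 * PZ) := by
            simp only [mul_assoc]
        _ = _ := by rw [h3]; simp only [mul_assoc]
    have hce : ∀ a : R, a * (e : R) = (e : R) * a := fun a => (Int.cast_commute e a).symm.eq
    calc X 0 * Y 0 * Z 0 * ((e : R) * (PX * PY * PZ))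
        = (e : R) * (X 0 * (Y 0 * (Z 0 * (PX * PY * PZ)))) := by
          rw [← mul_assoc (X 0 * Y 0 * Z 0) (e : R), hce]; simp only [mul_assoc]
      _ = (e : R) * ((X 0 * (-1) ^ n) * (PX * (Y 0 * PY) * (Z 0 * PZ))) := by
          rw [hz, hy]; simp only [mul_assoc]
      _ = _ := by
          rw [hc (X 0)]
          push_cast
          simp only [mul_assoc]

end alg

private theorem rot_det {A : Type*} [Ring A] [Algebra ℂ A] {n : ℕ} (X : Fin n → A)
    (hX : ∀ i j, X i * X j + X j * X i = 0) (O : Matrix (Fin n) (Fin n) ℂ) :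
    (List.ofFn fun k => ∑ l, O k l • X l).prod = O.det • (List.ofFn X).prod := by
  have hL : ∀ v : Fin n → ℂ, Fintype.linearCombination ℂ X v * Fintype.linearCombination ℂ X v = 0 := by
    intro v
    rw [Fintype.linearCombination_apply]
    have h2 : (2 : ℂ) • ((∑ i, v i • X i) * (∑ i, v i • X i)) = 0 := by
      have h3 : (∑ i, v i • X i) * (∑ i, v i • X i) = ∑ i, ∑ j, (v j • X j) * (v i • X i) := by
        rw [Finset.sum_mul_sum, Finset.sum_comm]
      rw [two_smul]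
      nth_rewrite 2 [h3]
      rw [Finset.sum_mul_sum, ← Finset.sum_add_distrib]
      refine Finset.sum_eq_zero fun i _ => ?_
      rw [← Finset.sum_add_distrib]
      refine Finset.sum_eq_zero fun j _ => ?_
      rw [smul_mul_smul_comm, smul_mul_smul_comm, mul_comm (v j), ← smul_add, hX, smul_zero]
    exact (smul_eq_zero.1 h2).resolve_left two_ne_zero
  let φ : ExteriorAlgebra ℂ (Fin n → ℂ) →ₐ[ℂ] A :=
    ExteriorAlgebra.lift ℂ ⟨Fintype.linearCombination ℂ X, hL⟩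
  let f : (Fin n → ℂ) [⋀^Fin n]→ₗ[ℂ] A :=
    φ.toLinearMap.compAlternatingMap (ExteriorAlgebra.ιMulti ℂ n)
  have hf : ∀ v : Fin n → Fin n → ℂ, f v = (List.ofFn fun k => ∑ l, v k l • X l).prod := by
    intro v
    show φ (ExteriorAlgebra.ιMulti ℂ n v) = _
    rw [ExteriorAlgebra.ιMulti_apply, map_list_prod, List.map_ofFn]
    congr 2
    funext k
    simp only [Function.comp_apply, φ, ExteriorAlgebra.lift_ι_apply, Fintype.linearCombination_apply]
  let g : (Fin n → ℂ) [⋀^Fin n]→ₗ[ℂ] A :=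
    (LinearMap.toSpanSingleton ℂ A (f (Pi.basisFun ℂ (Fin n)))).compAlternatingMap
      (Pi.basisFun ℂ (Fin n)).det
  have hfg : f = g := by
    refine Module.Basis.ext_alternating (Pi.basisFun ℂ (Fin n)) fun v hv => ?_
    obtain ⟨σ, hσ⟩ : ∃ σ : Equiv.Perm (Fin n), ∀ i, v i = σ i :=
      ⟨Equiv.ofBijective v (Finite.injective_iff_bijective.1 hv), fun i => rfl⟩
    have e1 : (fun i => (Pi.basisFun ℂ (Fin n)) (v i)) = (Pi.basisFun ℂ (Fin n)) ∘ σ := by
      funext i; rw [Function.comp_apply, hσ]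
    rw [e1, AlternatingMap.map_perm, AlternatingMap.map_perm]
    congr 1
    show _ = (Pi.basisFun ℂ (Fin n)).det (Pi.basisFun ℂ (Fin n)) • f (Pi.basisFun ℂ (Fin n))
    rw [Module.Basis.det_self, one_smul]
  refine (hf fun k => O k).symm.trans ?_
  rw [hfg]
  show (Pi.basisFun ℂ (Fin n)).det (fun k => O k) • f (Pi.basisFun ℂ (Fin n)) = _
  rw [hf, Pi.basisFun_det]
  congr 2
  congr 1
  funext k
  simp only [Pi.basisFun_apply, Pi.single_apply, ite_smul, one_smul, zero_smul,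
    Finset.sum_ite_eq', Finset.mem_univ, if_true]

private theorem rot_bil {M N P : Type*} [AddCommGroup M] [Module ℂ M] [AddCommGroup N] [Module ℂ N]
    [AddCommGroup P] [Module ℂ P] (B : M →ₗ[ℂ] N →ₗ[ℂ] P) {O : Matrix (Fin 7) (Fin 7) ℝ}
    (hO : O * O.transpose = 1) (f : Fin 7 → M) (g : Fin 7 → N) :
    ∑ k, B (∑ l, (O k l : ℂ) • f l) (∑ l, (O k l : ℂ) • g l) = ∑ l, B (f l) (g l) := by
  calc ∑ k, B (∑ l, (O k l : ℂ) • f l) (∑ l, (O k l : ℂ) • g l)
      = ∑ k, ∑ a, ∑ b, ((O k a : ℂ) * (O k b : ℂ)) • B (f a) (g b) := by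
        refine Finset.sum_congr rfl fun k _ => ?_
        rw [map_sum B, LinearMap.sum_apply]
        refine Finset.sum_congr rfl fun a _ => ?_
        rw [map_sum]
        refine Finset.sum_congr rfl fun b _ => ?_
        rw [map_smul, map_smul, LinearMap.smul_apply, smul_smul, mul_comm]
    _ = ∑ a, ∑ b, ((∑ k, O k a * O k b : ℝ) : ℂ) • B (f a) (g b) := by
        rw [Finset.sum_comm]
        refine Finset.sum_congr rfl fun a _ => ?_
        rw [Finset.sum_comm]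
        refine Finset.sum_congr rfl fun b _ => ?_
        rw [Complex.ofReal_sum, Finset.sum_smul]
        refine Finset.sum_congr rfl fun k _ => by rw [Complex.ofReal_mul]
    _ = ∑ a, B (f a) (g a) := by
        refine Finset.sum_congr rfl fun a _ => ?_
        simp only [Fk.orth_col hO, apply_ite Complex.ofReal, Complex.ofReal_one, Complex.ofReal_zero,
          ite_smul, one_smul, zero_smul, Finset.sum_ite_eq, Finset.mem_univ, if_true]

namespace Fk

variable (K : Fk F)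

private theorem rotX_e9 (O : Matrix (Fin 7) (Fin 7) ℝ) (x : X3) (i : Fin 7) (A : Fin 3) :
    rotX O x (e9 i, A) = ∑ l, O i l * x (e9 l, A) := by
  show Fin.lastCases (motive := fun _ => ℝ) (x (8, A))
    (fun i8 => Fin.lastCases (motive := fun _ => ℝ) (x (7, A))
      (fun i => ∑ l, O i l * x (e9 l, A)) i8) (e9 i) = _
  rw [Fin.lastCases_castSucc, Fin.lastCases_castSucc]

private theorem rotX_e9C (O : Matrix (Fin 7) (Fin 7) ℝ) (x : X3) (i : Fin 7) (A : Fin 3) :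
    ((rotX O x (e9 i, A) : ℝ) : ℂ) = ∑ l, (O i l : ℂ) • (x (e9 l, A) : ℂ) := by
  rw [rotX_e9, Complex.ofReal_sum]
  refine Finset.sum_congr rfl fun l _ => by rw [Complex.ofReal_mul, smul_eq_mul]

private theorem rot_c8 (O : Matrix (Fin 7) (Fin 7) ℝ) (hO : O * O.transpose = 1) (k : Fin 7)
    (A : Fin 3) : (K.rot O hO).c (e8 k) A = ∑ l, (O k l : ℂ) • K.c (e8 l) A := by
  show Fin.lastCases (motive := fun _ => F →L[ℂ] F) (K.c 7 A)
    (fun k => ∑ l, (O k l : ℂ) • K.c (e8 l) A) (e8 k) = _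
  rw [Fin.lastCases_castSucc]

private theorem rot_c7 (O : Matrix (Fin 7) (Fin 7) ℝ) (hO : O * O.transpose = 1)
    (A : Fin 3) : (K.rot O hO).c 7 A = K.c 7 A := by
  show Fin.lastCases (motive := fun _ => F →L[ℂ] F) (K.c 7 A)
    (fun k => ∑ l, (O k l : ℂ) • K.c (e8 l) A) (Fin.last 7) = _
  rw [Fin.lastCases_last]

private theorem BB_rot (O : Matrix (Fin 7) (Fin 7) ℝ) (hO : O * O.transpose = 1) :
    (K.rot O hO).BB = K.BB := by
  unfold BB
  simp only [rot_c8]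
  exact rot_bil (LinearMap.mul ℂ (F →L[ℂ] F)) hO (fun l => K.c (e8 l) 0) (fun l => K.c (e8 l) 1)

private theorem mu_rot (O : Matrix (Fin 7) (Fin 7) ℝ) (hO : O * O.transpose = 1) (x : X3) :
    (K.rot O hO).mu (rotX O x) = K.mu x := by
  unfold mu
  simp only [rot_c8, rotX_e9C, Finset.sum_sub_distrib]
  congr 1
  · exact rot_bil (LinearMap.lsmul ℂ (F →L[ℂ] F)) hO (fun l => (x (e9 l, 0) : ℂ))
      (fun l => K.c (e8 l) 1)
  · exact rot_bil (LinearMap.lsmul ℂ (F →L[ℂ] F)) hO (fun l => (x (e9 l, 1) : ℂ))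
      (fun l => K.c (e8 l) 0)

private theorem ds_rot (O : Matrix (Fin 7) (Fin 7) ℝ) (hO : O * O.transpose = 1) (x : X3) :
    (K.rot O hO).ds (rotX O x) = K.ds x := by
  refine Eq.trans ?_ (rot_bil (LinearMap.lsmul ℂ (F →L[ℂ] F)) hO
    (fun l => 2 * ((x (e9 l, 0) : ℂ) + Complex.I * (x (e9 l, 1) : ℂ)))
    (fun l => K.c (e8 l) 0 + Complex.I • K.c (e8 l) 1))
  unfold ds
  refine Finset.sum_congr rfl fun k _ => ?_
  rw [rot_c8, rot_c8, rotX_e9C, rotX_e9C]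
  show _ = (∑ l, (O k l : ℂ) • (2 * ((x (e9 l, 0) : ℂ) + Complex.I * (x (e9 l, 1) : ℂ)))) •
    (∑ l, (O k l : ℂ) • (K.c (e8 l) 0 + Complex.I • K.c (e8 l) 1))
  congr 1
  · rw [Finset.mul_sum, ← Finset.sum_add_distrib, Finset.mul_sum]
    refine Finset.sum_congr rfl fun l _ => ?_
    simp only [smul_eq_mul]
    ring
  · rw [Finset.smul_sum, ← Finset.sum_add_distrib]
    refine Finset.sum_congr rfl fun l _ => ?_
    rw [smul_add, smul_comm]

private theorem dsb_rot (O : Matrix (Fin 7) (Fin 7) ℝ) (hO : O * O.transpose = 1) (x : X3) :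
    (K.rot O hO).dsb (rotX O x) = K.dsb x := by
  refine Eq.trans ?_ (rot_bil (LinearMap.lsmul ℂ (F →L[ℂ] F)) hO
    (fun l => 2 * ((x (e9 l, 0) : ℂ) - Complex.I * (x (e9 l, 1) : ℂ)))
    (fun l => K.c (e8 l) 0 - Complex.I • K.c (e8 l) 1))
  unfold dsb
  refine Finset.sum_congr rfl fun k _ => ?_
  rw [rot_c8, rot_c8, rotX_e9C, rotX_e9C]
  show _ = (∑ l, (O k l : ℂ) • (2 * ((x (e9 l, 0) : ℂ) - Complex.I * (x (e9 l, 1) : ℂ)))) •
    (∑ l, (O k l : ℂ) • (K.c (e8 l) 0 - Complex.I • K.c (e8 l) 1))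
  congr 1
  · rw [Finset.mul_sum, ← Finset.sum_sub_distrib, Finset.mul_sum]
    refine Finset.sum_congr rfl fun l _ => ?_
    simp only [smul_eq_mul]
    ring
  · rw [Finset.smul_sum, ← Finset.sum_sub_distrib]
    refine Finset.sum_congr rfl fun l _ => ?_
    rw [smul_sub, smul_comm]

private theorem rt_coef {O : Matrix (Fin 7) (Fin 7) ℝ} (hO : O * O.transpose = 1)
    (k b c : Fin 7) : ∑ i, ∑ j, K.rt O k i j * O i b * O j c = ∑ a, O k a * K.t a b c := by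
  rw [K.rt_sum O k (fun i => O i b) (fun j => O j c)]
  simp only [orth_col hO, mul_ite, mul_one, mul_zero, Finset.sum_ite_eq', Finset.mem_univ, if_true]

private theorem rt_gen {P : Type*} [AddCommGroup P] [Module ℂ P] {O : Matrix (Fin 7) (Fin 7) ℝ}
    (hO : O * O.transpose = 1) (k : Fin 7) (Ψ : Fin 7 → Fin 7 → P) :
    ∑ i, ∑ j, (K.rt O k i j : ℂ) • (∑ b, ∑ c, ((O i b * O j c : ℝ) : ℂ) • Ψ b c) =
      ∑ a, (O k a : ℂ) • ∑ b, ∑ c, (K.t a b c : ℂ) • Ψ b c := by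
  have h1 : ∀ b c, (∑ i, ∑ j, ((K.rt O k i j * O i b * O j c : ℝ) : ℂ) • Ψ b c) =
      ∑ a, ((O k a * K.t a b c : ℝ) : ℂ) • Ψ b c := fun b c => by
    rw [← Finset.sum_smul, ← Complex.ofReal_sum, ← K.rt_coef hO, Complex.ofReal_sum, Finset.sum_smul]
    refine Finset.sum_congr rfl fun i _ => ?_
    rw [Complex.ofReal_sum, Finset.sum_smul]
  calc ∑ i, ∑ j, (K.rt O k i j : ℂ) • (∑ b, ∑ c, ((O i b * O j c : ℝ) : ℂ) • Ψ b c)
      = ∑ i, ∑ j, ∑ b, ∑ c, ((K.rt O k i j * O i b * O j c : ℝ) : ℂ) • Ψ b c := by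
        refine Finset.sum_congr rfl fun i _ => Finset.sum_congr rfl fun j _ => ?_
        rw [Finset.smul_sum]
        refine Finset.sum_congr rfl fun b _ => ?_
        rw [Finset.smul_sum]
        refine Finset.sum_congr rfl fun c _ => ?_
        rw [smul_smul, mul_assoc, ← Complex.ofReal_mul]
    _ = ∑ b, ∑ c, ∑ i, ∑ j, ((K.rt O k i j * O i b * O j c : ℝ) : ℂ) • Ψ b c := by
        have e : ∀ f : Fin 7 → Fin 7 → Fin 7 → Fin 7 → P,
            ∑ i, ∑ j, ∑ b, ∑ c, f i j b c = ∑ b, ∑ c, ∑ i, ∑ j, f i j b c := fun f => by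
          calc ∑ i, ∑ j, ∑ b, ∑ c, f i j b c = ∑ i, ∑ b, ∑ j, ∑ c, f i j b c :=
                Finset.sum_congr rfl fun i _ => Finset.sum_comm
            _ = ∑ b, ∑ i, ∑ j, ∑ c, f i j b c := Finset.sum_comm
            _ = ∑ b, ∑ i, ∑ c, ∑ j, f i j b c :=
                Finset.sum_congr rfl fun b _ => Finset.sum_congr rfl fun i _ => Finset.sum_comm
            _ = ∑ b, ∑ c, ∑ i, ∑ j, f i j b c :=
                Finset.sum_congr rfl fun b _ => Finset.sum_comm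
        exact e _
    _ = ∑ b, ∑ c, ∑ a, ((O k a * K.t a b c : ℝ) : ℂ) • Ψ b c := by simp only [h1]
    _ = ∑ a, ∑ b, ∑ c, ((O k a * K.t a b c : ℝ) : ℂ) • Ψ b c := by
        rw [Finset.sum_comm]
        calc ∑ c, ∑ b, ∑ a, ((O k a * K.t a b c : ℝ) : ℂ) • Ψ b c
            = ∑ c, ∑ a, ∑ b, ((O k a * K.t a b c : ℝ) : ℂ) • Ψ b c :=
              Finset.sum_congr rfl fun c _ => Finset.sum_comm
          _ = ∑ a, ∑ c, ∑ b, ((O k a * K.t a b c : ℝ) : ℂ) • Ψ b c := Finset.sum_comm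
          _ = _ := Finset.sum_congr rfl fun a _ => Finset.sum_comm
    _ = _ := by
        refine Finset.sum_congr rfl fun a _ => ?_
        rw [Finset.smul_sum]
        refine Finset.sum_congr rfl fun b _ => ?_
        rw [Finset.smul_sum]
        refine Finset.sum_congr rfl fun c _ => ?_
        rw [smul_smul, Complex.ofReal_mul]

private theorem kap_rot (O : Matrix (Fin 7) (Fin 7) ℝ) (hO : O * O.transpose = 1) (k : Fin 7)
    (x : X3) : (K.rot O hO).kap k (rotX O x) = ∑ a, O k a * K.kap a x := by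
  have hx : ∀ b A, ∑ i, O i b * rotX O x (e9 i, A) = x (e9 b, A) := fun b A => by
    simp only [rotX_e9, Finset.mul_sum]
    rw [Finset.sum_comm]
    simp only [← mul_assoc, ← Finset.sum_mul, orth_col hO, ite_mul, one_mul, zero_mul,
      Finset.sum_ite_eq, Finset.mem_univ, if_true]
  show ∑ i, ∑ j, K.rt O k i j * rotX O x (e9 i, 0) * rotX O x (e9 j, 1) = _
  rw [K.rt_sum O k (fun i => rotX O x (e9 i, 0)) (fun j => rotX O x (e9 j, 1))]
  simp only [hx]
  rfl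

private theorem dkap_rot (O : Matrix (Fin 7) (Fin 7) ℝ) (hO : O * O.transpose = 1) (k : Fin 7)
    (x : X3) : (K.rot O hO).dkap k (rotX O x) = ∑ a, (O k a : ℂ) • K.dkap a x := by
  refine Eq.trans ?_ (K.rt_gen hO k fun b c => (x (e9 c, 1) : ℂ) • K.c (e8 b) 0 +
    (x (e9 b, 0) : ℂ) • K.c (e8 c) 1)
  show ∑ i, ∑ j, ((K.rt O k i j : ℂ)) • ((rotX O x (e9 j, 1) : ℂ) • (K.rot O hO).c (e8 i) 0 +
    (rotX O x (e9 i, 0) : ℂ) • (K.rot O hO).c (e8 j) 1) = _
  refine Finset.sum_congr rfl fun i _ => Finset.sum_congr rfl fun j _ => ?_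
  congr 1
  rw [rot_c8, rot_c8, rotX_e9C, rotX_e9C]
  simp only [smul_add, Finset.sum_add_distrib]
  congr 1
  · rw [Finset.smul_sum]
    refine Finset.sum_congr rfl fun b _ => ?_
    rw [Finset.sum_smul]
    refine Finset.sum_congr rfl fun c _ => ?_
    simp only [smul_smul, smul_eq_mul, Complex.ofReal_mul]
    congr 1
    ring
  · rw [Finset.sum_smul]
    refine Finset.sum_congr rfl fun b _ => ?_
    rw [Finset.smul_sum]
    refine Finset.sum_congr rfl fun c _ => ?_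
    simp only [smul_smul, smul_eq_mul, Complex.ofReal_mul]
    congr 1
    ring

/-- linear combinations of creation operators -/
private def Lin (v : F →L[ℂ] F) : Prop :=
  v ∈ Submodule.span ℂ (Set.range fun p : Fin 8 × Fin 3 => K.c p.1 p.2)

private theorem lin_c (i : Fin 8) (A : Fin 3) : K.Lin (K.c i A) :=
  Submodule.subset_span ⟨(i, A), rfl⟩

private theorem lin_dkap (k : Fin 7) (x : X3) : K.Lin (K.dkap k x) := by
  unfold Lin dkap
  refine Submodule.sum_mem _ fun i _ => Submodule.sum_mem _ fun j _ => ?_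
  exact Submodule.smul_mem _ _ (Submodule.add_mem _ (Submodule.smul_mem _ _ (K.lin_c _ _))
    (Submodule.smul_mem _ _ (K.lin_c _ _)))

private theorem lin_anti' {v w : F →L[ℂ] F} (hv : K.Lin v) (hw : K.Lin w) :
    v * w = -(w * v) := by
  refine Submodule.span_induction (p := fun v _ => v * w = -(w * v)) ?_ ?_ ?_ ?_ hv
  · rintro _ ⟨p, rfl⟩
    refine Submodule.span_induction (p := fun w _ => K.c p.1 p.2 * w = -(w * K.c p.1 p.2))
      ?_ ?_ ?_ ?_ hw
    · rintro _ ⟨q, rfl⟩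
      exact eq_neg_of_add_eq_zero_left (K.cc _ _ _ _)
    · rw [mul_zero, zero_mul, neg_zero]
    · intro a b _ _ ha hb
      rw [mul_add, ha, hb, add_mul, neg_add]
    · intro r a _ ha
      rw [mul_smul_comm, ha, smul_mul_assoc, smul_neg]
  · rw [mul_zero, zero_mul, neg_zero]
  · intro a b _ _ ha hb
    rw [add_mul, ha, hb, mul_add, neg_add]
  · intro r a _ ha
    rw [smul_mul_assoc, ha, mul_smul_comm, smul_neg]

private theorem lin_sq {v : F →L[ℂ] F} (hv : K.Lin v) : v * v = 0 := by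
  have h := K.lin_anti' hv hv
  have h2 : (2 : ℂ) • (v * v) = 0 := by
    rw [two_smul]
    nth_rewrite 1 [h]
    exact neg_add_cancel _
  exact (smul_eq_zero.1 h2).resolve_left two_ne_zero

private theorem zk_pow (x : X3) :
    (∑ k : Fin 7, K.c (e8 k) 2 * K.dkap k x) ^ 7 =
      ((Nat.factorial 7 : ℕ) : F →L[ℂ] F) * K.zk x := by
  refine (rot_sum_pow 7 (fun k => K.c (e8 k) 2 * K.dkap k x) (fun i j => ?_) (fun i => ?_)).1
  · exact (rot_comm_of_anti (K.lin_anti' (K.lin_c _ _) (K.lin_c _ _))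
      (K.lin_anti' (K.lin_dkap _ _) (K.lin_c _ _))).mul_right
      (rot_comm_of_anti (K.lin_anti' (K.lin_c _ _) (K.lin_dkap _ _))
      (K.lin_anti' (K.lin_dkap _ _) (K.lin_dkap _ _)))
  · exact rot_sq_zero (K.lin_anti' (K.lin_c _ _) (K.lin_dkap _ _)) (K.lin_sq (K.lin_c _ _))

private theorem zk_rot (O : Matrix (Fin 7) (Fin 7) ℝ) (hO : O * O.transpose = 1) (x : X3) :
    (K.rot O hO).zk (rotX O x) = K.zk x := by
  have h1 := (K.rot O hO).zk_pow (rotX O x)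
  have h2 := K.zk_pow x
  have h3 : ∑ k : Fin 7, (K.rot O hO).c (e8 k) 2 * (K.rot O hO).dkap k (rotX O x) =
      ∑ k : Fin 7, K.c (e8 k) 2 * K.dkap k x := by
    simp only [rot_c8, dkap_rot]
    exact rot_bil (LinearMap.mul ℂ (F →L[ℂ] F)) hO (fun l => K.c (e8 l) 2) (fun l => K.dkap l x)
  rw [h3, h2] at h1
  have h4 : ∀ Z : F →L[ℂ] F, ((Nat.factorial 7 : ℕ) : F →L[ℂ] F) * Z =
      ((Nat.factorial 7 : ℕ) : ℂ) • Z := fun Z => by
    rw [← nsmul_eq_mul, Nat.cast_smul_eq_nsmul]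
  rw [h4, h4] at h1
  exact (smul_right_injective (F →L[ℂ] F)
    (Nat.cast_ne_zero.2 (Nat.factorial_ne_zero 7) : ((Nat.factorial 7 : ℕ) : ℂ) ≠ 0) h1).symm

private theorem c777_rot (O : Matrix (Fin 7) (Fin 7) ℝ) (hO : O * O.transpose = 1) :
    (K.rot O hO).c777 = K.c777 := by
  unfold c777
  rw [rot_c7, rot_c7, rot_c7]

private theorem det_sq {O : Matrix (Fin 7) (Fin 7) ℝ} (hO : O * O.transpose = 1) :
    (O.det : ℂ) * (O.det : ℂ) = 1 := by
  have h := congrArg Matrix.det hO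
  rw [Matrix.det_mul, Matrix.det_transpose, Matrix.det_one] at h
  rw [← Complex.ofReal_mul, h, Complex.ofReal_one]

private theorem Ctop_rot (O : Matrix (Fin 7) (Fin 7) ℝ) (hO : O * O.transpose = 1) :
    (K.rot O hO).Ctop = (O.det : ℂ) • K.Ctop := by
  obtain ⟨e, he⟩ := rot_shuffle (R := F →L[ℂ] F) 7
  have hd : ∀ A, (List.ofFn fun k : Fin 7 => (K.rot O hO).c (e8 k) A).prod =
      (O.det : ℂ) • (List.ofFn fun k : Fin 7 => K.c (e8 k) A).prod := fun A => by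
    have h := rot_det (fun k : Fin 7 => K.c (e8 k) A) (fun i j => K.cc _ _ _ _)
      (O.map (fun r => (r : ℂ)))
    have h2 : (O.map (fun r => (r : ℂ))).det = ((O.det : ℝ) : ℂ) :=
      (RingHom.map_det Complex.ofRealHom O).symm
    rw [h2] at h
    rw [← h]
    congr 2
    funext k
    rw [rot_c8]
    rfl
  have hanti : ∀ (L : Fk F) (A B : Fin 3) (i j : Fin 7),
      L.c (e8 i) A * L.c (e8 j) B = -(L.c (e8 j) B * L.c (e8 i) A) := fun L A B i j =>
    eq_neg_of_add_eq_zero_left (L.cc _ _ _ _)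
  unfold Ctop
  rw [he _ _ _ (hanti _ _ _) (hanti _ _ _) (hanti _ _ _),
    he _ _ _ (hanti K _ _) (hanti K _ _) (hanti K _ _), hd, hd, hd, rot_c7, rot_c7, rot_c7]
  simp only [smul_mul_assoc, mul_smul_comm, smul_smul]
  rw [det_sq hO, mul_one]

private theorem rot_vac (O : Matrix (Fin 7) (Fin 7) ℝ) (hO : O * O.transpose = 1) :
    (K.rot O hO).vac = K.vac := rfl

private theorem rot_vacb (O : Matrix (Fin 7) (Fin 7) ℝ) (hO : O * O.transpose = 1) :
    (K.rot O hO).vacb = K.vacb := rfl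

theorem A3_rot (O : Matrix (Fin 7) (Fin 7) ℝ) (hO : O * O.transpose = 1) (x : X3) :
    (K.rot O hO).A3 (rotX O x) = K.A3 x := by
  unfold A3
  rw [c777_rot, mu_rot, BB_rot, zk_rot, rot_vac, rot_vacb]

theorem A2_rot (O : Matrix (Fin 7) (Fin 7) ℝ) (hO : O * O.transpose = 1) (x : X3) :
    (K.rot O hO).A2 (rotX O x) = K.A2 x := by
  unfold A2
  rw [c777_rot, mu_rot, BB_rot, zk_rot, ds_rot, dsb_rot, rot_vac, rot_vacb]

theorem pairc_rot (O : Matrix (Fin 7) (Fin 7) ℝ) (hO : O * O.transpose = 1) :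
    (K.rot O hO).pairc = (O.det : ℂ) * K.pairc := by
  unfold pairc
  rw [Ctop_rot, rot_vac, rot_vacb, smul_apply, inner_smul_right]

private theorem sq_rot {O : Matrix (Fin 7) (Fin 7) ℝ} (hO : O * O.transpose = 1) (u : Fin 7 → ℝ) :
    ∑ k, (∑ a, O k a * u a) ^ 2 = ∑ a, u a ^ 2 := by
  have h := rot_bil (LinearMap.mul ℂ ℂ) hO (fun a => (u a : ℂ)) (fun a => (u a : ℂ))
  simp only [LinearMap.mul_apply', smul_eq_mul, ← Complex.ofReal_mul, ← Complex.ofReal_sum,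
    Complex.ofReal_inj] at h
  simp only [sq, h]

theorem kapsq_rot (O : Matrix (Fin 7) (Fin 7) ℝ) (hO : O * O.transpose = 1) (x : X3) :
    (K.rot O hO).kapsq (rotX O x) = K.kapsq x := by
  unfold kapsq
  simp only [kap_rot]
  exact sq_rot hO _

theorem wsq_rotX (O : Matrix (Fin 7) (Fin 7) ℝ) (hO : O * O.transpose = 1) (x : X3) :
    wsq (rotX O x) = wsq x := by
  unfold wsq
  simp only [rotX_e9, Finset.sum_add_distrib]
  rw [sq_rot hO, sq_rot hO]

/-! ### the torus -/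

private theorem Tel00 (θ : ℝ) : rotm (Tel θ) 0 0 = Real.cos (2 * θ) := rotm_Tel θ 0 0
private theorem Tel01 (θ : ℝ) : rotm (Tel θ) 0 1 = Real.sin (2 * θ) := rotm_Tel θ 0 1
private theorem Tel02 (θ : ℝ) : rotm (Tel θ) 0 2 = 0 := rotm_Tel θ 0 2
private theorem Tel10 (θ : ℝ) : rotm (Tel θ) 1 0 = -Real.sin (2 * θ) := rotm_Tel θ 1 0
private theorem Tel11 (θ : ℝ) : rotm (Tel θ) 1 1 = Real.cos (2 * θ) := rotm_Tel θ 1 1
private theorem Tel12 (θ : ℝ) : rotm (Tel θ) 1 2 = 0 := rotm_Tel θ 1 2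
private theorem Tel20 (θ : ℝ) : rotm (Tel θ) 2 0 = 0 := rotm_Tel θ 2 0
private theorem Tel21 (θ : ℝ) : rotm (Tel θ) 2 1 = 0 := rotm_Tel θ 2 1
private theorem Tel22 (θ : ℝ) : rotm (Tel θ) 2 2 = 1 := rotm_Tel θ 2 2

private theorem Tel_S0 (θ : ℝ) (i : Fin 8) : K.S (Tel θ) * K.c i 0 =
    ((Real.cos (2 * θ) : ℂ) • K.c i 0 - (Real.sin (2 * θ) : ℂ) • K.c i 1) * K.S (Tel θ) := by
  rw [K.S_c, Fin.sum_univ_three, Tel00, Tel10, Tel20, Complex.ofReal_neg, Complex.ofReal_zero,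
    zero_smul, add_zero, neg_smul, sub_mul, smul_mul_assoc, smul_mul_assoc, ← sub_eq_add_neg]

private theorem Tel_S1 (θ : ℝ) (i : Fin 8) : K.S (Tel θ) * K.c i 1 =
    ((Real.sin (2 * θ) : ℂ) • K.c i 0 + (Real.cos (2 * θ) : ℂ) • K.c i 1) * K.S (Tel θ) := by
  rw [K.S_c, Fin.sum_univ_three, Tel01, Tel11, Tel21, Complex.ofReal_zero,
    zero_smul, add_zero, add_mul, smul_mul_assoc, smul_mul_assoc]

private theorem Tel_S2 (θ : ℝ) (i : Fin 8) : K.S (Tel θ) * K.c i 2 =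
    K.c i 2 * K.S (Tel θ) := by
  rw [K.S_c, Fin.sum_univ_three, Tel02, Tel12, Tel22, Complex.ofReal_zero, Complex.ofReal_one,
    zero_smul, zero_smul, zero_add, zero_add, one_smul]

private theorem Tel_x0 (θ : ℝ) (x : X3) (i : Fin 9) : act (Tel θ) x (i, 0) =
    Real.cos (2 * θ) * x (i, 0) + Real.sin (2 * θ) * x (i, 1) := by
  show ∑ A, rotm (Tel θ) 0 A * x (i, A) = _
  rw [Fin.sum_univ_three, Tel00, Tel01, Tel02, zero_mul, add_zero]

private theorem Tel_x1 (θ : ℝ) (x : X3) (i : Fin 9) : act (Tel θ) x (i, 1) =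
    -(Real.sin (2 * θ) * x (i, 0)) + Real.cos (2 * θ) * x (i, 1) := by
  show ∑ A, rotm (Tel θ) 1 A * x (i, A) = _
  rw [Fin.sum_univ_three, Tel10, Tel11, Tel12, zero_mul, add_zero, neg_mul]

/-- `T'` is the conjugate of `T` -/
private def Cv (θ : ℝ) (T T' : F →L[ℂ] F) : Prop := K.S (Tel θ) * T = T' * K.S (Tel θ)

private theorem Cv.mul {θ : ℝ} {T1 T1' T2 T2' : F →L[ℂ] F} (h1 : K.Cv θ T1 T1')
    (h2 : K.Cv θ T2 T2') : K.Cv θ (T1 * T2) (T1' * T2') := by
  unfold Cv at *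
  rw [← mul_assoc, h1, mul_assoc, h2, mul_assoc]

private theorem Cv.smul {θ : ℝ} {T T' : F →L[ℂ] F} (h : K.Cv θ T T') (r : ℂ) :
    K.Cv θ (r • T) (r • T') := by
  unfold Cv at *
  rw [mul_smul_comm, h, smul_mul_assoc]

private theorem Cv.add {θ : ℝ} {T1 T1' T2 T2' : F →L[ℂ] F} (h1 : K.Cv θ T1 T1')
    (h2 : K.Cv θ T2 T2') : K.Cv θ (T1 + T2) (T1' + T2') := by
  unfold Cv at *
  rw [mul_add, h1, h2, add_mul]

private theorem Cv.sub {θ : ℝ} {T1 T1' T2 T2' : F →L[ℂ] F} (h1 : K.Cv θ T1 T1')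
    (h2 : K.Cv θ T2 T2') : K.Cv θ (T1 - T2) (T1' - T2') := by
  unfold Cv at *
  rw [mul_sub, h1, h2, sub_mul]

private theorem Cv.sum {θ : ℝ} {n : ℕ} {T T' : Fin n → F →L[ℂ] F} (h : ∀ i, K.Cv θ (T i) (T' i)) :
    K.Cv θ (∑ i, T i) (∑ i, T' i) := by
  unfold Cv at *
  rw [Finset.mul_sum, Finset.sum_mul]
  exact Finset.sum_congr rfl fun i _ => h i

private theorem Cv.prod {θ : ℝ} {n : ℕ} {T T' : Fin n → F →L[ℂ] F} (h : ∀ i, K.Cv θ (T i) (T' i)) :
    K.Cv θ (List.ofFn T).prod (List.ofFn T').prod := by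
  induction n with
  | zero => simp only [Cv, List.ofFn_zero, List.prod_nil, mul_one, one_mul]
  | succ n ih =>
    rw [List.ofFn_succ, List.ofFn_succ, List.prod_cons, List.prod_cons]
    exact Cv.mul K (h 0) (ih fun i => h i.succ)

private theorem Cv.inner {θ : ℝ} {T T' : F →L[ℂ] F} (h : K.Cv θ T T') :
    inner ℂ K.vacb (T' K.vac) = inner ℂ K.vacb (T K.vac) := by
  have h1 : K.S (Tel θ) (T K.vac) = T' K.vac := by
    have h2 : (K.S (Tel θ) * T) K.vac = (T' * K.S (Tel θ)) K.vac := by rw [h]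
    change K.S (Tel θ) (T K.vac) = T' (K.S (Tel θ) K.vac) at h2
    rwa [K.S_vac] at h2
  rw [← h1]
  nth_rewrite 1 [← K.S_vacb (Tel θ)]
  exact K.S_inner _ _ _

private theorem cs_C (θ : ℝ) : (Real.cos (2 * θ) : ℂ) * (Real.cos (2 * θ) : ℂ) +
    (Real.sin (2 * θ) : ℂ) * (Real.sin (2 * θ) : ℂ) = 1 := by
  rw [← Complex.ofReal_mul, ← Complex.ofReal_mul, ← Complex.ofReal_add, ← sq, ← sq,
    Real.cos_sq_add_sin_sq, Complex.ofReal_one]

private theorem cv_c01 (θ : ℝ) (i : Fin 8) : K.Cv θ (K.c i 0 * K.c i 1) (K.c i 0 * K.c i 1) := by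
  have h := Cv.mul K (K.Tel_S0 θ i) (K.Tel_S1 θ i)
  have e : ((Real.cos (2 * θ) : ℂ) • K.c i 0 - (Real.sin (2 * θ) : ℂ) • K.c i 1) *
      ((Real.sin (2 * θ) : ℂ) • K.c i 0 + (Real.cos (2 * θ) : ℂ) • K.c i 1) =
      K.c i 0 * K.c i 1 := by
    have h0 : K.c i 0 * K.c i 0 = 0 := K.lin_sq (K.lin_c _ _)
    have h1 : K.c i 1 * K.c i 1 = 0 := K.lin_sq (K.lin_c _ _)
    have h2 : K.c i 1 * K.c i 0 = -(K.c i 0 * K.c i 1) := K.lin_anti' (K.lin_c _ _) (K.lin_c _ _)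
    rw [sub_mul, mul_add, mul_add, smul_mul_smul_comm, smul_mul_smul_comm, smul_mul_smul_comm,
      smul_mul_smul_comm, h0, h1, h2, smul_zero, smul_zero, zero_add, add_zero, smul_neg,
      sub_neg_eq_add, ← add_smul, cs_C, one_smul]
  rwa [e] at h

private theorem cv_BB (θ : ℝ) : K.Cv θ K.BB K.BB := by
  unfold BB
  exact Cv.sum K fun k => K.cv_c01 θ _

private theorem cv_c777 (θ : ℝ) : K.Cv θ K.c777 K.c777 := by
  unfold c777
  exact Cv.mul K (K.cv_c01 θ _) (K.Tel_S2 θ _)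

private theorem cv_mu (θ : ℝ) (x : X3) : K.Cv θ (K.mu x) (K.mu (act (Tel θ) x)) := by
  unfold mu
  refine Cv.sum K fun k => ?_
  have h := Cv.sub K (Cv.smul K (K.Tel_S1 θ (e8 k)) (x (e9 k, 0) : ℂ))
    (Cv.smul K (K.Tel_S0 θ (e8 k)) (x (e9 k, 1) : ℂ))
  have e : ((x (e9 k, 0) : ℂ) • ((Real.sin (2 * θ) : ℂ) • K.c (e8 k) 0 +
      (Real.cos (2 * θ) : ℂ) • K.c (e8 k) 1) -
      (x (e9 k, 1) : ℂ) • ((Real.cos (2 * θ) : ℂ) • K.c (e8 k) 0 -
      (Real.sin (2 * θ) : ℂ) • K.c (e8 k) 1)) =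
      ((act (Tel θ) x (e9 k, 0) : ℂ) • K.c (e8 k) 1 - (act (Tel θ) x (e9 k, 1) : ℂ) • K.c (e8 k) 0) := by
    rw [Tel_x0, Tel_x1]
    push_cast
    module
  rwa [e] at h

/-- `ds` and `ds̄` together: `J = ± i` -/
private def dsJ (J : ℂ) (x : X3) : F →L[ℂ] F :=
  ∑ i : Fin 7, (2 * ((x (e9 i, 0) : ℂ) + J * (x (e9 i, 1) : ℂ))) •
    (K.c (e8 i) 0 + J • K.c (e8 i) 1)

private theorem ds_J (x : X3) : K.ds x = K.dsJ Complex.I x := rfl

private theorem dsb_J (x : X3) : K.dsb x = K.dsJ (-Complex.I) x := by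
  unfold dsb dsJ
  refine Finset.sum_congr rfl fun i _ => ?_
  rw [neg_mul, neg_smul, ← sub_eq_add_neg, ← sub_eq_add_neg]

private theorem cv_dsJ {J : ℂ} (hJ : J * J = -1) (θ : ℝ) (x : X3) : K.Cv θ (K.dsJ J x)
    ((((Real.cos (2 * θ) : ℂ) + J * (Real.sin (2 * θ) : ℂ)) ^ 2) •
      K.dsJ J (act (Tel θ) x)) := by
  unfold dsJ
  rw [Finset.smul_sum]
  refine Cv.sum K fun k => ?_
  have h := Cv.smul K (Cv.add K (K.Tel_S0 θ (e8 k)) (Cv.smul K (K.Tel_S1 θ (e8 k)) J))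
    (2 * ((x (e9 k, 0) : ℂ) + J * (x (e9 k, 1) : ℂ)))
  have hcs := cs_C θ
  generalize hc : (Real.cos (2 * θ) : ℂ) = c at h hcs ⊢
  generalize hs : (Real.sin (2 * θ) : ℂ) = s at h hcs ⊢
  have hx0 : ((act (Tel θ) x (e9 k, 0) : ℝ) : ℂ) = c * x (e9 k, 0) + s * x (e9 k, 1) := by
    rw [Tel_x0, ← hc, ← hs]; push_cast; ring
  have hx1 : ((act (Tel θ) x (e9 k, 1) : ℝ) : ℂ) = -(s * x (e9 k, 0)) + c * x (e9 k, 1) := by
    rw [Tel_x1, ← hc, ← hs]; push_cast; ring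
  have e : (2 * ((x (e9 k, 0) : ℂ) + J * (x (e9 k, 1) : ℂ))) •
      (c • K.c (e8 k) 0 - s • K.c (e8 k) 1 + J • (s • K.c (e8 k) 0 + c • K.c (e8 k) 1)) =
      ((c + J * s) ^ 2) • (2 * ((act (Tel θ) x (e9 k, 0) : ℂ) +
        J * (act (Tel θ) x (e9 k, 1) : ℂ))) • (K.c (e8 k) 0 + J • K.c (e8 k) 1) := by
    have e1 : c • K.c (e8 k) 0 - s • K.c (e8 k) 1 + J • (s • K.c (e8 k) 0 + c • K.c (e8 k) 1) =
        (c + J * s) • (K.c (e8 k) 0 + J • K.c (e8 k) 1) := by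
      have hI : (c + J * s) * J = J * c - s := by
        linear_combination s * hJ
      rw [smul_add (c + J * s), smul_smul (c + J * s), hI]
      module
    have e2 : (c + J * s) ^ 2 * (2 * ((act (Tel θ) x (e9 k, 0) : ℂ) +
        J * (act (Tel θ) x (e9 k, 1) : ℂ))) =
        2 * ((x (e9 k, 0) : ℂ) + J * (x (e9 k, 1) : ℂ)) * (c + J * s) := by
      have e3 : ((act (Tel θ) x (e9 k, 0) : ℂ) + J * (act (Tel θ) x (e9 k, 1) : ℂ)) =
          (c - J * s) * ((x (e9 k, 0) : ℂ) + J * (x (e9 k, 1) : ℂ)) := by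
        rw [hx0, hx1]
        linear_combination (s * (x (e9 k, 1) : ℂ)) * hJ
      have e4 : (c + J * s) * (c - J * s) = 1 := by
        linear_combination hcs - s * s * hJ
      rw [e3]
      linear_combination (2 * ((x (e9 k, 0) : ℂ) + J * (x (e9 k, 1) : ℂ)) *
        (c + J * s)) * e4
    rw [e1, smul_smul, smul_smul, e2]
  rwa [e] at h

private theorem cv_dd (θ : ℝ) (x : X3) : K.Cv θ (K.ds x * K.dsb x)
    (K.ds (act (Tel θ) x) * K.dsb (act (Tel θ) x)) := by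
  have hI : Complex.I * Complex.I = -1 := Complex.I_mul_I
  have hI' : -Complex.I * -Complex.I = -1 := by rw [neg_mul_neg, Complex.I_mul_I]
  rw [ds_J, dsb_J, ds_J, dsb_J]
  have h := Cv.mul K (K.cv_dsJ hI θ x) (K.cv_dsJ hI' θ x)
  have hcs := cs_C θ
  rw [smul_mul_smul_comm] at h
  generalize hc : (Real.cos (2 * θ) : ℂ) = c at h hcs
  generalize hs : (Real.sin (2 * θ) : ℂ) = s at h hcs
  have e : (c + Complex.I * s) ^ 2 * (c + -Complex.I * s) ^ 2 = 1 := by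
    have e1 : (c + Complex.I * s) * (c + -Complex.I * s) = 1 := by
      linear_combination hcs - s * s * hI
    rw [← mul_pow, e1, one_pow]
  rwa [e, one_smul] at h

private theorem anti_sum {R M : Type*} [Field R] [CharZero R] [AddCommGroup M] [Module R M]
    (τ : Fin 7 → Fin 7 → R) (hτ : ∀ i j, τ i j = -τ j i) (f : Fin 7 → Fin 7 → M)
    (hf : ∀ i j, f i j = f j i) : ∑ i, ∑ j, τ i j • f i j = 0 := by
  have h : ∑ i, ∑ j, τ i j • f i j = -∑ i, ∑ j, τ i j • f i j := by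
    nth_rewrite 1 [Finset.sum_comm]
    rw [← Finset.sum_neg_distrib]
    refine Finset.sum_congr rfl fun i _ => ?_
    rw [← Finset.sum_neg_distrib]
    refine Finset.sum_congr rfl fun j _ => ?_
    rw [hτ j i, hf j i, neg_smul]
  have h2 : (2 : R) • ∑ i, ∑ j, τ i j • f i j = 0 := by
    rw [two_smul]
    nth_rewrite 1 [h]
    exact neg_add_cancel _
  exact (smul_eq_zero.1 h2).resolve_left two_ne_zero

private theorem cv_dkap (θ : ℝ) (k : Fin 7) (x : X3) :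
    K.Cv θ (K.dkap k x) (K.dkap k (act (Tel θ) x)) := by
  unfold dkap
  have h : K.Cv θ (∑ i, ∑ j, ((K.t k i j : ℂ)) • ((x (e9 j, 1) : ℂ) • K.c (e8 i) 0 +
      (x (e9 i, 0) : ℂ) • K.c (e8 j) 1)) (∑ i, ∑ j, ((K.t k i j : ℂ)) •
      ((x (e9 j, 1) : ℂ) • ((Real.cos (2 * θ) : ℂ) • K.c (e8 i) 0 -
      (Real.sin (2 * θ) : ℂ) • K.c (e8 i) 1) + (x (e9 i, 0) : ℂ) •
      ((Real.sin (2 * θ) : ℂ) • K.c (e8 j) 0 + (Real.cos (2 * θ) : ℂ) • K.c (e8 j) 1))) :=
    Cv.sum K fun i => Cv.sum K fun j => Cv.smul K (Cv.add K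
      (Cv.smul K (K.Tel_S0 θ (e8 i)) _) (Cv.smul K (K.Tel_S1 θ (e8 j)) _)) _
  have e : (∑ i, ∑ j, ((K.t k i j : ℂ)) •
      ((x (e9 j, 1) : ℂ) • ((Real.cos (2 * θ) : ℂ) • K.c (e8 i) 0 -
      (Real.sin (2 * θ) : ℂ) • K.c (e8 i) 1) + (x (e9 i, 0) : ℂ) •
      ((Real.sin (2 * θ) : ℂ) • K.c (e8 j) 0 + (Real.cos (2 * θ) : ℂ) • K.c (e8 j) 1))) =
      ∑ i, ∑ j, ((K.t k i j : ℂ)) • ((act (Tel θ) x (e9 j, 1) : ℂ) • K.c (e8 i) 0 +
        (act (Tel θ) x (e9 i, 0) : ℂ) • K.c (e8 j) 1) := by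
    have h0 := anti_sum (fun i j => (K.t k i j : ℂ))
      (fun i j => by rw [K.t_swap k i j, Complex.ofReal_neg])
      (fun i j => (Real.sin (2 * θ) : ℂ) • (((x (e9 i, 0) : ℂ) • K.c (e8 j) 0 +
        (x (e9 j, 0) : ℂ) • K.c (e8 i) 0) - ((x (e9 i, 1) : ℂ) • K.c (e8 j) 1 +
        (x (e9 j, 1) : ℂ) • K.c (e8 i) 1)))
      (fun i j => by
        rw [add_comm ((x (e9 i, 0) : ℂ) • K.c (e8 j) 0), add_comm ((x (e9 i, 1) : ℂ) • K.c (e8 j) 1)])
    rw [← sub_eq_zero, ← Finset.sum_sub_distrib]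
    refine Eq.trans (Finset.sum_congr rfl fun i _ => ?_) h0
    rw [← Finset.sum_sub_distrib]
    refine Finset.sum_congr rfl fun j _ => ?_
    rw [← smul_sub]
    congr 1
    rw [Tel_x0, Tel_x1]
    push_cast
    module
  rwa [e] at h

private theorem cv_zk (θ : ℝ) (x : X3) : K.Cv θ (K.zk x) (K.zk (act (Tel θ) x)) := by
  unfold zk
  exact Cv.prod K fun k => Cv.mul K (K.Tel_S2 θ _) (K.cv_dkap θ k x)

theorem A3_Tel (θ : ℝ) (x : X3) : K.A3 (act (Tel θ) x) = K.A3 x := by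
  unfold A3
  exact Cv.inner K (Cv.mul K (Cv.mul K (Cv.mul K (K.cv_c777 θ) (K.cv_mu θ x))
    (Cv.smul K (Cv.mul K (Cv.mul K (K.cv_BB θ) (K.cv_BB θ)) (K.cv_BB θ)) _)) (K.cv_zk θ x))

theorem A2_Tel (θ : ℝ) (x : X3) : K.A2 (act (Tel θ) x) = K.A2 x := by
  unfold A2
  exact Cv.inner K (Cv.mul K (Cv.mul K (Cv.mul K (Cv.mul K (K.cv_c777 θ) (K.cv_mu θ x))
    (K.cv_dd θ x)) (Cv.smul K (Cv.mul K (K.cv_BB θ) (K.cv_BB θ)) _)) (K.cv_zk θ x))

private theorem kap_Tel (θ : ℝ) (k : Fin 7) (x : X3) : K.kap k (act (Tel θ) x) = K.kap k x := by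
  unfold kap
  have h0 := anti_sum (fun i j => K.t k i j) (fun i j => K.t_swap k i j)
    (fun i j => Real.cos (2 * θ) * Real.sin (2 * θ) * (x (e9 i, 1) * x (e9 j, 1) -
      x (e9 i, 0) * x (e9 j, 0)) - Real.sin (2 * θ) ^ 2 * (x (e9 i, 1) * x (e9 j, 0) +
      x (e9 i, 0) * x (e9 j, 1)))
    (fun i j => by ring)
  rw [← sub_eq_zero, ← Finset.sum_sub_distrib]
  refine Eq.trans (Finset.sum_congr rfl fun i _ => ?_) h0
  rw [← Finset.sum_sub_distrib]
  refine Finset.sum_congr rfl fun j _ => ?_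
  rw [Tel_x0, Tel_x1, smul_eq_mul]
  linear_combination (K.t k i j * x (e9 i, 0) * x (e9 j, 1)) * Real.cos_sq_add_sin_sq (2 * θ)

theorem kapsq_Tel (θ : ℝ) (x : X3) : K.kapsq (act (Tel θ) x) = K.kapsq x := by
  unfold kapsq
  simp only [kap_Tel]

theorem wsq_Tel (θ : ℝ) (x : X3) : wsq (act (Tel θ) x) = wsq x := by
  unfold wsq
  refine Finset.sum_congr rfl fun i _ => ?_
  rw [Tel_x0, Tel_x1]
  linear_combination (x (e9 i, 0) ^ 2 + x (e9 i, 1) ^ 2) * Real.cos_sq_add_sin_sq (2 * θ)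

/-- a torus rotation makes `x¹ ⊥ x²` -/
theorem exists_Tel_orth (x : X3) : ∃ θ : ℝ,
    ∑ i : Fin 7, act (Tel θ) x (e9 i, 0) * act (Tel θ) x (e9 i, 1) = 0 := by
  obtain ⟨P, hP⟩ : ∃ P : ℝ, P = ∑ i : Fin 7, x (e9 i, 0) * x (e9 i, 1) := ⟨_, rfl⟩
  obtain ⟨Q, hQ⟩ : ∃ Q : ℝ, Q = ∑ i : Fin 7, (x (e9 i, 1) ^ 2 - x (e9 i, 0) ^ 2) / 2 := ⟨_, rfl⟩
  obtain ⟨φ, hφ⟩ : ∃ φ : ℝ, φ = Complex.arg (⟨-Q, P⟩ : ℂ) := ⟨_, rfl⟩
  have h1 := Complex.norm_mul_cos_arg (⟨-Q, P⟩ : ℂ)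
  have h2 := Complex.norm_mul_sin_arg (⟨-Q, P⟩ : ℂ)
  rw [← hφ] at h1 h2
  refine ⟨φ / 4, ?_⟩
  have h3 : ∑ i : Fin 7, act (Tel (φ / 4)) x (e9 i, 0) * act (Tel (φ / 4)) x (e9 i, 1) =
      Real.cos φ * P + Real.sin φ * Q := by
    rw [hP, hQ, Finset.mul_sum, Finset.mul_sum, ← Finset.sum_add_distrib]
    refine Finset.sum_congr rfl fun i _ => ?_
    rw [Tel_x0, Tel_x1]
    have e1 : φ = 2 * (2 * (φ / 4)) := by ring
    have e2 : Real.cos φ = Real.cos (2 * (φ / 4)) ^ 2 - Real.sin (2 * (φ / 4)) ^ 2 := by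
      nth_rewrite 1 [e1]
      exact Real.cos_two_mul' _
    have e3 : Real.sin φ = 2 * Real.sin (2 * (φ / 4)) * Real.cos (2 * (φ / 4)) := by
      nth_rewrite 1 [e1]
      exact Real.sin_two_mul _
    rw [e2, e3]
    ring
  rw [h3]
  have h1' : ‖(⟨-Q, P⟩ : ℂ)‖ * Real.cos φ = -Q := h1
  have h2' : ‖(⟨-Q, P⟩ : ℂ)‖ * Real.sin φ = P := h2
  linear_combination (-Real.cos φ) * h2' + Real.sin φ * h1'

end Fk

end Vale.Agent.P353.Ex
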