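import Vale.Agent.P353.Ex.PosDef

/-! Task EX-23: explicit top form in the adapted frame.

`X_k = c_k^0`, `Y_k = c_k^1`, `Z_k = c_k^2`, `x¹ = p e_0`, `x² = q e_1`.  Then (indices 0..6)
`dκ_0 = -q X_2`, `dκ_1 = -p Y_2`, `dκ_2 = q X_0 + p Y_1`, `dκ_3 = q X_5 - p Y_4`,
`dκ_4 = -q X_6 + p Y_3`, `dκ_5 = -q X_3 - p Y_6`, `dκ_6 = q X_4 + p Y_5`,
`μ = p Y_0 - q X_1`, `ds = 2(p X_0 - q Y_1) + 2i (p Y_0 + q X_1)`, `ds̄` its conjugate.
The result is `8 (pq)⁴` times `pairc` (sign `σ = 1`).

The proof is by reflection: elements of the algebra generated by the anticommuting operators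
`g n = c_{n/3}^{n%3}` are represented by lists of terms `z · p^a · q^b · g_{i_1} ⋯ g_{i_r}`, and
multiplication is computed by sorted insertion. -/

open MeasureTheory Filter Topology
open scoped ContDiff ComplexConjugate

namespace Vale.Agent.P353.Ex

/-! ### reflection of the exterior algebra -/

namespace PT

/-- insertion of a generator into a word, with a sign (`none` = zero) -/
def ins (i : ℕ) : List ℕ → Option (Bool × List ℕ)
  | [] => some (false, [i])
  | j :: l =>
    bif Nat.blt i j then some (false, i :: j :: l) else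
      bif Nat.beq i j then none else
        match ins i l with
        | none => none
        | some (s, l') => some (!s, j :: l')

/-- insertion of a word -/
def insW : List ℕ → List ℕ → Option (Bool × List ℕ)
  | [], l => some (false, l)
  | i :: w, l =>
    match insW w l with
    | none => none
    | some (s, l') =>
      match ins i l' with
      | none => none
      | some (s', l'') => some (xor s s', l'')

/-- a term: integer coefficient, exponents of `p` and `q`, word -/
structure Tm where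
  z : ℤ
  a : ℕ
  b : ℕ
  w : List ℕ

/-- product of a term with a polynomial -/
def mulT (s : Tm) : List Tm → List Tm
  | [] => []
  | t :: P =>
    match insW s.w t.w with
    | none => mulT s P
    | some (e, l) => ⟨bif e then -(s.z * t.z) else s.z * t.z, s.a + t.a, s.b + t.b, l⟩ :: mulT s P

/-- product of polynomials -/
def mul : List Tm → List Tm → List Tm
  | [], _ => []
  | s :: S, P => mulT s P ++ mul S P

/-- the sum of the coefficients if all terms are `p^a q^b w` -/
def coef (a b : ℕ) (w : List ℕ) : List Tm → Option ℤ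
  | [] => some 0
  | t :: P =>
    bif (Nat.beq t.a a && Nat.beq t.b b && (t.w == w)) then
      match coef a b w P with
      | none => none
      | some z => some (t.z + z)
    else none

section eval

variable {R : Type*} [Ring R] [Algebra ℂ R] (g : ℕ → R) (p q : ℂ)

/-- sign -/
def sgn (e : Bool) : ℂ := bif e then -1 else 1

def mon (w : List ℕ) : R := (w.map g).prod

def evT (t : Tm) : R := ((t.z : ℂ) * p ^ t.a * q ^ t.b) • mon g t.w

def ev (P : List Tm) : R := (P.map (evT g p q)).sum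

variable (hg : ∀ i j, g i * g j = -(g j * g i))

include hg

lemma ins_spec (i : ℕ) (l : List ℕ) : g i * mon g l =
    match ins i l with
    | none => 0
    | some (s, l') => sgn s • mon g l' := by
  have h0 : g i * g i = 0 := by
    have h := hg i i
    have h2 : (2 : ℂ) • (g i * g i) = 0 := by
      rw [two_smul]
      nth_rewrite 1 [h]
      simp
    exact (smul_eq_zero_iff_right (two_ne_zero)).1 h2
  induction l with
  | nil => simp [ins, mon, sgn]
  | cons j l ih =>
    rw [ins]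
    cases h1 : Nat.blt i j with
    | true => simp [mon, sgn]
    | false =>
      cases h2 : Nat.beq i j with
      | true =>
        have hij : i = j := Nat.eq_of_beq_eq_true h2
        subst hij
        simp only [cond_false, cond_true, mon, List.map_cons, List.prod_cons]
        rw [← mul_assoc, h0, zero_mul]
      | false =>
        simp only [cond_false]
        have e1 : g i * mon g (j :: l) = -(g j * (g i * mon g l)) := by
          simp only [mon, List.map_cons, List.prod_cons]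
          rw [← mul_assoc, hg i j, neg_mul, mul_assoc]
        rw [e1, ih]
        cases ins i l with
        | none => simp
        | some r =>
          obtain ⟨s, l'⟩ := r
          cases s <;> simp [sgn, mon]

lemma insW_spec (w l : List ℕ) : mon g w * mon g l =
    match insW w l with
    | none => 0
    | some (s, l') => sgn s • mon g l' := by
  induction w with
  | nil => simp [insW, mon, sgn]
  | cons i w ih =>
    have e1 : mon g (i :: w) * mon g l = g i * (mon g w * mon g l) := by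
      simp only [mon, List.map_cons, List.prod_cons, mul_assoc]
    rw [e1, ih, insW]
    cases insW w l with
    | none => simp
    | some r =>
      obtain ⟨s, l'⟩ := r
      simp only []
      rw [mul_smul_comm, ins_spec g hg i l']
      cases ins i l' with
      | none => simp
      | some r' =>
        obtain ⟨s', l''⟩ := r'
        cases s <;> cases s' <;> simp [sgn]

lemma mulT_spec (s : Tm) (P : List Tm) : ev g p q (mulT s P) = evT g p q s * ev g p q P := by
  induction P with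
  | nil => simp [mulT, ev]
  | cons t P ih =>
    have e1 : evT g p q s * evT g p q t =
        ((s.z : ℂ) * t.z * p ^ (s.a + t.a) * q ^ (s.b + t.b)) • (mon g s.w * mon g t.w) := by
      simp only [evT, smul_mul_assoc, mul_smul_comm, smul_smul]
      congr 1
      rw [pow_add, pow_add]
      ring
    have e2 : ev g p q (t :: P) = evT g p q t + ev g p q P := by
      simp [ev]
    rw [e2, mul_add, e1, insW_spec g hg, ← ih, mulT]
    cases insW s.w t.w with
    | none => simp
    | some r =>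
      obtain ⟨e, l⟩ := r
      cases e <;> simp [ev, evT, sgn]

lemma mul_spec (S P : List Tm) : ev g p q (mul S P) = ev g p q S * ev g p q P := by
  induction S with
  | nil => simp [mul, ev]
  | cons s S ih =>
    have e2 : ev g p q (s :: S) = evT g p q s + ev g p q S := by
      simp [ev]
    rw [e2, add_mul, ← ih, ← mulT_spec g p q hg, mul]
    simp [ev]

omit hg in
lemma coef_spec (a b : ℕ) (w : List ℕ) (P : List Tm) (z : ℤ) (h : coef a b w P = some z) :
    ev g p q P = ((z : ℂ) * p ^ a * q ^ b) • mon g w := by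
  induction P generalizing z with
  | nil =>
    simp only [coef, Option.some.injEq] at h
    subst h
    simp [ev]
  | cons t P ih =>
    rw [coef] at h
    cases hc : (Nat.beq t.a a && Nat.beq t.b b && (t.w == w)) with
    | false => rw [hc] at h; simp at h
    | true =>
      rw [hc] at h
      simp only [cond_true] at h
      cases h3 : coef a b w P with
      | none => rw [h3] at h; simp at h
      | some z' =>
        rw [h3] at h
        simp only [Option.some.injEq] at h
        have e2 : ev g p q (t :: P) = evT g p q t + ev g p q P := by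
          simp [ev]
        rw [e2, ih z' h3, ← h]
        simp only [Bool.and_eq_true, beq_iff_eq] at hc
        obtain ⟨⟨ha, hb⟩, hw⟩ := hc
        have ha' := Nat.eq_of_beq_eq_true ha
        have hb' := Nat.eq_of_beq_eq_true hb
        rw [evT, ha', hb', hw, ← add_smul]
        congr 1
        push_cast
        ring

end eval

/-! the explicit polynomials -/

def pmu : List Tm := [⟨1, 1, 0, [1]⟩, ⟨-1, 0, 1, [3]⟩]
def pA : List Tm := [⟨1, 1, 0, [0]⟩, ⟨-1, 0, 1, [4]⟩]
def pB : List Tm := [⟨1, 1, 0, [1]⟩, ⟨1, 0, 1, [3]⟩]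
def pBB : List Tm := [⟨1, 0, 0, [0, 1]⟩, ⟨1, 0, 0, [3, 4]⟩, ⟨1, 0, 0, [6, 7]⟩, ⟨1, 0, 0, [9, 10]⟩,
  ⟨1, 0, 0, [12, 13]⟩, ⟨1, 0, 0, [15, 16]⟩, ⟨1, 0, 0, [18, 19]⟩]
def pc : List Tm := [⟨1, 0, 0, [21, 22, 23]⟩]
/-- `Z_k dκ_k` -/
def pz : Fin 7 → List Tm
  | 0 => [⟨-1, 0, 1, [2, 6]⟩]
  | 1 => [⟨-1, 1, 0, [5, 7]⟩]
  | 2 => [⟨1, 0, 1, [8, 0]⟩, ⟨1, 1, 0, [8, 4]⟩]
  | 3 => [⟨1, 0, 1, [11, 15]⟩, ⟨-1, 1, 0, [11, 13]⟩]
  | 4 => [⟨-1, 0, 1, [14, 18]⟩, ⟨1, 1, 0, [14, 10]⟩]
  | 5 => [⟨-1, 0, 1, [17, 9]⟩, ⟨-1, 1, 0, [17, 19]⟩]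
  | 6 => [⟨1, 0, 1, [20, 12]⟩, ⟨1, 1, 0, [20, 16]⟩]

def pzk : List Tm :=
  mul (pz 0) (mul (pz 1) (mul (pz 2) (mul (pz 3) (mul (pz 4) (mul (pz 5) (mul (pz 6)
    [⟨1, 0, 0, []⟩]))))))

def w24 : List ℕ := [0, 1, 2, 3, 4, 5, 6, 7, 8, 9, 10, 11, 12, 13, 14, 15, 16, 17, 18, 19, 20,
  21, 22, 23]

def pA3 : List Tm := mul pc (mul pmu (mul pBB (mul pBB (mul pBB pzk))))
def pA2 : List Tm := mul pc (mul pmu (mul pA (mul pB (mul pBB (mul pBB pzk)))))


lemma coef_pA3 : coef 4 4 w24 pA3 = some 48 := by decide +kernel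

lemma coef_pA2a : coef 6 4 w24 (pA2.filter fun t => Nat.beq t.a 6) = some 16 := by
  decide +kernel

lemma coef_pA2b : coef 4 6 w24 (pA2.filter fun t => !Nat.beq t.a 6) = some 16 := by
  decide +kernel

lemma ev_filter {R : Type*} [Ring R] [Algebra ℂ R] (g : ℕ → R) (p q : ℂ) (f : Tm → Bool)
    (P : List Tm) : ev g p q P = ev g p q (P.filter f) + ev g p q (P.filter fun t => !f t) := by
  induction P with
  | nil => simp [ev]
  | cons t P ih =>
    have e2 : ∀ Q, ev g p q (t :: Q) = evT g p q t + ev g p q Q := fun Q => by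
      simp [ev]
    rw [e2, ih]
    cases h : f t <;> simp [h, e2] <;> abel

end PT

open PT

variable {F : Type*} [NormedAddCommGroup F] [InnerProductSpace ℂ F]

namespace Fk

/-- numbering of the creation operators -/
noncomputable def gen (K : Fk F) (n : ℕ) : F →L[ℂ] F :=
  K.c (Fin.ofNat 8 (n / 3)) (Fin.ofNat 3 (n % 3))

lemma gen_anti (K : Fk F) (i j : ℕ) : K.gen i * K.gen j = -(K.gen j * K.gen i) :=
  eq_neg_of_add_eq_zero_left (K.cc _ _ _ _)

lemma mu_ev (K : Fk F) (x : X3) (p q : ℝ)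
    (h0 : ∀ i : Fin 7, x (e9 i, 0) = if i = 0 then p else 0)
    (h1 : ∀ i : Fin 7, x (e9 i, 1) = if i = 1 then q else 0) :
    K.mu x = ev K.gen p q pmu := by
  have e : K.mu x = (p : ℂ) • K.c (e8 0) 1 - (q : ℂ) • K.c (e8 1) 0 := by
    unfold mu
    rw [Fin.sum_univ_seven]
    simp only [h0, h1]
    simp
    abel
  rw [e]
  simp [ev, evT, pmu, mon]
  rw [sub_eq_add_neg]
  rfl

lemma ds_ev (K : Fk F) (x : X3) (p q : ℝ)
    (h0 : ∀ i : Fin 7, x (e9 i, 0) = if i = 0 then p else 0)
    (h1 : ∀ i : Fin 7, x (e9 i, 1) = if i = 1 then q else 0) :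
    K.ds x = (2 : ℂ) • ev K.gen p q pA + (2 * Complex.I) • ev K.gen p q pB := by
  have e : K.ds x = (2 * (p : ℂ)) • (K.c (e8 0) 0 + Complex.I • K.c (e8 0) 1) +
      (2 * (Complex.I * (q : ℂ))) • (K.c (e8 1) 0 + Complex.I • K.c (e8 1) 1) := by
    unfold ds
    rw [Fin.sum_univ_seven]
    simp only [h0, h1]
    simp
  have eA : ev K.gen p q pA = (p : ℂ) • K.c (e8 0) 0 + (-(q : ℂ)) • K.c (e8 1) 1 := by
    simp [ev, evT, pA, mon]
    rfl
  have eB : ev K.gen p q pB = (p : ℂ) • K.c (e8 0) 1 + (q : ℂ) • K.c (e8 1) 0 := by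
    simp [ev, evT, pB, mon]
    rfl
  rw [e, eA, eB]
  simp only [smul_add, smul_smul]
  have e3 : 2 * (Complex.I * (q : ℂ)) * Complex.I = 2 * -(q : ℂ) := by
    linear_combination (2 * (q : ℂ)) * Complex.I_mul_I
  rw [e3, show 2 * (p : ℂ) * Complex.I = 2 * Complex.I * p by ring,
    show 2 * (Complex.I * (q : ℂ)) = 2 * Complex.I * q by ring]
  abel

lemma dsb_ev (K : Fk F) (x : X3) (p q : ℝ)
    (h0 : ∀ i : Fin 7, x (e9 i, 0) = if i = 0 then p else 0)
    (h1 : ∀ i : Fin 7, x (e9 i, 1) = if i = 1 then q else 0) :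
    K.dsb x = (2 : ℂ) • ev K.gen p q pA - (2 * Complex.I) • ev K.gen p q pB := by
  have e : K.dsb x = (2 * (p : ℂ)) • (K.c (e8 0) 0 - Complex.I • K.c (e8 0) 1) -
      (2 * (Complex.I * (q : ℂ))) • (K.c (e8 1) 0 - Complex.I • K.c (e8 1) 1) := by
    unfold dsb
    rw [Fin.sum_univ_seven]
    simp only [h0, h1]
    simp
    abel
  have eA : ev K.gen p q pA = (p : ℂ) • K.c (e8 0) 0 + (-(q : ℂ)) • K.c (e8 1) 1 := by
    simp [ev, evT, pA, mon]
    rfl
  have eB : ev K.gen p q pB = (p : ℂ) • K.c (e8 0) 1 + (q : ℂ) • K.c (e8 1) 0 := by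
    simp [ev, evT, pB, mon]
    rfl
  rw [e, eA, eB]
  simp only [smul_add, smul_sub, smul_smul]
  have e3 : 2 * (Complex.I * (q : ℂ)) * Complex.I = 2 * -(q : ℂ) := by
    linear_combination (2 * (q : ℂ)) * Complex.I_mul_I
  rw [e3, show 2 * (p : ℂ) * Complex.I = 2 * Complex.I * p by ring,
    show 2 * (Complex.I * (q : ℂ)) = 2 * Complex.I * q by ring]
  abel

lemma dsdsb_ev (K : Fk F) (x : X3) (p q : ℝ)
    (h0 : ∀ i : Fin 7, x (e9 i, 0) = if i = 0 then p else 0)
    (h1 : ∀ i : Fin 7, x (e9 i, 1) = if i = 1 then q else 0) :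
    K.ds x * K.dsb x = (-8 * Complex.I) • (ev K.gen p q pA * ev K.gen p q pB) := by
  rw [K.ds_ev x p q h0 h1, K.dsb_ev x p q h0 h1]
  set A := ev K.gen p q pA with hA
  set B := ev K.gen p q pB with hB
  have hAA : A * A = 0 := by
    rw [hA, ← mul_spec K.gen p q K.gen_anti,
      coef_spec K.gen p q 1 1 [0, 4] (mul pA pA) 0 (by decide +kernel)]
    simp
  have hBB : B * B = 0 := by
    rw [hB, ← mul_spec K.gen p q K.gen_anti,
      coef_spec K.gen p q 1 1 [1, 3] (mul pB pB) 0 (by decide +kernel)]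
    simp
  have hBA : B * A = -(A * B) := by
    rw [hA, hB, ← mul_spec K.gen p q K.gen_anti, ← mul_spec K.gen p q K.gen_anti,
      show mul pB pA = [⟨-1, 2, 0, [0, 1]⟩, ⟨-1, 1, 1, [1, 4]⟩, ⟨-1, 1, 1, [0, 3]⟩,
        ⟨-1, 0, 2, [3, 4]⟩] from rfl,
      show mul pA pB = [⟨1, 2, 0, [0, 1]⟩, ⟨1, 1, 1, [0, 3]⟩, ⟨1, 1, 1, [1, 4]⟩,
        ⟨1, 0, 2, [3, 4]⟩] from rfl]
    simp only [ev, evT, List.map_cons, List.map_nil, List.sum_cons, List.sum_nil, Int.cast_neg,
      Int.cast_one, neg_mul, neg_smul]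
    abel
  simp only [add_mul, mul_sub, smul_mul_smul_comm, hAA, hBB, hBA, smul_zero, smul_neg, ← neg_smul,
    zero_add, add_zero, ← sub_smul]
  congr 1
  ring

lemma BB_ev (K : Fk F) (p q : ℝ) : K.BB = ev K.gen p q pBB := by
  unfold BB
  rw [Fin.sum_univ_seven]
  simp [ev, evT, pBB, mon]
  simp only [← add_assoc]
  rfl

lemma c777_ev (K : Fk F) (p q : ℝ) : K.c777 = ev K.gen p q pc := by
  unfold c777
  simp [ev, evT, pc, mon]
  simp only [← mul_assoc]
  rfl

lemma Ctop_mon (K : Fk F) : K.Ctop = mon K.gen w24 := by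
  unfold Ctop
  simp only [mon, w24, List.map_cons, List.map_nil, List.prod_cons, List.prod_nil, mul_one,
    List.ofFn_succ, List.ofFn_zero, mul_assoc]
  rfl

lemma zk_ev (K : Fk F) (x : X3) (p q : ℝ)
    (t0 : ∀ k j, K.t k 0 j = L1 k j) (t1 : ∀ k j, K.t k 1 j = L2 k j)
    (h0 : ∀ i : Fin 7, x (e9 i, 0) = if i = 0 then p else 0)
    (h1 : ∀ i : Fin 7, x (e9 i, 1) = if i = 1 then q else 0) (k : Fin 7) :
    K.c (e8 k) 2 * K.dkap k x = ev K.gen p q (pz k) := by
  have e : K.dkap k x = ∑ i, ((-q * L2 k i : ℝ) : ℂ) • K.c (e8 i) 0 +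
      ∑ j, ((p * L1 k j : ℝ) : ℂ) • K.c (e8 j) 1 := by
    unfold dkap
    simp only [h0, h1, smul_add, Finset.sum_add_distrib]
    congr 1
    · refine Finset.sum_congr rfl fun i _ => ?_
      rw [Finset.sum_eq_single 1]
      · rw [if_pos rfl, K.t_swap, t1, smul_smul]
        congr 1
        push_cast
        ring
      · intro j _ hj
        simp [hj]
      · simp
    · rw [Finset.sum_comm]
      refine Finset.sum_congr rfl fun j _ => ?_
      rw [Finset.sum_eq_single 0]
      · rw [if_pos rfl, t0, smul_smul]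
        congr 1
        push_cast
        ring
      · intro j _ hj
        simp [hj]
      · simp
  rw [e, Fin.sum_univ_seven, Fin.sum_univ_seven]
  fin_cases k <;> simp [L1, L2, ev, evT, pz, mon, mul_add] <;> rfl

lemma zk_ev' (K : Fk F) (x : X3) (p q : ℝ)
    (t0 : ∀ k j, K.t k 0 j = L1 k j) (t1 : ∀ k j, K.t k 1 j = L2 k j)
    (h0 : ∀ i : Fin 7, x (e9 i, 0) = if i = 0 then p else 0)
    (h1 : ∀ i : Fin 7, x (e9 i, 1) = if i = 1 then q else 0) :
    K.zk x = ev K.gen p q pzk := by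
  unfold zk pzk
  simp only [K.zk_ev x p q t0 t1 h0 h1, mul_spec K.gen p q K.gen_anti]
  simp only [List.ofFn_succ, List.ofFn_zero, List.prod_cons, List.prod_nil]
  congr 7
  simp [ev, evT, mon]

theorem top_form : ∃ σ : ℝ, σ ^ 2 = 1 ∧ ∀ (K : Fk F) (x : X3) (p q : ℝ),
    (∀ k j, K.t k 0 j = L1 k j) → (∀ k j, K.t k 1 j = L2 k j) →
    (∀ i : Fin 7, x (e9 i, 0) = if i = 0 then p else 0) →
    (∀ i : Fin 7, x (e9 i, 1) = if i = 1 then q else 0) →
    K.A3 x = ((σ * 8 * (p * q) ^ 4 : ℝ) : ℂ) * K.pairc ∧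
    Complex.I * K.A2 x = ((σ * 64 * (p * q) ^ 4 * (p ^ 2 + q ^ 2) : ℝ) : ℂ) * K.pairc := by
  refine ⟨1, by norm_num, fun K x p q t0 t1 h0 h1 => ?_⟩
  have ea := K.gen_anti
  constructor
  · have e : K.c777 * K.mu x * ((1 / 6 : ℂ) • (K.BB * K.BB * K.BB)) * K.zk x =
        (8 * ((p : ℂ) * q) ^ 4) • K.Ctop := by
      rw [K.c777_ev p q, K.mu_ev x p q h0 h1, K.BB_ev p q, K.zk_ev' x p q t0 t1 h0 h1,
        K.Ctop_mon]
      have h := coef_spec K.gen (p : ℂ) (q : ℂ) 4 4 w24 pA3 48 coef_pA3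
      unfold pA3 at h
      simp only [mul_spec K.gen (p : ℂ) (q : ℂ) ea] at h
      rw [mul_smul_comm, smul_mul_assoc]
      simp only [mul_assoc] at h ⊢
      rw [h, smul_smul]
      congr 1
      push_cast
      ring
    unfold A3 pairc
    rw [e, _root_.smul_apply, inner_smul_right]
    push_cast
    ring
  · have e : K.c777 * K.mu x * (K.ds x * K.dsb x) * ((1 / 2 : ℂ) • (K.BB * K.BB)) * K.zk x =
        (-64 * Complex.I * ((p : ℂ) * q) ^ 4 * (p ^ 2 + q ^ 2)) • K.Ctop := by
      rw [K.dsdsb_ev x p q h0 h1, K.c777_ev p q, K.mu_ev x p q h0 h1, K.BB_ev p q,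
        K.zk_ev' x p q t0 t1 h0 h1, K.Ctop_mon]
      have h := ev_filter K.gen (p : ℂ) (q : ℂ) (fun t => Nat.beq t.a 6) pA2
      rw [coef_spec K.gen (p : ℂ) (q : ℂ) 6 4 w24 _ 16 coef_pA2a,
        coef_spec K.gen (p : ℂ) (q : ℂ) 4 6 w24 _ 16 coef_pA2b] at h
      unfold pA2 at h
      simp only [mul_spec K.gen (p : ℂ) (q : ℂ) ea] at h
      rw [mul_smul_comm, mul_smul_comm, smul_mul_assoc, smul_mul_assoc, smul_mul_assoc]
      simp only [mul_assoc] at h ⊢
      rw [h, smul_smul, ← add_smul, smul_smul]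
      congr 1
      push_cast
      ring
    unfold A2 pairc
    rw [e, _root_.smul_apply, inner_smul_right]
    push_cast
    linear_combination (-64 * ((p : ℂ) * q) ^ 4 * (p ^ 2 + q ^ 2) *
      inner ℂ K.vacb (K.Ctop K.vac)) * Complex.I_mul_I

end Fk

end Vale.Agent.P353.Ex
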