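import Vale.Agent.P353.Ex.PosRed
import Vale.Agent.P353.Ex.PosRot
import Vale.Agent.P353.Ex.PosFrame
import Vale.Agent.P353.Ex.PosTop

/-! Task EX-24: positivity.

For every `x`: rotate by `Tel θ`, take the adapted frame; get `A3 x = ±8 kapsq² pairc`,
`I A2 x = 8 wsq A3 x`.  `A3` is (real) analytic in `x` (polynomial), so from
`(A3 - 8 kapsq² pairc)(A3 + 8 kapsq² pairc) = 0` on the connected space `X3` one of the factors
vanishes identically (identity theorem for analytic functions). -/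

open MeasureTheory Filter Topology
open scoped ContDiff ComplexConjugate

namespace Vale.Agent.P353.Ex

variable {F : Type*} [NormedAddCommGroup F] [InnerProductSpace ℂ F]

theorem exp_gg_pos (x : X3) : 0 < Fk.gg x := by
  unfold Fk.gg
  have : 0 ≤ Fk.r3 x := by unfold Fk.r3; positivity
  positivity

theorem exp_r3_nonneg (x : X3) : 0 ≤ Fk.r3 x := by unfold Fk.r3; positivity

theorem exp_wsq_nonneg (x : X3) : 0 ≤ Fk.wsq x := by
  unfold Fk.wsq
  exact Finset.sum_nonneg fun i _ => by positivity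

theorem exp_qp_pos (x : X3) : 0 < Fk.qp x := by
  unfold Fk.qp
  have h1 := exp_gg_pos x
  have h2 := exp_r3_nonneg x
  positivity

namespace Fk

variable (K : Fk F)

/-- the positive weight -/
noncomputable def Wp (x : X3) : ℝ :=
  r3 x ^ 2 * qp x * Real.exp (-K.expo x - K.flip.expo x) * K.kapsq x ^ 2 *
    (256 * gg x ^ 3 * r3 x ^ 2 + 512 * gg x ^ 2 * r3 x * wsq x)

theorem Wp_nonneg (x : X3) : 0 ≤ K.Wp x := by
  unfold Wp
  have h1 := exp_gg_pos x
  have h2 := exp_r3_nonneg x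
  have h3 := exp_wsq_nonneg x
  have h4 := exp_qp_pos x
  positivity

theorem exp_cont_coord (p : Fin 9 × Fin 3) : Continuous fun x : X3 => x p := by
  fun_prop

theorem exp_cont_r3 : Continuous r3 := by
  unfold r3
  have h1 := exp_cont_coord (7, 2)
  have h2 := exp_cont_coord (8, 2)
  exact (h1.pow 2).add (h2.pow 2)

theorem exp_cont_gg : Continuous gg := by
  unfold gg
  refine Continuous.inv₀ (Real.continuous_sqrt.comp (continuous_const.add exp_cont_r3)) fun x => ?_
  have h2 := exp_r3_nonneg x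
  positivity

theorem exp_cont_qp : Continuous qp := by
  unfold qp
  have h1 := exp_cont_gg
  have h2 := exp_cont_r3
  fun_prop

theorem exp_cont_wsq : Continuous wsq := by
  unfold wsq
  refine continuous_finsetSum _ fun i _ => ?_
  exact ((exp_cont_coord _).pow 2).add ((exp_cont_coord _).pow 2)

theorem exp_cont_kap (k : Fin 7) : Continuous (K.kap k) := by
  unfold kap
  refine continuous_finsetSum _ fun i _ => continuous_finsetSum _ fun j _ => ?_
  exact (continuous_const.mul (exp_cont_coord _)).mul (exp_cont_coord _)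

theorem exp_cont_kapsq : Continuous K.kapsq := by
  unfold kapsq
  exact continuous_finsetSum _ fun k _ => (K.exp_cont_kap k).pow 2

theorem exp_cont_expo : Continuous K.expo := by
  unfold expo
  have h1 := exp_cont_gg
  have h2 := exp_cont_r3
  have h3 := exp_cont_wsq
  have h4 : Continuous ss := by
    unfold ss
    refine continuous_finsetSum _ fun i _ => ?_
    have a := exp_cont_coord (e9 i, 0)
    have b := exp_cont_coord (e9 i, 1)
    fun_prop
  have h5 : Continuous fun x => ∑ k, K.bb k x ^ 2 := by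
    refine continuous_finsetSum _ fun k _ => ?_
    unfold bb
    have a := exp_cont_coord (e9 k, 2)
    have b := K.exp_cont_kap k
    have c : Continuous fun x : X3 => x (e9 k, 2) - K.f0 * K.kap k x := by fun_prop
    exact c.pow 2
  exact ((h4.norm.pow 2).add h5).add ((h1.mul h2).mul h3)

theorem continuous_Wp : Continuous K.Wp := by
  unfold Wp
  have h1 := exp_cont_gg
  have h2 := exp_cont_r3
  have h3 := exp_cont_wsq
  have h4 := K.exp_cont_kapsq
  have h5 := exp_cont_qp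
  have h6 := K.exp_cont_expo
  have h7 := K.flip.exp_cont_expo
  fun_prop

theorem exists_Wp_pos : ∃ x, x = pr x ∧ 0 < K.Wp x := by
  let y : Fin 9 × Fin 3 → ℝ := fun p =>
    if p = (7, 2) then 1 else if p = (0, 0) then 1 else if p = (1, 1) then 1 else 0
  refine ⟨WithLp.toLp 2 y, ?_, ?_⟩
  · ext p
    unfold pr
    show y p = if (p.1 = 7 ∨ p.1 = 8) ∧ p.2 ≠ 2 then 0 else y p
    obtain ⟨i, A⟩ := p
    simp only [y]
    fin_cases i <;> fin_cases A <;> simp
  · have hr : 0 < r3 (WithLp.toLp 2 y) := by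
      unfold r3
      show 0 < y (7, 2) ^ 2 + y (8, 2) ^ 2
      simp [y]
    have hk : K.kapsq (WithLp.toLp 2 y) = 1 := by
      unfold kapsq kap
      have := K.t_norm (fun i => y (e9 i, 0)) (fun i => y (e9 i, 1))
      refine this.trans ?_
      simp only [Fin.sum_univ_succ, y]
      simp [Fin.ext_iff]
    unfold Wp
    have h1 := exp_gg_pos (WithLp.toLp 2 y)
    have h3 := exp_wsq_nonneg (WithLp.toLp 2 y)
    have h4 := exp_qp_pos (WithLp.toLp 2 y)
    rw [hk]
    positivity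


section line

variable (x v : X3)

theorem exp_an_coord (p : Fin 9 × Fin 3) (t : ℝ) :
    AnalyticAt ℝ (fun t : ℝ => (((x + t • v) p : ℝ) : ℂ)) t := by
  have h : AnalyticAt ℝ (fun t : ℝ => Complex.ofRealCLM (x p + t * v p)) t := by
    refine (Complex.ofRealCLM.analyticAt _).fun_comp ?_
    fun_prop
  exact h

theorem exp_an_mu (t : ℝ) : AnalyticAt ℝ (fun t : ℝ => K.mu (x + t • v)) t := by
  unfold mu
  refine Finset.analyticAt_fun_sum _ fun i _ => ?_
  exact ((exp_an_coord x v _ t).fun_smul analyticAt_const).fun_sub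
    ((exp_an_coord x v _ t).fun_smul analyticAt_const)

theorem exp_an_dkap (k : Fin 7) (t : ℝ) : AnalyticAt ℝ (fun t : ℝ => K.dkap k (x + t • v)) t := by
  unfold dkap
  refine Finset.analyticAt_fun_sum _ fun i _ => Finset.analyticAt_fun_sum _ fun j _ => ?_
  exact analyticAt_const.fun_smul (((exp_an_coord x v _ t).fun_smul analyticAt_const).fun_add
    ((exp_an_coord x v _ t).fun_smul analyticAt_const))

theorem exp_an_listprod {A : Type*} [NormedRing A] [NormedAlgebra ℝ A] (t : ℝ) :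
    ∀ (l : List (ℝ → A)), (∀ f ∈ l, AnalyticAt ℝ f t) →
      AnalyticAt ℝ (fun s => (l.map fun f => f s).prod) t
  | [], _ => by
    simpa using analyticAt_const
  | f :: l, h => by
    have h1 : AnalyticAt ℝ f t := h f (by simp)
    have h2 := exp_an_listprod t l fun g hg => h g (by simp [hg])
    simpa using h1.fun_mul h2

theorem exp_an_zk (t : ℝ) : AnalyticAt ℝ (fun t : ℝ => K.zk (x + t • v)) t := by
  unfold zk
  have := exp_an_listprod t (List.ofFn fun k : Fin 7 => fun t : ℝ =>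
    K.c (e8 k) 2 * K.dkap k (x + t • v)) (by
      intro f hf
      rw [List.mem_ofFn] at hf
      obtain ⟨k, rfl⟩ := hf
      exact analyticAt_const.fun_mul (K.exp_an_dkap x v k t))
  simpa [List.map_ofFn, Function.comp_def] using this

theorem exp_an_A3 (t : ℝ) : AnalyticAt ℝ (fun t : ℝ => K.A3 (x + t • v)) t := by
  let L : (F →L[ℂ] F) →L[ℂ] ℂ := (innerSL ℂ K.vacb).comp
    (ContinuousLinearMap.apply ℂ F K.vac)
  have h : AnalyticAt ℝ (fun t : ℝ => (L.restrictScalars ℝ) (K.c777 * K.mu (x + t • v) *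
      ((1 / 6 : ℂ) • (K.BB * K.BB * K.BB)) * K.zk (x + t • v))) t := by
    refine ((L.restrictScalars ℝ).analyticAt _).fun_comp ?_
    exact ((analyticAt_const.fun_mul (K.exp_an_mu x v t)).fun_mul analyticAt_const).fun_mul
      (K.exp_an_zk x v t)
  exact h

theorem exp_an_kapsq (t : ℝ) :
    AnalyticAt ℝ (fun t : ℝ => ((K.kapsq (x + t • v) : ℝ) : ℂ)) t := by
  unfold kapsq kap
  push_cast
  refine Finset.analyticAt_fun_sum _ fun k _ => ?_
  refine AnalyticAt.fun_pow (Finset.analyticAt_fun_sum _ fun i _ =>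
    Finset.analyticAt_fun_sum _ fun j _ => ?_) 2
  exact (analyticAt_const.fun_mul (exp_an_coord x v _ t)).fun_mul (exp_an_coord x v _ t)

end line

/-- identity theorem along lines -/
theorem exp_ident (f g : X3 → ℂ) (hf : ∀ x v t, AnalyticAt ℝ (fun t : ℝ => f (x + t • v)) t)
    (hg : ∀ x v t, AnalyticAt ℝ (fun t : ℝ => g (x + t • v)) t)
    (h : ∀ x, f x * g x = 0) : (∀ x, f x = 0) ∨ ∀ x, g x = 0 := by
  by_contra hc
  push Not at hc
  obtain ⟨⟨x, hx⟩, y, hy⟩ := hc
  have := AnalyticOnNhd.eq_zero_or_eq_zero_of_mul_eq_zero (U := Set.univ)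
    (fun t _ => hf x (y - x) t) (fun t _ => hg x (y - x) t) (fun t _ => h _)
    isPreconnected_univ
  rcases this with h1 | h1
  · exact hx (by simpa using h1 0 (Set.mem_univ _))
  · exact hy (by simpa using h1 1 (Set.mem_univ _))


theorem exp_rotX (O : Matrix (Fin 7) (Fin 7) ℝ) (x : X3) (i : Fin 7) (A : Fin 3) :
    rotX O x (e9 i, A) = ∑ l, O i l * x (e9 l, A) := by
  simp [rotX, e9]

theorem exp_pointwise : ∃ σ : ℝ, σ ^ 2 = 1 ∧ ∀ (K : Fk F) (x : X3), ∃ δ : ℝ, δ ^ 2 = 1 ∧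
    K.A3 x = ((σ * δ * 8 * K.kapsq x ^ 2 : ℝ) : ℂ) * K.pairc ∧
    Complex.I * K.A2 x = ((8 * wsq x : ℝ) : ℂ) * K.A3 x := by
  obtain ⟨σ, hσ, h⟩ := top_form (F := F)
  refine ⟨σ, hσ, fun K x => ?_⟩
  obtain ⟨θ, hθ⟩ := exists_Tel_orth x
  obtain ⟨O, p, q, hO, ha, hb, h1, h2⟩ := exists_frame K.t K.t_swap K.t_cyc K.t_norm
    (fun i => act (Tel θ) x (e9 i, 0)) (fun i => act (Tel θ) x (e9 i, 1)) hθ
  have hdet : O.det ^ 2 = 1 := by
    have := congrArg Matrix.det hO
    rw [Matrix.det_mul, Matrix.det_transpose, Matrix.det_one] at this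
    rw [sq, this]
  obtain ⟨hA3, hA2⟩ := h (K.rot O hO) (rotX O (act (Tel θ) x)) p q
    (fun k j => h1 k j) (fun k j => h2 k j)
    (fun i => by rw [exp_rotX]; exact ha i) (fun i => by rw [exp_rotX]; exact hb i)
  have hw : wsq x = p ^ 2 + q ^ 2 := by
    rw [← wsq_Tel θ x, ← wsq_rotX O hO]
    unfold wsq
    simp only [exp_rotX]
    simp only [ha, hb]
    rw [Finset.sum_add_distrib]
    simp
  have hk : K.kapsq x = (p * q) ^ 2 := by
    rw [← K.kapsq_Tel θ x, ← K.kapsq_rot O hO]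
    unfold kapsq kap
    have e : ∀ k : Fin 7, (∑ i, ∑ j, (K.rot O hO).t k i j * rotX O (act (Tel θ) x) (e9 i, 0) *
        rotX O (act (Tel θ) x) (e9 j, 1)) = p * q * L1 k 1 := by
      intro k
      simp only [exp_rotX, ha, hb]
      rw [Finset.sum_eq_single 0 (by intro i _ hi; simp [hi]) (by simp),
        Finset.sum_eq_single 1 (by intro i _ hi; simp [hi]) (by simp)]
      have : (K.rot O hO).t k 0 1 = L1 k 1 := h1 k 1
      rw [this, if_pos rfl, if_pos rfl]
      ring
    simp only [e]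
    simp [Fin.sum_univ_succ, L1]
  rw [K.pairc_rot O hO] at hA3 hA2
  rw [K.A3_rot O hO, K.A3_Tel] at hA3
  rw [K.A2_rot O hO, K.A2_Tel] at hA2
  refine ⟨O.det, hdet, ?_, ?_⟩
  · rw [hA3, hk]
    push_cast
    ring
  · rw [hA2, hA3, hw]
    push_cast
    ring

theorem pos : ∃ σ : ℝ, σ ^ 2 = 1 ∧ ∀ x, K.Gp x =
    ((σ * 32768 * K.f0 * K.Wp x : ℝ) : ℂ) * K.pairc := by
  obtain ⟨σ, hσ, h⟩ := exp_pointwise (F := F)
  have h1 : (∀ x, K.A3 x - 8 * ((K.kapsq x : ℝ) : ℂ) ^ 2 * K.pairc = 0) ∨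
      ∀ x, K.A3 x + 8 * ((K.kapsq x : ℝ) : ℂ) ^ 2 * K.pairc = 0 := by
    refine exp_ident _ _ (fun x v t => ?_) (fun x v t => ?_) (fun x => ?_)
    · exact (K.exp_an_A3 x v t).fun_sub ((analyticAt_const.fun_mul
        ((K.exp_an_kapsq x v t).fun_pow 2)).fun_mul analyticAt_const)
    · exact (K.exp_an_A3 x v t).fun_add ((analyticAt_const.fun_mul
        ((K.exp_an_kapsq x v t).fun_pow 2)).fun_mul analyticAt_const)
    · obtain ⟨δ, hδ, hA, -⟩ := h K x
      have hs : ((σ : ℝ) : ℂ) ^ 2 = 1 := by exact_mod_cast hσ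
      have hd : ((δ : ℝ) : ℂ) ^ 2 = 1 := by exact_mod_cast hδ
      rw [hA]
      push_cast
      linear_combination (64 * ((K.kapsq x : ℝ) : ℂ) ^ 4 * K.pairc ^ 2 * (δ : ℂ) ^ 2) * hs +
        (64 * ((K.kapsq x : ℝ) : ℂ) ^ 4 * K.pairc ^ 2) * hd
  have h2 : ∃ τ : ℝ, τ ^ 2 = 1 ∧ ∀ x, K.A3 x =
      ((τ * 8 * K.kapsq x ^ 2 : ℝ) : ℂ) * K.pairc := by
    rcases h1 with h1 | h1
    · refine ⟨1, by norm_num, fun x => ?_⟩
      push_cast
      linear_combination h1 x
    · refine ⟨-1, by norm_num, fun x => ?_⟩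
      push_cast
      linear_combination h1 x
  obtain ⟨τ, hτ, h3⟩ := h2
  refine ⟨τ, hτ, fun x => ?_⟩
  obtain ⟨δ, hδ, -, hA2⟩ := h K x
  rw [K.Gp_eq, hA2, h3, Wp]
  push_cast
  ring

end Fk

end Vale.Agent.P353.Ex
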