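import Vale.Agent.P353.Ex.Defs

/-! Task EX-06: the group action; `K.DD` maps the core to the core. -/

open MeasureTheory Filter Topology
open scoped ContDiff ComplexConjugate

namespace Vale.Agent.P353.Ex

variable {F : Type*} [NormedAddCommGroup F] [InnerProductSpace ℂ F]

theorem cov_sq2 : ((Real.sqrt 2 : ℝ) : ℂ)⁻¹ * ((Real.sqrt 2 : ℝ) : ℂ)⁻¹ = 1 / 2 := by
  rw [← mul_inv, ← Complex.ofReal_mul, Real.mul_self_sqrt (by norm_num)]
  norm_num

theorem cov_p0 : pauliT 0 = !![0, ((Real.sqrt 2 : ℝ) : ℂ)⁻¹; ((Real.sqrt 2 : ℝ) : ℂ)⁻¹, 0] := by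
  simp [pauliT_zero, pauliT_one, pauliT_two, Matrix.smul_of]

theorem cov_p1 : pauliT 1 = !![0, -(((Real.sqrt 2 : ℝ) : ℂ)⁻¹ * Complex.I);
    ((Real.sqrt 2 : ℝ) : ℂ)⁻¹ * Complex.I, 0] := by
  simp [pauliT_zero, pauliT_one, pauliT_two, Matrix.smul_of]

theorem cov_p2 : pauliT 2 = !![((Real.sqrt 2 : ℝ) : ℂ)⁻¹, 0; 0, -((Real.sqrt 2 : ℝ) : ℂ)⁻¹] := by
  simp [pauliT_zero, pauliT_one, pauliT_two, Matrix.smul_of]

theorem cov_complete (M : Matrix (Fin 2) (Fin 2) ℂ) (hM : M.trace = 0) :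
    M = ∑ B, (pauliT B * M).trace • pauliT B := by
  have h := cov_sq2
  have h1 := Matrix.eta_fin_two M
  rw [Matrix.trace_fin_two] at hM
  generalize M 0 0 = a at *
  generalize M 0 1 = b at *
  generalize M 1 0 = c at *
  generalize M 1 1 = d at *
  subst h1
  rw [Fin.sum_univ_three, cov_p0, cov_p1, cov_p2]
  generalize ((Real.sqrt 2 : ℝ) : ℂ)⁻¹ = s at *
  simp only [Matrix.mul_fin_two, Matrix.trace_fin_two_of, Matrix.smul_of, Matrix.smul_cons,
    smul_eq_mul, Matrix.smul_empty, Matrix.of_add_of, Matrix.add_cons, Matrix.head_cons,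
    Matrix.tail_cons, Matrix.empty_add_empty]
  ext i j
  fin_cases i <;> fin_cases j <;> simp
  · linear_combination (-(a - d)) * h + (1 / 2) * hM
  · linear_combination (-2 * b) * h + (-s ^ 2 * c + s ^ 2 * b) * Complex.I_sq
  · linear_combination (-2 * c) * h + (s ^ 2 * c - s ^ 2 * b) * Complex.I_sq
  · linear_combination (a - d) * h + (1 / 2) * hM

theorem cov_comm (A B : Fin 3) : pauliT A * pauliT B - pauliT B * pauliT A =
    ∑ C, (Complex.I * ((Real.sqrt 2 : ℝ) : ℂ) * ((eps A B C : ℤ) : ℂ)) • pauliT C := by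
  have h2 : ((Real.sqrt 2 : ℝ) : ℂ) * ((Real.sqrt 2 : ℝ) : ℂ)⁻¹ = 1 :=
    mul_inv_cancel₀ (by simp)
  have h := cov_sq2
  rw [Fin.sum_univ_three]
  have k01 : pauliT 0 * pauliT 1 - pauliT 1 * pauliT 0 =
      (Complex.I * ((Real.sqrt 2 : ℝ) : ℂ)) • pauliT 2 := by
    rw [cov_p0, cov_p1, cov_p2]
    generalize ((Real.sqrt 2 : ℝ) : ℂ)⁻¹ = s at *
    generalize ((Real.sqrt 2 : ℝ) : ℂ) = r at *
    ext i j
    fin_cases i <;> fin_cases j <;> simp
    · linear_combination (2 * Complex.I) * h - Complex.I * h2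
    · linear_combination (-2 * Complex.I) * h + Complex.I * h2
  have k12 : pauliT 1 * pauliT 2 - pauliT 2 * pauliT 1 =
      (Complex.I * ((Real.sqrt 2 : ℝ) : ℂ)) • pauliT 0 := by
    rw [cov_p0, cov_p1, cov_p2]
    generalize ((Real.sqrt 2 : ℝ) : ℂ)⁻¹ = s at *
    generalize ((Real.sqrt 2 : ℝ) : ℂ) = r at *
    ext i j
    fin_cases i <;> fin_cases j <;> simp
    · linear_combination (2 * Complex.I) * h - Complex.I * h2
    · linear_combination (2 * Complex.I) * h - Complex.I * h2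
  have k20 : pauliT 2 * pauliT 0 - pauliT 0 * pauliT 2 =
      (Complex.I * ((Real.sqrt 2 : ℝ) : ℂ)) • pauliT 1 := by
    rw [cov_p0, cov_p1, cov_p2]
    generalize ((Real.sqrt 2 : ℝ) : ℂ)⁻¹ = s at *
    generalize ((Real.sqrt 2 : ℝ) : ℂ) = r at *
    ext i j
    fin_cases i <;> fin_cases j <;> simp
    · linear_combination 2 * h + r * s * Complex.I_sq - h2
    · linear_combination -2 * h - r * s * Complex.I_sq + h2
  have e : ∀ A C, eps A A C = 0 := by decide
  have e1 : eps 0 1 0 = 0 ∧ eps 0 1 1 = 0 ∧ eps 0 1 2 = 1 := by decide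
  have e2 : eps 1 2 0 = 1 ∧ eps 1 2 1 = 0 ∧ eps 1 2 2 = 0 := by decide
  have e3 : eps 2 0 0 = 0 ∧ eps 2 0 1 = 1 ∧ eps 2 0 2 = 0 := by decide
  have e4 : eps 1 0 0 = 0 ∧ eps 1 0 1 = 0 ∧ eps 1 0 2 = -1 := by decide
  have e5 : eps 2 1 0 = -1 ∧ eps 2 1 1 = 0 ∧ eps 2 1 2 = 0 := by decide
  have e6 : eps 0 2 0 = 0 ∧ eps 0 2 1 = -1 ∧ eps 0 2 2 = 0 := by decide
  match A, B with
  | 0, 0 => simp [e]
  | 1, 1 => simp [e]
  | 2, 2 => simp [e]
  | 0, 1 => rw [k01]; simp [e1]
  | 1, 2 => rw [k12]; simp [e2]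
  | 2, 0 => rw [k20]; simp [e3]
  | 1, 0 => rw [← neg_sub, k01]; simp [e4]
  | 2, 1 => rw [← neg_sub, k12]; simp [e5]
  | 0, 2 => rw [← neg_sub, k20]; simp [e6]

theorem cov_herm (A : Fin 3) : (pauliT A).conjTranspose = pauliT A := by
  match A with
  | 0 => rw [cov_p0]; ext i j; fin_cases i <;> fin_cases j <;> simp [Matrix.conjTranspose_apply]
  | 1 => rw [cov_p1]; ext i j; fin_cases i <;> fin_cases j <;> simp [Matrix.conjTranspose_apply]
  | 2 => rw [cov_p2]; ext i j; fin_cases i <;> fin_cases j <;> simp [Matrix.conjTranspose_apply]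

theorem cov_tr (A : Fin 3) : (pauliT A).trace = 0 := by
  match A with
  | 0 => simp [pauliT_zero, pauliT_one, pauliT_two, Matrix.trace_fin_two]
  | 1 => simp [pauliT_zero, pauliT_one, pauliT_two, Matrix.trace_fin_two]
  | 2 => simp [pauliT_zero, pauliT_one, pauliT_two, Matrix.trace_fin_two]

theorem cov_ortho (A B : Fin 3) : (pauliT A * pauliT B).trace = if A = B then 1 else 0 := by
  have h := cov_sq2
  match A, B with
  | 0, 0 => rw [cov_p0]; simp; linear_combination 2 * h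
  | 1, 1 =>
    rw [cov_p1]; simp
    linear_combination 2 * h - 2 * ((Real.sqrt 2 : ℝ) : ℂ)⁻¹ ^ 2 * Complex.I_sq
  | 2, 2 => rw [cov_p2]; simp; linear_combination 2 * h
  | 0, 1 => rw [cov_p0, cov_p1]; simp; try ring
  | 1, 2 => rw [cov_p1, cov_p2]; simp
  | 2, 0 => rw [cov_p2, cov_p0]; simp
  | 1, 0 => rw [cov_p1, cov_p0]; simp; try ring
  | 2, 1 => rw [cov_p2, cov_p1]; simp
  | 0, 2 => rw [cov_p0, cov_p2]; simp

/-! ### the adjoint action -/

theorem cov_star_mul (U : SU2) : (U : Matrix (Fin 2) (Fin 2) ℂ).conjTranspose *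
    (U : Matrix (Fin 2) (Fin 2) ℂ) = 1 := U.prop.1.1

theorem cov_mul_star (U : SU2) : (U : Matrix (Fin 2) (Fin 2) ℂ) *
    (U : Matrix (Fin 2) (Fin 2) ℂ).conjTranspose = 1 := U.prop.1.2

theorem cov_coeff (U : SU2) (A B : Fin 3) : (pauliT B * ((U : Matrix (Fin 2) (Fin 2) ℂ) *
    pauliT A * (U : Matrix (Fin 2) (Fin 2) ℂ).conjTranspose)).trace = ((rotm U B A : ℝ) : ℂ) := by
  rw [rotm, adCoeff]
  symm
  rw [← Complex.conj_eq_iff_re]
  have h1 : ∀ M : Matrix (Fin 2) (Fin 2) ℂ, conj M.trace = M.conjTranspose.trace := fun M =>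
    (Matrix.trace_conjTranspose M).symm
  rw [h1, Matrix.conjTranspose_mul, Matrix.conjTranspose_mul, Matrix.conjTranspose_mul,
    Matrix.conjTranspose_conjTranspose, cov_herm, cov_herm, Matrix.trace_mul_comm, mul_assoc]

theorem cov_conj (U : SU2) (A : Fin 3) : (U : Matrix (Fin 2) (Fin 2) ℂ) * pauliT A *
    (U : Matrix (Fin 2) (Fin 2) ℂ).conjTranspose = ∑ B, ((rotm U B A : ℝ) : ℂ) • pauliT B := by
  have h1 : ((U : Matrix (Fin 2) (Fin 2) ℂ) * pauliT A *
      (U : Matrix (Fin 2) (Fin 2) ℂ).conjTranspose).trace = 0 := by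
    rw [Matrix.trace_mul_comm, ← mul_assoc, cov_star_mul, one_mul, cov_tr]
  rw [cov_complete _ h1]
  refine Finset.sum_congr rfl fun B _ => ?_
  rw [cov_coeff]

theorem rotm_one (B A : Fin 3) : rotm 1 B A = if B = A then 1 else 0 := by
  have h := cov_coeff 1 A B
  have h1 : ((1 : SU2) : Matrix (Fin 2) (Fin 2) ℂ) = 1 := rfl
  rw [h1, Matrix.conjTranspose_one, one_mul, mul_one, cov_ortho] at h
  have h2 : (((if B = A then 1 else 0 : ℝ) : ℝ) : ℂ) = ((rotm 1 B A : ℝ) : ℂ) := by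
    rw [← h]; split_ifs <;> simp
  exact (Complex.ofReal_injective h2).symm

theorem rotm_mul (U V : SU2) (B A : Fin 3) : rotm (U * V) B A = ∑ C, rotm U B C * rotm V C A := by
  have h := cov_coeff (U * V) A B
  have h1 : ((U * V : SU2) : Matrix (Fin 2) (Fin 2) ℂ) = U * V := rfl
  have h3 : (U : Matrix (Fin 2) (Fin 2) ℂ) * V * pauliT A *
      ((U : Matrix (Fin 2) (Fin 2) ℂ) * V).conjTranspose =
      ∑ C, ((rotm V C A : ℝ) : ℂ) • ((U : Matrix (Fin 2) (Fin 2) ℂ) * pauliT C *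
        (U : Matrix (Fin 2) (Fin 2) ℂ).conjTranspose) := by
    have h4 : (U : Matrix (Fin 2) (Fin 2) ℂ) * V * pauliT A *
      ((U : Matrix (Fin 2) (Fin 2) ℂ) * V).conjTranspose = (U : Matrix (Fin 2) (Fin 2) ℂ) *
        ((V : Matrix (Fin 2) (Fin 2) ℂ) * pauliT A *
          (V : Matrix (Fin 2) (Fin 2) ℂ).conjTranspose) *
        (U : Matrix (Fin 2) (Fin 2) ℂ).conjTranspose := by
      rw [Matrix.conjTranspose_mul]
      simp only [mul_assoc]
    rw [h4, cov_conj V A, Matrix.mul_sum, Matrix.sum_mul]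
    refine Finset.sum_congr rfl fun C _ => ?_
    rw [Matrix.mul_smul, Matrix.smul_mul]
  rw [h1, h3, Matrix.mul_sum, Matrix.trace_sum] at h
  have h5 : ∀ C, (pauliT B * (((rotm V C A : ℝ) : ℂ) • ((U : Matrix (Fin 2) (Fin 2) ℂ) *
      pauliT C * (U : Matrix (Fin 2) (Fin 2) ℂ).conjTranspose))).trace =
      ((rotm U B C * rotm V C A : ℝ) : ℂ) := by
    intro C
    rw [Matrix.mul_smul, Matrix.trace_smul, cov_coeff, smul_eq_mul]
    push_cast
    ring
  simp only [h5] at h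
  rw [← Complex.ofReal_sum] at h
  exact (Complex.ofReal_injective h).symm

theorem rotm_inv (U : SU2) (B A : Fin 3) : rotm U⁻¹ B A = rotm U A B := by
  have h := cov_coeff U⁻¹ A B
  have h1 : ((U⁻¹ : SU2) : Matrix (Fin 2) (Fin 2) ℂ) =
      (U : Matrix (Fin 2) (Fin 2) ℂ).conjTranspose := rfl
  rw [h1, Matrix.conjTranspose_conjTranspose, ← mul_assoc, Matrix.trace_mul_comm,
    ← mul_assoc, ← mul_assoc, Matrix.trace_mul_comm, cov_coeff] at h
  exact (Complex.ofReal_injective h).symm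

theorem rotm_orth (U : SU2) (A A' : Fin 3) :
    ∑ B, rotm U B A * rotm U B A' = if A = A' then 1 else 0 := by
  rw [← rotm_one A A', ← inv_mul_cancel U, rotm_mul]
  refine Finset.sum_congr rfl fun B _ => ?_
  rw [rotm_inv]

theorem rotm_orth' (U : SU2) (B B' : Fin 3) :
    ∑ A, rotm U B A * rotm U B' A = if B = B' then 1 else 0 := by
  rw [← rotm_one B B', ← mul_inv_cancel U, rotm_mul]
  refine Finset.sum_congr rfl fun B _ => ?_
  rw [rotm_inv]

theorem cov_trace_comb (c : Fin 3 → ℂ) (D : Fin 3) :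
    ((∑ C, c C • pauliT C) * pauliT D).trace = c D := by
  rw [Matrix.sum_mul, Matrix.trace_sum]
  simp only [Matrix.smul_mul, Matrix.trace_smul, cov_ortho, smul_eq_mul, mul_ite, mul_one,
    mul_zero, Finset.sum_ite_eq', Finset.mem_univ, if_true]

theorem cov_eps (V : SU2) (A B D : Fin 3) :
    ∑ A', ∑ B', rotm V A' A * rotm V B' B * ((eps A' B' D : ℤ) : ℝ) =
      ∑ C, ((eps A B C : ℤ) : ℝ) * rotm V D C := by
  have h0 : Complex.I * ((Real.sqrt 2 : ℝ) : ℂ) ≠ 0 :=
    mul_ne_zero Complex.I_ne_zero (by simp)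
  have h1 : ∀ X Y : Matrix (Fin 2) (Fin 2) ℂ, (V : Matrix (Fin 2) (Fin 2) ℂ) * X *
      (V : Matrix (Fin 2) (Fin 2) ℂ).conjTranspose * ((V : Matrix (Fin 2) (Fin 2) ℂ) * Y *
      (V : Matrix (Fin 2) (Fin 2) ℂ).conjTranspose) = (V : Matrix (Fin 2) (Fin 2) ℂ) * (X * Y) *
      (V : Matrix (Fin 2) (Fin 2) ℂ).conjTranspose := by
    intro X Y
    calc _ = (V : Matrix (Fin 2) (Fin 2) ℂ) * X *
        ((V : Matrix (Fin 2) (Fin 2) ℂ).conjTranspose * (V : Matrix (Fin 2) (Fin 2) ℂ)) * Y *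
        (V : Matrix (Fin 2) (Fin 2) ℂ).conjTranspose := by simp only [mul_assoc]
      _ = _ := by rw [cov_star_mul, mul_one]; simp only [mul_assoc]
  have h2 : (∑ A', ((rotm V A' A : ℝ) : ℂ) • pauliT A') * (∑ B', ((rotm V B' B : ℝ) : ℂ) • pauliT B')
      - (∑ B', ((rotm V B' B : ℝ) : ℂ) • pauliT B') * (∑ A', ((rotm V A' A : ℝ) : ℂ) • pauliT A')
      = ∑ C, (Complex.I * ((Real.sqrt 2 : ℝ) : ℂ) * ((eps A B C : ℤ) : ℂ)) •
        ∑ D, ((rotm V D C : ℝ) : ℂ) • pauliT D := by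
    rw [← cov_conj V A, ← cov_conj V B, h1, h1, ← Matrix.sub_mul, ← Matrix.mul_sub, cov_comm,
      Matrix.mul_sum, Matrix.sum_mul]
    refine Finset.sum_congr rfl fun C _ => ?_
    rw [Matrix.mul_smul, Matrix.smul_mul, cov_conj]
  have h3 : (∑ A', ((rotm V A' A : ℝ) : ℂ) • pauliT A') * (∑ B', ((rotm V B' B : ℝ) : ℂ) • pauliT B')
      - (∑ B', ((rotm V B' B : ℝ) : ℂ) • pauliT B') * (∑ A', ((rotm V A' A : ℝ) : ℂ) • pauliT A')
      = ∑ A', ∑ B', (((rotm V A' A : ℝ) : ℂ) * ((rotm V B' B : ℝ) : ℂ)) •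
        ∑ C, (Complex.I * ((Real.sqrt 2 : ℝ) : ℂ) * ((eps A' B' C : ℤ) : ℂ)) • pauliT C := by
    rw [Finset.sum_mul_sum, Finset.sum_mul_sum, Finset.sum_comm (s := Finset.univ)
      (f := fun i j => ((rotm V i B : ℝ) : ℂ) • pauliT i * ((rotm V j A : ℝ) : ℂ) • pauliT j),
      ← Finset.sum_sub_distrib]
    refine Finset.sum_congr rfl fun A' _ => ?_
    rw [← Finset.sum_sub_distrib]
    refine Finset.sum_congr rfl fun B' _ => ?_
    rw [← cov_comm, smul_sub, Matrix.smul_mul, Matrix.mul_smul, Matrix.smul_mul, Matrix.mul_smul,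
      smul_smul, smul_smul, mul_comm (((rotm V B' B : ℝ) : ℂ))]
  rw [h3] at h2
  have h4 := congrArg (fun M => (M * pauliT D).trace) h2
  simp only [Matrix.sum_mul, Matrix.trace_sum, Matrix.smul_mul, Matrix.trace_smul, cov_ortho,
    smul_eq_mul, mul_ite, mul_one, mul_zero, Finset.sum_ite_eq', Finset.mem_univ, if_true] at h4
  have h5 : (Complex.I * ((Real.sqrt 2 : ℝ) : ℂ)) * ((∑ A', ∑ B', rotm V A' A * rotm V B' B *
      ((eps A' B' D : ℤ) : ℝ) : ℝ) : ℂ) = (Complex.I * ((Real.sqrt 2 : ℝ) : ℂ)) *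
      ((∑ C, ((eps A B C : ℤ) : ℝ) * rotm V D C : ℝ) : ℂ) := by
    push_cast
    simp only [Finset.mul_sum]
    refine Eq.trans ?_ (h4.trans ?_)
    · refine Finset.sum_congr rfl fun A' _ => Finset.sum_congr rfl fun B' _ => ?_
      ring
    · refine Finset.sum_congr rfl fun C _ => ?_
      ring
  exact Complex.ofReal_injective (mul_left_cancel₀ h0 h5)

/-- determinant one: the rotation preserves `eps` -/
theorem rotm_eps (U : SU2) (A B C : Fin 3) : ∑ A', ∑ B', ∑ C', rotm U A A' * rotm U B B' *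
    rotm U C C' * (eps A' B' C' : ℝ) = (eps A B C : ℝ) := by
  have h := cov_eps U⁻¹ A B
  simp only [rotm_inv] at h
  calc ∑ A', ∑ B', ∑ C', rotm U A A' * rotm U B B' * rotm U C C' * (eps A' B' C' : ℝ)
      = ∑ C', rotm U C C' * ∑ A', ∑ B', rotm U A A' * rotm U B B' * (eps A' B' C' : ℝ) := by
        simp only [Fin.sum_univ_three]
        ring
    _ = ∑ C', rotm U C C' * ∑ D, (eps A B D : ℝ) * rotm U D C' := by
        refine Finset.sum_congr rfl fun C' _ => ?_
        rw [h C']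
    _ = ∑ D, (eps A B D : ℝ) * ∑ C', rotm U C C' * rotm U D C' := by
        simp only [Fin.sum_univ_three]
        ring
    _ = (eps A B C : ℝ) := by
        simp only [rotm_orth', mul_ite, mul_one, mul_zero, Finset.sum_ite_eq, Finset.mem_univ,
          if_true]

theorem continuous_rotm (B A : Fin 3) : Continuous fun U : SU2 => rotm U B A := by
  unfold rotm adCoeff
  refine Complex.continuous_re.comp (Continuous.matrix_trace ?_)
  have h : Continuous fun U : SU2 => (U : Matrix (Fin 2) (Fin 2) ℂ) := continuous_subtype_val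
  exact continuous_const.matrix_mul ((h.matrix_mul continuous_const).matrix_mul
    h.matrix_conjTranspose)

theorem cov_act_apply (U : SU2) (x : X3) (i : Fin 9) (B : Fin 3) :
    act U x (i, B) = ∑ A, rotm U B A * x (i, A) := rfl

theorem act_one (x : X3) : act 1 x = x := by
  ext ⟨i, B⟩
  rw [cov_act_apply]
  simp only [rotm_one, ite_mul, one_mul, zero_mul, Finset.sum_ite_eq, Finset.mem_univ, if_true]

theorem act_mul (U V : SU2) (x : X3) : act (U * V) x = act U (act V x) := by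
  ext ⟨i, B⟩
  simp only [cov_act_apply, rotm_mul, Fin.sum_univ_three]
  ring

theorem act_inv_act (U : SU2) (x : X3) : act U⁻¹ (act U x) = x := by
  rw [← act_mul, inv_mul_cancel, act_one]

theorem act_act_inv (U : SU2) (x : X3) : act U (act U⁻¹ x) = x := by
  rw [← act_mul, mul_inv_cancel, act_one]

theorem cov_act_add (U : SU2) (x y : X3) : act U (x + y) = act U x + act U y := by
  ext ⟨i, B⟩
  simp only [cov_act_apply, PiLp.add_apply, Fin.sum_univ_three]
  ring

theorem cov_act_smul (U : SU2) (r : ℝ) (x : X3) : act U (r • x) = r • act U x := by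
  ext ⟨i, B⟩
  simp only [cov_act_apply, PiLp.smul_apply, smul_eq_mul, Fin.sum_univ_three]
  ring

theorem cov_act_norm (U : SU2) (x : X3) : ‖act U x‖ = ‖x‖ := by
  have h : ‖act U x‖ ^ 2 = ‖x‖ ^ 2 := by
    rw [EuclideanSpace.real_norm_sq_eq, EuclideanSpace.real_norm_sq_eq, Fintype.sum_prod_type,
      Fintype.sum_prod_type]
    refine Finset.sum_congr rfl fun i _ => ?_
    simp only [cov_act_apply]
    calc ∑ B, (∑ A, rotm U B A * x (i, A)) ^ 2
        = ∑ A, ∑ A', (∑ B, rotm U B A * rotm U B A') * (x (i, A) * x (i, A')) := by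
          simp only [Fin.sum_univ_three]
          ring
      _ = ∑ A, x (i, A) ^ 2 := by
          simp only [rotm_orth, ite_mul, one_mul, zero_mul, Finset.sum_ite_eq, Finset.mem_univ,
            if_true, sq]
  exact (sq_eq_sq₀ (norm_nonneg _) (norm_nonneg _)).1 h

/-- the action as a linear isometry -/
noncomputable def actL (U : SU2) : X3 ≃ₗᵢ[ℝ] X3 where
  toFun := act U
  invFun := act U⁻¹
  map_add' := cov_act_add U
  map_smul' := cov_act_smul U
  left_inv := act_inv_act U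
  right_inv := act_act_inv U
  norm_map' := cov_act_norm U

theorem actL_apply (U : SU2) (x : X3) : actL U x = act U x := rfl

theorem continuous_act : Continuous fun p : SU2 × X3 => act p.1 p.2 := by
  unfold act
  refine (PiLp.continuous_toLp 2 _).comp (continuous_pi fun p => ?_)
  refine continuous_finsetSum _ fun A _ => ?_
  have h : Continuous fun x : X3 => x (p.1, A) := by fun_prop
  exact ((continuous_rotm p.2 A).comp continuous_fst).mul (h.comp continuous_snd)

/-- covariance of partial derivatives -/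
theorem cov_act_single (U : SU2) (i : Fin 9) (A : Fin 3) :
    act U (EuclideanSpace.single (i, A) (1 : ℝ)) =
      ∑ B, rotm U B A • (EuclideanSpace.single (i, B) (1 : ℝ) : X3) := by
  ext ⟨j, B⟩
  rw [cov_act_apply, Fin.sum_univ_three, Fin.sum_univ_three]
  by_cases h : j = i
  · subst h
    match A, B with
    | 0, 0 => simp
    | 0, 1 => simp
    | 0, 2 => simp
    | 1, 0 => simp
    | 1, 1 => simp
    | 1, 2 => simp
    | 2, 0 => simp
    | 2, 1 => simp
    | 2, 2 => simp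
  · simp [h]

theorem cov_fderiv (U : SU2) {u : X3 → F} (T : F →L[ℂ] F) (hu : ContDiff ℝ ∞ u)
    (hU : ∀ x, u (act U x) = T (u x)) (x e : X3) :
    fderiv ℝ u (act U x) (act U e) = T (fderiv ℝ u x e) := by
  have hd := hu.differentiable (by simp)
  have h1 : HasFDerivAt (fun y => u (actL U y))
      ((fderiv ℝ u (actL U x)).comp ((actL U).toContinuousLinearEquiv : X3 →L[ℝ] X3)) x :=
    (hd (actL U x)).hasFDerivAt.comp x ((actL U).toContinuousLinearEquiv : X3 →L[ℝ] X3).hasFDerivAt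
  have h2 : HasFDerivAt (fun y => T (u y)) ((T.restrictScalars ℝ).comp (fderiv ℝ u x)) x :=
    (T.restrictScalars ℝ).hasFDerivAt.comp x (hd x).hasFDerivAt
  have h3 : (fun y => u (actL U y)) = fun y => T (u y) := funext fun y => hU y
  rw [h3] at h1
  have h4 := congrArg (fun L => L e) (h1.unique h2)
  exact h4

theorem cov_pd (U : SU2) {u : X3 → F} (T : F →L[ℂ] F) (hu : ContDiff ℝ ∞ u)
    (hU : ∀ x, u (act U x) = T (u x)) (x : X3) (i : Fin 9) (B : Fin 3) :
    pd i B u (act U x) = ∑ A, ((rotm U B A : ℝ) : ℂ) • T (pd i A u x) := by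
  have h1 : ∀ A, T (pd i A u x) = ∑ C, rotm U C A • pd i C u (act U x) := by
    intro A
    have h2 := cov_fderiv U T hu hU x (EuclideanSpace.single (i, A) (1 : ℝ))
    rw [cov_act_single, map_sum] at h2
    unfold pd
    rw [← h2]
    simp only [map_smul]
  simp only [h1, Complex.coe_smul]
  calc pd i B u (act U x) = ∑ C, (∑ A, rotm U B A * rotm U C A) • pd i C u (act U x) := by
        simp only [rotm_orth', ite_smul, one_smul, zero_smul, Finset.sum_ite_eq, Finset.mem_univ,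
          if_true]
    _ = ∑ A, rotm U B A • ∑ C, rotm U C A • pd i C u (act U x) := by
        simp only [Fin.sum_univ_three]
        module

/-- identity for `eps` with two rotations on one side and one on the other side -/
theorem cov_eps2 (U : SU2) (A B' C' : Fin 3) :
    ∑ B, ∑ C, ((eps A B C : ℤ) : ℝ) * (rotm U B B' * rotm U C C') =
      ∑ A', rotm U A A' * ((eps A' B' C' : ℤ) : ℝ) := by
  have h := cov_eps U B' C' A
  have hc : ∀ A B C, eps B C A = eps A B C := by decide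
  refine Eq.trans ?_ (h.trans ?_)
  · refine Finset.sum_congr rfl fun B _ => Finset.sum_congr rfl fun C _ => ?_
    rw [← hc A B C]
    ring
  · refine Finset.sum_congr rfl fun C _ => ?_
    rw [hc C B' C']
    ring

namespace Fk

variable (K : Fk F)

theorem S_inv_S (U : SU2) (v : F) : K.S U⁻¹ (K.S U v) = v := by
  have h : K.S U⁻¹ * K.S U = 1 := by rw [← map_mul, inv_mul_cancel, map_one]
  have := congrArg (fun T : F →L[ℂ] F => T v) h
  simpa using this

theorem S_S_inv (U : SU2) (v : F) : K.S U (K.S U⁻¹ v) = v := by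
  have h : K.S U * K.S U⁻¹ = 1 := by rw [← map_mul, mul_inv_cancel, map_one]
  have := congrArg (fun T : F →L[ℂ] F => T v) h
  simpa using this

theorem S_inner (U : SU2) (v w : F) : inner ℂ (K.S U v) (K.S U w) = inner ℂ v w := by
  let L : F →ₗᵢ[ℂ] F := ⟨(K.S U).toLinearMap, fun v => K.S_isometry U v⟩
  exact L.inner_map_map v w

theorem cov_S_c (U : SU2) (i : Fin 8) (A : Fin 3) (v : F) :
    K.S U (K.c i A v) = ∑ B, ((rotm U B A : ℝ) : ℂ) • K.c i B (K.S U v) := by
  have h := congrArg (fun T : F →L[ℂ] F => T v) (K.S_c U i A)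
  simpa using h

theorem cov_S_a (U : SU2) (i : Fin 8) (A : Fin 3) (v : F) :
    K.S U (K.a i A v) = ∑ B, ((rotm U B A : ℝ) : ℂ) • K.a i B (K.S U v) := by
  have h := congrArg (fun T : F →L[ℂ] F => T v) (K.S_a U i A)
  simpa using h

/-- contraction of a rotated vector with the creation operators -/
theorem cov_contract (U : SU2) (i : Fin 8) (v : Fin 3 → F) :
    ∑ B, K.c i B (∑ A, ((rotm U B A : ℝ) : ℂ) • K.S U (v A)) = K.S U (∑ A, K.c i A (v A)) := by
  simp only [map_sum, map_smul, cov_S_c]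
  rw [Finset.sum_comm]

theorem cov_ph (U : SU2) (A : Fin 3) (x : X3) :
    K.ph A (act U x) = ∑ B, ((rotm U A B : ℝ) : ℂ) * K.ph B x := by
  unfold ph
  simp only [cov_act_apply, Fin.sum_univ_three]
  push_cast
  ring

theorem cov_phb (U : SU2) (A : Fin 3) (x : X3) :
    K.phb A (act U x) = ∑ B, ((rotm U A B : ℝ) : ℂ) * K.phb B x := by
  unfold phb
  simp only [cov_act_apply, Fin.sum_univ_three]
  push_cast
  ring

/-- one block of the contraction `io` -/
noncomputable def covIo (i : Fin 8) (A : Fin 3) (y : Fin 3 → ℂ) (v : F) : F :=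
  ∑ B, ∑ C, ((eps B A C : ℂ) * y C) • K.a i B v

theorem cov_io_apply (A : Fin 3) (x : X3) (v : F) :
    K.io A x v = (∑ i : Fin 7, K.covIo (e8 i) A (fun C => (x (e9 i, C) : ℂ)) v) +
      (1 / 2 : ℂ) • K.covIo 7 A (fun C => K.phb C x) v := by
  unfold io covIo
  simp only [add_apply, sum_apply, smul_apply]

theorem cov_covIo (U : SU2) (i : Fin 8) (A : Fin 3) (y y' : Fin 3 → ℂ) (v : F)
    (hy : ∀ B, y' B = ∑ C, ((rotm U B C : ℝ) : ℂ) * y C) :
    ∑ A', ((rotm U A' A : ℝ) : ℂ) • K.covIo i A' y' (K.S U v) = K.S U (K.covIo i A y v) := by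
  have h : ∀ B' C : Fin 3, ∑ A', ∑ C', ((eps B' A' C' : ℤ) : ℂ) *
      (((rotm U A' A : ℝ) : ℂ) * ((rotm U C' C : ℝ) : ℂ)) =
      ∑ B, ((rotm U B' B : ℝ) : ℂ) * ((eps B A C : ℤ) : ℂ) := by
    intro B' C
    have h1 := cov_eps2 U B' A C
    have h2 := congrArg (fun r : ℝ => (r : ℂ)) h1
    push_cast at h2
    exact h2
  unfold covIo
  simp only [map_sum, map_smul, cov_S_a]
  calc ∑ A', ((rotm U A' A : ℝ) : ℂ) • ∑ B', ∑ C', ((eps B' A' C' : ℂ) * y' C') •
        K.a i B' (K.S U v)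
      = ∑ B', (∑ C, (∑ A', ∑ C', ((eps B' A' C' : ℤ) : ℂ) *
          (((rotm U A' A : ℝ) : ℂ) * ((rotm U C' C : ℝ) : ℂ))) * y C) • K.a i B' (K.S U v) := by
        simp only [hy, Fin.sum_univ_three]
        module
    _ = ∑ B', (∑ C, (∑ B, ((rotm U B' B : ℝ) : ℂ) * ((eps B A C : ℤ) : ℂ)) * y C) •
          K.a i B' (K.S U v) := by
        simp only [h]
    _ = ∑ B, ∑ C, ((eps B A C : ℂ) * y C) • ∑ B', ((rotm U B' B : ℝ) : ℂ) •
          K.a i B' (K.S U v) := by
        simp only [Fin.sum_univ_three]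
        module

theorem cov_io (U : SU2) (A : Fin 3) (x : X3) (v : F) :
    ∑ A', ((rotm U A' A : ℝ) : ℂ) • K.io A' (act U x) (K.S U v) = K.S U (K.io A x v) := by
  have h1 : ∀ i : Fin 7, K.S U (K.covIo (e8 i) A (fun C => (x (e9 i, C) : ℂ)) v) =
      ∑ A', ((rotm U A' A : ℝ) : ℂ) •
        K.covIo (e8 i) A' (fun C => (act U x (e9 i, C) : ℂ)) (K.S U v) := by
    intro i
    refine (K.cov_covIo U (e8 i) A _ _ v fun B => ?_).symm
    rw [cov_act_apply]
    push_cast
    rfl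
  have h2 : K.S U (K.covIo 7 A (fun C => K.phb C x) v) =
      ∑ A', ((rotm U A' A : ℝ) : ℂ) • K.covIo 7 A' (fun C => K.phb C (act U x)) (K.S U v) :=
    (K.cov_covIo U 7 A _ _ v fun B => K.cov_phb U B x).symm
  simp only [cov_io_apply, map_add, map_sum, map_smul, h1, h2, smul_add, Finset.sum_add_distrib,
    Finset.smul_sum]
  congr 1
  · rw [Finset.sum_comm]
  · refine Finset.sum_congr rfl fun A' _ => ?_
    rw [smul_comm]

theorem cov_phio (U : SU2) (x : X3) (v : F) :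
    ∑ A, K.ph A (act U x) • K.io A (act U x) (K.S U v) = K.S U (∑ A, K.ph A x • K.io A x v) := by
  have h : ∀ A, K.S U (K.io A x v) =
      ∑ A', ((rotm U A' A : ℝ) : ℂ) • K.io A' (act U x) (K.S U v) :=
    fun A => (K.cov_io U A x v).symm
  rw [map_sum]
  simp only [map_smul, h]
  simp only [cov_ph, Fin.sum_univ_three]
  module

end Fk

theorem cov_cross (U : SU2) (A : Fin 3) (y z : Fin 3 → ℝ) :
    ∑ B, ∑ C, ((eps A B C : ℤ) : ℝ) * ((∑ B', rotm U B B' * y B') * (∑ C', rotm U C C' * z C')) =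
      ∑ A', rotm U A A' * ∑ B, ∑ C, ((eps A' B C : ℤ) : ℝ) * (y B * z C) := by
  calc _ = ∑ B', ∑ C', (∑ B, ∑ C, ((eps A B C : ℤ) : ℝ) * (rotm U B B' * rotm U C C')) *
        (y B' * z C') := by
        simp only [Fin.sum_univ_three]
        ring
    _ = ∑ B', ∑ C', (∑ A', rotm U A A' * ((eps A' B' C' : ℤ) : ℝ)) * (y B' * z C') := by
        simp only [cov_eps2]
    _ = _ := by
        simp only [Fin.sum_univ_three]
        ring

namespace Fk

variable (K : Fk F)

theorem cov_dhc_eq (k : Fin 7) (A : Fin 3) (x : X3) : K.dhc k A x =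
    K.f0 / 2 * ∑ i, ∑ j, K.t k i j * ∑ B, ∑ C, ((eps A B C : ℤ) : ℝ) *
      (x (e9 i, B) * x (e9 j, C)) := by
  unfold dhc
  congr 1
  simp only [Fin.sum_univ_three, ← Finset.sum_add_distrib]
  refine Finset.sum_congr rfl fun i _ => Finset.sum_congr rfl fun j _ => ?_
  ring

theorem cov_lin (c : ℝ) (R : Fin 3 → ℝ) (t : Fin 7 → Fin 7 → ℝ) (g : Fin 3 → Fin 7 → Fin 7 → ℝ) :
    c * ∑ i, ∑ j, t i j * ∑ A', R A' * g A' i j =
      ∑ A', R A' * (c * ∑ i, ∑ j, t i j * g A' i j) := by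
  simp only [Fin.sum_univ_three, mul_add, Finset.sum_add_distrib, Finset.mul_sum]
  refine congrArg₂ _ (congrArg₂ _ ?_ ?_) ?_ <;>
    exact Finset.sum_congr rfl fun i _ => Finset.sum_congr rfl fun j _ => by ring

theorem cov_dhc (U : SU2) (k : Fin 7) (A : Fin 3) (x : X3) :
    K.dhc k A (act U x) = ∑ A', rotm U A A' * K.dhc k A' x := by
  simp only [cov_dhc_eq, cov_act_apply]
  have h : ∀ i j : Fin 7, ∑ B, ∑ C, ((eps A B C : ℤ) : ℝ) *
      ((∑ A, rotm U B A * x (e9 i, A)) * ∑ A, rotm U C A * x (e9 j, A)) = _ :=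
    fun i j => cov_cross U A (fun B => x (e9 i, B)) (fun C => x (e9 j, C))
  simp only [h]
  exact cov_lin _ _ _ _

theorem cov_dh (U : SU2) (x : X3) (v : F) :
    K.dh (act U x) (K.S U v) = K.S U (K.dh x v) := by
  unfold dh
  simp only [sum_apply, smul_apply, map_sum, map_smul, cov_S_c, cov_dhc]
  refine Finset.sum_congr rfl fun k _ => ?_
  simp only [Fin.sum_univ_three]
  push_cast
  module

theorem cov_dd (U : SU2) {u : X3 → F} (hu : ContDiff ℝ ∞ u) (hU : ∀ x, u (act U x) = K.S U (u x))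
    (x : X3) : K.dd u (act U x) = K.S U (K.dd u x) := by
  have h := cov_pd U (K.S U) hu hU x
  have h7 : ∀ B, pd 7 B u (act U x) + (Complex.I * (K.sg : ℂ)) • pd 8 B u (act U x) =
      ∑ A, ((rotm U B A : ℝ) : ℂ) • K.S U (pd 7 A u x + (Complex.I * (K.sg : ℂ)) • pd 8 A u x) := by
    intro B
    rw [h, h]
    simp only [map_add, map_smul, smul_add, Finset.sum_add_distrib, Finset.smul_sum]
    congr 1
    refine Finset.sum_congr rfl fun A _ => ?_
    rw [smul_comm]
  unfold dd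
  rw [map_add, map_sum]
  congr 1
  · refine Finset.sum_congr rfl fun i _ => ?_
    rw [← K.cov_contract U (e8 i) fun A => pd (e9 i) A u x]
    refine Finset.sum_congr rfl fun B _ => ?_
    rw [h]
  · rw [← K.cov_contract U 7 fun A => pd 7 A u x + (Complex.I * (K.sg : ℂ)) • pd 8 A u x]
    refine Finset.sum_congr rfl fun B _ => ?_
    rw [h7]

/-- covariance of `D + dh`: `(DD u)(U x) = S(U) DD(S(U)⁻¹ u(U·))(x)` -/
theorem DD_act (U : SU2) {u : X3 → F} (hu : ContDiff ℝ ∞ u) (hU : ∀ x, u (act U x) = K.S U (u x))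
    (x : X3) : K.DD u (act U x) = K.S U (K.DD u x) := by
  unfold DD D0
  rw [hU x, K.cov_dd U hu hU, K.cov_phio, K.cov_dh, map_add, map_add, map_smul]

theorem cov_contDiff_clm (T : F →L[ℂ] F) {w : X3 → F} (hw : ContDiff ℝ ∞ w) :
    ContDiff ℝ ∞ fun x => T (w x) := (T.restrictScalars ℝ).contDiff.comp hw

theorem cov_contDiff_coord (i : Fin 9) (A : Fin 3) : ContDiff ℝ ∞ fun x : X3 => x (i, A) :=
  (EuclideanSpace.proj (𝕜 := ℝ) (i, A) : X3 →L[ℝ] ℝ).contDiff

theorem cov_contDiff_coordC (i : Fin 9) (A : Fin 3) :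
    ContDiff ℝ ∞ fun x : X3 => (x (i, A) : ℂ) :=
  Complex.ofRealCLM.contDiff.comp (cov_contDiff_coord i A)

theorem cov_contDiff_ph (A : Fin 3) : ContDiff ℝ ∞ (K.ph A) :=
  (cov_contDiff_coordC 7 A).add (contDiff_const.mul (cov_contDiff_coordC 8 A))

theorem cov_contDiff_phb (A : Fin 3) : ContDiff ℝ ∞ (K.phb A) :=
  (cov_contDiff_coordC 7 A).sub (contDiff_const.mul (cov_contDiff_coordC 8 A))

theorem cov_contDiff_dhc (k : Fin 7) (A : Fin 3) : ContDiff ℝ ∞ (K.dhc k A) := by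
  unfold dhc
  refine contDiff_const.mul (ContDiff.sum fun B _ => ContDiff.sum fun C _ =>
    ContDiff.sum fun i _ => ContDiff.sum fun j _ => ?_)
  exact (contDiff_const.mul (cov_contDiff_coord _ _)).mul (cov_contDiff_coord _ _)

theorem cov_contDiff_DD {u : X3 → F} (hu : ContDiff ℝ ∞ u) : ContDiff ℝ ∞ (K.DD u) := by
  have hdd : ContDiff ℝ ∞ (K.dd u) := by
    unfold dd
    refine (ContDiff.sum fun i _ => ContDiff.sum fun A _ =>
      cov_contDiff_clm _ (contDiff_pd hu)).add (ContDiff.sum fun A _ => cov_contDiff_clm _ ?_)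
    exact (contDiff_pd hu).add ((contDiff_pd hu).const_smul _)
  have hio : ∀ A, ContDiff ℝ ∞ fun x => K.io A x (u x) := by
    intro A
    simp only [cov_io_apply, covIo]
    refine (ContDiff.sum fun i _ => ContDiff.sum fun B _ => ContDiff.sum fun C _ => ?_).add
      (ContDiff.const_smul _ (ContDiff.sum fun B _ => ContDiff.sum fun C _ => ?_))
    · exact (contDiff_const.mul (cov_contDiff_coordC _ _)).smul (cov_contDiff_clm _ hu)
    · exact (contDiff_const.mul (K.cov_contDiff_phb C)).smul (cov_contDiff_clm _ hu)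
  have hdh : ContDiff ℝ ∞ fun x => K.dh x (u x) := by
    unfold dh
    simp only [sum_apply, smul_apply]
    refine ContDiff.sum fun k _ => ContDiff.sum fun A _ => ?_
    exact (Complex.ofRealCLM.contDiff.comp (K.cov_contDiff_dhc k A)).smul (cov_contDiff_clm _ hu)
  have h : K.DD u = fun x => (K.dd u x + K.nu • ∑ A, K.ph A x • K.io A x (u x)) +
    K.dh x (u x) := rfl
  rw [h]
  exact (hdd.add (ContDiff.const_smul _ (ContDiff.sum fun A _ =>
    (K.cov_contDiff_ph A).smul (hio A)))).add hdh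

theorem cov_DD_zero {u : X3 → F} {x : X3} (hx : x ∉ tsupport u) : K.DD u x = 0 := by
  have h1 : fderiv ℝ u x = 0 := by
    by_contra h
    exact hx (support_fderiv_subset (𝕜 := ℝ) h)
  have h2 : u x = 0 := image_eq_zero_of_notMem_tsupport hx
  have h3 : ∀ (i : Fin 9) (A : Fin 3), pd i A u x = 0 := by
    intro i A
    unfold pd
    rw [h1]
    rfl
  unfold DD D0 dd
  simp only [h2, h3, map_zero, smul_zero, add_zero, Finset.sum_const_zero]

theorem core_DD {u : X3 → F} (hu : K.Core u) : K.Core (K.DD u) :=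
  ⟨K.cov_contDiff_DD hu.1, HasCompactSupport.intro hu.2.1 fun _ hx => K.cov_DD_zero hx,
    fun U x => K.DD_act U hu.1 (hu.2.2 U) x⟩

end Fk

end Vale.Agent.P353.Ex
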