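import Vale.Agent.P353.Ex.CalcA
import Vale.Agent.P353.Ex.Cov

/-! Task EX-05: basic calculus for `K.DD` and `K.LL` (first part in `CalcA.lean`). -/

open MeasureTheory Filter Topology
open scoped ContDiff ComplexConjugate

namespace Vale.Agent.P353.Ex

variable {F : Type*} [NormedAddCommGroup F] [InnerProductSpace ℂ F]

namespace Fk

variable (K : Fk F)

/-! ### the superpotential -/

/-- the trilinear form `⟨a × b, c⟩` -/
private noncomputable def calcTT (a b c : Fin 7 → ℝ) : ℝ :=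
  ∑ k, ∑ i, ∑ j, K.t k i j * a i * b j * c k

private lemma calcTT_lin1 (r : Fin 3 → ℝ) (a : Fin 3 → Fin 7 → ℝ) (b c : Fin 7 → ℝ) :
    K.calcTT (fun i => ∑ A, r A * a A i) b c = ∑ A, r A * K.calcTT (a A) b c := by
  simp only [calcTT, Fin.sum_univ_three, Finset.mul_sum, ← Finset.sum_add_distrib]
  refine Finset.sum_congr rfl fun k _ => Finset.sum_congr rfl fun i _ =>
    Finset.sum_congr rfl fun j _ => ?_
  ring

private lemma calcTT_swap (a b c : Fin 7 → ℝ) : K.calcTT b a c = -K.calcTT a b c := by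
  unfold calcTT
  rw [← Finset.sum_neg_distrib]
  refine Finset.sum_congr rfl fun k _ => ?_
  rw [Finset.sum_comm, ← Finset.sum_neg_distrib]
  refine Finset.sum_congr rfl fun i _ => ?_
  rw [← Finset.sum_neg_distrib]
  refine Finset.sum_congr rfl fun j _ => ?_
  rw [K.t_swap k j i]
  ring

private lemma calcTT_cyc (a b c : Fin 7 → ℝ) : K.calcTT a b c = K.calcTT b c a := by
  unfold calcTT
  rw [Finset.sum_comm]
  refine Finset.sum_congr rfl fun i _ => ?_
  rw [Finset.sum_comm]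
  refine Finset.sum_congr rfl fun j _ => Finset.sum_congr rfl fun k _ => ?_
  rw [K.t_cyc k i j]
  ring

private lemma calcTT_lin2 (r : Fin 3 → ℝ) (a : Fin 3 → Fin 7 → ℝ) (b c : Fin 7 → ℝ) :
    K.calcTT b (fun i => ∑ A, r A * a A i) c = ∑ A, r A * K.calcTT b (a A) c := by
  simp only [K.calcTT_cyc b _ c, calcTT_lin1]

private lemma calcTT_lin3 (r : Fin 3 → ℝ) (a : Fin 3 → Fin 7 → ℝ) (b c : Fin 7 → ℝ) :
    K.calcTT b c (fun i => ∑ A, r A * a A i) = ∑ A, r A * K.calcTT b c (a A) := by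
  simp only [K.calcTT_cyc b c _, calcTT_lin2]

private lemma calcTT_single (b c : Fin 7 → ℝ) (i : Fin 7) :
    K.calcTT (fun p => if p = i then 1 else 0) b c = ∑ p, ∑ q, K.t i p q * b p * c q := by
  unfold calcTT
  have h : ∀ k, ∑ p, ∑ j, K.t k p j * (if p = i then 1 else 0) * b j * c k =
      ∑ j, K.t i j k * b j * c k := by
    intro k
    rw [Finset.sum_eq_single i (fun p _ hp => by simp [hp]) (fun h => absurd (Finset.mem_univ i) h)]
    refine Finset.sum_congr rfl fun j _ => ?_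
    rw [K.t_cyc k i j, if_pos rfl, mul_one]
  simp only [h]
  exact Finset.sum_comm

/-- the `A`-th vector of `x` -/
private noncomputable def calcV (x : X3) (A : Fin 3) : Fin 7 → ℝ := fun i => x (e9 i, A)

private lemma calcTT_eps (x : X3) (A B C : Fin 3) :
    K.calcTT (calcV x A) (calcV x B) (calcV x C) =
      (eps A B C : ℝ) * K.calcTT (calcV x 0) (calcV x 1) (calcV x 2) := by
  have hd : ∀ a c, K.calcTT a a c = 0 := fun a c => by
    have := K.calcTT_swap a a c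
    linarith
  have hd2 : ∀ a c, K.calcTT a c c = 0 := fun a c => by rw [calcTT_cyc, hd]
  have hd3 : ∀ a c, K.calcTT a c a = 0 := fun a c => by rw [calcTT_cyc, calcTT_cyc, hd]
  have h1 : K.calcTT (calcV x 1) (calcV x 2) (calcV x 0) =
    K.calcTT (calcV x 0) (calcV x 1) (calcV x 2) := (K.calcTT_cyc _ _ _).symm
  have h2 : K.calcTT (calcV x 2) (calcV x 0) (calcV x 1) =
    K.calcTT (calcV x 0) (calcV x 1) (calcV x 2) := K.calcTT_cyc _ _ _
  have h3 : K.calcTT (calcV x 1) (calcV x 0) (calcV x 2) =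
    -K.calcTT (calcV x 0) (calcV x 1) (calcV x 2) := K.calcTT_swap _ _ _
  have h4 : K.calcTT (calcV x 0) (calcV x 2) (calcV x 1) =
    -K.calcTT (calcV x 0) (calcV x 1) (calcV x 2) := by rw [K.calcTT_swap (calcV x 2), h2]
  have h5 : K.calcTT (calcV x 2) (calcV x 1) (calcV x 0) =
    -K.calcTT (calcV x 0) (calcV x 1) (calcV x 2) := by rw [K.calcTT_swap (calcV x 1), h1]
  have e : ∀ A B C : Fin 3, (A = B ∧ eps A B C = 0) ∨ (B = C ∧ eps A B C = 0) ∨
      (A = C ∧ eps A B C = 0) ∨ (A = 0 ∧ B = 1 ∧ C = 2 ∧ eps A B C = 1) ∨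
      (A = 1 ∧ B = 2 ∧ C = 0 ∧ eps A B C = 1) ∨ (A = 2 ∧ B = 0 ∧ C = 1 ∧ eps A B C = 1) ∨
      (A = 1 ∧ B = 0 ∧ C = 2 ∧ eps A B C = -1) ∨ (A = 0 ∧ B = 2 ∧ C = 1 ∧ eps A B C = -1) ∨
      (A = 2 ∧ B = 1 ∧ C = 0 ∧ eps A B C = -1) := by decide
  rcases e A B C with ⟨h, he⟩ | ⟨h, he⟩ | ⟨h, he⟩ | ⟨a, b, c, he⟩ | ⟨a, b, c, he⟩ | ⟨a, b, c, he⟩ |
    ⟨a, b, c, he⟩ | ⟨a, b, c, he⟩ | ⟨a, b, c, he⟩
  · rw [he, h, hd]; simp
  · rw [he, h, hd2]; simp
  · rw [he, h, hd3]; simp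
  · rw [he, a, b, c]; simp
  · rw [he, a, b, c, h1]; simp
  · rw [he, a, b, c, h2]; simp
  · rw [he, a, b, c, h3]; simp
  · rw [he, a, b, c, h4]; simp
  · rw [he, a, b, c, h5]; simp

private lemma calc_hh_eq (x : X3) :
    K.hh x = K.f0 * K.calcTT (calcV x 0) (calcV x 1) (calcV x 2) := rfl

/-- invariance of `h` under all rotations -/
theorem hh_act (U : SU2) (x : X3) : K.hh (act U x) = K.hh x := by
  have h1 : K.calcTT (calcV (act U x) 0) (calcV (act U x) 1) (calcV (act U x) 2) =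
      ∑ A', ∑ B', ∑ C', rotm U 0 A' * rotm U 1 B' * rotm U 2 C' *
        K.calcTT (calcV x A') (calcV x B') (calcV x C') := by
    have h0 : ∀ A, calcV (act U x) A = fun i => ∑ D, rotm U A D * calcV x D i := fun A => rfl
    rw [h0, h0, h0, calcTT_lin1]
    refine Finset.sum_congr rfl fun A' _ => ?_
    rw [calcTT_lin2, Finset.mul_sum]
    refine Finset.sum_congr rfl fun B' _ => ?_
    rw [calcTT_lin3, Finset.mul_sum, Finset.mul_sum]
    refine Finset.sum_congr rfl fun C' _ => ?_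
    ring
  rw [calc_hh_eq, calc_hh_eq, h1]
  have h2 : ∀ A' B' C', rotm U 0 A' * rotm U 1 B' * rotm U 2 C' *
      K.calcTT (calcV x A') (calcV x B') (calcV x C') =
      rotm U 0 A' * rotm U 1 B' * rotm U 2 C' * (eps A' B' C' : ℝ) *
        K.calcTT (calcV x 0) (calcV x 1) (calcV x 2) := by
    intro A' B' C'
    rw [K.calcTT_eps x A' B' C']
    ring
  simp only [h2, ← Finset.sum_mul]
  rw [rotm_eps]
  have h3 : (eps 0 1 2 : ℝ) = 1 := by
    have : eps 0 1 2 = 1 := by decide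
    rw [this]; simp
  rw [h3, one_mul]

private lemma calc_fderiv_hh (x v : X3) : fderiv ℝ K.hh x v =
    K.f0 * (K.calcTT (calcV v 0) (calcV x 1) (calcV x 2) +
      K.calcTT (calcV x 0) (calcV v 1) (calcV x 2) +
      K.calcTT (calcV x 0) (calcV x 1) (calcV v 2)) := by
  have h1 : ∀ p : Fin 9 × Fin 3, HasFDerivAt (fun y : X3 => y p)
      (EuclideanSpace.proj (𝕜 := ℝ) p : X3 →L[ℝ] ℝ) x := fun p =>
    (EuclideanSpace.proj (𝕜 := ℝ) p).hasFDerivAt
  have h2 : HasFDerivAt K.hh _ x := HasFDerivAt.const_mul (HasFDerivAt.fun_sum fun k _ =>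
    HasFDerivAt.fun_sum fun i _ => HasFDerivAt.fun_sum fun j _ =>
      (((h1 (e9 i, 0)).const_mul (K.t k i j)).mul (h1 (e9 j, 1))).mul (h1 (e9 k, 2))) K.f0
  have h3 : ∀ (p : Fin 9 × Fin 3) (w : X3),
      (EuclideanSpace.proj (𝕜 := ℝ) p : X3 →L[ℝ] ℝ) w = w p := fun p w => rfl
  rw [h2.fderiv]
  simp only [_root_.smul_apply, _root_.sum_apply, _root_.add_apply, smul_eq_mul,
    h3, Pi.mul_apply, calcTT, calcV, ← Finset.sum_add_distrib]
  congr 1
  refine Finset.sum_congr rfl fun k _ => Finset.sum_congr rfl fun i _ =>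
    Finset.sum_congr rfl fun j _ => ?_
  ring

private lemma calc_single (i : Fin 7) (A D : Fin 3) :
    calcV (EuclideanSpace.single (e9 i, A) (1 : ℝ)) D =
      if D = A then (fun p => if p = i then 1 else 0) else 0 := by
  funext p
  simp only [calcV, PiLp.single_apply, Prod.mk.injEq, Fin.castSucc_inj]
  by_cases h1 : p = i <;> by_cases h2 : D = A <;> simp [h1, h2]

private lemma calcTT_zero1 (b c : Fin 7 → ℝ) : K.calcTT 0 b c = 0 := by
  simp [calcTT]

private lemma calcTT_zero2 (b c : Fin 7 → ℝ) : K.calcTT b 0 c = 0 := by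
  simp [calcTT]

private lemma calcTT_zero3 (b c : Fin 7 → ℝ) : K.calcTT b c 0 = 0 := by
  simp [calcTT]

private lemma calc_dhc_eq (i : Fin 7) (A : Fin 3) (x : X3) :
    K.dhc i A x = K.f0 / 2 * ∑ B, ∑ C, (eps A B C : ℝ) *
      K.calcTT (fun p => if p = i then 1 else 0) (calcV x B) (calcV x C) := by
  simp only [calcTT_single, dhc, Finset.mul_sum, mul_assoc, calcV]

private lemma calc_eps3 : (∀ C, eps 0 0 C = 0) ∧ (∀ C, eps 0 C 0 = 0) ∧ (∀ C, eps 1 1 C = 0) ∧
    (∀ C, eps 1 C 1 = 0) ∧ (∀ C, eps 2 2 C = 0) ∧ (∀ C, eps 2 C 2 = 0) ∧ (∀ A C, eps A C C = 0) ∧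
    eps 0 1 2 = 1 ∧ eps 0 2 1 = -1 ∧ eps 1 2 0 = 1 ∧ eps 1 0 2 = -1 ∧ eps 2 0 1 = 1 ∧
    eps 2 1 0 = -1 := by decide

theorem pdr_hh (i : Fin 7) (A : Fin 3) (x : X3) : pdr (e9 i) A K.hh x = K.dhc i A x := by
  have hA : ∀ A : Fin 3, A = 0 ∨ A = 1 ∨ A = 2 := by decide
  obtain ⟨z1, z2, z3, z4, z5, z6, z7, e1, e2, e3, e4, e5, e6⟩ := calc_eps3
  rw [pdr, calc_fderiv_hh, calc_dhc_eq]
  simp only [calc_single]
  set s : Fin 7 → ℝ := fun p => if p = i then 1 else 0 with hs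
  have hsw : ∀ b c, K.calcTT s c b = -K.calcTT s b c := by
    intro b c
    rw [calcTT_cyc, calcTT_swap, ← calcTT_cyc]
  rcases hA A with rfl | rfl | rfl
  · have h : ∑ B, ∑ C, (eps 0 B C : ℝ) * K.calcTT s (calcV x B) (calcV x C) =
        2 * K.calcTT s (calcV x 1) (calcV x 2) := by
      simp only [Fin.sum_univ_three, z1, z2, z7, e1, e2, hsw (calcV x 1) (calcV x 2)]
      push_cast
      ring
    rw [h, if_pos rfl, if_neg (by decide), if_neg (by decide), calcTT_zero2, calcTT_zero3]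
    ring
  · have h : ∑ B, ∑ C, (eps 1 B C : ℝ) * K.calcTT s (calcV x B) (calcV x C) =
        2 * K.calcTT s (calcV x 2) (calcV x 0) := by
      simp only [Fin.sum_univ_three, z3, z4, z7, e3, e4, hsw (calcV x 2) (calcV x 0)]
      push_cast
      ring
    rw [h, if_pos rfl, if_neg (by decide), if_neg (by decide), calcTT_zero1, calcTT_zero3,
      K.calcTT_cyc (calcV x 0) s]
    ring
  · have h : ∑ B, ∑ C, (eps 2 B C : ℝ) * K.calcTT s (calcV x B) (calcV x C) =
        2 * K.calcTT s (calcV x 0) (calcV x 1) := by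
      simp only [Fin.sum_univ_three, z5, z6, z7, e5, e6, hsw (calcV x 0) (calcV x 1)]
      push_cast
      ring
    rw [h, if_pos rfl, if_neg (by decide), if_neg (by decide), calcTT_zero1, calcTT_zero2,
      ← K.calcTT_cyc s]
    ring

private lemma calc_single' (i : Fin 9) (hi : ∀ p : Fin 7, e9 p ≠ i) (A D : Fin 3) :
    calcV (EuclideanSpace.single (i, A) (1 : ℝ)) D = 0 := by
  funext p
  simp [calcV, hi p]

private lemma calc_pdr0 (i : Fin 9) (hi : ∀ p : Fin 7, e9 p ≠ i) (A : Fin 3) (x : X3) :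
    pdr i A K.hh x = 0 := by
  rw [pdr, calc_fderiv_hh, calc_single' i hi, calc_single' i hi, calc_single' i hi, calcTT_zero1,
    calcTT_zero2, calcTT_zero3]
  simp

theorem pdr_hh_7 (A : Fin 3) (x : X3) : pdr 7 A K.hh x = 0 :=
  K.calc_pdr0 7 (by decide) A x

theorem pdr_hh_8 (A : Fin 3) (x : X3) : pdr 8 A K.hh x = 0 :=
  K.calc_pdr0 8 (by decide) A x

private lemma calc_eps4 : ∀ A C : Fin 3,
    eps 0 A C * eps C 1 2 + eps 1 A C * eps 0 C 2 + eps 2 A C * eps 0 1 C = 0 := by decide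

theorem orb_hh (A : Fin 3) (x : X3) :
    ∑ i : Fin 9, ∑ B, ∑ C, ((eps B A C : ℝ) * x (i, C)) * pdr i B K.hh x = 0 := by
  have h1 : ∑ i : Fin 9, ∑ B, ∑ C, ((eps B A C : ℝ) * x (i, C)) * pdr i B K.hh x =
      fderiv ℝ K.hh x (∑ i : Fin 9, ∑ B, ∑ C, ((eps B A C : ℝ) * x (i, C)) •
        EuclideanSpace.single (i, B) (1 : ℝ)) := by
    simp only [map_sum, map_smul, smul_eq_mul, pdr]
  have h2 : ∀ D, calcV (∑ i : Fin 9, ∑ B, ∑ C, ((eps B A C : ℝ) * x (i, C)) •
        (EuclideanSpace.single (i, B) (1 : ℝ) : X3)) D =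
      fun p => ∑ C, (eps D A C : ℝ) * calcV x C p := by
    intro D
    funext p
    simp only [calcV, WithLp.ofLp_sum, Finset.sum_apply, WithLp.ofLp_smul, Pi.smul_apply,
      PiLp.single_apply, Prod.mk.injEq, smul_eq_mul, mul_ite, mul_one, mul_zero]
    rw [Finset.sum_eq_single (e9 p) (fun i _ hi => ?_) (fun h => absurd (Finset.mem_univ _) h),
      Finset.sum_eq_single D (fun B _ hB => ?_) (fun h => absurd (Finset.mem_univ _) h)]
    · simp
    · exact Finset.sum_eq_zero fun C _ => if_neg (fun h => hB h.2.symm)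
    · exact Finset.sum_eq_zero fun B _ => Finset.sum_eq_zero fun C _ =>
        if_neg (fun h => hi h.1.symm)
  rw [h1, calc_fderiv_hh, h2, h2, h2, calcTT_lin1, calcTT_lin2, calcTT_lin3]
  have h3 : ∀ C, (eps 0 A C : ℝ) * K.calcTT (calcV x C) (calcV x 1) (calcV x 2) +
      (eps 1 A C : ℝ) * K.calcTT (calcV x 0) (calcV x C) (calcV x 2) +
      (eps 2 A C : ℝ) * K.calcTT (calcV x 0) (calcV x 1) (calcV x C) = 0 := by
    intro C
    rw [K.calcTT_eps x C 1 2, K.calcTT_eps x 0 C 2, K.calcTT_eps x 0 1 C]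
    have h4 : (eps 0 A C : ℝ) * (eps C 1 2 : ℝ) + (eps 1 A C : ℝ) * (eps 0 C 2 : ℝ) +
        (eps 2 A C : ℝ) * (eps 0 1 C : ℝ) = 0 := by exact_mod_cast calc_eps4 A C
    linear_combination K.calcTT (calcV x 0) (calcV x 1) (calcV x 2) * h4
  rw [← Finset.sum_add_distrib, ← Finset.sum_add_distrib,
    Finset.sum_eq_zero fun C _ => h3 C, mul_zero]

private lemma calc_dhh (x : X3) : DifferentiableAt ℝ K.hh x :=
  (K.contDiff_hh.differentiable (by simp)) x

private lemma calc_pdr_exp (i : Fin 9) (A : Fin 3) (x : X3) :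
    pdr i A (fun y => Real.exp (-K.hh y)) x = -(Real.exp (-K.hh x) * pdr i A K.hh x) := by
  have h : HasFDerivAt (fun y => Real.exp (-K.hh y)) (Real.exp (-K.hh x) • -fderiv ℝ K.hh x) x :=
    (K.calc_dhh x).hasFDerivAt.neg.exp
  rw [pdr, h.fderiv]
  simp [pdr]

private lemma calc_dexp (x : X3) : DifferentiableAt ℝ (fun y => Real.exp (-K.hh y)) x :=
  (K.calc_dhh x).neg.exp

/-- `(D + dh)(e^{-h} u) = e^{-h} D u` -/
theorem DD_exp {u : X3 → F} {x : X3} (hu : DifferentiableAt ℝ u x) :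
    K.DD (fun y => (Real.exp (-K.hh y) : ℂ) • u y) x = (Real.exp (-K.hh x) : ℂ) • K.D0 u x := by
  rw [K.DD_smul (K.calc_dexp x) hu]
  simp only [calc_pdr_exp, pdr_hh, pdr_hh_7, pdr_hh_8, mul_zero, neg_zero, Complex.ofReal_zero,
    add_zero, zero_smul, Finset.sum_const_zero]
  rw [DD, dh]
  simp only [_root_.sum_apply, _root_.smul_apply, smul_add, Finset.smul_sum, smul_smul,
    Complex.ofReal_neg, Complex.ofReal_mul, neg_smul, Finset.sum_neg_distrib]
  abel

theorem LL_exp (A : Fin 3) {u : X3 → F} {x : X3} (hu : DifferentiableAt ℝ u x) :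
    K.LL A (fun y => (Real.exp (-K.hh y) : ℂ) • u y) x = (Real.exp (-K.hh x) : ℂ) • K.LL A u x := by
  have h : ∀ i A, pd i A (fun y => ((Real.exp (-K.hh y) : ℝ) : ℂ) • u y) x =
      ((pdr i A (fun y => Real.exp (-K.hh y)) x : ℝ) : ℂ) • u x +
        ((Real.exp (-K.hh x) : ℝ) : ℂ) • pd i A u x := fun i A => pd_rsmul (K.calc_dexp x) hu
  have h2 : ∑ i : Fin 9, ∑ B, ∑ C, ((eps B A C : ℂ) * (x (i, C) : ℂ)) •
      (((pdr i B (fun y => Real.exp (-K.hh y)) x : ℝ) : ℂ) • u x) = 0 := by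
    simp only [smul_smul, ← Finset.sum_smul, calc_pdr_exp]
    have h3 : ∑ i : Fin 9, ∑ B, ∑ C, ((eps B A C : ℂ) * (x (i, C) : ℂ)) *
        ((-(Real.exp (-K.hh x) * pdr i B K.hh x) : ℝ) : ℂ) =
        ((-Real.exp (-K.hh x) * ∑ i : Fin 9, ∑ B, ∑ C,
          ((eps B A C : ℝ) * x (i, C)) * pdr i B K.hh x : ℝ) : ℂ) := by
      push_cast
      simp only [Finset.mul_sum]
      refine Finset.sum_congr rfl fun i _ => Finset.sum_congr rfl fun B _ =>
        Finset.sum_congr rfl fun C _ => ?_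
      ring
    rw [h3, orb_hh, mul_zero, Complex.ofReal_zero, zero_smul]
  simp only [LL, orb, h, smul_add, Finset.sum_add_distrib, map_smul]
  rw [h2, zero_add]
  simp only [Finset.smul_sum]
  congr 1
  exact Finset.sum_congr rfl fun i _ => Finset.sum_congr rfl fun B _ =>
    Finset.sum_congr rfl fun C _ => smul_comm _ _ _

end Fk

end Vale.Agent.P353.Ex
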