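import Vale.Agent.P353.Fierz
import Vale.Agent.P353.Ident2
import Vale.Agent.P353.Energy

open Matrix

namespace Vale.Agent.P353

namespace CS

variable {R : Type*} [Ring R] [Algebra ℂ R] (S : CS R)

/-- the gamma matrices and `i · 1` -/
noncomputable def g10 : Option (Fin 9) → Matrix (Fin 16) (Fin 16) ℂ
  | none => Complex.I • 1
  | some j => S.g j

/-- `∑_j γ^j_{αβ} γ^j_{γδ} - δ_{αβ} δ_{γδ}` -/
noncomputable def N1 (α β γ δ : Fin 16) : ℂ := ∑ p, S.g10 p α β * S.g10 p γ δ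

lemma g10_symm (p : Option (Fin 9)) : (S.g10 p)ᵀ = S.g10 p := by
  cases p with
  | none => simp [g10]
  | some j => exact S.g_symm j

lemma N1_eq (α β γ δ : Fin 16) : S.N1 α β γ δ = (∑ j, S.g j α β * S.g j γ δ) -
    (1 : Matrix (Fin 16) (Fin 16) ℂ) α β * (1 : Matrix (Fin 16) (Fin 16) ℂ) γ δ := by
  rw [N1, Fintype.sum_option]
  simp only [g10, Matrix.smul_apply, smul_eq_mul]
  linear_combination (1 : Matrix (Fin 16) (Fin 16) ℂ) α β *
    (1 : Matrix (Fin 16) (Fin 16) ℂ) γ δ * Complex.I_mul_I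

lemma N1_sq : ∑ α, ∑ β, ∑ γ, ∑ δ, (S.N1 α β γ δ) ^ 2 = 2560 := by
  let G : Option (Fin 9) → Fin 16 × Fin 16 → ℂ := fun p a => S.g10 p a.1 a.2
  have h := sum_sq_swap G
  have h1 : ∑ a, ∑ c, (∑ p, G p a * G p c) ^ 2 = ∑ α, ∑ β, ∑ γ, ∑ δ, (S.N1 α β γ δ) ^ 2 := by
    simp only [Fintype.sum_prod_type, G, N1]
  have h2 : ∀ p q : Option (Fin 9), (∑ a, G p a * G q a) ^ 2 = if p = q then 256 else 0 := by
    intro p q
    have : ∑ a, G p a * G q a = ∑ α, ∑ β, S.g10 p α β * S.g10 q α β := by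
      simp only [Fintype.sum_prod_type, G]
    rw [this, sum_entries, g10_symm]
    cases p with
    | none =>
      cases q with
      | none =>
        rw [if_pos rfl]
        simp only [g10, smul_mul_smul_comm, Complex.I_mul_I, mul_one, Matrix.trace_smul,
          Matrix.trace_one, Fintype.card_fin, smul_eq_mul]
        norm_num
      | some j => simp [g10, S.trace_g]
    | some i =>
      cases q with
      | none => simp [g10, S.trace_g]
      | some j =>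
        simp only [g10, S.trace_gg, Option.some.injEq]
        split_ifs <;> norm_num
  rw [← h1, h]
  simp only [h2, Finset.sum_ite_eq, Finset.mem_univ, if_true, Finset.sum_const, Finset.card_univ,
    Fintype.card_option, Fintype.card_fin]
  norm_num

lemma N1_cross : ∑ α, ∑ β, ∑ γ, ∑ δ, S.N1 α β γ δ * S.N1 α γ δ β = -1280 := by
  have h1 : ∑ α, ∑ β, ∑ γ, ∑ δ, S.N1 α β γ δ * S.N1 α γ δ β =
      ∑ α, ∑ β, ∑ γ, ∑ δ, ∑ p, ∑ q,
        (S.g10 p α β * S.g10 p γ δ) * (S.g10 q α γ * S.g10 q δ β) := by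
    simp only [N1, Finset.sum_mul_sum]
  have h2 : ∑ α, ∑ β, ∑ γ, ∑ δ, ∑ p, ∑ q,
        (S.g10 p α β * S.g10 p γ δ) * (S.g10 q α γ * S.g10 q δ β) =
      ∑ p, ∑ q, ∑ α, ∑ β, ∑ γ, ∑ δ,
        (S.g10 p α β * S.g10 p γ δ) * (S.g10 q α γ * S.g10 q δ β) := by
    have s1 : ∀ (f : Fin 16 → Option (Fin 9) → Option (Fin 9) → ℂ),
        ∑ δ, ∑ p, ∑ q, f δ p q = ∑ p, ∑ q, ∑ δ, f δ p q := by
      intro f
      rw [Finset.sum_comm]
      refine Finset.sum_congr rfl fun p _ => ?_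
      rw [Finset.sum_comm]
    simp only [s1]
  rw [h1, h2]
  simp only [sum_cross]
  rw [Finset.sum_comm]
  have h3 : ∑ q, ∑ p, (S.g10 q * S.g10 p * S.g10 q * (S.g10 p)ᵀ).trace =
      ∑ p, ((∑ q, S.g10 q * S.g10 p * S.g10 q) * S.g10 p).trace := by
    rw [Finset.sum_comm]
    refine Finset.sum_congr rfl fun p _ => ?_
    rw [Finset.sum_mul, Matrix.trace_sum]
    refine Finset.sum_congr rfl fun q _ => ?_
    rw [S.g10_symm]
  rw [h3]
  have h4 : ∀ p, ∑ q, S.g10 q * S.g10 p * S.g10 q = -S.g10 p + S.sand (S.g10 p) := by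
    intro p
    rw [Fintype.sum_option]
    congr 1
    simp only [g10, smul_mul_assoc, one_mul, mul_smul_comm, mul_one, smul_smul, Complex.I_mul_I]
    rw [neg_one_smul]
  simp only [h4]
  rw [Fintype.sum_option]
  have e1 : ((-S.g10 none + S.sand (S.g10 none)) * S.g10 none).trace = -128 := by
    simp only [g10]
    rw [S.sand_smul, S.sand_one]
    have : (-(Complex.I • (1 : Matrix (Fin 16) (Fin 16) ℂ)) + Complex.I • (9 : ℂ) •
        (1 : Matrix (Fin 16) (Fin 16) ℂ)) * Complex.I • 1 = (-8 : ℂ) • 1 := by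
      rw [add_mul, neg_mul]
      simp only [smul_mul_smul_comm, Complex.I_mul_I, mul_one, smul_smul, mul_comm Complex.I 9,
        mul_assoc]
      module
    rw [this, Matrix.trace_smul, Matrix.trace_one]
    norm_num
  have e2 : ∀ j : Fin 9, ((-S.g10 (some j) + S.sand (S.g10 (some j))) * S.g10 (some j)).trace =
      -128 := by
    intro j
    simp only [g10]
    rw [S.sand_g, ← neg_one_smul ℂ (S.g j), ← add_smul, smul_mul_assoc, S.g_sq, Matrix.trace_smul,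
      Matrix.trace_one]
    norm_num
  rw [e1]
  simp only [e2, Finset.sum_const, Finset.card_univ, Fintype.card_fin]
  norm_num

/-- the nine dimensional Fierz identity -/
lemma fierz1 (hreal : ∀ i α β, (S.g i α β).im = 0) (α β γ δ : Fin 16) :
    S.N1 α β γ δ + S.N1 α γ δ β + S.N1 α δ β γ = 0 := by
  have him : ∀ α β γ δ, (S.N1 α β γ δ).im = 0 := by
    intro α β γ δ
    have ho : ∀ α β, ((1 : Matrix (Fin 16) (Fin 16) ℂ) α β).im = 0 := by
      intro α β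
      rw [Matrix.one_apply]
      split_ifs <;> simp
    rw [N1_eq, Complex.sub_im, Complex.mul_im, ho, ho, Complex.im_sum]
    simp only [Complex.mul_im, hreal, mul_zero, zero_mul, add_zero, Finset.sum_const_zero,
      sub_zero]
  set T : Fin 16 → Fin 16 → Fin 16 → Fin 16 → ℂ := fun α β γ δ =>
    S.N1 α β γ δ + S.N1 α γ δ β + S.N1 α δ β γ with hT
  have hsum : ∑ α, ∑ β, ∑ γ, ∑ δ, (T α β γ δ) ^ 2 = 0 := by
    have e1 : ∀ α, ∑ β, ∑ γ, ∑ δ, (T α β γ δ) ^ 2 =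
        3 * ∑ β, ∑ γ, ∑ δ, (S.N1 α β γ δ) ^ 2 +
        6 * ∑ β, ∑ γ, ∑ δ, S.N1 α β γ δ * S.N1 α γ δ β := by
      intro α
      have a1 := cyc16 (fun β γ δ => (S.N1 α β γ δ) ^ 2)
      have a2 := cyc16 (fun β γ δ => (S.N1 α γ δ β) ^ 2)
      have a3 := cyc16 (fun β γ δ => S.N1 α β γ δ * S.N1 α γ δ β)
      have a4 := cyc16 (fun β γ δ => S.N1 α γ δ β * S.N1 α δ β γ)
      have : ∑ β, ∑ γ, ∑ δ, (T α β γ δ) ^ 2 =
          ∑ β, ∑ γ, ∑ δ, (S.N1 α β γ δ) ^ 2 + ∑ β, ∑ γ, ∑ δ, (S.N1 α γ δ β) ^ 2 +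
          ∑ β, ∑ γ, ∑ δ, (S.N1 α δ β γ) ^ 2 +
          2 * ∑ β, ∑ γ, ∑ δ, S.N1 α β γ δ * S.N1 α γ δ β +
          2 * ∑ β, ∑ γ, ∑ δ, S.N1 α γ δ β * S.N1 α δ β γ +
          2 * ∑ β, ∑ γ, ∑ δ, S.N1 α δ β γ * S.N1 α β γ δ := by
        simp only [Finset.mul_sum, ← Finset.sum_add_distrib]
        refine Finset.sum_congr rfl fun β _ => Finset.sum_congr rfl fun γ _ =>
          Finset.sum_congr rfl fun δ _ => ?_
        simp only [hT]; ring
      rw [this, ← a2, ← a1, ← a4, ← a3]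
      ring
    simp only [e1, Finset.sum_add_distrib, ← Finset.mul_sum]
    rw [N1_sq, N1_cross]; norm_num
  have hTim : ∀ α β γ δ, (T α β γ δ).im = 0 := by
    intro α β γ δ
    simp only [hT, Complex.add_im, him, add_zero]
  have hre : ∑ α, ∑ β, ∑ γ, ∑ δ, ((T α β γ δ).re) ^ 2 = 0 := by
    have h2 : ∀ α β γ δ, (T α β γ δ) ^ 2 = (((T α β γ δ).re ^ 2 : ℝ) : ℂ) := by
      intro α β γ δ
      have : T α β γ δ = ((T α β γ δ).re : ℂ) := by
        apply Complex.ext <;> simp [hTim]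
      conv_lhs => rw [this]
      push_cast; rfl
    simp only [h2] at hsum
    exact_mod_cast hsum
  have hz : (T α β γ δ).re ^ 2 = 0 := by
    have n4 : ∀ α β γ δ, 0 ≤ ((T α β γ δ).re) ^ 2 := fun _ _ _ _ => sq_nonneg _
    have n3 : ∀ α β γ, 0 ≤ ∑ δ, ((T α β γ δ).re) ^ 2 := fun _ _ _ =>
      Finset.sum_nonneg fun _ _ => n4 _ _ _ _
    have n2 : ∀ α β, 0 ≤ ∑ γ, ∑ δ, ((T α β γ δ).re) ^ 2 := fun _ _ =>
      Finset.sum_nonneg fun _ _ => n3 _ _ _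
    have n1 : ∀ α, 0 ≤ ∑ β, ∑ γ, ∑ δ, ((T α β γ δ).re) ^ 2 := fun _ =>
      Finset.sum_nonneg fun _ _ => n2 _ _
    have z1 := (Finset.sum_eq_zero_iff_of_nonneg fun a _ => n1 a).mp hre α (Finset.mem_univ _)
    have z2 := (Finset.sum_eq_zero_iff_of_nonneg fun a _ => n2 α a).mp z1 β (Finset.mem_univ _)
    have z3 := (Finset.sum_eq_zero_iff_of_nonneg fun a _ => n3 α β a).mp z2 γ (Finset.mem_univ _)
    exact (Finset.sum_eq_zero_iff_of_nonneg fun a _ => n4 α β γ a).mp z3 δ (Finset.mem_univ _)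
  have : T α β γ δ = 0 := by
    apply Complex.ext
    · simpa using hz
    · simpa using hTim α β γ δ
  exact this

/-- contracted Fierz identity -/
lemma fierz1c (hreal : ∀ i α β, (S.g i α β).im = 0) (p q : Fin 16 → ℂ) (α β : Fin 16) :
    ∑ j, (S.g j α β * (p ⬝ᵥ (S.g j *ᵥ q)) + (S.g j *ᵥ p) α * (S.g j *ᵥ q) β +
      (S.g j *ᵥ q) α * (S.g j *ᵥ p) β) =
      (1 : Matrix (Fin 16) (Fin 16) ℂ) α β * (p ⬝ᵥ q) + p α * q β + q α * p β := by
  have h : ∑ γ, ∑ δ, (p γ * q δ) * (S.N1 α β γ δ + S.N1 α γ δ β + S.N1 α δ β γ) = 0 :=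
    Finset.sum_eq_zero fun γ _ => Finset.sum_eq_zero fun δ _ => by
      rw [S.fierz1 hreal, mul_zero]
  have hs : ∀ j γ β, S.g j γ β = S.g j β γ := fun j γ β => by
    conv_lhs => rw [← S.g_symm j, Matrix.transpose_apply]
  have e1 : ∑ γ, ∑ δ, (p γ * q δ) * S.N1 α β γ δ =
      (∑ j, S.g j α β * (p ⬝ᵥ (S.g j *ᵥ q))) -
        (1 : Matrix (Fin 16) (Fin 16) ℂ) α β * (p ⬝ᵥ q) := by
    have a1 : ∑ γ, ∑ δ, (p γ * q δ) * ∑ j, S.g j α β * S.g j γ δ =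
        ∑ j, S.g j α β * (p ⬝ᵥ (S.g j *ᵥ q)) := by
      simp only [Finset.mul_sum, dotProduct, mulVec]
      calc _ = ∑ γ, ∑ j, ∑ δ, (p γ * q δ) * (S.g j α β * S.g j γ δ) :=
            Finset.sum_congr rfl fun γ _ => Finset.sum_comm
        _ = ∑ j, ∑ γ, ∑ δ, (p γ * q δ) * (S.g j α β * S.g j γ δ) := Finset.sum_comm
        _ = _ := by
          refine Finset.sum_congr rfl fun j _ => Finset.sum_congr rfl fun γ _ =>
            Finset.sum_congr rfl fun δ _ => ?_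
          ring
    have a2 : ∑ γ, ∑ δ, (p γ * q δ) * ((1 : Matrix (Fin 16) (Fin 16) ℂ) α β *
        (1 : Matrix (Fin 16) (Fin 16) ℂ) γ δ) =
        (1 : Matrix (Fin 16) (Fin 16) ℂ) α β * (p ⬝ᵥ q) := by
      simp only [dotProduct, Finset.mul_sum]
      refine Finset.sum_congr rfl fun γ _ => ?_
      rw [Finset.sum_eq_single γ]
      · rw [Matrix.one_apply_eq]; ring
      · intro δ _ hδ
        rw [Matrix.one_apply_ne (Ne.symm hδ)]; ring
      · intro h; exact absurd (Finset.mem_univ _) h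
    simp only [N1_eq, mul_sub, Finset.sum_sub_distrib]
    rw [a1, a2]
  have e2 : ∑ γ, ∑ δ, (p γ * q δ) * S.N1 α γ δ β =
      (∑ j, (S.g j *ᵥ p) α * (S.g j *ᵥ q) β) - p α * q β := by
    have a1 : ∑ γ, ∑ δ, (p γ * q δ) * ∑ j, S.g j α γ * S.g j δ β =
        ∑ j, (S.g j *ᵥ p) α * (S.g j *ᵥ q) β := by
      calc _ = ∑ γ, ∑ δ, ∑ j, (p γ * q δ) * (S.g j α γ * S.g j δ β) := by
            simp only [Finset.mul_sum]
        _ = ∑ γ, ∑ j, ∑ δ, (p γ * q δ) * (S.g j α γ * S.g j δ β) :=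
            Finset.sum_congr rfl fun γ _ => Finset.sum_comm
        _ = ∑ j, ∑ γ, ∑ δ, (p γ * q δ) * (S.g j α γ * S.g j δ β) := Finset.sum_comm
        _ = _ := by
          refine Finset.sum_congr rfl fun j _ => ?_
          rw [mulVec, mulVec, dotProduct, dotProduct, Finset.sum_mul_sum]
          refine Finset.sum_congr rfl fun γ _ => Finset.sum_congr rfl fun δ _ => ?_
          rw [hs j δ β]
          ring
    have a2 : ∑ γ, ∑ δ, (p γ * q δ) * ((1 : Matrix (Fin 16) (Fin 16) ℂ) α γ *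
        (1 : Matrix (Fin 16) (Fin 16) ℂ) δ β) = p α * q β := by
      rw [Finset.sum_eq_single α, Finset.sum_eq_single β]
      · rw [Matrix.one_apply_eq, Matrix.one_apply_eq]; ring
      · intro δ _ hδ
        rw [Matrix.one_apply_ne hδ]; ring
      · intro h; exact absurd (Finset.mem_univ _) h
      · intro δ _ hδ
        refine Finset.sum_eq_zero fun _ _ => ?_
        rw [Matrix.one_apply_ne (Ne.symm hδ)]; ring
      · intro h; exact absurd (Finset.mem_univ _) h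
    simp only [N1_eq, mul_sub, Finset.sum_sub_distrib]
    rw [a1, a2]
  have e3 : ∑ γ, ∑ δ, (p γ * q δ) * S.N1 α δ β γ =
      (∑ j, (S.g j *ᵥ q) α * (S.g j *ᵥ p) β) - q α * p β := by
    have a1 : ∑ γ, ∑ δ, (p γ * q δ) * ∑ j, S.g j α δ * S.g j β γ =
        ∑ j, (S.g j *ᵥ q) α * (S.g j *ᵥ p) β := by
      calc _ = ∑ γ, ∑ δ, ∑ j, (p γ * q δ) * (S.g j α δ * S.g j β γ) := by
            simp only [Finset.mul_sum]
        _ = ∑ γ, ∑ j, ∑ δ, (p γ * q δ) * (S.g j α δ * S.g j β γ) :=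
            Finset.sum_congr rfl fun γ _ => Finset.sum_comm
        _ = ∑ j, ∑ γ, ∑ δ, (p γ * q δ) * (S.g j α δ * S.g j β γ) := Finset.sum_comm
        _ = ∑ j, ∑ δ, ∑ γ, (p γ * q δ) * (S.g j α δ * S.g j β γ) :=
            Finset.sum_congr rfl fun j _ => Finset.sum_comm
        _ = _ := by
          refine Finset.sum_congr rfl fun j _ => ?_
          rw [mulVec, mulVec, dotProduct, dotProduct, Finset.sum_mul_sum]
          refine Finset.sum_congr rfl fun γ _ => Finset.sum_congr rfl fun δ _ => ?_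
          ring
    have a2 : ∑ γ, ∑ δ, (p γ * q δ) * ((1 : Matrix (Fin 16) (Fin 16) ℂ) α δ *
        (1 : Matrix (Fin 16) (Fin 16) ℂ) β γ) = q α * p β := by
      rw [Finset.sum_eq_single β, Finset.sum_eq_single α]
      · rw [Matrix.one_apply_eq, Matrix.one_apply_eq]; ring
      · intro δ _ hδ
        rw [Matrix.one_apply_ne (Ne.symm hδ)]; ring
      · intro h; exact absurd (Finset.mem_univ _) h
      · intro δ _ hδ
        refine Finset.sum_eq_zero fun _ _ => ?_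
        rw [Matrix.one_apply_ne (Ne.symm hδ)]; ring
      · intro h; exact absurd (Finset.mem_univ _) h
    simp only [N1_eq, mul_sub, Finset.sum_sub_distrib]
    rw [a1, a2]
  simp only [mul_add, Finset.sum_add_distrib] at h ⊢
  rw [e1, e2, e3] at h
  linear_combination h

/-- `v · θ^A` -/
noncomputable def thv (v : Fin 16 → ℂ) (A : Fin 3) : R := ∑ α, v α • S.th α A

lemma thv_eq_vec (v : Fin 16 → ℂ) (A : Fin 3) :
    S.thv v A = S.vec (Matrix.of fun _ => v) A 0 := rfl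

lemma thv_anti (v w : Fin 16 → ℂ) (A B : Fin 3) :
    S.thv v A * S.thv w B + S.thv w B * S.thv v A = if A = B then (v ⬝ᵥ w) • (1 : R) else 0 := by
  rw [thv_eq_vec, thv_eq_vec, S.vec_anti]
  rfl

lemma thv_add (v w : Fin 16 → ℂ) (A : Fin 3) : S.thv (v + w) A = S.thv v A + S.thv w A := by
  simp only [thv, Pi.add_apply, add_smul, Finset.sum_add_distrib]

lemma thv_smul (c : ℂ) (v : Fin 16 → ℂ) (A : Fin 3) : S.thv (c • v) A = c • S.thv v A := by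
  simp only [thv, Pi.smul_apply, smul_eq_mul, mul_smul, Finset.smul_sum]

lemma thv_neg (v : Fin 16 → ℂ) (A : Fin 3) : S.thv (-v) A = -S.thv v A := by
  simp only [thv, Pi.neg_apply, neg_smul, Finset.sum_neg_distrib]

lemma sum_smul_vec (e : Fin 16 → ℂ) (N : Matrix (Fin 16) (Fin 16) ℂ) (A : Fin 3) :
    ∑ β, e β • S.vec N A β = S.thv (Nᵀ *ᵥ e) A := by
  simp only [vec, thv, Finset.smul_sum, smul_smul, mulVec, dotProduct, Matrix.transpose_apply,
    Finset.sum_smul]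
  rw [Finset.sum_comm]
  refine Finset.sum_congr rfl fun γ _ => Finset.sum_congr rfl fun β _ => ?_
  rw [mul_comm]

lemma thv_mul_thv (v w : Fin 16 → ℂ) (A B : Fin 3) :
    S.thv v A * S.thv w B = S.bil (vecMulVec v w) A B := by
  simp only [thv, bil, vec, vecMulVec_apply]
  rw [Finset.sum_mul_sum]
  refine Finset.sum_congr rfl fun α _ => ?_
  rw [Finset.mul_sum]
  refine Finset.sum_congr rfl fun β _ => ?_
  rw [smul_mul_smul_comm, mul_smul_comm]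

/-- only the symmetric part matters in an antisymmetrized bilinear -/
lemma eps_bil (N : Matrix (Fin 16) (Fin 16) ℂ) (P : Matrix (Fin 16) (Fin 16) ℂ)
    (hN : N + Nᵀ = (-2 : ℂ) • P) (D : Fin 3) :
    ∑ A, ∑ B, (eps A B D : ℂ) • S.bil N B A = ∑ A, ∑ B, (eps A B D : ℂ) • S.bil P A B := by
  have h1 : ∑ A, ∑ B, (eps A B D : ℂ) • S.bil N B A =
      -∑ A, ∑ B, (eps A B D : ℂ) • S.bil Nᵀ A B := by
    rw [← Finset.sum_neg_distrib]
    refine Finset.sum_congr rfl fun A _ => ?_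
    rw [← Finset.sum_neg_distrib]
    refine Finset.sum_congr rfl fun B _ => ?_
    rw [S.bil_swap N B A]
    by_cases h : B = A
    · subst h
      have : ∀ B D : Fin 3, eps B B D = 0 := by decide
      rw [this]; simp
    · rw [if_neg h, zero_sub, smul_neg]
  have h2 : ∑ A, ∑ B, (eps A B D : ℂ) • S.bil N B A =
      -∑ A, ∑ B, (eps A B D : ℂ) • S.bil N A B := by
    rw [Finset.sum_comm, ← Finset.sum_neg_distrib]
    refine Finset.sum_congr rfl fun A _ => ?_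
    rw [← Finset.sum_neg_distrib]
    refine Finset.sum_congr rfl fun B _ => ?_
    have : ∀ A B D : Fin 3, eps B A D = -eps A B D := by decide
    rw [this]
    push_cast
    rw [neg_smul]
  have h3 : (2 : ℂ) • ∑ A, ∑ B, (eps A B D : ℂ) • S.bil N B A =
      (2 : ℂ) • ∑ A, ∑ B, (eps A B D : ℂ) • S.bil P A B := by
    rw [two_smul]
    nth_rewrite 1 [h1]
    rw [h2, ← neg_add, ← Finset.sum_add_distrib]
    simp only [← Finset.sum_add_distrib, ← smul_add, ← S.bil_add]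
    rw [add_comm Nᵀ N, hN]
    simp only [S.bil_smul, Finset.smul_sum]
    rw [← Finset.sum_neg_distrib]
    refine Finset.sum_congr rfl fun A _ => ?_
    rw [← Finset.sum_neg_distrib]
    refine Finset.sum_congr rfl fun B _ => ?_
    module
  have h4 := congrArg (fun z : R => (1 / 2 : ℂ) • z) h3
  simp only [smul_smul] at h4
  norm_num at h4
  exact h4

section pairing

variable {e e' : Fin 16 → ℂ}

lemma adjv (N : Matrix (Fin 16) (Fin 16) ℂ) (v w : Fin 16 → ℂ) :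
    (N *ᵥ v) ⬝ᵥ w = v ⬝ᵥ (Nᵀ *ᵥ w) := by
  rw [Matrix.dotProduct_mulVec, Matrix.vecMul_transpose]

lemma pair_two (he : e ⬝ᵥ e' = 1) (i j : Fin 9) :
    (S.g i *ᵥ e) ⬝ᵥ (S.g j *ᵥ e') + (S.g j *ᵥ e) ⬝ᵥ (S.g i *ᵥ e') = if i = j then 2 else 0 := by
  rw [adjv, adjv, S.g_symm, S.g_symm, Matrix.mulVec_mulVec, Matrix.mulVec_mulVec,
    ← dotProduct_add, ← Matrix.add_mulVec, S.g_anti]
  by_cases h : i = j
  · rw [if_pos h, if_pos h]
    have : (2 : Matrix (Fin 16) (Fin 16) ℂ) = (2 : ℂ) • 1 := by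
      rw [two_smul]; norm_num
    rw [this, Matrix.smul_mulVec, Matrix.one_mulVec, dotProduct_smul, he]
    simp
  · rw [if_neg h, if_neg h, Matrix.zero_mulVec, dotProduct_zero]

/-- the rank one matrices of the fermionic term -/
noncomputable def RR (e e' : Fin 16 → ℂ) (l : Fin 9) : Matrix (Fin 16) (Fin 16) ℂ :=
  ∑ j, (vecMulVec (S.g j *ᵥ e) (S.g2 j l *ᵥ e') + vecMulVec (S.g j *ᵥ e') (S.g2 j l *ᵥ e))

lemma RR_symm (hreal : ∀ i α β, (S.g i α β).im = 0) (he : e ⬝ᵥ e' = 1)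
    (hk : ∀ k, e ⬝ᵥ (S.g k *ᵥ e') = 0) (l : Fin 9) :
    S.RR e e' l + (S.RR e e' l)ᵀ = (-2 : ℂ) • S.g l := by
  have hk' : ∀ k, e' ⬝ᵥ (S.g k *ᵥ e) = 0 := fun k => by
    rw [dotProduct_comm, adjv, S.g_symm, hk]
  ext α β
  have f1 := S.fierz1c hreal e (S.g l *ᵥ e') α β
  have f2 := S.fierz1c hreal e' (S.g l *ᵥ e) α β
  rw [hk l] at f1
  rw [hk' l] at f2
  have hg2 : ∀ j (v : Fin 16 → ℂ) β, (S.g2 j l *ᵥ v) β =
      (S.g j *ᵥ (S.g l *ᵥ v)) β - (if j = l then v β else 0) := by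
    intro j v β
    rw [S.g2_eq, Matrix.sub_mulVec, Matrix.mulVec_mulVec, Pi.sub_apply, Matrix.smul_mulVec,
      Matrix.one_mulVec, Pi.smul_apply]
    by_cases h : j = l <;> simp [h]
  have h3 : ∀ j, e ⬝ᵥ (S.g j *ᵥ (S.g l *ᵥ e')) + e' ⬝ᵥ (S.g j *ᵥ (S.g l *ᵥ e)) =
      if j = l then 2 else 0 := by
    intro j
    rw [← S.pair_two he j l, ← S.g_symm j, ← adjv, S.g_symm j]
    congr 1
    rw [dotProduct_comm e', adjv, S.g_symm, dotProduct_comm, adjv, S.g_symm, dotProduct_comm, adjv, S.g_symm, adjv, S.g_symm]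
  have h4 : ∀ j, (S.g j *ᵥ e) α * (S.g2 j l *ᵥ e') β + (S.g j *ᵥ e') α * (S.g2 j l *ᵥ e) β +
      ((S.g j *ᵥ e) β * (S.g2 j l *ᵥ e') α + (S.g j *ᵥ e') β * (S.g2 j l *ᵥ e) α) =
      (S.g j α β * (e ⬝ᵥ (S.g j *ᵥ (S.g l *ᵥ e'))) +
        (S.g j *ᵥ e) α * (S.g j *ᵥ (S.g l *ᵥ e')) β + (S.g j *ᵥ (S.g l *ᵥ e')) α *
          (S.g j *ᵥ e) β) +
      (S.g j α β * (e' ⬝ᵥ (S.g j *ᵥ (S.g l *ᵥ e))) +
        (S.g j *ᵥ e') α * (S.g j *ᵥ (S.g l *ᵥ e)) β + (S.g j *ᵥ (S.g l *ᵥ e)) α *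
          (S.g j *ᵥ e') β) -
      ((if j = l then 2 * S.g j α β else 0) + (if j = l then (S.g j *ᵥ e) α * e' β +
        (S.g j *ᵥ e') α * e β + (S.g j *ᵥ e) β * e' α + (S.g j *ᵥ e') β * e α else 0)) := by
    intro j
    rw [hg2, hg2, hg2, hg2]
    have h5 := h3 j
    by_cases h : j = l
    · rw [if_pos h] at h5
      simp only [if_pos h]
      linear_combination (-S.g j α β) * h5
    · rw [if_neg h] at h5
      simp only [if_neg h]
      linear_combination (-S.g j α β) * h5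
  have h6 : (S.RR e e' l + (S.RR e e' l)ᵀ) α β = ∑ j, ((S.g j *ᵥ e) α * (S.g2 j l *ᵥ e') β +
      (S.g j *ᵥ e') α * (S.g2 j l *ᵥ e) β +
      ((S.g j *ᵥ e) β * (S.g2 j l *ᵥ e') α + (S.g j *ᵥ e') β * (S.g2 j l *ᵥ e) α)) := by
    simp only [Matrix.add_apply, Matrix.transpose_apply, RR, Matrix.sum_apply, vecMulVec_apply,
      Finset.sum_add_distrib]
  rw [h6]
  simp only [h4]
  rw [Finset.sum_sub_distrib, Finset.sum_add_distrib, f1, f2, Finset.sum_add_distrib,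
    Finset.sum_ite_eq', Finset.sum_ite_eq', if_pos (Finset.mem_univ _),
    if_pos (Finset.mem_univ _), Matrix.smul_apply, smul_eq_mul]
  ring

/-- the fermionic term of the anticommutator -/
lemma ferm_abs (hreal : ∀ i α β, (S.g i α β).im = 0) {σ : ℂ} (hσ : σ * σ = 1) (κ : ℂ)
    (he : e ⬝ᵥ e' = 1) (hk : ∀ k, e ⬝ᵥ (S.g k *ᵥ e') = 0) (X : Fin 9 → Fin 3 → ℂ) :
    ∑ j, ∑ B, ((σ • S.thv (S.g j *ᵥ e) B) * (-((Complex.I * σ * κ) • ∑ A, ∑ l, ∑ D,
        ((eps A B D : ℂ) * X l D) • S.thv (S.g2 j l *ᵥ e') A)) +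
      (σ • S.thv (S.g j *ᵥ e') B) * (-((Complex.I * σ * κ) • ∑ A, ∑ l, ∑ D,
        ((eps A B D : ℂ) * X l D) • S.thv (S.g2 j l *ᵥ e) A))) =
      (-2 : ℂ) • ((Complex.I / 2 * κ) • ∑ q, ∑ A, ∑ B, ∑ C, ((eps A B C : ℂ) * X q C) •
        S.bil (S.g q) A B) := by
  have h1 : ∀ j B, ((σ • S.thv (S.g j *ᵥ e) B) * (-((Complex.I * σ * κ) • ∑ A, ∑ l, ∑ D,
        ((eps A B D : ℂ) * X l D) • S.thv (S.g2 j l *ᵥ e') A)) +
      (σ • S.thv (S.g j *ᵥ e') B) * (-((Complex.I * σ * κ) • ∑ A, ∑ l, ∑ D,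
        ((eps A B D : ℂ) * X l D) • S.thv (S.g2 j l *ᵥ e) A))) =
      -((Complex.I * κ) • ∑ l, ∑ A, ∑ D, ((eps A B D : ℂ) * X l D) •
        S.bil (vecMulVec (S.g j *ᵥ e) (S.g2 j l *ᵥ e') +
          vecMulVec (S.g j *ᵥ e') (S.g2 j l *ᵥ e)) B A) := by
    intro j B
    have h2 : ∀ v w : Fin 16 → ℂ, (σ • S.thv (S.g j *ᵥ v) B) *
        (-((Complex.I * σ * κ) • ∑ A, ∑ l, ∑ D,
        ((eps A B D : ℂ) * X l D) • S.thv (S.g2 j l *ᵥ w) A)) =
        -((Complex.I * κ) • ∑ l, ∑ A, ∑ D, ((eps A B D : ℂ) * X l D) •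
        S.bil (vecMulVec (S.g j *ᵥ v) (S.g2 j l *ᵥ w)) B A) := by
      intro v w
      rw [mul_neg, smul_mul_smul_comm]
      congr 1
      have : σ * (Complex.I * σ * κ) = Complex.I * κ := by
        linear_combination (Complex.I * κ) * hσ
      rw [this]
      congr 1
      rw [Finset.mul_sum]
      calc _ = ∑ A, ∑ l, ∑ D, ((eps A B D : ℂ) * X l D) •
            S.bil (vecMulVec (S.g j *ᵥ v) (S.g2 j l *ᵥ w)) B A := by
            simp only [Finset.mul_sum, mul_smul_comm, S.thv_mul_thv]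
        _ = _ := Finset.sum_comm
    rw [h2, h2, ← neg_add, ← smul_add]
    simp only [← Finset.sum_add_distrib, ← smul_add, S.bil_add]
  have h3 : ∑ j, ∑ B, (-((Complex.I * κ) • ∑ l, ∑ A, ∑ D, ((eps A B D : ℂ) * X l D) •
        S.bil (vecMulVec (S.g j *ᵥ e) (S.g2 j l *ᵥ e') +
          vecMulVec (S.g j *ᵥ e') (S.g2 j l *ᵥ e)) B A)) =
      -((Complex.I * κ) • ∑ l, ∑ D, X l D • ∑ A, ∑ B, (eps A B D : ℂ) •
        S.bil (S.RR e e' l) B A) := by
    simp only [Finset.sum_neg_distrib, ← Finset.smul_sum]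
    congr 2
    have h4 : ∀ l D, X l D • ∑ A, ∑ B, (eps A B D : ℂ) • S.bil (S.RR e e' l) B A =
        ∑ A, ∑ B, ∑ j, ((eps A B D : ℂ) * X l D) •
        S.bil (vecMulVec (S.g j *ᵥ e) (S.g2 j l *ᵥ e') +
          vecMulVec (S.g j *ᵥ e') (S.g2 j l *ᵥ e)) B A := by
      intro l D
      simp only [RR, S.bil_sum, Finset.smul_sum, smul_smul]
      refine Finset.sum_congr rfl fun A _ => Finset.sum_congr rfl fun B _ =>
        Finset.sum_congr rfl fun j _ => ?_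
      rw [mul_comm]
    simp only [h4]
    obtain ⟨f, hf⟩ : ∃ f : Fin 9 → Fin 3 → Fin 3 → Fin 3 → Fin 9 → R,
        ∀ l D A B j, ((eps A B D : ℂ) * X l D) •
        S.bil (vecMulVec (S.g j *ᵥ e) (S.g2 j l *ᵥ e') +
          vecMulVec (S.g j *ᵥ e') (S.g2 j l *ᵥ e)) B A = f l D A B j :=
      ⟨_, fun _ _ _ _ _ => rfl⟩
    simp only [hf]
    calc ∑ j, ∑ B, ∑ l, ∑ A, ∑ D, f l D A B j
        = ∑ j, ∑ l, ∑ B, ∑ A, ∑ D, f l D A B j :=
          Finset.sum_congr rfl fun j _ => Finset.sum_comm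
      _ = ∑ l, ∑ j, ∑ B, ∑ A, ∑ D, f l D A B j := Finset.sum_comm
      _ = ∑ l, ∑ D, ∑ A, ∑ B, ∑ j, f l D A B j := by
          refine Finset.sum_congr rfl fun l _ => ?_
          calc ∑ j, ∑ B, ∑ A, ∑ D, f l D A B j = ∑ j, ∑ A, ∑ B, ∑ D, f l D A B j :=
                Finset.sum_congr rfl fun j _ => Finset.sum_comm
            _ = ∑ j, ∑ A, ∑ D, ∑ B, f l D A B j :=
                Finset.sum_congr rfl fun j _ => Finset.sum_congr rfl fun A _ => Finset.sum_comm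
            _ = ∑ j, ∑ D, ∑ A, ∑ B, f l D A B j :=
                Finset.sum_congr rfl fun j _ => Finset.sum_comm
            _ = ∑ D, ∑ j, ∑ A, ∑ B, f l D A B j := Finset.sum_comm
            _ = ∑ D, ∑ A, ∑ j, ∑ B, f l D A B j :=
                Finset.sum_congr rfl fun D _ => Finset.sum_comm
            _ = ∑ D, ∑ A, ∑ B, ∑ j, f l D A B j :=
                Finset.sum_congr rfl fun D _ => Finset.sum_congr rfl fun A _ => Finset.sum_comm
  simp only [h1]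
  rw [h3]
  simp only [S.eps_bil _ _ (S.RR_symm hreal he hk _)]
  rw [smul_smul, ← neg_smul]
  have h6 : -(Complex.I * κ) = -2 * (Complex.I / 2 * κ) := by ring
  rw [h6]
  congr 1
  refine Finset.sum_congr rfl fun l _ => ?_
  have h7 : ∀ D, X l D • ∑ A, ∑ B, (eps A B D : ℂ) • S.bil (S.g l) A B =
      ∑ A, ∑ B, ((eps A B D : ℂ) * X l D) • S.bil (S.g l) A B := by
    intro D
    simp only [Finset.smul_sum, smul_smul]
    refine Finset.sum_congr rfl fun A _ => Finset.sum_congr rfl fun B _ => ?_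
    rw [mul_comm]
  simp only [h7]
  rw [Finset.sum_comm]
  refine Finset.sum_congr rfl fun A _ => ?_
  rw [Finset.sum_comm]

/-- kinetic term -/
lemma kin_abs {σ : ℂ} (hσ : σ * σ = 1) (he : e ⬝ᵥ e' = 1) (i : Fin 9) (A : Fin 3) (j : Fin 9)
    (B : Fin 3) :
    ((σ • S.thv (S.g i *ᵥ e) A) * (σ • S.thv (S.g j *ᵥ e') B) +
      (σ • S.thv (S.g j *ᵥ e') B) * (σ • S.thv (S.g i *ᵥ e) A)) +
      ((σ • S.thv (S.g j *ᵥ e) B) * (σ • S.thv (S.g i *ᵥ e') A) +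
        (σ • S.thv (S.g i *ᵥ e') A) * (σ • S.thv (S.g j *ᵥ e) B)) =
      if i = j ∧ A = B then (2 : ℂ) • (1 : R) else 0 := by
  simp only [smul_mul_smul_comm, hσ, one_smul]
  rw [S.thv_anti, S.thv_anti]
  have h := S.pair_two he i j
  by_cases hAB : A = B
  · rw [if_pos hAB, if_pos hAB.symm, ← add_smul, h]
    by_cases hij : i = j
    · rw [if_pos hij, if_pos ⟨hij, hAB⟩]
    · rw [if_neg hij, if_neg fun h => hij h.1, zero_smul]
  · rw [if_neg hAB, if_neg (Ne.symm hAB), if_neg fun h => hAB h.2, add_zero]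

/-- first order term -/
lemma first_abs (σ : ℂ) (i : Fin 9) (A : Fin 3) (N : Fin 3 → Matrix (Fin 16) (Fin 16) ℂ)
    (hN : ∀ A, (S.g i *ᵥ e) ⬝ᵥ (N A *ᵥ e') + (S.g i *ᵥ e') ⬝ᵥ (N A *ᵥ e) = 0) :
    ((σ • S.thv (S.g i *ᵥ e) A) * (-((Complex.I * σ) • ∑ B, S.thv (N B *ᵥ e') B)) +
      (-((Complex.I * σ) • ∑ B, S.thv (N B *ᵥ e') B)) * (σ • S.thv (S.g i *ᵥ e) A)) +
      ((σ • S.thv (S.g i *ᵥ e') A) * (-((Complex.I * σ) • ∑ B, S.thv (N B *ᵥ e) B)) +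
      (-((Complex.I * σ) • ∑ B, S.thv (N B *ᵥ e) B)) * (σ • S.thv (S.g i *ᵥ e') A)) = 0 := by
  have h : ∀ v w : Fin 16 → ℂ,
      (σ • S.thv (S.g i *ᵥ v) A) * (-((Complex.I * σ) • ∑ B, S.thv (N B *ᵥ w) B)) +
      (-((Complex.I * σ) • ∑ B, S.thv (N B *ᵥ w) B)) * (σ • S.thv (S.g i *ᵥ v) A) =
      -((Complex.I * σ * σ * ((S.g i *ᵥ v) ⬝ᵥ (N A *ᵥ w))) • (1 : R)) := by
    intro v w
    rw [mul_neg, neg_mul, ← neg_add, smul_mul_smul_comm, smul_mul_smul_comm,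
      mul_comm σ, ← smul_add, Finset.mul_sum, Finset.sum_mul, ← Finset.sum_add_distrib]
    simp only [S.thv_anti]
    rw [Finset.sum_ite_eq, if_pos (Finset.mem_univ _), smul_smul]
  rw [h, h, ← neg_add, ← add_smul, ← mul_add, hN, mul_zero, zero_smul, neg_zero]

/-- zero order term -/
lemma zero_abs {σ : ℂ} (hσ : σ * σ = 1) (N : Fin 3 → Matrix (Fin 16) (Fin 16) ℂ) :
    (-((Complex.I * σ) • ∑ B, S.thv (N B *ᵥ e) B)) *
        (-((Complex.I * σ) • ∑ B, S.thv (N B *ᵥ e') B)) +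
      (-((Complex.I * σ) • ∑ B, S.thv (N B *ᵥ e') B)) *
        (-((Complex.I * σ) • ∑ B, S.thv (N B *ᵥ e) B)) =
      (-∑ A, (N A *ᵥ e) ⬝ᵥ (N A *ᵥ e')) • (1 : R) := by
  have hσ' : Complex.I * σ * (Complex.I * σ) = -1 := by
    linear_combination σ * σ * Complex.I_mul_I - hσ
  rw [neg_mul_neg, neg_mul_neg, smul_mul_smul_comm, smul_mul_smul_comm, hσ',
    ← smul_add, Finset.sum_mul_sum, Finset.sum_mul_sum]
  nth_rewrite 2 [Finset.sum_comm]
  simp only [← Finset.sum_add_distrib, S.thv_anti]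
  have h2 : ∑ A, ∑ B, (if A = B then ((N A *ᵥ e) ⬝ᵥ (N B *ᵥ e')) • (1 : R)
      else 0) = (∑ A, (N A *ᵥ e) ⬝ᵥ (N A *ᵥ e')) • (1 : R) := by
    rw [Finset.sum_smul]
    refine Finset.sum_congr rfl fun A _ => ?_
    rw [Finset.sum_ite_eq, if_pos (Finset.mem_univ _)]
  rw [h2, neg_one_smul, neg_smul]

/-- leading coefficient -/
noncomputable def opG (σ : ℂ) (v : Fin 16 → ℂ) (i : Fin 9) (A : Fin 3) : R :=
  σ • S.thv (S.g i *ᵥ v) A

/-- zero order coefficient -/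
noncomputable def opX (σ : ℂ) (N : Fin 3 → Matrix (Fin 16) (Fin 16) ℂ) (v : Fin 16 → ℂ) : R :=
  -((Complex.I * σ) • ∑ B, S.thv (N B *ᵥ v) B)

/-- derivative of the zero order coefficient -/
noncomputable def opD (σ κ : ℂ) (X : Fin 9 → Fin 3 → ℂ) (v : Fin 16 → ℂ) (j : Fin 9)
    (B : Fin 3) : R :=
  -((Complex.I * σ * κ) • ∑ A, ∑ l, ∑ D, ((eps A B D : ℂ) * X l D) • S.thv (S.g2 j l *ᵥ v) A)

/-- the fermionic potential -/
noncomputable def opF (κ : ℂ) (X : Fin 9 → Fin 3 → ℂ) : R :=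
  (Complex.I / 2 * κ) • ∑ q, ∑ A, ∑ B, ∑ C, ((eps A B C : ℂ) * X q C) • S.bil (S.g q) A B

lemma kin_op {σ : ℂ} (hσ : σ * σ = 1) (he : e ⬝ᵥ e' = 1) (i : Fin 9) (A : Fin 3) (j : Fin 9)
    (B : Fin 3) :
    (S.opG σ e i A * S.opG σ e' j B + S.opG σ e' j B * S.opG σ e i A) +
      (S.opG σ e j B * S.opG σ e' i A + S.opG σ e' i A * S.opG σ e j B) =
      if i = j ∧ A = B then (2 : ℂ) • (1 : R) else 0 := S.kin_abs hσ he i A j B

lemma first_op (σ : ℂ) (i : Fin 9) (A : Fin 3) (N : Fin 3 → Matrix (Fin 16) (Fin 16) ℂ)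
    (hN : ∀ A, (S.g i *ᵥ e) ⬝ᵥ (N A *ᵥ e') + (S.g i *ᵥ e') ⬝ᵥ (N A *ᵥ e) = 0) :
    (S.opG σ e i A * S.opX σ N e' + S.opX σ N e' * S.opG σ e i A) +
      (S.opG σ e' i A * S.opX σ N e + S.opX σ N e * S.opG σ e' i A) = 0 :=
  S.first_abs σ i A N hN

lemma zero_op {σ : ℂ} (hσ : σ * σ = 1) (N : Fin 3 → Matrix (Fin 16) (Fin 16) ℂ) :
    S.opX σ N e * S.opX σ N e' + S.opX σ N e' * S.opX σ N e =
      (-∑ A, (N A *ᵥ e) ⬝ᵥ (N A *ᵥ e')) • (1 : R) := S.zero_abs hσ N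

lemma ferm_op (hreal : ∀ i α β, (S.g i α β).im = 0) {σ : ℂ} (hσ : σ * σ = 1) (κ : ℂ)
    (he : e ⬝ᵥ e' = 1) (hk : ∀ k, e ⬝ᵥ (S.g k *ᵥ e') = 0) (X : Fin 9 → Fin 3 → ℂ) :
    ∑ j, ∑ B, (S.opG σ e j B * S.opD σ κ X e' j B + S.opG σ e' j B * S.opD σ κ X e j B) =
      (-2 : ℂ) • S.opF κ X := S.ferm_abs hreal hσ κ he hk X

end pairing

/-- `∑_i a_i γ^i` -/
noncomputable def slash (a : Fin 9 → ℂ) : Matrix (Fin 16) (Fin 16) ℂ := ∑ i, a i • S.g i

lemma slash_mul (a b : Fin 9 → ℂ) : S.slash a * S.slash b =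
    ∑ i, ∑ j, (a i * b j) • (S.g i * S.g j) := by
  rw [slash, slash, Finset.sum_mul_sum]
  refine Finset.sum_congr rfl fun i _ => Finset.sum_congr rfl fun j _ => ?_
  rw [smul_mul_smul_comm]

lemma slash_anti (a b : Fin 9 → ℂ) : S.slash a * S.slash b + S.slash b * S.slash a =
    (2 * ∑ i, a i * b i) • (1 : Matrix (Fin 16) (Fin 16) ℂ) := by
  have h : S.slash b * S.slash a = ∑ i, ∑ j, (a i * b j) • (S.g j * S.g i) := by
    rw [slash_mul, Finset.sum_comm]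
    refine Finset.sum_congr rfl fun i _ => Finset.sum_congr rfl fun j _ => ?_
    rw [mul_comm]
  rw [h, slash_mul, ← Finset.sum_add_distrib, Finset.mul_sum, Finset.sum_smul]
  refine Finset.sum_congr rfl fun i _ => ?_
  rw [← Finset.sum_add_distrib, Finset.sum_eq_single i]
  · rw [← smul_add, S.g_sqE, ← two_smul ℂ, smul_smul]
    congr 1
    ring
  · intro j _ hj
    rw [← smul_add, S.g_anti, if_neg (Ne.symm hj), smul_zero]
  · intro h; exact absurd (Finset.mem_univ _) h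

lemma slash_sq (a : Fin 9 → ℂ) : S.slash a * S.slash a =
    (∑ i, a i * a i) • (1 : Matrix (Fin 16) (Fin 16) ℂ) := by
  have h := S.slash_anti a a
  rw [← two_smul ℂ, mul_smul] at h
  have h2 : S.slash a * S.slash a = (1 / 2 : ℂ) • ((2 : ℂ) • (S.slash a * S.slash a)) := by
    rw [smul_smul]; norm_num
  rw [h, smul_smul, smul_smul] at h2
  rw [h2]
  congr 1
  ring

lemma half_F {F : Fin 9 → Fin 9 → ℂ} {κ : ℂ} {a b : Fin 9 → ℂ}
    (hF : ∀ i j, F i j = κ * (a i * b j - b i * a j)) :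
    (1 / 2 : ℂ) • ∑ i, ∑ j, F i j • S.g2 i j =
      (κ / 2) • (S.slash a * S.slash b - S.slash b * S.slash a) := by
  have h1 : S.slash a * S.slash b = ∑ i, ∑ j, (b i * a j) • (S.g j * S.g i) := by
    rw [slash_mul, Finset.sum_comm]
    refine Finset.sum_congr rfl fun i _ => Finset.sum_congr rfl fun j _ => ?_
    rw [mul_comm]
  have h2 : S.slash b * S.slash a = ∑ i, ∑ j, (a i * b j) • (S.g j * S.g i) := by
    rw [slash_mul, Finset.sum_comm]
    refine Finset.sum_congr rfl fun i _ => Finset.sum_congr rfl fun j _ => ?_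
    rw [mul_comm]
  have h3 : S.slash a * S.slash b - S.slash b * S.slash a = (1 / 2 : ℂ) •
      ((S.slash a * S.slash b - S.slash b * S.slash a) +
        (S.slash a * S.slash b - S.slash b * S.slash a)) := by module
  rw [h3]
  nth_rewrite 1 [h2]
  nth_rewrite 2 [h1]
  rw [slash_mul, slash_mul]
  simp only [← Finset.sum_add_distrib, ← Finset.sum_sub_distrib, Finset.smul_sum]
  refine Finset.sum_congr rfl fun i _ => Finset.sum_congr rfl fun j _ => ?_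
  rw [hF, g2]
  module

lemma half_F_sq {F : Fin 9 → Fin 9 → ℂ} {κ : ℂ} {a b : Fin 9 → ℂ}
    (hF : ∀ i j, F i j = κ * (a i * b j - b i * a j)) :
    ((1 / 2 : ℂ) • ∑ i, ∑ j, F i j • S.g2 i j) * ((1 / 2 : ℂ) • ∑ i, ∑ j, F i j • S.g2 i j) =
      (-(1 / 2) * ∑ i, ∑ j, F i j ^ 2) • (1 : Matrix (Fin 16) (Fin 16) ℂ) := by
  rw [S.half_F hF]
  set X := S.slash a with hX
  set Y := S.slash b with hY
  set s : ℂ := ∑ i, a i * b i with hs
  have h1 : Y * X = (2 * s) • 1 - X * Y := by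
    rw [← S.slash_anti a b]; abel
  have hXX : X * X = (∑ i, a i * a i) • (1 : Matrix (Fin 16) (Fin 16) ℂ) := S.slash_sq a
  have hYY : Y * Y = (∑ i, b i * b i) • (1 : Matrix (Fin 16) (Fin 16) ℂ) := S.slash_sq b
  have h2 : X * Y * (X * Y) = (2 * s) • (X * Y) -
      ((∑ i, a i * a i) * (∑ i, b i * b i)) • (1 : Matrix (Fin 16) (Fin 16) ℂ) := by
    calc X * Y * (X * Y) = X * (Y * X) * Y := by noncomm_ring
      _ = (2 * s) • (X * Y) - (X * X) * (Y * Y) := by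
        rw [h1, mul_sub, sub_mul, mul_smul_comm, smul_mul_assoc, mul_one]
        noncomm_ring
      _ = _ := by
        rw [hXX, hYY, smul_mul_smul_comm, mul_one]
  have h3 : (X * Y - Y * X) * (X * Y - Y * X) =
      (4 * s ^ 2 - 4 * ((∑ i, a i * a i) * (∑ i, b i * b i))) •
        (1 : Matrix (Fin 16) (Fin 16) ℂ) := by
    rw [h1]
    have : X * Y - ((2 * s) • (1 : Matrix (Fin 16) (Fin 16) ℂ) - X * Y) =
        (2 : ℂ) • (X * Y) - (2 * s) • (1 : Matrix (Fin 16) (Fin 16) ℂ) := by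
      module
    rw [this, sub_mul, mul_sub, mul_sub, smul_mul_smul_comm, smul_mul_smul_comm,
      smul_mul_smul_comm, smul_mul_smul_comm, one_mul, mul_one, one_mul, h2]
    module
  rw [smul_mul_smul_comm, h3, smul_smul]
  congr 1
  have h4 : ∑ i, ∑ j, F i j ^ 2 = κ ^ 2 * (2 * ((∑ i, a i * a i) * (∑ i, b i * b i)) - 2 * s ^ 2) := by
    have e1 : ∑ i, ∑ j, F i j ^ 2 = κ ^ 2 * ((∑ i, ∑ j, (a i * a i) * (b j * b j)) +
        (∑ i, ∑ j, (b i * b i) * (a j * a j)) - 2 * ∑ i, ∑ j, (a i * b i) * (a j * b j)) := by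
      simp only [Finset.mul_sum, ← Finset.sum_add_distrib, ← Finset.sum_sub_distrib]
      refine Finset.sum_congr rfl fun i _ => Finset.sum_congr rfl fun j _ => ?_
      rw [hF]
      ring
    rw [e1, ← Finset.sum_mul_sum, ← Finset.sum_mul_sum, ← Finset.sum_mul_sum, ← hs]
    ring
  rw [h4]
  ring

end CS

namespace Setup

variable {F : Type*} [NormedAddCommGroup F] [InnerProductSpace ℂ F] (S : Setup F)

lemma FF_eq_FFc (A : Fin 3) (i j : Fin 9) (x : X3) : ((S.FF A i j x : ℝ) : ℂ) =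
    CS.FFc (S.κ : ℂ) (fun i A => ((x (i, A) : ℝ) : ℂ)) A i j := by
  simp only [FF, CS.FFc]
  push_cast
  rfl

lemma NA_sq (A : Fin 3) (x : X3) : S.NA A x * S.NA A x =
    ((-(1 / 2) * ∑ i, ∑ j, S.FF A i j x ^ 2 : ℝ) : ℂ) • (1 : Matrix (Fin 16) (Fin 16) ℂ) := by
  have key : ∀ a b : Fin 9 → ℂ, (∀ i j, ((S.FF A i j x : ℝ) : ℂ) =
      (S.κ : ℂ) * (a i * b j - b i * a j)) → S.NA A x * S.NA A x =
      ((-(1 / 2) * ∑ i, ∑ j, S.FF A i j x ^ 2 : ℝ) : ℂ) •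
        (1 : Matrix (Fin 16) (Fin 16) ℂ) := by
    intro a b h
    rw [NA, S.half_F_sq h]
    push_cast
    rfl
  fin_cases A
  · refine key (fun i => ((x (i, 1) : ℝ) : ℂ)) (fun i => ((x (i, 2) : ℝ) : ℂ)) fun i j => ?_
    rw [FF_eq_FFc]
    exact CS.FFc_0 _ _ i j
  · refine key (fun i => ((x (i, 2) : ℝ) : ℂ)) (fun i => ((x (i, 0) : ℝ) : ℂ)) fun i j => ?_
    rw [FF_eq_FFc]
    exact CS.FFc_1 _ _ i j
  · refine key (fun i => ((x (i, 0) : ℝ) : ℂ)) (fun i => ((x (i, 1) : ℝ) : ℂ)) fun i j => ?_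
    rw [FF_eq_FFc]
    exact CS.FFc_2 _ _ i j

lemma sum_NA_sq (x : X3) : ∑ A, S.NA A x * S.NA A x =
    ((-2 * S.V x : ℝ) : ℂ) • (1 : Matrix (Fin 16) (Fin 16) ℂ) := by
  simp only [NA_sq, ← Finset.sum_smul, V]
  congr 1
  push_cast
  rw [← Finset.mul_sum]
  ring

section pairing

variable {e e' : Fin 16 → ℂ}

lemma pair_NA (hk : ∀ k, e ⬝ᵥ (S.g k *ᵥ e') = 0) (i : Fin 9) (A : Fin 3) (x : X3) :
    (S.g i *ᵥ e) ⬝ᵥ (S.NA A x *ᵥ e') + (S.g i *ᵥ e') ⬝ᵥ (S.NA A x *ᵥ e) = 0 := by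
  have adj : ∀ (N : Matrix (Fin 16) (Fin 16) ℂ) (v w : Fin 16 → ℂ),
      (N *ᵥ v) ⬝ᵥ w = v ⬝ᵥ (Nᵀ *ᵥ w) := fun N v w => by
    rw [Matrix.dotProduct_mulVec, Matrix.vecMul_transpose]
  have h1 : (S.g i *ᵥ e') ⬝ᵥ (S.NA A x *ᵥ e) = -(e ⬝ᵥ ((S.NA A x * S.g i) *ᵥ e')) := by
    rw [dotProduct_comm, adj, S.NA_transpose, Matrix.mulVec_mulVec, Matrix.neg_mul,
      Matrix.neg_mulVec, dotProduct_neg]
  have h2 : S.NA A x * S.g i - S.g i * S.NA A x = ∑ k, ∑ j, ((S.FF A k j x : ℝ) : ℂ) •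
      ((if j = i then (1:ℂ) else 0) • S.g k - (if k = i then (1:ℂ) else 0) • S.g j) := by
    simp only [NA, smul_mul_assoc, mul_smul_comm, Finset.sum_mul, Finset.mul_sum,
      ← smul_sub, ← Finset.sum_sub_distrib, S.g2_mul_g, add_sub_cancel_left, Finset.smul_sum]
    refine Finset.sum_congr rfl fun k _ => Finset.sum_congr rfl fun j _ => ?_
    module
  have h3 : e ⬝ᵥ ((S.NA A x * S.g i) *ᵥ e') - e ⬝ᵥ ((S.g i * S.NA A x) *ᵥ e') = 0 := by
    rw [← dotProduct_sub, ← Matrix.sub_mulVec, h2]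
    simp only [Matrix.sum_mulVec, Matrix.smul_mulVec, Matrix.sub_mulVec, dotProduct_sum,
      dotProduct_smul, dotProduct_sub, hk, smul_zero, sub_zero, Finset.sum_const_zero]
  rw [h1, adj, S.g_symm, Matrix.mulVec_mulVec]
  linear_combination -h3

lemma pair_NA_NA (he : e ⬝ᵥ e' = 1) (x : X3) :
    ∑ A, (S.NA A x *ᵥ e) ⬝ᵥ (S.NA A x *ᵥ e') = ((2 * S.V x : ℝ) : ℂ) := by
  have adj : ∀ (N : Matrix (Fin 16) (Fin 16) ℂ) (v w : Fin 16 → ℂ),
      (N *ᵥ v) ⬝ᵥ w = v ⬝ᵥ (Nᵀ *ᵥ w) := fun N v w => by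
    rw [Matrix.dotProduct_mulVec, Matrix.vecMul_transpose]
  have h : ∀ A, (S.NA A x *ᵥ e) ⬝ᵥ (S.NA A x *ᵥ e') =
      -(e ⬝ᵥ ((S.NA A x * S.NA A x) *ᵥ e')) := by
    intro A
    rw [adj, S.NA_transpose, Matrix.mulVec_mulVec, Matrix.neg_mul, Matrix.neg_mulVec,
      dotProduct_neg]
  simp only [h, Finset.sum_neg_distrib]
  rw [← dotProduct_sum, ← Matrix.sum_mulVec, S.sum_NA_sq, Matrix.smul_mulVec, Matrix.one_mulVec,
    dotProduct_smul, he, smul_eq_mul, mul_one]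
  push_cast
  ring

end pairing

end Setup
end Vale.Agent.P353
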