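import Vale.Agent.P353.Ex.Qeq
import Vale.Agent.P353.Ex.Calc
import Vale.Agent.P353.Ex.FormAlg
import Vale.Agent.P353.BridgeB
import Vale.Agent.P353.Energy

/-! Task EX-11: the form `q` in terms of `K.DD`, `K.flip.DD`; Gauss law.

`DD (flip.DD u) + flip.DD (DD u) = Δ u - 2 V u - 2 F(x) u` is the contraction of the supersymmetry
algebra with a complex spinor `e` with `e·ē = 1`, `e·γ^k ē = 0`; the fermionic term uses the nine
dimensional Fierz identity (`FormAlg.lean`). -/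

open MeasureTheory Filter Topology
open scoped ContDiff ComplexConjugate Matrix

namespace Vale.Agent.P353.Ex

variable {F : Type*} [NormedAddCommGroup F] [InnerProductSpace ℂ F]

/-! ### first order operators -/

section general

variable {G G' : Fin 9 → Fin 3 → F →L[ℂ] F} {X X' : X3 → F →L[ℂ] F}

theorem fe_diff_P (hX : ContDiff ℝ ∞ X) {u : X3 → F} (hu : ContDiff ℝ ∞ u) (x : X3) (i : Fin 9)
    (A : Fin 3) :
    pd i A (fun y => (∑ j, ∑ B, G j B (pd j B u y)) + X y (u y)) x =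
      (∑ j, ∑ B, G j B (pd i A (pd j B u) x)) +
        ((fderiv ℝ X x (EuclideanSpace.single (i, A) 1)) (u x) + X x (pd i A u x)) := by
  have h1 : ∀ j B, DifferentiableAt ℝ (pd j B u) x := fun j B =>
    (contDiff_pd hu).differentiable (by simp) x
  have h2 : ∀ j B, DifferentiableAt ℝ (fun y => G j B (pd j B u y)) x := fun j B =>
    ((G j B).restrictScalars ℝ).differentiableAt.comp x (h1 j B)
  have h3 : DifferentiableAt ℝ X x := hX.differentiable (by simp) x
  have h4 : DifferentiableAt ℝ u x := hu.differentiable (by simp) x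
  rw [pd_add, pd_clm_apply h3 h4, pd_sum]
  · congr 1
    refine Finset.sum_congr rfl fun j _ => ?_
    rw [pd_sum]
    · refine Finset.sum_congr rfl fun B _ => ?_
      rw [pd_clm (G j B) (h1 j B)]
    · exact fun B _ => h2 j B
  · exact fun j _ => DifferentiableAt.fun_sum fun B _ => h2 j B
  · exact DifferentiableAt.fun_sum fun j _ => DifferentiableAt.fun_sum fun B _ => h2 j B
  · exact (Setup.contDiff_clm_apply' hX hu).differentiable (by simp) x

/-- anticommutator of two first order operators -/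
theorem fe_anti (hX : ContDiff ℝ ∞ X) (hX' : ContDiff ℝ ∞ X') {u : X3 → F}
    (hu : ContDiff ℝ ∞ u) (x : X3)
    (h2 : ∀ i A j B, (G i A * G' j B + G' j B * G i A) + (G j B * G' i A + G' i A * G j B) =
      if i = j ∧ A = B then (2 : ℂ) • (1 : F →L[ℂ] F) else 0)
    (h1 : ∀ i A, (G i A * X' x + X' x * G i A) + (G' i A * X x + X x * G' i A) = 0)
    {P P' : (X3 → F) → X3 → F}
    (hP : ∀ u x, P u x = (∑ i, ∑ A, G i A (pd i A u x)) + X x (u x))
    (hP' : ∀ u x, P' u x = (∑ i, ∑ A, G' i A (pd i A u x)) + X' x (u x)) :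
    P (P' u) x + P' (P u) x =
    (∑ i, ∑ A, pd i A (pd i A u) x) + (X x * X' x + X' x * X x) (u x) +
      (∑ i, ∑ A, (G i A * fderiv ℝ X' x (EuclideanSpace.single (i, A) 1) +
        G' i A * fderiv ℝ X x (EuclideanSpace.single (i, A) 1))) (u x) := by
  have d : ∀ i A, pd i A (P u) x = (∑ j, ∑ B, G j B (pd i A (pd j B u) x)) +
        ((fderiv ℝ X x (EuclideanSpace.single (i, A) 1)) (u x) + X x (pd i A u x)) := by
    intro i A
    have e : P u = fun y => (∑ i, ∑ A, G i A (pd i A u y)) + X y (u y) := funext (hP u)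
    rw [e]
    exact fe_diff_P hX hu x i A
  have d' : ∀ i A, pd i A (P' u) x = (∑ j, ∑ B, G' j B (pd i A (pd j B u) x)) +
        ((fderiv ℝ X' x (EuclideanSpace.single (i, A) 1)) (u x) + X' x (pd i A u x)) := by
    intro i A
    have e : P' u = fun y => (∑ i, ∑ A, G' i A (pd i A u y)) + X' y (u y) := funext (hP' u)
    rw [e]
    exact fe_diff_P hX' hu x i A
  rw [hP (P' u) x, hP' (P u) x]
  simp only [d, d', hP u x, hP' u x]
  set w : Fin 9 → Fin 3 → Fin 9 → Fin 3 → F := fun i A j B => pd i A (pd j B u) x with hw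
  have hsym : ∀ i A j B, w i A j B = w j B i A := fun i A j B => pd_comm hu i j A B x
  -- second order part
  have s1 : (∑ i, ∑ A, G i A (∑ j, ∑ B, G' j B (w i A j B))) +
      (∑ i, ∑ A, G' i A (∑ j, ∑ B, G j B (w i A j B))) = ∑ i, ∑ A, w i A i A := by
    set T : F := (∑ i, ∑ A, G i A (∑ j, ∑ B, G' j B (w i A j B))) +
      (∑ i, ∑ A, G' i A (∑ j, ∑ B, G j B (w i A j B))) with hT
    have e1 : T = ∑ i, ∑ A, ∑ j, ∑ B, (G i A * G' j B + G' j B * G i A) (w i A j B) := by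
      have e2 : (∑ i, ∑ A, G' i A (∑ j, ∑ B, G j B (w i A j B))) =
          ∑ i, ∑ A, ∑ j, ∑ B, (G' j B * G i A) (w i A j B) := by
        calc _ = ∑ i, ∑ A, ∑ j, ∑ B, (G' i A * G j B) (w i A j B) := by
              simp only [map_sum, mul_apply_eq_comp]
          _ = ∑ i, ∑ j, ∑ A, ∑ B, (G' i A * G j B) (w i A j B) :=
              Finset.sum_congr rfl fun i _ => Finset.sum_comm
          _ = ∑ j, ∑ i, ∑ A, ∑ B, (G' i A * G j B) (w i A j B) := Finset.sum_comm
          _ = ∑ j, ∑ i, ∑ B, ∑ A, (G' i A * G j B) (w i A j B) :=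
              Finset.sum_congr rfl fun j _ => Finset.sum_congr rfl fun i _ => Finset.sum_comm
          _ = ∑ j, ∑ B, ∑ i, ∑ A, (G' i A * G j B) (w i A j B) :=
              Finset.sum_congr rfl fun j _ => Finset.sum_comm
          _ = _ := by
              refine Finset.sum_congr rfl fun j _ => Finset.sum_congr rfl fun B _ =>
                Finset.sum_congr rfl fun i _ => Finset.sum_congr rfl fun A _ => ?_
              rw [hsym i A j B]
      rw [hT, e2]
      simp only [map_sum, ← Finset.sum_add_distrib, _root_.add_apply, mul_apply_eq_comp]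
    have e3 : T = ∑ i, ∑ A, ∑ j, ∑ B, (G j B * G' i A + G' i A * G j B) (w i A j B) := by
      rw [e1]
      calc _ = ∑ i, ∑ j, ∑ A, ∑ B, (G i A * G' j B + G' j B * G i A) (w i A j B) :=
            Finset.sum_congr rfl fun i _ => Finset.sum_comm
        _ = ∑ j, ∑ i, ∑ A, ∑ B, (G i A * G' j B + G' j B * G i A) (w i A j B) :=
            Finset.sum_comm
        _ = ∑ j, ∑ i, ∑ B, ∑ A, (G i A * G' j B + G' j B * G i A) (w i A j B) :=
            Finset.sum_congr rfl fun j _ => Finset.sum_congr rfl fun i _ => Finset.sum_comm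
        _ = ∑ j, ∑ B, ∑ i, ∑ A, (G i A * G' j B + G' j B * G i A) (w i A j B) :=
            Finset.sum_congr rfl fun j _ => Finset.sum_comm
        _ = _ := by
            refine Finset.sum_congr rfl fun j _ => Finset.sum_congr rfl fun B _ =>
              Finset.sum_congr rfl fun i _ => Finset.sum_congr rfl fun A _ => ?_
            rw [hsym i A j B]
    have e4 : (2 : ℂ) • T = (2 : ℂ) • ∑ i, ∑ A, w i A i A := by
      rw [two_smul]
      nth_rewrite 1 [e1]
      rw [e3]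
      simp only [← Finset.sum_add_distrib, ← _root_.add_apply, h2]
      rw [Finset.smul_sum]
      refine Finset.sum_congr rfl fun i _ => ?_
      rw [Finset.smul_sum]
      refine Finset.sum_congr rfl fun A _ => ?_
      rw [Finset.sum_eq_single i, Finset.sum_eq_single A]
      · rw [if_pos ⟨rfl, rfl⟩]
        rfl
      · intro B _ hB
        rw [if_neg fun h => hB h.2.symm]
        rfl
      · intro h
        exact absurd (Finset.mem_univ _) h
      · intro j _ hj
        refine Finset.sum_eq_zero fun B _ => ?_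
        rw [if_neg fun h => hj h.1.symm]
        rfl
      · intro h
        exact absurd (Finset.mem_univ _) h
    have e5 := congrArg (fun v : F => (1 / 2 : ℂ) • v) e4
    simp only [smul_smul] at e5
    norm_num at e5
    exact e5
  have s2 : (∑ i, ∑ A, G i A (X' x (pd i A u x))) + X x (∑ j, ∑ B, G' j B (pd j B u x)) +
      ((∑ i, ∑ A, G' i A (X x (pd i A u x))) + X' x (∑ j, ∑ B, G j B (pd j B u x))) = 0 := by
    simp only [map_sum, ← Finset.sum_add_distrib]
    refine Finset.sum_eq_zero fun i _ => Finset.sum_eq_zero fun A _ => ?_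
    have h := congrArg (fun T : F →L[ℂ] F => T (pd i A u x)) (h1 i A)
    simp only [_root_.add_apply, mul_apply_eq_comp, _root_.zero_apply] at h
    rw [← h]
    abel
  rw [← s1]
  simp only [map_add, Finset.sum_add_distrib, _root_.add_apply, _root_.sum_apply,
    mul_apply_eq_comp]
  have s3 := s2
  generalize hb1 : (∑ i, ∑ A, G i A (X' x (pd i A u x))) = b1 at s3 ⊢
  generalize hb2 : X x (∑ j, ∑ B, G' j B (pd j B u x)) = b2 at s3 ⊢
  generalize hb3 : (∑ i, ∑ A, G' i A (X x (pd i A u x))) = b3 at s3 ⊢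
  generalize hb4 : X' x (∑ j, ∑ B, G j B (pd j B u x)) = b4 at s3 ⊢
  rw [← sub_eq_zero, ← s3]
  abel

end general


/-! ### contraction of the supercharges with a vector -/

section pairs

variable (S : Setup F) (σ : ℝ) (e e' : Fin 16 → ℂ)

/-- zero order coefficient -/
noncomputable def feX (x : X3) : F →L[ℂ] F := S.opX (σ : ℂ) (fun A => S.NA A x) e

lemma feX_eq (x : X3) : feX S σ e x = (Complex.I * (σ : ℂ)) • ∑ β, e β • S.W β x := by
  rw [feX, CS.opX, ← smul_neg]
  congr 1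
  simp only [S.W_eq_NA, Finset.smul_sum]
  rw [Finset.sum_comm, ← Finset.sum_neg_distrib]
  refine Finset.sum_congr rfl fun A _ => ?_
  rw [S.sum_smul_vec, S.NA_transpose, Matrix.neg_mulVec, S.thv_neg]

lemma contDiff_feX : ContDiff ℝ ∞ (feX S σ e) := by
  have h : feX S σ e = fun x => (Complex.I * (σ : ℂ)) • ∑ β, e β • S.W β x :=
    funext (feX_eq S σ e)
  rw [h]
  exact ContDiff.const_smul _ (ContDiff.sum fun β _ => (S.contDiff_W β).const_smul (e β))

lemma fe_op (u : X3 → F) (x : X3) :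
    (Complex.I * (σ : ℂ)) • ∑ α, e α • S.Q α u x =
      (∑ i, ∑ A, S.opG (σ : ℂ) e i A (pd i A u x)) + feX S σ e x (u x) := by
  have hG : ∀ i A, S.opG (σ : ℂ) e i A (pd i A u x) =
      (σ : ℂ) • ∑ β, e β • S.vec (S.g i) A β (pd i A u x) := by
    intro i A
    have h1 := S.sum_smul_vec e (S.g i) A
    rw [S.g_symm] at h1
    rw [CS.opG, ← h1, _root_.smul_apply, _root_.sum_apply]
    rfl
  have hR : ∑ i, ∑ A, S.opG (σ : ℂ) e i A (pd i A u x) =
      (σ : ℂ) • ∑ i, ∑ A, ∑ β, e β • S.vec (S.g i) A β (pd i A u x) := by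
    simp only [hG, ← Finset.smul_sum]
  have h2 : ∀ α, e α • S.Q α u x =
      (-Complex.I) • (∑ i, ∑ A, e α • S.vec (S.g i) A α (pd i A u x)) + e α • S.W α x (u x) := by
    intro α
    rw [Setup.Q, smul_add, smul_comm]
    simp only [Finset.smul_sum]
  have h3 : Complex.I * (σ : ℂ) * -Complex.I = (σ : ℂ) := by
    linear_combination (-(σ : ℂ)) * Complex.I_mul_I
  have hX : feX S σ e x (u x) = (Complex.I * (σ : ℂ)) • ∑ α, e α • S.W α x (u x) := by
    rw [feX_eq]
    simp only [_root_.smul_apply, _root_.sum_apply]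
  rw [hR, hX, Finset.sum_congr rfl fun α _ => h2 α, Finset.sum_add_distrib, smul_add,
    ← Finset.smul_sum, smul_smul, h3]
  congr 2
  rw [Finset.sum_comm]
  refine Finset.sum_congr rfl fun i _ => ?_
  exact Finset.sum_comm

variable {S σ e e'}

lemma fe_h1 (hk : ∀ k, e ⬝ᵥ (S.g k *ᵥ e') = 0) (x : X3) (i : Fin 9) (A : Fin 3) :
    (S.opG (σ : ℂ) e i A * feX S σ e' x + feX S σ e' x * S.opG (σ : ℂ) e i A) +
      (S.opG (σ : ℂ) e' i A * feX S σ e x + feX S σ e x * S.opG (σ : ℂ) e' i A) = 0 := by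
  have h : (S.opG (σ : ℂ) e i A * S.opX (σ : ℂ) (fun A => S.NA A x) e' +
      S.opX (σ : ℂ) (fun A => S.NA A x) e' * S.opG (σ : ℂ) e i A) +
      (S.opG (σ : ℂ) e' i A * S.opX (σ : ℂ) (fun A => S.NA A x) e +
      S.opX (σ : ℂ) (fun A => S.NA A x) e * S.opG (σ : ℂ) e' i A) = 0 :=
    S.first_op (e := e) (e' := e') (σ : ℂ) i A (fun A => S.NA A x) fun A => S.pair_NA hk i A x
  unfold feX
  rw [h]

lemma fe_h0 (hσ : (σ : ℂ) * (σ : ℂ) = 1) (he : e ⬝ᵥ e' = 1) (x : X3) :
    feX S σ e x * feX S σ e' x + feX S σ e' x * feX S σ e x =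
      (-((2 * S.V x : ℝ) : ℂ)) • (1 : F →L[ℂ] F) := by
  have h : S.opX (σ : ℂ) (fun A => S.NA A x) e * S.opX (σ : ℂ) (fun A => S.NA A x) e' +
      S.opX (σ : ℂ) (fun A => S.NA A x) e' * S.opX (σ : ℂ) (fun A => S.NA A x) e =
      (-∑ A, (S.NA A x *ᵥ e) ⬝ᵥ (S.NA A x *ᵥ e')) • (1 : F →L[ℂ] F) :=
    S.zero_op (e := e) (e' := e') hσ (fun A => S.NA A x)
  rw [← S.pair_NA_NA he x]
  unfold feX
  rw [h]

lemma fderiv_feX (x : X3) (j : Fin 9) (B : Fin 3) :
    fderiv ℝ (feX S σ e) x (EuclideanSpace.single (j, B) 1) =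
      S.opD (σ : ℂ) (S.κ : ℂ) (fun l D => ((x (l, D) : ℝ) : ℂ)) e j B := by
  have hd : ∀ β, HasFDerivAt (S.W β) (fderiv ℝ (S.W β) x) x := fun β =>
    ((S.contDiff_W β).differentiable (by simp) x).hasFDerivAt
  have h : HasFDerivAt (feX S σ e) ((Complex.I * (σ : ℂ)) • ∑ β, e β • fderiv ℝ (S.W β) x) x := by
    have h0 : feX S σ e = fun x => (Complex.I * (σ : ℂ)) • ∑ β, e β • S.W β x :=
      funext (feX_eq S σ e)
    rw [h0]
    exact (HasFDerivAt.fun_sum fun β _ => (hd β).const_smul (e β)).const_smul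
      (Complex.I * (σ : ℂ))
  rw [h.fderiv]
  simp only [_root_.smul_apply, _root_.sum_apply, S.fderiv_W]
  have h2 : ∀ β, e β • (S.κ : ℂ) • ∑ A, ∑ l, ∑ D, ((eps A B D : ℂ) * (x (l, D) : ℂ)) •
      S.vec (S.g2 j l) A β = (S.κ : ℂ) • ∑ A, ∑ l, ∑ D, ((eps A B D : ℂ) * (x (l, D) : ℂ)) •
      (e β • S.vec (S.g2 j l) A β) := by
    intro β
    rw [smul_comm]
    congr 1
    simp only [Finset.smul_sum]
    refine Finset.sum_congr rfl fun A _ => Finset.sum_congr rfl fun l _ =>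
      Finset.sum_congr rfl fun D _ => ?_
    rw [smul_comm]
  simp only [h2]
  rw [← Finset.smul_sum, smul_smul, CS.opD, ← smul_neg]
  congr 1
  rw [Finset.sum_comm, ← Finset.sum_neg_distrib]
  refine Finset.sum_congr rfl fun A _ => ?_
  rw [Finset.sum_comm, ← Finset.sum_neg_distrib]
  refine Finset.sum_congr rfl fun l _ => ?_
  rw [Finset.sum_comm, ← Finset.sum_neg_distrib]
  refine Finset.sum_congr rfl fun D _ => ?_
  rw [← Finset.smul_sum, S.sum_smul_vec, S.g2_transpose, Matrix.neg_mulVec, S.thv_neg, smul_neg]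

lemma fe_Fx (x : X3) : S.opF (S.κ : ℂ) (fun l D => ((x (l, D) : ℝ) : ℂ)) = S.Fx x := by
  ext v
  simp only [CS.opF, Setup.Fx, _root_.smul_apply, _root_.sum_apply]

lemma fe_ferm (hσ : (σ : ℂ) * (σ : ℂ) = 1) (he : e ⬝ᵥ e' = 1)
    (hk : ∀ k, e ⬝ᵥ (S.g k *ᵥ e') = 0) (x : X3) :
    ∑ j, ∑ B, (S.opG (σ : ℂ) e j B * fderiv ℝ (feX S σ e') x (EuclideanSpace.single (j, B) 1) +
      S.opG (σ : ℂ) e' j B * fderiv ℝ (feX S σ e) x (EuclideanSpace.single (j, B) 1)) =
      (-2 : ℂ) • S.Fx x := by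
  have e1 : ∀ v j B, fderiv ℝ (feX S σ v) x (EuclideanSpace.single (j, B) 1) =
      S.opD (σ : ℂ) (S.κ : ℂ) (fun l D => ((x (l, D) : ℝ) : ℂ)) v j B :=
    fun v j B => fderiv_feX x j B
  calc _ = ∑ j, ∑ B, (S.opG (σ : ℂ) e j B *
        S.opD (σ : ℂ) (S.κ : ℂ) (fun l D => ((x (l, D) : ℝ) : ℂ)) e' j B +
        S.opG (σ : ℂ) e' j B *
        S.opD (σ : ℂ) (S.κ : ℂ) (fun l D => ((x (l, D) : ℝ) : ℂ)) e j B) := by
        simp only [e1]
    _ = (-2 : ℂ) • S.opF (S.κ : ℂ) (fun l D => ((x (l, D) : ℝ) : ℂ)) :=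
        S.ferm_op S.g_real hσ (S.κ : ℂ) he hk (fun l D => ((x (l, D) : ℝ) : ℂ))
    _ = _ := by rw [fe_Fx]

/-- the anticommutator of the two contracted supercharges -/
theorem fe_susy (hσ : (σ : ℂ) * (σ : ℂ) = 1) (he : e ⬝ᵥ e' = 1) (hk : ∀ k, e ⬝ᵥ (S.g k *ᵥ e') = 0)
    {P P' : (X3 → F) → X3 → F}
    (hP : ∀ u x, P u x = (Complex.I * (σ : ℂ)) • ∑ α, e α • S.Q α u x)
    (hP' : ∀ u x, P' u x = (Complex.I * (σ : ℂ)) • ∑ α, e' α • S.Q α u x)
    {u : X3 → F} (hu : ContDiff ℝ ∞ u) (x : X3) :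
    P (P' u) x + P' (P u) x = (∑ i, ∑ A, pd i A (pd i A u) x) -
      ((2 * S.V x : ℝ) : ℂ) • u x - (2 : ℂ) • (S.Fx x (u x)) := by
  have h := fe_anti (contDiff_feX S σ e) (contDiff_feX S σ e') hu x (S.kin_op hσ he)
    (fe_h1 hk x) (fun u x => (hP u x).trans (fe_op S σ e u x))
    (fun u x => (hP' u x).trans (fe_op S σ e' u x))
  rw [h, fe_h0 hσ he, fe_ferm hσ he hk]
  simp only [_root_.smul_apply, one_apply_eq_self]
  push_cast
  module

end pairs

/-! ### the Gauss law: algebra -/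

section gaussAlg

variable {R : Type*} [Ring R] [Algebra ℂ R]

lemma bil_one_frame (S : CS R) {U V : Fin 8 → Fin 16 → ℂ}
    (hUV : ∀ α β, ∑ i, (U i α * V i β + V i α * U i β) = if α = β then 1 else 0) (D E : Fin 3) :
    S.bil 1 D E = ∑ i, (S.thv (U i) D * S.thv (V i) E + S.thv (V i) D * S.thv (U i) E) := by
  have h1 : ∀ i, S.thv (U i) D * S.thv (V i) E + S.thv (V i) D * S.thv (U i) E =
      ∑ α, ∑ β, (U i α * V i β + V i α * U i β) • (S.th α D * S.th β E) := by
    intro i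
    simp only [CS.thv, Finset.sum_mul_sum, smul_mul_smul_comm, add_smul, Finset.sum_add_distrib]
  simp only [h1]
  rw [Finset.sum_comm]
  have h2 : ∀ α, ∑ i, ∑ β, (U i α * V i β + V i α * U i β) • (S.th α D * S.th β E) =
      S.th α D * S.th α E := by
    intro α
    rw [Finset.sum_comm]
    simp only [← Finset.sum_smul, hUV]
    rw [Finset.sum_eq_single α]
    · rw [if_pos rfl, one_smul]
    · intro β _ hβ
      rw [if_neg (Ne.symm hβ), zero_smul]
    · intro h; exact absurd (Finset.mem_univ _) h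
  simp only [h2, CS.bil, S.vec_one]

lemma spin_abs {c a : Fin 8 → Fin 3 → R}
    (hac : ∀ i A B, A ≠ B → a i A * c i B + c i B * a i A = 0) (A : Fin 3) :
    (-Complex.I / 2) • ∑ D, ∑ E, (eps A D E : ℂ) • ∑ i, (c i D * a i E + a i D * c i E) =
      (-Complex.I) • ∑ i, ∑ B, ∑ C, (eps B A C : ℂ) • (c i C * a i B) := by
  have h1 : ∀ D E, (eps A D E : ℂ) • ∑ i, (c i D * a i E + a i D * c i E) =
      (eps A D E : ℂ) • ∑ i, c i D * a i E + (eps A E D : ℂ) • ∑ i, c i E * a i D := by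
    intro D E
    by_cases h : D = E
    · subst h
      have : ∀ A D : Fin 3, eps A D D = 0 := by decide
      rw [this]
      simp
    · have h2 : ∀ A D E : Fin 3, eps A E D = -eps A D E := by decide
      have h3 : ∀ i, a i D * c i E = -(c i E * a i D) := fun i =>
        eq_neg_of_add_eq_zero_left (hac i D E h)
      rw [h2 A D E]
      simp only [h3, Finset.sum_add_distrib, Finset.sum_neg_distrib]
      push_cast
      rw [smul_add, smul_neg, neg_smul]
  have h4 : ∑ D, ∑ E, (eps A D E : ℂ) • ∑ i, (c i D * a i E + a i D * c i E) =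
      (2 : ℂ) • ∑ D, ∑ E, (eps A D E : ℂ) • ∑ i, c i D * a i E := by
    rw [Finset.sum_congr rfl fun D _ => Finset.sum_congr rfl fun E _ => h1 D E]
    simp only [Finset.sum_add_distrib]
    rw [two_smul]
    congr 1
    rw [Finset.sum_comm]
  have h5 : ∑ i, ∑ B, ∑ C, (eps B A C : ℂ) • (c i C * a i B) =
      ∑ D, ∑ E, (eps A D E : ℂ) • ∑ i, c i D * a i E := by
    have hc : ∀ A B C : Fin 3, eps B A C = eps A C B := by decide
    calc ∑ i, ∑ B, ∑ C, (eps B A C : ℂ) • (c i C * a i B)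
        = ∑ i, ∑ C, ∑ B, (eps A C B : ℂ) • (c i C * a i B) := by
          refine Finset.sum_congr rfl fun i _ => ?_
          rw [Finset.sum_comm]
          refine Finset.sum_congr rfl fun C _ => Finset.sum_congr rfl fun B _ => ?_
          rw [hc]
      _ = ∑ C, ∑ i, ∑ B, (eps A C B : ℂ) • (c i C * a i B) := Finset.sum_comm
      _ = ∑ C, ∑ B, ∑ i, (eps A C B : ℂ) • (c i C * a i B) :=
          Finset.sum_congr rfl fun C _ => Finset.sum_comm
      _ = _ := by simp only [Finset.smul_sum]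
  rw [h4, h5, smul_smul]
  congr 1
  ring

end gaussAlg

theorem Link.core_iff {M : Model 2 3 F} {s : Spin M.γ} {K : Fk F} (L : Link M s K) (u : X3 → F) :
    M.IsCore u ↔ K.Core u := by
  have h : ∀ U x, M.act U x = act U x := by
    intro U x
    unfold Model.act act rotm
    rw [L.hT]
  unfold Model.IsCore Fk.Core
  simp only [h, L.S_eq]

theorem Link.gauss [FiniteDimensional ℂ F] {M : Model 2 3 F} {s : Spin M.γ} {K : Fk F}
    (L : Link M s K) : K.Gauss := by
  intro u hu A x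
  have h := toSetup_G M ((L.core_iff u).2 hu) A x
  have hcS : (M.toSetup).cS A = (-Complex.I) • K.spin A := by
    have h1 : ∀ D E, (M.toSetup).bil 1 D E = ∑ i, (K.c i D * K.a i E + K.a i D * K.c i E) := by
      intro D E
      have h2 := bil_one_frame (M.toSetup).toCS (U := s.u) (V := fun i α => conj (s.u i α))
        s.compl D E
      rw [h2]
      refine Finset.sum_congr rfl fun i _ => ?_
      rw [L.c_eq, L.a_eq, L.c_eq, L.a_eq]
      rfl
    rw [Setup.cS, Fk.spin]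
    simp only [h1]
    refine spin_abs (fun i A B hAB => ?_) A
    rw [K.ac, if_neg fun h => hAB h.2]
  have horb : ∑ i, ∑ A', ∑ B, ((eps A A' B : ℂ) * (x (i, A') : ℂ)) • pd i B u x =
      Fk.orb A u x := by
    have hc : ∀ A B C : Fin 3, eps B A C = eps A C B := by decide
    rw [Fk.orb]
    refine Finset.sum_congr rfl fun i _ => ?_
    rw [Finset.sum_comm]
    refine Finset.sum_congr rfl fun B _ => Finset.sum_congr rfl fun C _ => ?_
    rw [hc A B C]
  rw [Setup.G, hcS, horb, _root_.smul_apply, ← smul_add, smul_eq_zero] at h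
  rcases h with h | h
  · exact absurd h (neg_ne_zero.2 Complex.I_ne_zero)
  · exact h

theorem Link.hP {M : Model 2 3 F} {s : Spin M.γ} {K : Fk F} (L : Link M s K) (u : X3 → F)
    (x : X3) : K.DD u x =
      (Complex.I * (sgnM M : ℂ)) • ∑ α, s.e α • (M.toSetup).Q α u x := by
  have hσ : ((sgnM M : ℝ) : ℂ) * ((sgnM M : ℝ) : ℂ) = 1 := by
    rw [← Complex.ofReal_mul, sgnM_sq, Complex.ofReal_one]
  have h1 : ∑ α, s.e α • (M.toSetup).Q α u x =
      ((sgnM M : ℝ) : ℂ) • ∑ α, s.e α • M.Q α u x := by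
    rw [Finset.smul_sum]
    refine Finset.sum_congr rfl fun α _ => ?_
    rw [toSetup_Q, smul_comm]
  rw [h1, L.Q_eq, smul_smul, smul_smul]
  have : Complex.I * ((sgnM M : ℝ) : ℂ) * ((sgnM M : ℝ) : ℂ) * -Complex.I = 1 := by
    linear_combination (-Complex.I * Complex.I) * hσ - Complex.I_mul_I
  rw [this, one_smul]

theorem Link.hPb {M : Model 2 3 F} {s : Spin M.γ} {K : Fk F} (L : Link M s K) (u : X3 → F)
    (x : X3) : K.flip.DD u x =
      (Complex.I * (sgnM M : ℂ)) • ∑ α, conj (s.e α) • (M.toSetup).Q α u x := by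
  have hσ : ((sgnM M : ℝ) : ℂ) * ((sgnM M : ℝ) : ℂ) = 1 := by
    rw [← Complex.ofReal_mul, sgnM_sq, Complex.ofReal_one]
  have h1 : ∑ α, conj (s.e α) • (M.toSetup).Q α u x =
      ((sgnM M : ℝ) : ℂ) • ∑ α, conj (s.e α) • M.Q α u x := by
    rw [Finset.smul_sum]
    refine Finset.sum_congr rfl fun α _ => ?_
    rw [toSetup_Q, smul_comm]
  rw [h1, L.Qb_eq, smul_smul, smul_smul]
  have : Complex.I * ((sgnM M : ℝ) : ℂ) * ((sgnM M : ℝ) : ℂ) * -Complex.I = 1 := by
    linear_combination (-Complex.I * Complex.I) * hσ - Complex.I_mul_I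
  rw [this, one_smul]

lemma spin_pair {M : Model 2 3 F} (s : Spin M.γ) (k : Fin 9) :
    s.e ⬝ᵥ ((M.toSetup).g k *ᵥ fun α => conj (s.e α)) = 0 := by
  have key : ∀ (k : Fin 9) (v : Fin 16 → ℂ), (∀ α, ∑ β, (M.γ k α β : ℂ) * s.e β = v α) →
      ∑ α, v α * conj (s.e α) = 0 →
      s.e ⬝ᵥ ((M.toSetup).g k *ᵥ fun α => conj (s.e α)) = 0 := by
    intro k v hv h0
    have h1 : s.e ⬝ᵥ ((M.toSetup).g k *ᵥ fun α => conj (s.e α)) =
        ((M.toSetup).g k *ᵥ s.e) ⬝ᵥ (fun α => conj (s.e α)) := by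
      rw [CS.adjv, (M.toSetup).g_symm]
    have h2 : (M.toSetup).g k *ᵥ s.e = ((sgnM M : ℝ) : ℂ) • v := by
      funext α
      rw [Pi.smul_apply, ← hv α, smul_eq_mul, Finset.mul_sum, Matrix.mulVec, dotProduct]
      refine Finset.sum_congr rfl fun β _ => ?_
      change ((sgnM M * M.γ k α β : ℝ) : ℂ) * s.e β = _
      push_cast
      ring
    rw [h1, h2, smul_dotProduct]
    have h3 : v ⬝ᵥ (fun α => conj (s.e α)) = 0 := h0
    rw [h3, smul_zero]
  have h77 : ∑ α, conj (s.e α) * conj (s.e α) = 0 := by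
    have h := s.iso 7 7
    simp only [s.u7_eq] at h
    exact h
  refine Fin.lastCases ?_ (fun j => ?_) k
  · refine key 8 (fun α => Complex.I * conj (s.e α)) s.g8 ?_
    simp only [mul_assoc]
    rw [← Finset.mul_sum, h77, mul_zero]
  · refine Fin.lastCases ?_ (fun i => ?_) j
    · exact key 7 (fun α => conj (s.e α)) s.g7 h77
    · refine key (e9 i) (s.u (e8 i)) (fun α => (s.u_eq i α).symm) ?_
      have h := s.iso (e8 i) 7
      simp only [s.u7_eq] at h
      exact h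

theorem Link.anticomm {M : Model 2 3 F} {s : Spin M.γ} {K : Fk F} (L : Link M s K)
    {u : X3 → F} (hu : ContDiff ℝ ∞ u) (x : X3) :
    K.DD (K.flip.DD u) x + K.flip.DD (K.DD u) x = (∑ i, ∑ A, pd i A (pd i A u) x) -
      ((2 * M.toSetup.V x : ℝ) : ℂ) • u x - (2 : ℂ) • (M.toSetup.Fx x (u x)) := by
  have hσ : ((sgnM M : ℝ) : ℂ) * ((sgnM M : ℝ) : ℂ) = 1 := by
    rw [← Complex.ofReal_mul, sgnM_sq, Complex.ofReal_one]
  exact fe_susy (S := M.toSetup) (σ := sgnM M) (e := s.e) (e' := fun α => conj (s.e α)) hσ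
    s.e_norm (spin_pair s) L.hP L.hPb hu x

theorem Link.form_eq {M : Model 2 3 F} {s : Spin M.γ} {K : Fk F} (L : Link M s K)
    {u : X3 → F} (hu : Setup.Tst u) :
    (M.form u u).re = (1 / 2 : ℝ) * ((∫ x, ‖K.DD u x‖ ^ 2) + ∫ x, ‖K.flip.DD u x‖ ^ 2) := by
  rw [form_self_re]
  set S := M.toSetup with hS
  have hI : ∀ v : X3 → F, ((∫ x, ‖v x‖ ^ 2 : ℝ) : ℂ) = ∫ x, inner ℂ (v x) (v x) := by
    intro v
    rw [← integral_complex_ofReal]
    exact integral_congr_ae (Filter.Eventually.of_forall fun x => (inner_self_C (v x)).symm)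
  have h1 : ((∑ β, ∫ x, ‖S.Q β u x‖ ^ 2 : ℝ) : ℂ) =
      ∫ x, inner ℂ (u x) (∑ b, S.Q b (S.Q b u) x) := by
    push_cast
    simp only [inner_sum]
    rw [integral_finsetSum]
    · refine Finset.sum_congr rfl fun b _ => ?_
      rw [hI (S.Q b u), Q_symm S b u _ hu (S.contDiff_Q b hu.1)]
    · intro b _
      exact hu.inner_int (S.contDiff_Q b (S.contDiff_Q b hu.1)).continuous
  have h2 : ∀ x, ∑ b, S.Q b (S.Q b u) x =
      (-8 : ℂ) • (K.DD (K.flip.DD u) x + K.flip.DD (K.DD u) x) := by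
    intro x
    rw [S.sum_QQ hu.1, L.anticomm hu.1 x]
    push_cast
    module
  have c1 : ContDiff ℝ ∞ (K.DD (K.flip.DD u)) := K.contDiff_DD (K.flip.contDiff_DD hu.1)
  have c2 : ContDiff ℝ ∞ (K.flip.DD (K.DD u)) := K.flip.contDiff_DD (K.contDiff_DD hu.1)
  have i1 : Integrable (fun x => inner ℂ (u x) (K.DD (K.flip.DD u) x)) :=
    hu.inner_int c1.continuous
  have i2 : Integrable (fun x => inner ℂ (u x) (K.flip.DD (K.DD u) x)) :=
    hu.inner_int c2.continuous
  have h3 : ∫ x, inner ℂ (u x) (∑ b, S.Q b (S.Q b u) x) =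
      (-8 : ℂ) * ((∫ x, inner ℂ (u x) (K.DD (K.flip.DD u) x)) +
        ∫ x, inner ℂ (u x) (K.flip.DD (K.DD u) x)) := by
    simp only [h2, inner_smul_right, inner_add_right]
    rw [integral_const_mul, integral_add i1 i2]
  have h4 : ∫ x, inner ℂ (u x) (K.flip.DD (K.DD u) x) = -((∫ x, ‖K.DD u x‖ ^ 2 : ℝ) : ℂ) := by
    rw [hI (K.DD u), K.DD_adj hu.1 (K.tst_DD hu), neg_neg]
  have h5 : ∫ x, inner ℂ (u x) (K.DD (K.flip.DD u) x) =
      -((∫ x, ‖K.flip.DD u x‖ ^ 2 : ℝ) : ℂ) := by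
    have e1 : ∫ x, inner ℂ (u x) (K.DD (K.flip.DD u) x) =
        conj (∫ x, inner ℂ (K.DD (K.flip.DD u) x) (u x)) := by
      rw [← integral_conj]
      exact integral_congr_ae (Filter.Eventually.of_forall fun x => by
        simp only [inner_conj_symm])
    rw [e1, K.DD_adj (K.flip.contDiff_DD hu.1) hu, map_neg, ← hI (K.flip.DD u),
      Complex.conj_ofReal]
  rw [h3, h4, h5] at h1
  have h6 : (∑ β, ∫ x, ‖S.Q β u x‖ ^ 2 : ℝ) =
      8 * ((∫ x, ‖K.DD u x‖ ^ 2) + ∫ x, ‖K.flip.DD u x‖ ^ 2) := by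
    have h7 : ((∑ β, ∫ x, ‖S.Q β u x‖ ^ 2 : ℝ) : ℂ) =
      ((8 * ((∫ x, ‖K.DD u x‖ ^ 2) + ∫ x, ‖K.flip.DD u x‖ ^ 2) : ℝ) : ℂ) := by
      rw [h1]
      push_cast
      ring
    exact Complex.ofReal_injective h7
  rw [h6]
  ring

end Vale.Agent.P353.Ex
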