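import Vale.Agent.P353.Ex.Hilbert
import Vale.Agent.P353.Ex.FormEq

/-! Task EX-26: weak zero modes are zero-energy states.

`u_n = ρ_δ ∗ (χ_R Ψ)`, `ρ_δ` a radial mollifier (`rgRho`, `rgMol`), `χ_R` a radial cut-off
(`rgCut`), `R = n + 1` and `δ = δ(n)` small.  `u_n` is in the core.  With `y = K.DD u_n` (core),
`‖y‖² = -⟨u_n, flip.DD y⟩ = -⟨Ψ, χ_R ρ_δ∗(flip.DD y)⟩ = ⟨Ψ, D⟩`, where
`D = flip.DD(χ_R ρ_δ∗y) - χ_R ρ_δ∗(flip.DD y)` is bounded by `(C/R + ε) ρ_δ∗|y|` (`rg_est`), since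
`χ_R ρ_δ∗y` is core.  Hence `‖y‖ ≤ (C/R + ε) ‖Ψ‖` (`rg_dual`). -/

open MeasureTheory Filter Topology
open scoped ContDiff ComplexConjugate Convolution

namespace Vale.Agent.P353.Ex

section

/-! ### radial bumps -/

/-- a radial bump -/
noncomputable def rgEta (x : X3) : ℝ := Real.smoothTransition (2 - ‖x‖ ^ 2)

theorem rgEta_contDiff : ContDiff ℝ ∞ rgEta :=
  Real.smoothTransition.contDiff.comp (contDiff_const.sub (contDiff_norm_sq ℝ))

theorem rgEta_nonneg (x : X3) : 0 ≤ rgEta x := Real.smoothTransition.nonneg _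

theorem rgEta_le_one (x : X3) : rgEta x ≤ 1 := Real.smoothTransition.le_one _

theorem rgEta_one {x : X3} (hx : ‖x‖ ≤ 1) : rgEta x = 1 := by
  refine Real.smoothTransition.one_of_one_le ?_
  nlinarith [norm_nonneg x]

theorem rgEta_zero {x : X3} (hx : 2 ≤ ‖x‖) : rgEta x = 0 := by
  refine Real.smoothTransition.zero_of_nonpos ?_
  nlinarith [norm_nonneg x]

theorem rgEta_cs : HasCompactSupport rgEta := by
  refine HasCompactSupport.intro (isCompact_closedBall (0 : X3) 2) fun x hx => rgEta_zero ?_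
  rw [Metric.mem_closedBall, dist_zero_right, not_le] at hx
  exact hx.le

theorem rgEta_congr {x y : X3} (h : ‖x‖ = ‖y‖) : rgEta x = rgEta y := by
  rw [rgEta, rgEta, h]

theorem rgEta_scale_int {δ : ℝ} (hδ : 0 < δ) : 0 < ∫ y : X3, rgEta (δ⁻¹ • y) := by
  have hc : Continuous fun y : X3 => rgEta (δ⁻¹ • y) :=
    rgEta_contDiff.continuous.comp (continuous_const_smul _)
  refine hc.integral_pos_of_hasCompactSupport_nonneg_nonzero
    (rgEta_cs.comp_smul (inv_ne_zero hδ.ne')) (fun y => rgEta_nonneg _) (x := 0) ?_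
  rw [smul_zero, rgEta_one (by simp)]
  exact one_ne_zero

/-- the mollifier -/
noncomputable def rgRho (δ : ℝ) (x : X3) : ℝ :=
  (∫ y : X3, rgEta (δ⁻¹ • y))⁻¹ * rgEta (δ⁻¹ • x)

theorem rgRho_contDiff (δ : ℝ) : ContDiff ℝ ∞ (rgRho δ) :=
  contDiff_const.mul (rgEta_contDiff.comp (contDiff_const_smul _))

theorem rgRho_nonneg {δ : ℝ} (hδ : 0 < δ) (x : X3) : 0 ≤ rgRho δ x :=
  mul_nonneg (inv_nonneg.2 (rgEta_scale_int hδ).le) (rgEta_nonneg _)

theorem rgRho_cs {δ : ℝ} (hδ : 0 < δ) : HasCompactSupport (rgRho δ) :=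
  HasCompactSupport.mul_left (rgEta_cs.comp_smul (inv_ne_zero hδ.ne'))

theorem rgRho_int {δ : ℝ} (hδ : 0 < δ) : ∫ x, rgRho δ x = 1 := by
  unfold rgRho
  rw [integral_const_mul, inv_mul_cancel₀ (rgEta_scale_int hδ).ne']

theorem rgRho_congr (δ : ℝ) {x y : X3} (h : ‖x‖ = ‖y‖) : rgRho δ x = rgRho δ y := by
  rw [rgRho, rgRho, rgEta_congr (x := δ⁻¹ • x) (y := δ⁻¹ • y) (by rw [norm_smul, norm_smul, h])]

theorem rgRho_zero {δ : ℝ} (hδ : 0 < δ) {x : X3} (hx : 2 * δ ≤ ‖x‖) : rgRho δ x = 0 := by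
  rw [rgRho, rgEta_zero, mul_zero]
  rw [norm_smul, norm_inv, Real.norm_of_nonneg hδ.le, le_inv_mul_iff₀ hδ]
  linarith

theorem rgRho_integrable {δ : ℝ} (hδ : 0 < δ) : Integrable (rgRho δ) :=
  (rgRho_contDiff δ).continuous.integrable_of_hasCompactSupport (rgRho_cs hδ)

/-! ### mollification -/

variable {F : Type*} [NormedAddCommGroup F] [InnerProductSpace ℂ F]

/-- the mollification of `f` -/
noncomputable def rgMol (δ : ℝ) (f : X3 → F) (x : X3) : F := ∫ z, rgRho δ z • f (x - z)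

theorem rgMol_eq (δ : ℝ) (f : X3 → F) :
    rgMol δ f = (rgRho δ) ⋆[ContinuousLinearMap.lsmul ℝ ℝ, volume] f := by
  funext x
  rw [convolution_lsmul]
  rfl

theorem rgMol_contDiff {δ : ℝ} (hδ : 0 < δ) {f : X3 → F} (hf : LocallyIntegrable f) [CompleteSpace F] :
    ContDiff ℝ ∞ (rgMol δ f) := by
  rw [rgMol_eq]
  exact (rgRho_cs hδ).contDiff_convolution_left _ (rgRho_contDiff δ) hf

theorem rgMol_cs {δ : ℝ} (hδ : 0 < δ) {f : X3 → F} (hf : HasCompactSupport f) :
    HasCompactSupport (rgMol δ f) := by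
  rw [rgMol_eq]
  exact (rgRho_cs hδ).convolution _ hf

theorem rgInt_sub_left {f : X3 → F} (hf : MemLp f 2 (volume : Measure X3)) (x : X3) :
    Integrable fun z => ‖f (x - z)‖ ^ 2 :=
  (memLp_norm_sq_int hf).comp_sub_left x

theorem rgInt_sq {δ : ℝ} (hδ : 0 < δ) {f : X3 → F} (hf : MemLp f 2 (volume : Measure X3)) (x : X3) :
    Integrable fun z => rgRho δ z * ‖f (x - z)‖ ^ 2 := by
  obtain ⟨C, hC⟩ := (rgRho_cs hδ).exists_bound_of_continuous (rgRho_contDiff δ).continuous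
  exact (rgInt_sub_left hf x).bdd_mul (c := C) (rgRho_contDiff δ).continuous.aestronglyMeasurable
    (Filter.Eventually.of_forall hC)

theorem rgAem {f : X3 → F} (hf : MemLp f 2 (volume : Measure X3)) (x : X3) :
    AEStronglyMeasurable (fun z => f (x - z)) volume :=
  hf.1.comp_measurePreserving (Measure.measurePreserving_sub_left volume x)

theorem rgInt_norm {δ : ℝ} (hδ : 0 < δ) {f : X3 → F} (hf : MemLp f 2 (volume : Measure X3))
    (x : X3) : Integrable fun z => rgRho δ z * ‖f (x - z)‖ := by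
  refine ((rgRho_integrable hδ).add (rgInt_sq hδ hf x)).mono'
    ((rgRho_contDiff δ).continuous.aestronglyMeasurable.mul (rgAem hf x).norm)
    (Filter.Eventually.of_forall fun z => ?_)
  have h1 := rgRho_nonneg hδ z
  have h2 := norm_nonneg (f (x - z))
  rw [Real.norm_of_nonneg (mul_nonneg h1 h2)]
  simp only [Pi.add_apply]
  nlinarith [sq_nonneg (‖f (x - z)‖ - 1 / 2)]

theorem rgInt {δ : ℝ} (hδ : 0 < δ) {f : X3 → F} (hf : MemLp f 2 (volume : Measure X3))
    (x : X3) : Integrable fun z => rgRho δ z • f (x - z) := by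
  refine (rgInt_norm hδ hf x).mono'
    ((rgRho_contDiff δ).continuous.aestronglyMeasurable.smul (rgAem hf x))
    (Filter.Eventually.of_forall fun z => ?_)
  rw [norm_smul, Real.norm_of_nonneg (rgRho_nonneg hδ z)]

theorem rg_norm_sq_le {δ : ℝ} (hδ : 0 < δ) {f : X3 → F} (hf : MemLp f 2 (volume : Measure X3))
    (x : X3) : (∫ z, rgRho δ z * ‖f (x - z)‖) ^ 2 ≤ ∫ z, rgRho δ z * ‖f (x - z)‖ ^ 2 := by
  set m := ∫ z, rgRho δ z * ‖f (x - z)‖ with hm
  have h0 : 0 ≤ ∫ z, rgRho δ z * (‖f (x - z)‖ - m) ^ 2 :=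
    integral_nonneg fun z => mul_nonneg (rgRho_nonneg hδ z) (sq_nonneg _)
  have i1 := rgInt_sq hδ hf x
  have i2 : Integrable fun z => 2 * m * (rgRho δ z * ‖f (x - z)‖) := (rgInt_norm hδ hf x).const_mul _
  have i3 : Integrable fun z => m ^ 2 * rgRho δ z := (rgRho_integrable hδ).const_mul _
  have h1 : ∫ z, rgRho δ z * (‖f (x - z)‖ - m) ^ 2 =
      (∫ z, rgRho δ z * ‖f (x - z)‖ ^ 2) - 2 * m * m + m ^ 2 * 1 := by
    rw [← rgRho_int hδ, ← integral_const_mul (m ^ 2)]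
    conv_rhs => rw [hm]
    rw [← hm, ← integral_const_mul (2 * m), ← integral_sub i1 i2]
    have i4 : Integrable fun z => rgRho δ z * ‖f (x - z)‖ ^ 2 -
      2 * m * (rgRho δ z * ‖f (x - z)‖) := i1.sub i2
    rw [← integral_add i4 i3]
    refine integral_congr_ae (Filter.Eventually.of_forall fun z => ?_)
    simp only
    ring
  rw [h1] at h0
  nlinarith

theorem rgMol_norm_le {δ : ℝ} (hδ : 0 < δ) (f : X3 → F) (x : X3) :
    ‖rgMol δ f x‖ ≤ ∫ z, rgRho δ z * ‖f (x - z)‖ := by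
  refine (norm_integral_le_integral_norm _).trans (le_of_eq ?_)
  refine integral_congr_ae (Filter.Eventually.of_forall fun z => ?_)
  simp only
  rw [norm_smul, Real.norm_of_nonneg (rgRho_nonneg hδ z)]

theorem rg_conv_int {δ : ℝ} (hδ : 0 < δ) {f : X3 → F} (hf : MemLp f 2 (volume : Measure X3)) :
    Integrable (fun x => ∫ z, rgRho δ z * ‖f (x - z)‖ ^ 2) ∧
      ∫ x, (∫ z, rgRho δ z * ‖f (x - z)‖ ^ 2) = ∫ x, ‖f x‖ ^ 2 := by
  have h1 := (rgRho_integrable hδ).integrable_convolution (ContinuousLinearMap.lsmul ℝ ℝ)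
    (memLp_norm_sq_int hf)
  have h2 := integral_convolution (ContinuousLinearMap.lsmul ℝ ℝ) (rgRho_integrable hδ)
    (memLp_norm_sq_int hf)
  have e : (fun x => ∫ z, rgRho δ z * ‖f (x - z)‖ ^ 2) =
      (rgRho δ) ⋆[ContinuousLinearMap.lsmul ℝ ℝ, volume] (fun x => ‖f x‖ ^ 2) := by
    funext x
    rw [convolution_lsmul]
    simp only [smul_eq_mul]
  rw [e]
  refine ⟨h1, h2.trans ?_⟩
  rw [rgRho_int hδ]
  simp

theorem rg_locInt {f : X3 → F} (hf : MemLp f 2 (volume : Measure X3)) : LocallyIntegrable f :=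
  hf.locallyIntegrable (by norm_num)

variable [FiniteDimensional ℂ F]

theorem rgMol_sq {δ : ℝ} (hδ : 0 < δ) {f : X3 → F} (hf : MemLp f 2 (volume : Measure X3)) :
    MemLp (rgMol δ f) 2 (volume : Measure X3) ∧ ∫ x, ‖rgMol δ f x‖ ^ 2 ≤ ∫ x, ‖f x‖ ^ 2 := by
  have : CompleteSpace F := FiniteDimensional.complete ℂ F
  obtain ⟨h1, h2⟩ := rg_conv_int hδ hf
  have hm : AEStronglyMeasurable (rgMol δ f) (volume : Measure X3) :=
    (rgMol_contDiff hδ (rg_locInt hf)).continuous.aestronglyMeasurable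
  have hb : ∀ x, ‖rgMol δ f x‖ ^ 2 ≤ ∫ z, rgRho δ z * ‖f (x - z)‖ ^ 2 := fun x =>
    (pow_le_pow_left₀ (norm_nonneg _) (rgMol_norm_le hδ f x) 2).trans (rg_norm_sq_le hδ hf x)
  have hi : Integrable (fun x => ‖rgMol δ f x‖ ^ 2) := by
    refine h1.mono' (hm.norm.pow 2) (Filter.Eventually.of_forall fun x => ?_)
    rw [Real.norm_of_nonneg (by positivity)]
    exact hb x
  refine ⟨(memLp_two_iff_integrable_sq_norm hm).2 hi, ?_⟩
  rw [← h2]
  exact integral_mono hi h1 hb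

theorem rg_approx_cc {g : X3 → F} (hg : Continuous g) (hc : HasCompactSupport g) {ε : ℝ}
    (hε : 0 < ε) : ∃ δ₀ : ℝ, 0 < δ₀ ∧ ∀ δ, 0 < δ → δ ≤ δ₀ →
      ∫ x, ‖rgMol δ g x - g x‖ ^ 2 ≤ ε := by
  have : CompleteSpace F := FiniteDimensional.complete ℂ F
  obtain ⟨r, hr⟩ := hc.isCompact.isBounded.subset_closedBall (0 : X3)
  set B : Set X3 := Metric.closedBall 0 (r + 2) with hB
  have hBc : IsCompact B := isCompact_closedBall _ _
  set V : ℝ := (volume B).toReal with hV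
  have hV0 : 0 ≤ V := ENNReal.toReal_nonneg
  set e : ℝ := Real.sqrt (ε / (V + 1)) with he
  have he0 : 0 < e := Real.sqrt_pos.2 (by positivity)
  have huc : UniformContinuous g := hc.uniformContinuous_of_continuous hg
  obtain ⟨d, hd0, hd⟩ := Metric.uniformContinuous_iff.1 huc e he0
  refine ⟨min (d / 4) 1, by positivity, fun δ hδ hδ' => ?_⟩
  have hδ1 : δ ≤ 1 := hδ'.trans (min_le_right _ _)
  have hδd : 2 * δ < d := by
    have := hδ'.trans (min_le_left _ _)
    linarith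
  have hgm : MemLp g 2 (volume : Measure X3) := hg.memLp_of_hasCompactSupport hc
  have hpt : ∀ x, ‖rgMol δ g x - g x‖ ≤ e := by
    intro x
    have h1 : rgMol δ g x - g x = ∫ z, rgRho δ z • (g (x - z) - g x) := by
      have i1 := rgInt hδ hgm x
      have i2 : Integrable fun z => rgRho δ z • g x := (rgRho_integrable hδ).smul_const _
      have h2 : ∫ z, rgRho δ z • g x = g x := by
        rw [integral_smul_const, rgRho_int hδ, one_smul]
      rw [rgMol]
      conv_lhs => rw [← h2]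
      rw [← integral_sub i1 i2]
      refine integral_congr_ae (Filter.Eventually.of_forall fun z => ?_)
      simp only [smul_sub]
    rw [h1]
    have h3 : ∀ z, ‖rgRho δ z • (g (x - z) - g x)‖ ≤ rgRho δ z * e := by
      intro z
      rw [norm_smul, Real.norm_of_nonneg (rgRho_nonneg hδ z)]
      by_cases hz : 2 * δ ≤ ‖z‖
      · rw [rgRho_zero hδ hz, zero_mul, zero_mul]
      · refine mul_le_mul_of_nonneg_left ?_ (rgRho_nonneg hδ z)
        have h4 : dist (x - z) x < d := by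
          rw [dist_eq_norm, sub_sub_cancel_left, norm_neg]
          linarith [not_le.1 hz]
        have h5 := hd h4
        rw [dist_eq_norm] at h5
        exact h5.le
    refine (norm_integral_le_of_norm_le ((rgRho_integrable hδ).mul_const e)
      (Filter.Eventually.of_forall h3)).trans (le_of_eq ?_)
    rw [integral_mul_const, rgRho_int hδ, one_mul]
  have hsupp : ∀ x, x ∉ B → rgMol δ g x - g x = 0 := by
    intro x hx
    rw [hB, Metric.mem_closedBall, dist_zero_right, not_le] at hx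
    have hg0 : ∀ y : X3, r < ‖y‖ → g y = 0 := by
      intro y hy
      by_contra hne
      have h1 := hr (subset_tsupport _ hne)
      rw [Metric.mem_closedBall, dist_zero_right] at h1
      linarith
    rw [hg0 x (by linarith), sub_zero, rgMol]
    refine integral_eq_zero_of_ae (Filter.Eventually.of_forall fun z => ?_)
    by_cases hz : 2 * δ ≤ ‖z‖
    · simp only [rgRho_zero hδ hz, zero_smul, Pi.zero_apply]
    · have h2 : r < ‖x - z‖ := by
        have := norm_sub_norm_le x z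
        linarith [not_le.1 hz]
      simp only [hg0 _ h2, smul_zero, Pi.zero_apply]
  have h6 : ∀ x, ‖rgMol δ g x - g x‖ ^ 2 ≤ B.indicator (fun _ => e ^ 2) x := by
    intro x
    by_cases hx : x ∈ B
    · rw [Set.indicator_of_mem hx]
      exact pow_le_pow_left₀ (norm_nonneg _) (hpt x) 2
    · rw [Set.indicator_of_notMem hx, hsupp x hx]
      simp
  have hBi : Integrable (B.indicator fun _ : X3 => e ^ 2) :=
    (integrable_indicator_iff hBc.measurableSet).2 (integrableOn_const hBc.measure_lt_top.ne)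
  have hgc : Continuous fun x => ‖rgMol δ g x - g x‖ ^ 2 :=
    (((rgMol_contDiff hδ (rg_locInt hgm)).continuous.sub hg).norm.pow 2)
  have hgi : Integrable fun x => ‖rgMol δ g x - g x‖ ^ 2 := by
    refine hBi.mono' hgc.aestronglyMeasurable (Filter.Eventually.of_forall fun x => ?_)
    rw [Real.norm_of_nonneg (by positivity)]
    exact h6 x
  refine (integral_mono hgi hBi h6).trans ?_
  rw [integral_indicator hBc.measurableSet, setIntegral_const, smul_eq_mul, measureReal_def, ← hV,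
    he, Real.sq_sqrt (by positivity)]
  rw [mul_div_assoc']
  rw [div_le_iff₀ (by positivity)]
  nlinarith

theorem rg_sq_add3 (a b c : F) : ‖a + b + c‖ ^ 2 ≤ 3 * ‖a‖ ^ 2 + 3 * ‖b‖ ^ 2 + 3 * ‖c‖ ^ 2 := by
  have h1 := norm_add₃_le (a := a) (b := b) (c := c)
  have h2 := norm_nonneg (a + b + c)
  nlinarith [sq_nonneg (‖a‖ - ‖b‖), sq_nonneg (‖a‖ - ‖c‖), sq_nonneg (‖b‖ - ‖c‖),
    norm_nonneg a, norm_nonneg b, norm_nonneg c]

theorem rg_approx {f : X3 → F} (hf : MemLp f 2 (volume : Measure X3)) {ε : ℝ}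
    (hε : 0 < ε) : ∃ δ₀ : ℝ, 0 < δ₀ ∧ ∀ δ, 0 < δ → δ ≤ δ₀ →
      ∫ x, ‖rgMol δ f x - f x‖ ^ 2 ≤ ε := by
  have : CompleteSpace F := FiniteDimensional.complete ℂ F
  have hf' : MemLp f (ENNReal.ofReal 2) (volume : Measure X3) := by
    rwa [ENNReal.ofReal_ofNat]
  obtain ⟨g, hgc, hgε, hg, hgm⟩ := hf'.exists_hasCompactSupport_integral_rpow_sub_le
    (p := 2) (by norm_num) (ε := ε / 9) (by positivity)
  rw [ENNReal.ofReal_ofNat] at hgm
  have hgε' : ∫ x, ‖f x - g x‖ ^ 2 ≤ ε / 9 := by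
    simpa only [Real.rpow_two] using hgε
  obtain ⟨δ₀, hδ₀, hδ₁⟩ := rg_approx_cc hg hgc (ε := ε / 9) (by positivity)
  refine ⟨δ₀, hδ₀, fun δ hδ hle => ?_⟩
  have h1 := hδ₁ δ hδ hle
  have hfg : MemLp (fun x => f x - g x) 2 (volume : Measure X3) := hf.sub hgm
  obtain ⟨hm1, h2⟩ := rgMol_sq hδ hfg
  obtain ⟨hm2, -⟩ := rgMol_sq hδ hgm
  obtain ⟨hm3, -⟩ := rgMol_sq hδ hf
  have hlin : ∀ x, rgMol δ f x - rgMol δ g x = rgMol δ (fun x => f x - g x) x := by
    intro x
    rw [rgMol, rgMol, rgMol, ← integral_sub (rgInt hδ hf x) (rgInt hδ hgm x)]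
    refine integral_congr_ae (Filter.Eventually.of_forall fun z => ?_)
    simp only [smul_sub]
  have h3 : ∀ x, ‖rgMol δ f x - f x‖ ^ 2 ≤ 3 * ‖rgMol δ (fun x => f x - g x) x‖ ^ 2 +
      3 * ‖rgMol δ g x - g x‖ ^ 2 + 3 * ‖f x - g x‖ ^ 2 := by
    intro x
    have e : rgMol δ f x - f x = rgMol δ (fun x => f x - g x) x + (rgMol δ g x - g x) +
        -(f x - g x) := by
      rw [← hlin]; abel
    rw [e, ← norm_neg (f x - g x)]
    exact rg_sq_add3 _ _ _
  have hgg : MemLp (fun x => rgMol δ g x - g x) 2 (volume : Measure X3) := hm2.sub hgm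
  have hff : MemLp (fun x => rgMol δ f x - f x) 2 (volume : Measure X3) := hm3.sub hf
  have i1 := (memLp_norm_sq_int hm1).const_mul 3
  have i2 := (memLp_norm_sq_int hgg).const_mul 3
  have i3 := (memLp_norm_sq_int hfg).const_mul 3
  have i12 : Integrable fun x => 3 * ‖rgMol δ (fun x => f x - g x) x‖ ^ 2 +
      3 * ‖rgMol δ g x - g x‖ ^ 2 := i1.add i2
  have i123 : Integrable fun x => 3 * ‖rgMol δ (fun x => f x - g x) x‖ ^ 2 +
      3 * ‖rgMol δ g x - g x‖ ^ 2 + 3 * ‖f x - g x‖ ^ 2 := i12.add i3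
  refine (integral_mono (memLp_norm_sq_int hff) i123 h3).trans ?_
  rw [integral_add i12 i3, integral_add i1 i2, integral_const_mul, integral_const_mul,
    integral_const_mul]
  linarith

end

section

variable {F : Type*} [NormedAddCommGroup F] [InnerProductSpace ℂ F] [FiniteDimensional ℂ F]

theorem rgMol_core (K : Fk F) {δ : ℝ} (hδ : 0 < δ) {f : X3 → F}
    (hf : MemLp f 2 (volume : Measure X3)) (hcs : HasCompactSupport f)
    (hcov : ∀ U : SU2, ∀ᵐ x, f (act U x) = K.S U (f x)) : K.Core (rgMol δ f) := by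
  have : CompleteSpace F := FiniteDimensional.complete ℂ F
  refine ⟨rgMol_contDiff hδ (rg_locInt hf), rgMol_cs hδ hcs, fun U x => ?_⟩
  have hmp := (actL U).measurePreserving
  have h1 := hmp.integral_comp (actL U).toHomeomorph.measurableEmbedding
    (fun z => rgRho δ z • f (act U x - z))
  rw [rgMol, ← h1]
  have h2 : ∀ᵐ z : X3, f (act U (x - z)) = K.S U (f (x - z)) :=
    (Measure.measurePreserving_sub_left volume x).quasiMeasurePreserving.ae (hcov U)
  have h3 : ∀ z : X3, rgRho δ (actL U z) • f (act U x - actL U z) =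
      rgRho δ z • f (act U (x - z)) := by
    intro z
    have e1 : act U x - actL U z = act U (x - z) := by
      rw [← actL_apply, ← actL_apply, map_sub]
    rw [e1, rgRho_congr δ ((actL U).norm_map z)]
  simp only [h3]
  have h4 : ∫ z, rgRho δ z • f (act U (x - z)) = ∫ z, ((K.S U).restrictScalars ℝ)
      (rgRho δ z • f (x - z)) := by
    refine integral_congr_ae ?_
    filter_upwards [h2] with z hz
    rw [hz, map_smul]
    rfl
  rw [h4, ContinuousLinearMap.integral_comp_comm _ (rgInt hδ hf x)]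
  rfl

omit [InnerProductSpace ℂ F] [FiniteDimensional ℂ F] in
theorem rg_int_of_cs {f : X3 → F}
    (hf : MemLp f 2 (volume : Measure X3)) (hcs : HasCompactSupport f) : Integrable f := by
  have h1 : IntegrableOn f (tsupport f) :=
    (hf.locallyIntegrable (by norm_num)).integrableOn_isCompact hcs
  exact (integrableOn_iff_integrable_of_support_subset (subset_tsupport f)).1 h1

omit [FiniteDimensional ℂ F] in
theorem rg_inner_conj (a b : F) : (starRingEnd ℂ) (inner ℂ a b) = inner ℂ b a := inner_conj_symm _ _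

theorem rgMol_inner {δ : ℝ} (hδ : 0 < δ) {f g : X3 → F}
    (hf : MemLp f 2 (volume : Measure X3)) (hcs : HasCompactSupport f) (hg : Continuous g)
    (hgc : HasCompactSupport g) :
    ∫ x, inner ℂ (rgMol δ f x) (g x) = ∫ x, inner ℂ (f x) (rgMol δ g x) := by
  have : CompleteSpace F := FiniteDimensional.complete ℂ F
  have hgm : MemLp g 2 (volume : Measure X3) := hg.memLp_of_hasCompactSupport hgc
  have hfi := rg_int_of_cs hf hcs
  obtain ⟨C, hC⟩ := hgc.exists_bound_of_continuous hg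
  have hC0 : 0 ≤ C := (norm_nonneg _).trans (hC 0)
  -- left side
  have hL : ∀ x, inner ℂ (rgMol δ f x) (g x) = ∫ y, ((rgRho δ (x - y) : ℝ) : ℂ) *
      inner ℂ (f y) (g x) := by
    intro x
    have e1 : inner ℂ (g x) (rgMol δ f x) = ∫ z, inner ℂ (g x) (rgRho δ z • f (x - z)) :=
      (integral_inner (rgInt hδ hf x) (g x)).symm
    rw [← rg_inner_conj (g x) (rgMol δ f x), e1, ← integral_conj]
    have e2 : ∀ z, (starRingEnd ℂ) (inner ℂ (g x) (rgRho δ z • f (x - z))) =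
        ((rgRho δ z : ℝ) : ℂ) * inner ℂ (f (x - z)) (g x) := by
      intro z
      rw [rg_inner_conj, ← Complex.coe_smul, inner_smul_left, Complex.conj_ofReal]
    simp only [e2]
    have e3 := integral_sub_left_eq_self (fun z : X3 => ((rgRho δ z : ℝ) : ℂ) *
      inner ℂ (f (x - z)) (g x)) volume x
    rw [← e3]
    simp only [sub_sub_cancel]
  have hR : ∀ y, inner ℂ (f y) (rgMol δ g y) = ∫ x, ((rgRho δ (x - y) : ℝ) : ℂ) *
      inner ℂ (f y) (g x) := by
    intro y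
    have e1 : inner ℂ (f y) (rgMol δ g y) = ∫ z, inner ℂ (f y) (rgRho δ z • g (y - z)) :=
      (integral_inner (rgInt hδ hgm y) (f y)).symm
    rw [e1]
    have e2 : ∀ z, inner ℂ (f y) (rgRho δ z • g (y - z)) =
        ((rgRho δ z : ℝ) : ℂ) * inner ℂ (f y) (g (y - z)) := by
      intro z
      rw [← Complex.coe_smul, inner_smul_right]
    simp only [e2]
    have e3 := integral_sub_left_eq_self (fun z : X3 => ((rgRho δ z : ℝ) : ℂ) *
      inner ℂ (f y) (g (y - z))) volume y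
    rw [← e3]
    refine integral_congr_ae (Filter.Eventually.of_forall fun x => ?_)
    simp only [sub_sub_cancel]
    rw [rgRho_congr δ (norm_sub_rev y x)]
  simp only [hL, hR]
  have hprod : Integrable (Function.uncurry fun x y : X3 => ((rgRho δ (x - y) : ℝ) : ℂ) *
      inner ℂ (f y) (g x)) (volume.prod volume) := by
    have h1 := (hfi.norm).convolution_integrand (ContinuousLinearMap.lsmul ℝ ℝ)
      (rgRho_integrable hδ)
    have h2 := h1.const_mul C
    refine h2.mono' ?_ (Filter.Eventually.of_forall fun p => ?_)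
    · have m1 : AEStronglyMeasurable (fun p : X3 × X3 => ((rgRho δ (p.1 - p.2) : ℝ) : ℂ))
          (volume.prod volume) :=
        (Complex.continuous_ofReal.comp ((rgRho_contDiff δ).continuous.comp
          (continuous_fst.sub continuous_snd))).aestronglyMeasurable
      have m2 : AEStronglyMeasurable (fun p : X3 × X3 => (inner ℂ (f p.2) (g p.1) : ℂ))
          (volume.prod volume) :=
        AEStronglyMeasurable.inner hf.1.comp_snd
          (hg.comp continuous_fst).aestronglyMeasurable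
      exact m1.mul m2
    · simp only [Function.uncurry, ContinuousLinearMap.lsmul_apply, smul_eq_mul]
      rw [norm_mul, Complex.norm_real, Real.norm_of_nonneg (rgRho_nonneg hδ _)]
      have h3 : ‖(inner ℂ (f p.2) (g p.1) : ℂ)‖ ≤ ‖f p.2‖ * C :=
        (norm_inner_le_norm _ _).trans (mul_le_mul_of_nonneg_left (hC _) (norm_nonneg _))
      calc rgRho δ (p.1 - p.2) * ‖(inner ℂ (f p.2) (g p.1) : ℂ)‖
          ≤ rgRho δ (p.1 - p.2) * (‖f p.2‖ * C) :=
            mul_le_mul_of_nonneg_left h3 (rgRho_nonneg hδ _)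
        _ = _ := by ring
  exact integral_integral_swap hprod

theorem rgMol_fderiv {δ : ℝ} (hδ : 0 < δ) {y : X3 → F} (hy : ContDiff ℝ 1 y)
    (hc : HasCompactSupport y) (x : X3) :
    DifferentiableAt ℝ (rgMol δ y) x ∧
      Integrable (fun z => rgRho δ z • fderiv ℝ y (x - z)) ∧
      fderiv ℝ (rgMol δ y) x = ∫ z, rgRho δ z • fderiv ℝ y (x - z) := by
  have h1 := hc.hasFDerivAt_convolution_right (ContinuousLinearMap.lsmul ℝ ℝ)
    (rgRho_integrable hδ).locallyIntegrable hy x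
  rw [← rgMol_eq] at h1
  refine ⟨h1.differentiableAt, ?_, ?_⟩
  · refine Continuous.integrable_of_hasCompactSupport ?_ ?_
    · exact (rgRho_contDiff δ).continuous.smul
        ((hy.continuous_fderiv (by simp)).comp (continuous_const.sub continuous_id))
    · exact (rgRho_cs hδ).smul_right
  · rw [h1.fderiv, convolution_def]
    refine integral_congr_ae (Filter.Eventually.of_forall fun z => ?_)
    ext v
    simp [ContinuousLinearMap.precompR_apply]

end

section

variable {F : Type*} [NormedAddCommGroup F] [InnerProductSpace ℂ F] [FiniteDimensional ℂ F]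

theorem rg_est {P : (X3 → F) → X3 → F} {T : (X3 →L[ℝ] F) →L[ℝ] F} {W : X3 → F →L[ℂ] F}
    (hP : ∀ w x, P w x = T (fderiv ℝ w x) + W x (w x)) (hW : Continuous W)
    {χ : X3 → ℝ} (hχ : ContDiff ℝ ∞ χ) (h0 : ∀ x, 0 ≤ χ x) (h1 : ∀ x, χ x ≤ 1) {R' c : ℝ}
    (hR : ∀ x, R' ≤ ‖x‖ → χ x = 0) (hc : ∀ x, ‖fderiv ℝ χ x‖ ≤ c) {δ : ℝ} (hδ : 0 < δ) {ε : ℝ}
    (hε0 : 0 ≤ ε) (hε : ∀ x z : X3, ‖x‖ ≤ R' → ‖z‖ ≤ 2 * δ → ‖W x - W (x - z)‖ ≤ ε)
    {y : X3 → F} (hy : Setup.Tst y) (x : X3) :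
    ‖P (fun x => ((χ x : ℝ) : ℂ) • rgMol δ y x) x - ((χ x : ℝ) : ℂ) • rgMol δ (P y) x‖ ≤
      (‖T‖ * c + ε) * ∫ z, rgRho δ z * ‖y (x - z)‖ := by
  have hy1 : ContDiff ℝ 1 y := hy.1.of_le (by simp)
  obtain ⟨hd, hi, hf⟩ := rgMol_fderiv hδ hy1 hy.2 x
  have hym : MemLp y 2 (volume : Measure X3) := hy.memLp
  have hI := rgInt_norm hδ hym x
  have hI0 : 0 ≤ ∫ z, rgRho δ z * ‖y (x - z)‖ :=
    integral_nonneg fun z => mul_nonneg (rgRho_nonneg hδ z) (norm_nonneg _)
  set m : F := rgMol δ y x with hm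
  have hv : fderiv ℝ (fun x => ((χ x : ℝ) : ℂ) • rgMol δ y x) x =
      χ x • fderiv ℝ (rgMol δ y) x + (fderiv ℝ χ x).smulRight m := by
    have e : (fun x => ((χ x : ℝ) : ℂ) • rgMol δ y x) = fun x => χ x • rgMol δ y x := by
      funext x
      rw [Complex.coe_smul]
    rw [e, fderiv_fun_smul ((hχ.differentiable (by simp)) x) hd]
  -- integrability of the pieces
  have i1 : Integrable fun z => rgRho δ z • T (fderiv ℝ y (x - z)) := by
    have h := T.integrable_comp hi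
    refine h.congr (Filter.Eventually.of_forall fun z => ?_)
    simp only [map_smul]
  have i2 : Integrable fun z => rgRho δ z • W (x - z) (y (x - z)) := by
    refine Continuous.integrable_of_hasCompactSupport ?_ (rgRho_cs hδ).smul_right
    exact (rgRho_contDiff δ).continuous.smul ((hW.comp (continuous_const.sub continuous_id)).clm_apply
      (hy.1.continuous.comp (continuous_const.sub continuous_id)))
  have i3 : Integrable fun z => rgRho δ z • W x (y (x - z)) := by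
    refine Continuous.integrable_of_hasCompactSupport ?_ (rgRho_cs hδ).smul_right
    exact (rgRho_contDiff δ).continuous.smul (continuous_const.clm_apply
      (hy.1.continuous.comp (continuous_const.sub continuous_id)))
  have e1 : T (fderiv ℝ (rgMol δ y) x) = ∫ z, rgRho δ z • T (fderiv ℝ y (x - z)) := by
    have : CompleteSpace F := FiniteDimensional.complete ℂ F
    rw [hf, ← ContinuousLinearMap.integral_comp_comm T hi]
    refine integral_congr_ae (Filter.Eventually.of_forall fun z => ?_)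
    simp only [map_smul]
  have e2 : W x m = ∫ z, rgRho δ z • W x (y (x - z)) := by
    have : CompleteSpace F := FiniteDimensional.complete ℂ F
    have h := ContinuousLinearMap.integral_comp_comm ((W x).restrictScalars ℝ) (rgInt hδ hym x)
    have h' : W x m = ((W x).restrictScalars ℝ) (∫ z, rgRho δ z • y (x - z)) := rfl
    rw [h', ← h]
    refine integral_congr_ae (Filter.Eventually.of_forall fun z => ?_)
    simp only [map_smul]
    rfl
  have e3 : rgMol δ (P y) x = (∫ z, rgRho δ z • T (fderiv ℝ y (x - z))) +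
      ∫ z, rgRho δ z • W (x - z) (y (x - z)) := by
    rw [rgMol, ← integral_add i1 i2]
    refine integral_congr_ae (Filter.Eventually.of_forall fun z => ?_)
    simp only [hP, smul_add]
  have e4 : P (fun x => ((χ x : ℝ) : ℂ) • rgMol δ y x) x -
      ((χ x : ℝ) : ℂ) • rgMol δ (P y) x = T ((fderiv ℝ χ x).smulRight m) +
        χ x • ∫ z, rgRho δ z • (W x - W (x - z)) (y (x - z)) := by
    have e5 : ∫ z, rgRho δ z • (W x - W (x - z)) (y (x - z)) =
        (∫ z, rgRho δ z • W x (y (x - z))) - ∫ z, rgRho δ z • W (x - z) (y (x - z)) := by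
      rw [← integral_sub i3 i2]
      refine integral_congr_ae (Filter.Eventually.of_forall fun z => ?_)
      simp only [sub_apply, smul_sub]
    rw [hP, hv, map_add, map_smul, e1, map_smul, e2, e3, e5, Complex.coe_smul, Complex.coe_smul,
      smul_add, smul_sub]
    abel
  rw [e4]
  have b1 : ‖T ((fderiv ℝ χ x).smulRight m)‖ ≤ ‖T‖ * c * ∫ z, rgRho δ z * ‖y (x - z)‖ := by
    have h := T.le_opNorm ((fderiv ℝ χ x).smulRight m)
    rw [ContinuousLinearMap.norm_smulRight_apply] at h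
    have hc0 : 0 ≤ c := (norm_nonneg _).trans (hc x)
    calc _ ≤ ‖T‖ * (‖fderiv ℝ χ x‖ * ‖m‖) := h
      _ ≤ ‖T‖ * (c * ∫ z, rgRho δ z * ‖y (x - z)‖) := by
          refine mul_le_mul_of_nonneg_left (mul_le_mul (hc x) (rgMol_norm_le hδ y x)
            (norm_nonneg _) hc0) T.opNorm_nonneg
      _ = _ := by ring
  have b2 : ‖χ x • ∫ z, rgRho δ z • (W x - W (x - z)) (y (x - z))‖ ≤
      ε * ∫ z, rgRho δ z * ‖y (x - z)‖ := by
    by_cases hx : R' ≤ ‖x‖
    · rw [hR x hx, zero_smul, norm_zero]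
      exact mul_nonneg hε0 hI0
    · rw [norm_smul, Real.norm_of_nonneg (h0 x)]
      have hz : ∀ z, ‖rgRho δ z • (W x - W (x - z)) (y (x - z))‖ ≤
          ε * (rgRho δ z * ‖y (x - z)‖) := by
        intro z
        by_cases hz : 2 * δ ≤ ‖z‖
        · rw [rgRho_zero hδ hz, zero_smul, norm_zero, zero_mul, mul_zero]
        · rw [norm_smul, Real.norm_of_nonneg (rgRho_nonneg hδ z)]
          have h2 := (W x - W (x - z)).le_opNorm (y (x - z))
          have h3 := hε x z (not_le.1 hx).le (not_le.1 hz).le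
          calc _ ≤ rgRho δ z * (ε * ‖y (x - z)‖) :=
                mul_le_mul_of_nonneg_left (h2.trans (mul_le_mul_of_nonneg_right h3
                  (norm_nonneg _))) (rgRho_nonneg hδ z)
            _ = _ := by ring
      have h4 := norm_integral_le_of_norm_le (hI.const_mul ε) (Filter.Eventually.of_forall hz)
      rw [integral_const_mul] at h4
      calc _ ≤ 1 * (ε * ∫ z, rgRho δ z * ‖y (x - z)‖) :=
            mul_le_mul (h1 x) h4 (norm_nonneg _) zero_le_one
        _ = _ := one_mul _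
  calc _ ≤ _ := norm_add_le _ _
    _ ≤ ‖T‖ * c * (∫ z, rgRho δ z * ‖y (x - z)‖) + ε * ∫ z, rgRho δ z * ‖y (x - z)‖ :=
        add_le_add b1 b2
    _ = _ := by ring

theorem rg_core_mul (K : Fk F) {χ : X3 → ℝ} (hχ : ContDiff ℝ ∞ χ)
    (hinv : ∀ U : SU2, ∀ x, χ (act U x) = χ x) {u : X3 → F} (hu : K.Core u) :
    K.Core fun x => ((χ x : ℝ) : ℂ) • u x := by
  have h := Setup.Tst.rsmul hχ (⟨hu.1, hu.2.1⟩ : Setup.Tst u)
  refine ⟨h.1, h.2, fun U x => ?_⟩
  simp only [hinv, hu.2.2, map_smul]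

theorem rg_dual (K : Fk F) {Ψ : X3 → F} (hΨ : MemLp Ψ 2 (volume : Measure X3))
    {P P' : (X3 → F) → X3 → F}
    {T : (X3 →L[ℝ] F) →L[ℝ] F} {W : X3 → F →L[ℂ] F}
    (hP : ∀ w x, P' w x = T (fderiv ℝ w x) + W x (w x)) (hW : Continuous W)
    (hadj : ∀ u v, Setup.Tst u → Setup.Tst v →
      ∫ x, inner ℂ (P u x) (v x) = - ∫ x, inner ℂ (u x) (P' v x))
    (hPc : ∀ u, K.Core u → K.Core (P u)) (hPT : ∀ u, Setup.Tst u → Setup.Tst (P' u))
    (hw : ∀ χ, K.Core χ → ∫ x, inner ℂ (Ψ x) (P' χ x) = 0)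
    {χ : X3 → ℝ} (hχ : ContDiff ℝ ∞ χ) (h0 : ∀ x, 0 ≤ χ x) (h1 : ∀ x, χ x ≤ 1)
    (hcs : HasCompactSupport χ) (hinv : ∀ U : SU2, ∀ x, χ (act U x) = χ x) {R' c : ℝ}
    (hR : ∀ x, R' ≤ ‖x‖ → χ x = 0) (hc : ∀ x, ‖fderiv ℝ χ x‖ ≤ c) {δ : ℝ} (hδ : 0 < δ) {ε : ℝ}
    (hε0 : 0 ≤ ε) (hε : ∀ x z : X3, ‖x‖ ≤ R' → ‖z‖ ≤ 2 * δ → ‖W x - W (x - z)‖ ≤ ε)
    (hfm : MemLp (fun x => χ x • Ψ x) 2 (volume : Measure X3))
    (hu : K.Core (rgMol δ fun x => χ x • Ψ x)) :
    ∫ x, ‖P (rgMol δ fun x => χ x • Ψ x) x‖ ^ 2 ≤ (‖T‖ * c + ε) ^ 2 * ∫ x, ‖Ψ x‖ ^ 2 := by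
  set f : X3 → F := fun x => χ x • Ψ x with hf
  set u := rgMol δ f with hudef
  set y := P u with hydef
  have hy : K.Core y := hPc u hu
  have hyT : Setup.Tst y := ⟨hy.1, hy.2.1⟩
  have huT : Setup.Tst u := ⟨hu.1, hu.2.1⟩
  have hym : MemLp y 2 (volume : Measure X3) := hyT.memLp
  have hmc : K.Core (rgMol δ y) := rgMol_core K hδ hym hy.2.1
    fun U => Filter.Eventually.of_forall (hy.2.2 U)
  have hv : K.Core fun x => ((χ x : ℝ) : ℂ) • rgMol δ y x := rg_core_mul K hχ hinv hmc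
  set v : X3 → F := fun x => ((χ x : ℝ) : ℂ) • rgMol δ y x with hvdef
  have hvT : Setup.Tst v := ⟨hv.1, hv.2.1⟩
  have hP'y : Setup.Tst (P' y) := hPT y hyT
  have hP'ym : MemLp (P' y) 2 (volume : Measure X3) := hP'y.memLp
  set k : ℝ := ‖T‖ * c + ε with hk
  have hc0 : 0 ≤ c := (norm_nonneg _).trans (hc 0)
  have hk0 : 0 ≤ k := by positivity
  set D : X3 → F := fun x => P' v x - ((χ x : ℝ) : ℂ) • rgMol δ (P' y) x with hD
  have hfcs : HasCompactSupport f := hcs.smul_right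
  -- `⟨y, y⟩ = ⟨Ψ, D⟩`
  have g1 : Setup.Tst (rgMol δ (P' y)) := by
    have : CompleteSpace F := FiniteDimensional.complete ℂ F
    exact ⟨rgMol_contDiff hδ (rg_locInt hP'ym), rgMol_cs hδ hP'y.2⟩
  have g2 : Setup.Tst fun x => ((χ x : ℝ) : ℂ) • rgMol δ (P' y) x := Setup.Tst.rsmul hχ g1
  have hDT : Setup.Tst D := (hPT v hvT).sub g2
  have hA : ((∫ x, ‖y x‖ ^ 2 : ℝ) : ℂ) = ∫ x, inner ℂ (Ψ x) (D x) := by
    have s1 : ((∫ x, ‖y x‖ ^ 2 : ℝ) : ℂ) = ∫ x, inner ℂ (P u x) (y x) := by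
      rw [← integral_complex_ofReal]
      exact integral_congr_ae (Filter.Eventually.of_forall fun x => (inner_self_C _).symm)
    have s2 := hadj u y huT hyT
    have s3 := rgMol_inner hδ hfm hfcs hP'y.1.continuous hP'y.2
    have s4 : ∫ x, inner ℂ (f x) (rgMol δ (P' y) x) =
        ∫ x, inner ℂ (Ψ x) (((χ x : ℝ) : ℂ) • rgMol δ (P' y) x) := by
      refine integral_congr_ae (Filter.Eventually.of_forall fun x => ?_)
      simp only [hf]
      rw [← Complex.coe_smul, inner_smul_left, inner_smul_right, Complex.conj_ofReal]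
    have s5 : ∫ x, inner ℂ (Ψ x) (D x) = (∫ x, inner ℂ (Ψ x) (P' v x)) -
        ∫ x, inner ℂ (Ψ x) (((χ x : ℝ) : ℂ) • rgMol δ (P' y) x) := by
      rw [← integral_sub (integrable_inner_memLp hΨ (hPT v hvT).memLp)
        (integrable_inner_memLp hΨ g2.memLp)]
      refine integral_congr_ae (Filter.Eventually.of_forall fun x => ?_)
      simp only [hD, inner_sub_right]
    rw [s1, s2, s3, s4, s5, hw v hv, zero_sub]
  have hDle : ∫ x, ‖D x‖ ^ 2 ≤ k ^ 2 * ∫ x, ‖y x‖ ^ 2 := by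
    obtain ⟨c1, c2⟩ := rg_conv_int hδ hym
    rw [← c2, ← integral_const_mul]
    refine integral_mono hDT.norm_sq_int (c1.const_mul _) fun x => ?_
    have h2 := rg_est hP hW hχ h0 h1 hR hc hδ hε0 hε hyT x
    have h3 := rg_norm_sq_le hδ hym x
    calc ‖D x‖ ^ 2 ≤ (k * ∫ z, rgRho δ z * ‖y (x - z)‖) ^ 2 :=
          pow_le_pow_left₀ (norm_nonneg _) h2 2
      _ = k ^ 2 * (∫ z, rgRho δ z * ‖y (x - z)‖) ^ 2 := by ring
      _ ≤ _ := mul_le_mul_of_nonneg_left h3 (sq_nonneg k)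
  have hcs2 := cs_inner hΨ hDT.memLp
  rw [← hA, Complex.norm_real, Real.norm_of_nonneg (integral_nonneg fun x => by positivity)]
    at hcs2
  set A := ∫ x, ‖y x‖ ^ 2 with hAd
  set B := ∫ x, ‖Ψ x‖ ^ 2 with hBd
  have hA0 : 0 ≤ A := integral_nonneg fun x => by positivity
  have hB0 : 0 ≤ B := integral_nonneg fun x => by positivity
  have h5 : Real.sqrt (∫ x, ‖D x‖ ^ 2) ≤ k * Real.sqrt A := by
    rw [← Real.sqrt_sq hk0, ← Real.sqrt_mul (sq_nonneg k)]
    exact Real.sqrt_le_sqrt hDle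
  have h6 : A ≤ Real.sqrt B * (k * Real.sqrt A) :=
    hcs2.trans (mul_le_mul_of_nonneg_left h5 (Real.sqrt_nonneg _))
  have h7 : Real.sqrt A * Real.sqrt A = A := Real.mul_self_sqrt hA0
  have h8 : Real.sqrt B * Real.sqrt B = B := Real.mul_self_sqrt hB0
  rcases (Real.sqrt_nonneg A).eq_or_lt with h9 | h9
  · rw [← h9, mul_zero] at h7
    rw [← h7]
    positivity
  · have h10 : Real.sqrt A ≤ k * Real.sqrt B := by
      refine le_of_mul_le_mul_right ?_ h9
      rw [h7]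
      linarith
    calc A = Real.sqrt A ^ 2 := by rw [sq, h7]
      _ ≤ (k * Real.sqrt B) ^ 2 := pow_le_pow_left₀ (Real.sqrt_nonneg _) h10 2
      _ = k ^ 2 * B := by rw [mul_pow, sq (Real.sqrt B), h8]

end

section

/-- radial cut-off -/
noncomputable def rgCut (R : ℝ) (x : X3) : ℝ := rgEta (R⁻¹ • x)

theorem exists_rgCut_bound : ∃ C : ℝ, 0 ≤ C ∧ ∀ R : ℝ, 0 < R → ∀ x, ‖fderiv ℝ (rgCut R) x‖ ≤ C / R := by
  have hc : Continuous fun x : X3 => fderiv ℝ rgEta x := rgEta_contDiff.continuous_fderiv (by simp)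
  obtain ⟨C, hC⟩ := (rgEta_cs.fderiv (𝕜 := ℝ)).exists_bound_of_continuous hc
  have hC0 : 0 ≤ C := (norm_nonneg _).trans (hC 0)
  refine ⟨C, hC0, fun R hR x => ?_⟩
  have h1 : HasFDerivAt (fun x : X3 => R⁻¹ • x) (R⁻¹ • ContinuousLinearMap.id ℝ X3) x :=
    (hasFDerivAt_id x).const_smul R⁻¹
  have h2 := ((rgEta_contDiff.differentiable (by simp)) (R⁻¹ • x)).hasFDerivAt.comp x h1
  have h3 : fderiv ℝ (rgCut R) x = _ := h2.fderiv
  rw [h3, ContinuousLinearMap.comp_smul, ContinuousLinearMap.comp_id, norm_smul, norm_inv,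
    Real.norm_of_nonneg hR.le, inv_mul_eq_div]
  exact div_le_div_of_nonneg_right (hC _) hR.le

variable {F : Type*} [NormedAddCommGroup F] [InnerProductSpace ℂ F] [FiniteDimensional ℂ F]

/-- the first order part of `K.DD` -/
noncomputable def rgT (K : Fk F) : (X3 →L[ℝ] F) →L[ℝ] F :=
  (∑ i : Fin 7, ∑ A, ((K.c (e8 i) A).restrictScalars ℝ).comp
    (ContinuousLinearMap.apply ℝ F (EuclideanSpace.single (e9 i, A) (1 : ℝ) : X3))) +
  ∑ A, (((K.c 7 A).restrictScalars ℝ).comp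
    (ContinuousLinearMap.apply ℝ F (EuclideanSpace.single (7, A) (1 : ℝ) : X3)) +
      (((Complex.I * (K.sg : ℂ)) • K.c 7 A).restrictScalars ℝ).comp
    (ContinuousLinearMap.apply ℝ F (EuclideanSpace.single (8, A) (1 : ℝ) : X3)))

/-- the zero order part of `K.DD` -/
noncomputable def rgW (K : Fk F) (x : X3) : F →L[ℂ] F :=
  K.nu • ∑ A, K.ph A x • K.io A x + K.dh x

theorem rg_DD_form (K : Fk F) (w : X3 → F) (x : X3) :
    K.DD w x = rgT K (fderiv ℝ w x) + rgW K x (w x) := by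
  simp only [Fk.DD, Fk.D0, Fk.dd, rgT, rgW, pd, add_apply, smul_apply, sum_apply,
    ContinuousLinearMap.comp_apply, ContinuousLinearMap.coe_restrictScalars',
    ContinuousLinearMap.apply_apply, map_add, map_smul]
  abel

theorem rgW_cont (K : Fk F) : Continuous (rgW K) := by
  have hx : ∀ p : Fin 9 × Fin 3, Continuous fun x : X3 => x p := fun p =>
    (Setup.contDiff_coord p).continuous
  have h1 : ∀ A, Continuous fun x => K.ph A x := by
    intro A
    unfold Fk.ph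
    have := hx (7, A)
    have := hx (8, A)
    fun_prop
  have h2 : ∀ A, Continuous (K.io A) := fun A => (K.contDiff_io A).continuous
  have h3 : Continuous K.dh := by
    unfold Fk.dh Fk.dhc
    fun_prop
  unfold rgW
  fun_prop

end

section

theorem rg_unif {G : Type*} [NormedAddCommGroup G] {W : X3 → G} (hW : Continuous W) (R' : ℝ)
    {ε : ℝ} (hε : 0 < ε) : ∃ δ₀ : ℝ, 0 < δ₀ ∧ ∀ δ ≤ δ₀, ∀ x z : X3, ‖x‖ ≤ R' → ‖z‖ ≤ 2 * δ →
      ‖W x - W (x - z)‖ ≤ ε := by
  have hc : IsCompact (Metric.closedBall (0 : X3) (R' + 2)) := isCompact_closedBall _ _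
  have hu := hc.uniformContinuousOn_of_continuous hW.continuousOn
  obtain ⟨d, hd0, hd⟩ := Metric.uniformContinuousOn_iff.1 hu ε hε
  refine ⟨min (d / 4) 1, by positivity, fun δ hδ x z hx hz => ?_⟩
  have h1 : δ ≤ 1 := hδ.trans (min_le_right _ _)
  have h2 : δ ≤ d / 4 := hδ.trans (min_le_left _ _)
  have m1 : x ∈ Metric.closedBall (0 : X3) (R' + 2) := by
    rw [Metric.mem_closedBall, dist_zero_right]; linarith
  have m2 : x - z ∈ Metric.closedBall (0 : X3) (R' + 2) := by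
    rw [Metric.mem_closedBall, dist_zero_right]
    linarith [norm_sub_le x z]
  have h3 : dist x (x - z) < d := by
    rw [dist_eq_norm, sub_sub_cancel]
    linarith
  have h4 := hd x m1 (x - z) m2 h3
  rw [dist_eq_norm] at h4
  exact h4.le

theorem rgCut_contDiff (R : ℝ) : ContDiff ℝ ∞ (rgCut R) :=
  rgEta_contDiff.comp (contDiff_const_smul _)

theorem rgCut_cs {R : ℝ} (hR : 0 < R) : HasCompactSupport (rgCut R) :=
  rgEta_cs.comp_smul (inv_ne_zero hR.ne')

theorem rgCut_zero {R : ℝ} (hR : 0 < R) {x : X3} (hx : 2 * R ≤ ‖x‖) : rgCut R x = 0 := by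
  rw [rgCut, rgEta_zero]
  rw [norm_smul, norm_inv, Real.norm_of_nonneg hR.le, le_inv_mul_iff₀ hR]
  linarith

theorem rgCut_one {R : ℝ} (hR : 0 < R) {x : X3} (hx : ‖x‖ ≤ R) : rgCut R x = 1 := by
  rw [rgCut, rgEta_one]
  rw [norm_smul, norm_inv, Real.norm_of_nonneg hR.le, inv_mul_le_iff₀ hR]
  linarith

theorem rgCut_act (R : ℝ) (U : SU2) (x : X3) : rgCut R (act U x) = rgCut R x := by
  rw [rgCut, rgCut]
  refine rgEta_congr ?_
  rw [norm_smul, norm_smul, ← actL_apply, (actL U).norm_map]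

variable {F : Type*} [NormedAddCommGroup F] [InnerProductSpace ℂ F] [FiniteDimensional ℂ F]

theorem rg_key (K : Fk F) {Ψ : X3 → F} (hΨ : MemLp Ψ 2 (volume : Measure X3))
    (hcov : ∀ U : SU2, ∀ᵐ x, Ψ (act U x) = K.S U (Ψ x))
    (hw1 : ∀ χ, K.Core χ → ∫ x, inner ℂ (Ψ x) (K.DD χ x) = 0)
    (hw2 : ∀ χ, K.Core χ → ∫ x, inner ℂ (Ψ x) (K.flip.DD χ x) = 0)
    {C : ℝ} (hC0 : 0 ≤ C) (hC : ∀ R : ℝ, 0 < R → ∀ x, ‖fderiv ℝ (rgCut R) x‖ ≤ C / R)
    {R e : ℝ} (hR : 0 < R) (he : 0 < e) :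
    ∃ u : X3 → F, K.Core u ∧ ∫ x, ‖u x - Ψ x‖ ^ 2 ≤
        2 * e + 2 * ∫ x, ‖rgCut R x • Ψ x - Ψ x‖ ^ 2 ∧
      ∫ x, ‖K.DD u x‖ ^ 2 ≤ (‖rgT K.flip‖ * (C / R) + e) ^ 2 * ∫ x, ‖Ψ x‖ ^ 2 ∧
      ∫ x, ‖K.flip.DD u x‖ ^ 2 ≤ (‖rgT K‖ * (C / R) + e) ^ 2 * ∫ x, ‖Ψ x‖ ^ 2 := by
  set f : X3 → F := fun x => rgCut R x • Ψ x with hf
  have hfm : MemLp f 2 (volume : Measure X3) := by
    refine hΨ.mono ((rgCut_contDiff R).continuous.aestronglyMeasurable.smul hΨ.1)
      (Filter.Eventually.of_forall fun x => ?_)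
    simp only [hf]
    have hc0 : 0 ≤ rgCut R x := rgEta_nonneg _
    rw [norm_smul, Real.norm_of_nonneg hc0]
    exact mul_le_of_le_one_left (norm_nonneg _) (rgEta_le_one _)
  have hfc : ∀ U : SU2, ∀ᵐ x, f (act U x) = K.S U (f x) := by
    intro U
    filter_upwards [hcov U] with x hx
    simp only [hf]
    rw [rgCut_act, hx, ← Complex.coe_smul, ← Complex.coe_smul, map_smul]
  have hfs : HasCompactSupport f := (rgCut_cs hR).smul_right
  obtain ⟨d0, hd0, hd0'⟩ := rg_approx hfm he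
  obtain ⟨d1, hd1, hd1'⟩ := rg_unif (rgW_cont K) (2 * R) he
  obtain ⟨d2, hd2, hd2'⟩ := rg_unif (rgW_cont K.flip) (2 * R) he
  set δ := min d0 (min d1 d2) with hδd
  have hδ : 0 < δ := lt_min hd0 (lt_min hd1 hd2)
  have hl0 : δ ≤ d0 := min_le_left _ _
  have hl1 : δ ≤ d1 := (min_le_right _ _).trans (min_le_left _ _)
  have hl2 : δ ≤ d2 := (min_le_right _ _).trans (min_le_right _ _)
  have hu : K.Core (rgMol δ f) := rgMol_core K hδ hfm hfs hfc
  have huT : Setup.Tst (rgMol δ f) := ⟨hu.1, hu.2.1⟩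
  refine ⟨rgMol δ f, hu, ?_, ?_, ?_⟩
  · have h1 := hd0' δ hδ hl0
    have m1 : MemLp (fun x => rgMol δ f x - f x) 2 (volume : Measure X3) := huT.memLp.sub hfm
    have m2 : MemLp (fun x => f x - Ψ x) 2 (volume : Measure X3) := hfm.sub hΨ
    have m3 : MemLp (fun x => rgMol δ f x - Ψ x) 2 (volume : Measure X3) := huT.memLp.sub hΨ
    have i1 := (memLp_norm_sq_int m1).const_mul 2
    have i2 := (memLp_norm_sq_int m2).const_mul 2
    have h2 : ∀ x, ‖rgMol δ f x - Ψ x‖ ^ 2 ≤ 2 * ‖rgMol δ f x - f x‖ ^ 2 + 2 * ‖f x - Ψ x‖ ^ 2 := by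
      intro x
      have h3 : ‖rgMol δ f x - Ψ x‖ ≤ ‖rgMol δ f x - f x‖ + ‖f x - Ψ x‖ := by
        have := norm_add_le (rgMol δ f x - f x) (f x - Ψ x)
        rwa [sub_add_sub_cancel] at this
      nlinarith [sq_nonneg (‖rgMol δ f x - f x‖ - ‖f x - Ψ x‖), norm_nonneg (rgMol δ f x - Ψ x),
        norm_nonneg (rgMol δ f x - f x), norm_nonneg (f x - Ψ x)]
    refine (integral_mono (memLp_norm_sq_int m3) (i1.add i2) h2).trans ?_
    simp only [Pi.add_apply]
    rw [integral_add i1 i2, integral_const_mul, integral_const_mul]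
    linarith
  · exact rg_dual K hΨ (P := K.DD) (P' := K.flip.DD) (rg_DD_form K.flip) (rgW_cont K.flip)
      (fun u v hu hv => K.DD_adj hu.1 hv) (fun u hu => K.core_DD hu) (fun u hu => K.flip.tst_DD hu)
      hw2 (rgCut_contDiff R) (fun x => rgEta_nonneg _) (fun x => rgEta_le_one _) (rgCut_cs hR)
      (rgCut_act R) (fun x hx => rgCut_zero hR hx) (hC R hR) hδ he.le (hd2' δ hl2) hfm hu
  · refine rg_dual K hΨ (P := K.flip.DD) (P' := K.DD) (rg_DD_form K) (rgW_cont K)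
      (fun u v hu hv => ?_) (fun u hu => K.flip.core_DD hu) (fun u hu => K.tst_DD hu)
      hw1 (rgCut_contDiff R) (fun x => rgEta_nonneg _) (fun x => rgEta_le_one _) (rgCut_cs hR)
      (rgCut_act R) (fun x hx => rgCut_zero hR hx) (hC R hR) hδ he.le (hd1' δ hl1) hfm hu
    have h1 := K.DD_adj hv.1 hu
    have h2 : ∫ x, inner ℂ (K.flip.DD u x) (v x) =
        (starRingEnd ℂ) (∫ x, inner ℂ (v x) (K.flip.DD u x)) := by
      rw [← integral_conj]
      exact integral_congr_ae (Filter.Eventually.of_forall fun x => (rg_inner_conj _ _).symm)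
    have h3 : ∫ x, inner ℂ (u x) (K.DD v x) =
        (starRingEnd ℂ) (∫ x, inner ℂ (K.DD v x) (u x)) := by
      rw [← integral_conj]
      exact integral_congr_ae (Filter.Eventually.of_forall fun x => (rg_inner_conj _ _).symm)
    rw [h2, h3, h1, map_neg, neg_neg]

theorem Fk.exists_approx (K : Fk F) {Ψ : Lp F 2 (volume : Measure X3)} (h : K.WeakZM Ψ) :
    ∃ u : ℕ → X3 → F, (∀ n, K.Core (u n)) ∧
      Tendsto (fun n => ∫ x, ‖u n x - Ψ x‖ ^ 2) atTop (𝓝 0) ∧
      Tendsto (fun n => ∫ x, ‖K.DD (u n) x‖ ^ 2) atTop (𝓝 0) ∧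
      Tendsto (fun n => ∫ x, ‖K.flip.DD (u n) x‖ ^ 2) atTop (𝓝 0) := by
  obtain ⟨hcov, hw1, hw2⟩ := h
  have hΨ : MemLp (Ψ : X3 → F) 2 (volume : Measure X3) := Lp.memLp Ψ
  obtain ⟨C, hC0, hC⟩ := exists_rgCut_bound
  have hn : ∀ n : ℕ, (0 : ℝ) < n + 1 := fun n => by positivity
  have hk := fun n : ℕ => rg_key K hΨ hcov hw1 hw2 hC0 hC (hn n) (one_div_pos.2 (hn n))
  choose u hu1 hu2 hu3 hu4 using hk
  have hlim := tendsto_one_div_add_atTop_nhds_zero_nat (𝕜 := ℝ)
  have hq : ∀ a : ℝ, Tendsto (fun n : ℕ => (a * (C / ((n : ℝ) + 1)) + 1 / ((n : ℝ) + 1)) ^ 2 *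
      ∫ x, ‖Ψ x‖ ^ 2) atTop (𝓝 0) := by
    intro a
    have h1 : Tendsto (fun n : ℕ => ((a * C + 1) * (1 / ((n : ℝ) + 1))) ^ 2 *
        ∫ x, ‖Ψ x‖ ^ 2) atTop (𝓝 (((a * C + 1) * 0) ^ 2 * ∫ x, ‖Ψ x‖ ^ 2)) :=
      ((hlim.const_mul _).pow 2).mul_const _
    rw [mul_zero, zero_pow two_ne_zero, zero_mul] at h1
    refine h1.congr fun n => ?_
    have := (hn n).ne'
    field_simp
  refine ⟨u, hu1, ?_, ?_, ?_⟩
  · have hcutlim : Tendsto (fun n : ℕ => ∫ x, ‖rgCut ((n : ℝ) + 1) x • Ψ x - Ψ x‖ ^ 2) atTop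
        (𝓝 0) := by
      have h0 : (∫ _ : X3, (0 : ℝ)) = 0 := integral_zero _ _
      rw [← h0]
      refine tendsto_integral_of_dominated_convergence (fun x => ‖Ψ x‖ ^ 2) (fun n => ?_)
        (memLp_norm_sq_int hΨ) (fun n => Filter.Eventually.of_forall fun x => ?_)
        (Filter.Eventually.of_forall fun x => ?_)
      · exact ((((rgCut_contDiff _).continuous.aestronglyMeasurable.smul hΨ.1).sub hΨ.1).norm).pow 2
      · have e : rgCut ((n : ℝ) + 1) x • Ψ x - Ψ x = -((1 - rgCut ((n : ℝ) + 1) x) • Ψ x) := by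
          rw [sub_smul, one_smul]; abel
        have h1 : rgCut ((n : ℝ) + 1) x ≤ 1 := rgEta_le_one _
        have h2 : 0 ≤ rgCut ((n : ℝ) + 1) x := rgEta_nonneg _
        rw [e, norm_neg, norm_smul, Real.norm_of_nonneg (by positivity),
          Real.norm_of_nonneg (by linarith)]
        refine pow_le_pow_left₀ (mul_nonneg (by linarith) (norm_nonneg _)) ?_ 2
        exact mul_le_of_le_one_left (norm_nonneg _) (by linarith)
      · refine tendsto_const_nhds.congr' ?_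
        obtain ⟨N, hN⟩ := exists_nat_ge ‖x‖
        filter_upwards [eventually_ge_atTop N] with n hnN
        have h3 : ‖x‖ ≤ (n : ℝ) + 1 := by
          have : (N : ℝ) ≤ n := by exact_mod_cast hnN
          linarith
        rw [rgCut_one (hn n) h3, one_smul, sub_self, norm_zero]
        norm_num
    have h4 : Tendsto (fun n : ℕ => 2 * (1 / ((n : ℝ) + 1)) +
        2 * ∫ x, ‖rgCut ((n : ℝ) + 1) x • Ψ x - Ψ x‖ ^ 2) atTop (𝓝 0) := by
      simpa using (hlim.const_mul 2).add (hcutlim.const_mul 2)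
    exact squeeze_zero (fun n => integral_nonneg fun x => by positivity) hu2 h4
  · exact squeeze_zero (fun n => integral_nonneg fun x => by positivity) hu3 (hq _)
  · exact squeeze_zero (fun n => integral_nonneg fun x => by positivity) hu4 (hq _)

end

section

variable {F : Type*} [NormedAddCommGroup F] [InnerProductSpace ℂ F] [FiniteDimensional ℂ F]

/-! ### zero-energy states from approximations -/

omit [FiniteDimensional ℂ F] in
private theorem rg_form_ofReal (M : Model 2 3 F) (u : X3 → F) :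
    M.form u u = (((M.form u u).re : ℝ) : ℂ) := by
  rw [form_eq]
  have h : ∀ α, ∫ x, inner ℂ ((M.toSetup).Q α u x) ((M.toSetup).Q α u x) =
      ((∫ x, ‖(M.toSetup).Q α u x‖ ^ 2 : ℝ) : ℂ) := by
    intro α
    rw [← integral_complex_ofReal]
    exact integral_congr_ae (Filter.Eventually.of_forall fun x => inner_self_C _)
  simp only [h]
  rw [← Complex.ofReal_sum]
  have e : (1 / 16 : ℂ) = ((1 / 16 : ℝ) : ℂ) := by norm_num
  rw [e, ← Complex.ofReal_mul, Complex.ofReal_re]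

omit [FiniteDimensional ℂ F] in
private theorem rg_DD_sub (K : Fk F) {u v : X3 → F} {x : X3} (hu : DifferentiableAt ℝ u x)
    (hv : DifferentiableAt ℝ v x) : K.DD (u - v) x = K.DD u x - K.DD v x := by
  have h : ∀ i A, pd i A (u - v) x = pd i A u x - pd i A v x := fun i A => pd_sub hu hv
  simp only [Fk.DD, Fk.D0, Fk.dd, h, Pi.sub_apply, map_sub, smul_sub, Finset.sum_sub_distrib,
    map_add, map_smul, Finset.sum_add_distrib]
  abel

omit [InnerProductSpace ℂ F] [FiniteDimensional ℂ F] in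
private theorem rg_sq_sub (a b : F) : ‖a - b‖ ^ 2 ≤ 2 * ‖a‖ ^ 2 + 2 * ‖b‖ ^ 2 := by
  have h1 := norm_sub_le a b
  have h2 := norm_nonneg (a - b)
  nlinarith [sq_nonneg (‖a‖ - ‖b‖), norm_nonneg a, norm_nonneg b]

theorem Link.zes_of_approx {M : Model 2 3 F} {s : Spin M.γ} {K : Fk F} (L : Link M s K)
    {Ψ : Lp F 2 (volume : Measure X3)} {u : ℕ → X3 → F} (hu : ∀ n, K.Core (u n))
    (h1 : Tendsto (fun n => ∫ x, ‖u n x - Ψ x‖ ^ 2) atTop (𝓝 0))
    (h2 : Tendsto (fun n => ∫ x, ‖K.DD (u n) x‖ ^ 2) atTop (𝓝 0))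
    (h3 : Tendsto (fun n => ∫ x, ‖K.flip.DD (u n) x‖ ^ 2) atTop (𝓝 0)) :
    M.IsZeroEnergyState Ψ := by
  have hT : ∀ n, Setup.Tst (u n) := fun n => ⟨(hu n).1, (hu n).2.1⟩
  have hE : Tendsto (fun n => (M.form (u n) (u n)).re) atTop (𝓝 0) := by
    have h4 := (h2.add h3).const_mul (1 / 2 : ℝ)
    rw [add_zero, mul_zero] at h4
    exact h4.congr fun n => (L.form_eq (hT n)).symm
  refine ⟨u, fun n => (L.core_iff (u n)).2 (hu n), h1, ?_, ?_⟩
  · -- Cauchy
    have hb : ∀ p : ℕ × ℕ, ‖M.form (u p.1 - u p.2) (u p.1 - u p.2)‖ ≤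
        2 * (M.form (u p.1) (u p.1)).re + 2 * (M.form (u p.2) (u p.2)).re := by
      intro p
      have hsub : Setup.Tst (u p.1 - u p.2) := (hT p.1).sub (hT p.2)
      rw [rg_form_ofReal, Complex.norm_real, Real.norm_of_nonneg (form_self_nonneg M _),
        L.form_eq hsub, L.form_eq (hT p.1), L.form_eq (hT p.2)]
      have hk : ∀ K' : Fk F, ∫ x, ‖K'.DD (u p.1 - u p.2) x‖ ^ 2 ≤
          2 * (∫ x, ‖K'.DD (u p.1) x‖ ^ 2) + 2 * ∫ x, ‖K'.DD (u p.2) x‖ ^ 2 := by
        intro K'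
        have i1 := (K'.tst_DD (hT p.1)).norm_sq_int
        have i2 := (K'.tst_DD (hT p.2)).norm_sq_int
        have i3 := (K'.tst_DD hsub).norm_sq_int
        rw [← integral_const_mul, ← integral_const_mul, ← integral_add (i1.const_mul 2)
          (i2.const_mul 2)]
        refine integral_mono i3 ((i1.const_mul 2).add (i2.const_mul 2)) fun x => ?_
        simp only
        rw [rg_DD_sub K' ((hT p.1).diff x) ((hT p.2).diff x)]
        exact rg_sq_sub _ _
      have a1 := hk K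
      have a2 := hk K.flip
      linarith
    have hlim : Tendsto (fun p : ℕ × ℕ => 2 * (M.form (u p.1) (u p.1)).re +
        2 * (M.form (u p.2) (u p.2)).re) atTop (𝓝 0) := by
      have h5 : Tendsto (fun p : ℕ × ℕ => (M.form (u p.1) (u p.1)).re) atTop (𝓝 0) := by
        rw [← prod_atTop_atTop_eq]
        exact hE.comp tendsto_fst
      have h6 : Tendsto (fun p : ℕ × ℕ => (M.form (u p.2) (u p.2)).re) atTop (𝓝 0) := by
        rw [← prod_atTop_atTop_eq]
        exact hE.comp tendsto_snd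
      simpa using (h5.const_mul 2).add (h6.const_mul 2)
    exact squeeze_zero_norm hb hlim
  · intro φ hφ
    have hφT : Setup.Tst φ := ⟨hφ.1, hφ.2.1⟩
    have hb : ∀ n, ‖M.form φ (u n)‖ ≤ (1 / 16 : ℝ) * ∑ α,
        Real.sqrt (∫ x, ‖(M.toSetup).Q α φ x‖ ^ 2) *
          Real.sqrt (∫ x, ‖(M.toSetup).Q α (u n) x‖ ^ 2) := by
      intro n
      rw [_root_.Vale.Agent.P353.form_eq, norm_mul]
      have e : ‖(1 / 16 : ℂ)‖ = 1 / 16 := by norm_num
      rw [e]
      refine mul_le_mul_of_nonneg_left ((norm_sum_le _ _).trans (Finset.sum_le_sum fun α _ => ?_))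
        (by norm_num)
      exact cs_inner (hφT.Q _ α).memLp ((hT n).Q _ α).memLp
    have hz : ∀ α, Tendsto (fun n => ∫ x, ‖(M.toSetup).Q α (u n) x‖ ^ 2) atTop (𝓝 0) := by
      intro α
      have h16 : Tendsto (fun n => 16 * (M.form (u n) (u n)).re) atTop (𝓝 0) := by
        simpa using hE.const_mul 16
      refine squeeze_zero (fun n => integral_nonneg fun x => by positivity) (fun n => ?_) h16
      rw [form_self_re]
      have h1 : ∫ x, ‖(M.toSetup).Q α (u n) x‖ ^ 2 ≤ ∑ α, ∫ x, ‖(M.toSetup).Q α (u n) x‖ ^ 2 :=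
        Finset.single_le_sum (f := fun α => ∫ x, ‖(M.toSetup).Q α (u n) x‖ ^ 2)
          (fun α _ => integral_nonneg fun x => by positivity) (Finset.mem_univ α)
      linarith
    refine squeeze_zero_norm hb ?_
    have hs : ∀ α, Tendsto (fun n => Real.sqrt (∫ x, ‖(M.toSetup).Q α φ x‖ ^ 2) *
          Real.sqrt (∫ x, ‖(M.toSetup).Q α (u n) x‖ ^ 2)) atTop (𝓝 0) := by
      intro α
      have h7 := (Real.continuous_sqrt.tendsto 0).comp (hz α)
      rw [Real.sqrt_zero] at h7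
      simpa using h7.const_mul (Real.sqrt (∫ x, ‖(M.toSetup).Q α φ x‖ ^ 2))
    have h8 := (tendsto_finsetSum Finset.univ fun α _ => hs α).const_mul (1 / 16 : ℝ)
    simpa using h8

end

end Vale.Agent.P353.Ex
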