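import Vale.Agent.P353.Ex.SpinDef

/-! Task EX-02: the unit spinor and the cross product.

Proof.  Take a real vector `r` with `γ⁷ r = r`, `|r|² = 1/2` (a column of `1 + γ⁷`, which is not
zero because `γ⁷` anticommutes with the invertible `γ⁰`; normalise).  Put `e = r + i γ⁸ r`.
Then `γ⁷ e = r - i γ⁸ r = ē`, `γ⁸ e = i ē`.  The 16 real vectors `r, γ^k γ⁸ r` (`γ⁷ = +1`),
`γ⁸ r, γ^k r` (`γ⁷ = -1`), `k < 7`, are orthogonal of norm² `1/2`: products `γ^iγ^j`, `i ≠ j`,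
are antisymmetric, so `r·γ^iγ^j r = 0`, and `γ⁷`-eigenspaces are orthogonal.  Hence they form a
basis of `ℝ¹⁶` (`compl` = completeness: a square matrix `A Aᵀ = 1` has `Aᵀ A = 1`).
`t k i j = -2 r·γ⁸γ^kγ^iγ^j r`.  For `i ≠ j` the vector `γ^iγ^j r` is in the `+1` eigenspace of
`γ⁷` and orthogonal to `r`, so `γ^iγ^j r = - ∑_k t k i j γ^kγ⁸ r` by completeness.
`t` is totally antisymmetric: a product of 4 distinct gammas is symmetric; if two indices agree the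
product is (up to sign) `γ^iγ^j` or `γ⁸γ^k`, antisymmetric, so `t = 0`.
`t_norm`: for `x, y ∈ ℝ⁷`: `|γ(x)γ(y) r|² = |x|²|y|²/2` and
`γ(x)γ(y) r = (x·y) r - ∑_k (x×y)_k γ^kγ⁸ r`. -/

open MeasureTheory Filter Topology
open scoped ContDiff ComplexConjugate

namespace Vale.Agent.P353.Ex

namespace ExS

open Matrix

variable {γ : Fin 9 → Matrix (Fin 16) (Fin 16) ℝ}

/-- the hypotheses on the gamma matrices and the real vector `r` -/
structure Hyp (γ : Fin 9 → Matrix (Fin 16) (Fin 16) ℝ) (r : Fin 16 → ℝ) : Prop where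
  hs : ∀ i, (γ i).transpose = γ i
  ha : ∀ i j, γ i * γ j + γ j * γ i = if i = j then 2 else 0
  r7 : γ 7 *ᵥ r = r
  rr : r ⬝ᵥ r = 1 / 2

theorem sq (ha : ∀ i j, γ i * γ j + γ j * γ i = if i = j then 2 else 0) (i : Fin 9) :
    γ i * γ i = 1 := by
  have h := ha i i
  rw [if_pos rfl] at h
  ext a b
  have h2 := congrFun (congrFun h a) b
  rw [Matrix.add_apply] at h2
  have h3 : (2 : Matrix (Fin 16) (Fin 16) ℝ) a b = 2 * (1 : Matrix (Fin 16) (Fin 16) ℝ) a b := by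
    rw [← one_add_one_eq_two, Matrix.add_apply]
    ring
  linarith

/-- the real vector `r` -/
theorem exists_r (hs : ∀ i, (γ i).transpose = γ i)
    (ha : ∀ i j, γ i * γ j + γ j * γ i = if i = j then 2 else 0) : ∃ r, Hyp γ r := by
  have h1 : (1 + γ 7) ≠ 0 := by
    intro h
    have h7 : γ 7 = -1 := eq_neg_of_add_eq_zero_right h
    have h0 := ha 0 7
    rw [if_neg (by decide), h7] at h0
    have h2 : γ 0 = 0 := by
      ext a b
      have := congrFun (congrFun h0 a) b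
      simp only [mul_neg, mul_one, neg_mul, one_mul, Matrix.add_apply, Matrix.neg_apply,
        Matrix.zero_apply] at this
      rw [Matrix.zero_apply]
      linarith
    have h3 := sq ha 0
    rw [h2, mul_zero] at h3
    have h4 := congrFun (congrFun h3 0) 0
    simp at h4
  obtain ⟨a, b, hab⟩ : ∃ a b, (1 + γ 7) a b ≠ 0 := by
    by_contra hcon
    push Not at hcon
    exact h1 (by ext a b; simpa using hcon a b)
  set v : Fin 16 → ℝ := (1 + γ 7) *ᵥ Pi.single b 1 with hv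
  have hva : v a ≠ 0 := by
    rw [hv, Matrix.mulVec_single_one]
    exact hab
  have hv7 : γ 7 *ᵥ v = v := by
    rw [hv, Matrix.mulVec_mulVec, mul_add, mul_one, sq ha 7, add_comm]
  have hvv : 0 < v ⬝ᵥ v := by
    have h2 : v a ^ 2 ≤ v ⬝ᵥ v := by
      rw [dotProduct]
      refine (le_of_eq (pow_two (v a))).trans ?_
      exact Finset.single_le_sum (f := fun i => v i * v i) (fun i _ => mul_self_nonneg _)
        (Finset.mem_univ a)
    exact (sq_pos_of_ne_zero hva).trans_le h2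
  refine ⟨(√(2 * (v ⬝ᵥ v)))⁻¹ • v, hs, ha, ?_, ?_⟩
  · rw [Matrix.mulVec_smul, hv7]
  · rw [smul_dotProduct, dotProduct_smul, smul_eq_mul, smul_eq_mul, ← mul_assoc, ← mul_inv,
      Real.mul_self_sqrt (by positivity)]
    field_simp

namespace Hyp

variable {r : Fin 16 → ℝ} (h : Hyp γ r)
include h

theorem sqv (i : Fin 9) (v : Fin 16 → ℝ) : γ i *ᵥ (γ i *ᵥ v) = v := by
  rw [Matrix.mulVec_mulVec, sq h.ha, Matrix.one_mulVec]

theorem anti {i j : Fin 9} (hij : i ≠ j) (v : Fin 16 → ℝ) :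
    γ i *ᵥ (γ j *ᵥ v) = -(γ j *ᵥ (γ i *ᵥ v)) := by
  rw [Matrix.mulVec_mulVec, Matrix.mulVec_mulVec, ← Matrix.neg_mulVec]
  congr 1
  have := h.ha i j
  rw [if_neg hij] at this
  exact eq_neg_of_add_eq_zero_left this

theorem sym (i : Fin 9) (v w : Fin 16 → ℝ) : (γ i *ᵥ v) ⬝ᵥ w = v ⬝ᵥ (γ i *ᵥ w) := by
  rw [Matrix.dotProduct_mulVec, ← Matrix.mulVec_transpose, h.hs]

/-- `γ^i v · γ^j v = δ_ij |v|²` -/
theorem dot2 (i j : Fin 9) (v : Fin 16 → ℝ) :
    (γ i *ᵥ v) ⬝ᵥ (γ j *ᵥ v) = if i = j then v ⬝ᵥ v else 0 := by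
  split_ifs with hij
  · rw [hij, h.sym, h.sqv]
  · have h1 : (γ i *ᵥ v) ⬝ᵥ (γ j *ᵥ v) = -((γ i *ᵥ v) ⬝ᵥ (γ j *ᵥ v)) := by
      conv_lhs => rw [h.sym, h.anti hij, dotProduct_neg, ← h.sym, dotProduct_comm]
    linarith

/-- `v · γ^i γ^j v = δ_ij |v|²` -/
theorem dot2' (i j : Fin 9) (v : Fin 16 → ℝ) :
    v ⬝ᵥ (γ i *ᵥ (γ j *ᵥ v)) = if i = j then v ⬝ᵥ v else 0 := by
  rw [← h.sym, h.dot2]

theorem eig {v w : Fin 16 → ℝ} (hv : γ 7 *ᵥ v = v) (hw : γ 7 *ᵥ w = -w) : v ⬝ᵥ w = 0 := by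
  have h1 := h.sym 7 v w
  rw [hv, hw, dotProduct_neg] at h1
  linarith

theorem eig' {v w : Fin 16 → ℝ} (hv : γ 7 *ᵥ v = -v) (hw : γ 7 *ᵥ w = w) : v ⬝ᵥ w = 0 := by
  rw [dotProduct_comm]
  exact h.eig hw hv

end Hyp

theorem ne7 (i : Fin 7) : e9 i ≠ 7 := by
  intro h
  have := congrArg Fin.val h
  simp at this
  omega

theorem ne8 (i : Fin 7) : e9 i ≠ 8 := by
  intro h
  have := congrArg Fin.val h
  simp at this
  omega

theorem e9_eq (i j : Fin 7) : e9 i = e9 j ↔ i = j := by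
  constructor
  · intro h
    have := congrArg Fin.val h
    exact Fin.ext (by simpa using this)
  · rintro rfl
    rfl

/-- the real parts of the frame -/
noncomputable def A (γ : Fin 9 → Matrix (Fin 16) (Fin 16) ℝ) (r : Fin 16 → ℝ) :
    Fin 8 → Fin 16 → ℝ :=
  Fin.lastCases r fun k : Fin 7 => γ (e9 k) *ᵥ r

/-- the imaginary parts of the frame -/
noncomputable def B (γ : Fin 9 → Matrix (Fin 16) (Fin 16) ℝ) (r : Fin 16 → ℝ) :
    Fin 8 → Fin 16 → ℝ :=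
  Fin.lastCases (-(γ 8 *ᵥ r)) fun k : Fin 7 => γ (e9 k) *ᵥ (γ 8 *ᵥ r)

variable {r : Fin 16 → ℝ}

@[simp] theorem A_last : A γ r (Fin.last 7) = r := by
  unfold A
  rw [Fin.lastCases_last]

@[simp] theorem A_cast (k : Fin 7) : A γ r k.castSucc = γ (e9 k) *ᵥ r := by
  unfold A
  rw [Fin.lastCases_castSucc]

@[simp] theorem B_last : B γ r (Fin.last 7) = -(γ 8 *ᵥ r) := by
  unfold B
  rw [Fin.lastCases_last]

@[simp] theorem B_cast (k : Fin 7) : B γ r k.castSucc = γ (e9 k) *ᵥ (γ 8 *ᵥ r) := by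
  unfold B
  rw [Fin.lastCases_castSucc]

namespace Hyp

variable (h : Hyp γ r)
include h

theorem s7 : γ 7 *ᵥ (γ 8 *ᵥ r) = -(γ 8 *ᵥ r) := by
  rw [h.anti (by decide), h.r7]

theorem ss : (γ 8 *ᵥ r) ⬝ᵥ (γ 8 *ᵥ r) = 1 / 2 := by
  rw [h.dot2, if_pos rfl, h.rr]

theorem a7 (k : Fin 7) : γ 7 *ᵥ (γ (e9 k) *ᵥ r) = -(γ (e9 k) *ᵥ r) := by
  rw [h.anti (ne7 k).symm, h.r7]

theorem b7 (k : Fin 7) : γ 7 *ᵥ (γ (e9 k) *ᵥ (γ 8 *ᵥ r)) = γ (e9 k) *ᵥ (γ 8 *ᵥ r) := by
  rw [h.anti (ne7 k).symm, h.s7, Matrix.mulVec_neg, neg_neg]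

theorem AA (i j : Fin 8) : A γ r i ⬝ᵥ A γ r j = if i = j then 1 / 2 else 0 := by
  induction i using Fin.lastCases with
  | last =>
    induction j using Fin.lastCases with
    | last => rw [A_last, if_pos rfl, h.rr]
    | cast j =>
      rw [A_last, A_cast, if_neg (Fin.castSucc_lt_last j).ne']
      exact h.eig h.r7 (h.a7 j)
  | cast i =>
    induction j using Fin.lastCases with
    | last =>
      rw [A_last, A_cast, if_neg (Fin.castSucc_lt_last i).ne]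
      exact h.eig' (h.a7 i) h.r7
    | cast j =>
      rw [A_cast, A_cast, h.dot2, h.rr]
      exact if_congr ((e9_eq i j).trans (Fin.castSucc_inj).symm) rfl rfl

theorem BB (i j : Fin 8) : B γ r i ⬝ᵥ B γ r j = if i = j then 1 / 2 else 0 := by
  induction i using Fin.lastCases with
  | last =>
    induction j using Fin.lastCases with
    | last => rw [B_last, if_pos rfl, neg_dotProduct_neg, h.ss]
    | cast j =>
      rw [B_last, B_cast, if_neg (Fin.castSucc_lt_last j).ne', neg_dotProduct]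
      rw [h.eig' h.s7 (h.b7 j), neg_zero]
  | cast i =>
    induction j using Fin.lastCases with
    | last =>
      rw [B_last, B_cast, if_neg (Fin.castSucc_lt_last i).ne, dotProduct_neg]
      rw [h.eig (h.b7 i) h.s7, neg_zero]
    | cast j =>
      rw [B_cast, B_cast, h.dot2, h.ss]
      exact if_congr ((e9_eq i j).trans (Fin.castSucc_inj).symm) rfl rfl

theorem AB (i j : Fin 8) : A γ r i ⬝ᵥ B γ r j = 0 := by
  induction i using Fin.lastCases with
  | last =>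
    induction j using Fin.lastCases with
    | last => rw [A_last, B_last, dotProduct_neg, h.eig h.r7 h.s7, neg_zero]
    | cast j =>
      rw [A_last, B_cast, h.dot2', if_neg (ne8 j)]
  | cast i =>
    induction j using Fin.lastCases with
    | last =>
      rw [B_last, A_cast, dotProduct_neg, h.dot2, if_neg (ne8 i), neg_zero]
    | cast j =>
      rw [A_cast, B_cast]
      exact h.eig' (h.a7 i) (h.b7 j)

theorem BA (i j : Fin 8) : B γ r i ⬝ᵥ A γ r j = 0 := by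
  rw [dotProduct_comm, h.AB]

/-- completeness -/
theorem compl (α β : Fin 16) : ∑ i, (A γ r i α * A γ r i β + B γ r i α * B γ r i β) =
    if α = β then 1 / 2 else 0 := by
  let M : Matrix (Fin 8 ⊕ Fin 8) (Fin 16) ℝ := Matrix.of (Sum.elim (A γ r) (B γ r))
  have h1 : M * ((2 : ℝ) • Mᵀ) = 1 := by
    rw [Matrix.mul_smul]
    ext p q
    rw [Matrix.smul_apply, Matrix.mul_apply, Matrix.one_apply, smul_eq_mul]
    rcases p with i | i <;> rcases q with j | j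
    · have := h.AA i j
      rw [dotProduct] at this
      simp only [M, Matrix.of_apply, Matrix.transpose_apply, Sum.elim_inl, Sum.inl.injEq]
      rw [this]
      split_ifs <;> norm_num
    · have := h.AB i j
      rw [dotProduct] at this
      simp only [M, Matrix.of_apply, Matrix.transpose_apply, Sum.elim_inl, Sum.elim_inr,
        reduceCtorEq, if_false]
      rw [this, mul_zero]
    · have := h.BA i j
      rw [dotProduct] at this
      simp only [M, Matrix.of_apply, Matrix.transpose_apply, Sum.elim_inl, Sum.elim_inr,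
        reduceCtorEq, if_false]
      rw [this, mul_zero]
    · have := h.BB i j
      rw [dotProduct] at this
      simp only [M, Matrix.of_apply, Matrix.transpose_apply, Sum.elim_inr, Sum.inr.injEq]
      rw [this]
      split_ifs <;> norm_num
  have h2 : ((2 : ℝ) • Mᵀ) * M = 1 :=
    (Matrix.mul_eq_one_comm_of_card_eq _ _ _ (by simp)).1 h1
  have h3 := congrFun (congrFun h2 α) β
  rw [Matrix.smul_mul, Matrix.smul_apply, Matrix.mul_apply, Matrix.one_apply, smul_eq_mul,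
    Fintype.sum_sum_type] at h3
  simp only [M, Matrix.of_apply, Matrix.transpose_apply, Sum.elim_inl, Sum.elim_inr] at h3
  rw [Finset.sum_add_distrib]
  split_ifs at h3 ⊢ <;> linarith

/-- expansion in the frame -/
theorem expand (v : Fin 16 → ℝ) (α : Fin 16) :
    v α = 2 * ∑ i, ((A γ r i ⬝ᵥ v) * A γ r i α + (B γ r i ⬝ᵥ v) * B γ r i α) := by
  have h1 : ∑ i, ((A γ r i ⬝ᵥ v) * A γ r i α + (B γ r i ⬝ᵥ v) * B γ r i α) =
      ∑ β, (∑ i, (A γ r i α * A γ r i β + B γ r i α * B γ r i β)) * v β := by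
    simp only [dotProduct, Finset.sum_mul]
    rw [Finset.sum_comm]
    refine Finset.sum_congr rfl fun i _ => ?_
    rw [← Finset.sum_add_distrib]
    exact Finset.sum_congr rfl fun β _ => by ring
  rw [h1]
  simp only [h.compl, ite_mul, zero_mul, Finset.sum_ite_eq, Finset.mem_univ, if_true]
  ring

end Hyp

/-- the structure constants -/
noncomputable def tt (γ : Fin 9 → Matrix (Fin 16) (Fin 16) ℝ) (r : Fin 16 → ℝ) (k i j : Fin 7) :
    ℝ := -2 * ((γ (e9 k) *ᵥ (γ 8 *ᵥ r)) ⬝ᵥ (γ (e9 i) *ᵥ (γ (e9 j) *ᵥ r)))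

namespace Hyp

variable (h : Hyp γ r)
include h

/-- anticommutation, all indices -/
theorem acom (i j : Fin 7) (v : Fin 16 → ℝ) :
    γ (e9 i) *ᵥ (γ (e9 j) *ᵥ v) = (if i = j then (2 : ℝ) • v else 0) -
      γ (e9 j) *ᵥ (γ (e9 i) *ᵥ v) := by
  by_cases hij : i = j
  · rw [hij, if_pos rfl, h.sqv, two_smul, add_sub_cancel_right]
  · rw [if_neg hij, h.anti (fun hh => hij ((e9_eq i j).1 hh)), zero_sub]

theorem b_r (k : Fin 7) : (γ (e9 k) *ᵥ (γ 8 *ᵥ r)) ⬝ᵥ r = 0 := by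
  rw [dotProduct_comm, h.dot2', if_neg (ne8 k)]

theorem tt_swap (k i j : Fin 7) : tt γ r k i j = -tt γ r k j i := by
  unfold tt
  rw [h.acom i j, dotProduct_sub]
  have h1 : (γ (e9 k) *ᵥ (γ 8 *ᵥ r)) ⬝ᵥ (if i = j then (2 : ℝ) • r else 0) = 0 := by
    split_ifs
    · rw [dotProduct_smul, h.b_r, smul_zero]
    · exact dotProduct_zero _
  rw [h1]
  ring

/-- `t k i j` as a symmetric expression -/
theorem tt_eq (k i j : Fin 7) : tt γ r k i j =
    -2 * ((γ 8 *ᵥ r) ⬝ᵥ (γ (e9 k) *ᵥ (γ (e9 i) *ᵥ (γ (e9 j) *ᵥ r)))) := by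
  unfold tt
  rw [h.sym]

theorem s_a (k : Fin 7) : (γ 8 *ᵥ r) ⬝ᵥ (γ (e9 k) *ᵥ r) = 0 := by
  rw [h.dot2, if_neg (ne8 k).symm]

theorem tt_cyc (k i j : Fin 7) : tt γ r k i j = tt γ r i j k := by
  rw [h.tt_eq, h.tt_eq]
  rw [h.acom k i, h.acom k j, Matrix.mulVec_sub, dotProduct_sub, dotProduct_sub]
  have h1 : (γ 8 *ᵥ r) ⬝ᵥ (if k = i then (2 : ℝ) • (γ (e9 j) *ᵥ r) else 0) = 0 := by
    split_ifs
    · rw [dotProduct_smul, h.s_a, smul_zero]
    · exact dotProduct_zero _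
  have h2 : (γ 8 *ᵥ r) ⬝ᵥ (γ (e9 i) *ᵥ (if k = j then (2 : ℝ) • r else 0)) = 0 := by
    split_ifs
    · rw [Matrix.mulVec_smul, dotProduct_smul, h.s_a, smul_zero]
    · rw [Matrix.mulVec_zero]
      exact dotProduct_zero _
  rw [h1, h2]
  ring

/-- the product formula (real part) -/
theorem prodA (i j : Fin 7) (α : Fin 16) : (γ (e9 i) *ᵥ (γ (e9 j) *ᵥ r)) α =
    (if i = j then r α else 0) - ∑ k : Fin 7, tt γ r k i j * (γ (e9 k) *ᵥ (γ 8 *ᵥ r)) α := by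
  by_cases hij : i = j
  · subst hij
    have h0 : ∀ k, tt γ r k i i = 0 := fun k => by
      have := h.tt_swap k i i
      linarith
    rw [if_pos rfl, h.sqv]
    simp only [h0, zero_mul, Finset.sum_const_zero, sub_zero]
  · rw [if_neg hij, zero_sub]
    have h9 : e9 i ≠ e9 j := fun hh => hij ((e9_eq i j).1 hh)
    have hv7 : γ 7 *ᵥ (γ (e9 i) *ᵥ (γ (e9 j) *ᵥ r)) = γ (e9 i) *ᵥ (γ (e9 j) *ᵥ r) := by
      rw [h.anti (ne7 i).symm, h.a7, Matrix.mulVec_neg, neg_neg]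
    rw [h.expand (γ (e9 i) *ᵥ (γ (e9 j) *ᵥ r)) α, Fin.sum_univ_castSucc]
    have h1 : ∀ k : Fin 7, A γ r k.castSucc ⬝ᵥ (γ (e9 i) *ᵥ (γ (e9 j) *ᵥ r)) = 0 := fun k => by
      rw [A_cast]
      exact h.eig' (h.a7 k) hv7
    have h2 : A γ r (Fin.last 7) ⬝ᵥ (γ (e9 i) *ᵥ (γ (e9 j) *ᵥ r)) = 0 := by
      rw [A_last, h.dot2', if_neg h9]
    have h3 : B γ r (Fin.last 7) ⬝ᵥ (γ (e9 i) *ᵥ (γ (e9 j) *ᵥ r)) = 0 := by
      rw [B_last, neg_dotProduct, h.eig' h.s7 hv7, neg_zero]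
    simp only [h1, h2, h3, zero_mul, zero_add, add_zero]
    rw [Finset.mul_sum, ← Finset.sum_neg_distrib]
    refine Finset.sum_congr rfl fun k _ => ?_
    rw [B_cast]
    unfold tt
    ring

/-- the product formula (imaginary part) -/
theorem prodB (i j : Fin 7) (α : Fin 16) : (γ (e9 i) *ᵥ (γ (e9 j) *ᵥ (γ 8 *ᵥ r))) α =
    (if i = j then (γ 8 *ᵥ r) α else 0) + ∑ k : Fin 7, tt γ r k i j * (γ (e9 k) *ᵥ r) α := by
  have h1 : γ (e9 i) *ᵥ (γ (e9 j) *ᵥ (γ 8 *ᵥ r)) = γ 8 *ᵥ (γ (e9 i) *ᵥ (γ (e9 j) *ᵥ r)) := by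
    rw [h.anti (ne8 j), Matrix.mulVec_neg, h.anti (ne8 i), neg_neg]
  have h2 : γ (e9 i) *ᵥ (γ (e9 j) *ᵥ r) = (if i = j then r else 0) -
      ∑ k : Fin 7, tt γ r k i j • (γ (e9 k) *ᵥ (γ 8 *ᵥ r)) := by
    funext α
    rw [h.prodA]
    simp only [Pi.sub_apply, Finset.sum_apply, Pi.smul_apply, smul_eq_mul]
    congr 1
    split_ifs <;> rfl
  have h3 : ∀ k : Fin 7, γ 8 *ᵥ (γ (e9 k) *ᵥ (γ 8 *ᵥ r)) = -(γ (e9 k) *ᵥ r) := fun k => by
    rw [h.anti (ne8 k).symm, h.sqv]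
  have h4 : γ 8 *ᵥ (∑ k : Fin 7, tt γ r k i j • (γ (e9 k) *ᵥ (γ 8 *ᵥ r))) =
      -∑ k : Fin 7, tt γ r k i j • (γ (e9 k) *ᵥ r) := by
    rw [Matrix.mulVec_sum, ← Finset.sum_neg_distrib]
    refine Finset.sum_congr rfl fun k _ => ?_
    rw [Matrix.mulVec_smul, h3, smul_neg]
  rw [h1, h2, Matrix.mulVec_sub, h4, sub_neg_eq_add]
  simp only [Pi.add_apply, Finset.sum_apply, Pi.smul_apply, smul_eq_mul]
  congr 1
  split_ifs
  · rfl
  · rw [Matrix.mulVec_zero]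
    rfl

/-- Clifford multiplication by a vector -/
theorem norm_cl (x : Fin 7 → ℝ) (v : Fin 16 → ℝ) :
    (∑ i, x i • (γ (e9 i) *ᵥ v)) ⬝ᵥ (∑ i, x i • (γ (e9 i) *ᵥ v)) = (∑ i, x i ^ 2) * (v ⬝ᵥ v) := by
  rw [sum_dotProduct, Finset.sum_mul]
  refine Finset.sum_congr rfl fun i _ => ?_
  rw [dotProduct_sum]
  have h1 : ∀ j : Fin 7, (x i • (γ (e9 i) *ᵥ v)) ⬝ᵥ (x j • (γ (e9 j) *ᵥ v)) =
      if i = j then x i * x j * (v ⬝ᵥ v) else 0 := fun j => by
    rw [smul_dotProduct, dotProduct_smul, h.dot2]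
    by_cases hij : i = j
    · rw [if_pos hij, if_pos (by rw [hij]), smul_eq_mul, smul_eq_mul]
      ring
    · rw [if_neg hij, if_neg fun hh => hij ((e9_eq i j).1 hh), smul_zero, smul_zero]
  rw [Finset.sum_congr rfl fun j _ => h1 j, Finset.sum_ite_eq, if_pos (Finset.mem_univ i)]
  ring

theorem tt_norm (x y : Fin 7 → ℝ) : ∑ k, (∑ i, ∑ j, tt γ r k i j * x i * y j) ^ 2 =
    (∑ i, x i ^ 2) * (∑ i, y i ^ 2) - (∑ i, x i * y i) ^ 2 := by
  set w : Fin 16 → ℝ := ∑ j, y j • (γ (e9 j) *ᵥ r) with hw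
  set c : Fin 7 → ℝ := fun k => ∑ i, ∑ j, tt γ r k i j * x i * y j with hc
  have h1 := h.norm_cl x w
  have h2 : w ⬝ᵥ w = (∑ i, y i ^ 2) * (1 / 2) := by
    rw [hw, h.norm_cl, h.rr]
  have h3 : ∑ i, x i • (γ (e9 i) *ᵥ w) = (∑ i, x i * y i) • r -
      ∑ k : Fin 7, c k • (γ (e9 k) *ᵥ (γ 8 *ᵥ r)) := by
    funext α
    have e1 : ∀ i, (γ (e9 i) *ᵥ w) α = ∑ j, y j * (γ (e9 i) *ᵥ (γ (e9 j) *ᵥ r)) α := fun i => by
      rw [hw, Matrix.mulVec_sum, Finset.sum_apply]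
      refine Finset.sum_congr rfl fun j _ => ?_
      rw [Matrix.mulVec_smul, Pi.smul_apply, smul_eq_mul]
    simp only [Finset.sum_apply, Pi.smul_apply, Pi.sub_apply, smul_eq_mul, e1, h.prodA]
    have e2 : ∀ i, x i * ∑ j, y j * ((if i = j then r α else 0) -
        ∑ k : Fin 7, tt γ r k i j * (γ (e9 k) *ᵥ (γ 8 *ᵥ r)) α) = x i * y i * r α -
        ∑ k : Fin 7, (∑ j, tt γ r k i j * x i * y j) * (γ (e9 k) *ᵥ (γ 8 *ᵥ r)) α := fun i => by
      simp only [mul_sub, Finset.sum_sub_distrib, mul_ite, mul_zero, Finset.sum_ite_eq,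
        Finset.mem_univ, if_true, Finset.mul_sum, Finset.sum_mul]
      rw [Finset.sum_comm]
      congr 1
      · ring
      · exact Finset.sum_congr rfl fun k _ => Finset.sum_congr rfl fun j _ => by ring
    rw [Finset.sum_congr rfl fun i _ => e2 i, Finset.sum_sub_distrib, ← Finset.sum_mul]
    congr 1
    rw [Finset.sum_comm]
    refine Finset.sum_congr rfl fun k _ => ?_
    rw [← Finset.sum_mul]
  rw [h3, h2] at h1
  have h4 : ((∑ i, x i * y i) • r - ∑ k : Fin 7, c k • (γ (e9 k) *ᵥ (γ 8 *ᵥ r))) ⬝ᵥ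
      ((∑ i, x i * y i) • r - ∑ k : Fin 7, c k • (γ (e9 k) *ᵥ (γ 8 *ᵥ r))) =
      (∑ i, x i * y i) ^ 2 * (1 / 2) + (∑ k, c k ^ 2) * (1 / 2) := by
    have e1 : r ⬝ᵥ (∑ k : Fin 7, c k • (γ (e9 k) *ᵥ (γ 8 *ᵥ r))) = 0 := by
      rw [dotProduct_sum]
      refine Finset.sum_eq_zero fun k _ => ?_
      rw [dotProduct_smul, dotProduct_comm, h.b_r, smul_zero]
    rw [sub_dotProduct, dotProduct_sub, dotProduct_sub, h.norm_cl, h.ss, smul_dotProduct,
      dotProduct_smul, h.rr, smul_dotProduct, e1, dotProduct_comm _ ((∑ i, x i * y i) • r),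
      smul_dotProduct, e1]
    simp only [smul_eq_mul, mul_zero, sub_zero, zero_sub, sub_neg_eq_add]
    ring
  rw [h4] at h1
  simp only [hc] at h1 ⊢
  linarith

end Hyp

/-! ### complex combinations -/

theorem cdot (v w v' w' : Fin 16 → ℝ) :
    ∑ α, ((v α : ℂ) + Complex.I * (w α : ℂ)) * conj ((v' α : ℂ) + Complex.I * (w' α : ℂ)) =
      ((v ⬝ᵥ v' + w ⬝ᵥ w' : ℝ) : ℂ) + Complex.I * ((w ⬝ᵥ v' - v ⬝ᵥ w' : ℝ) : ℂ) := by
  simp only [dotProduct]
  push_cast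
  simp only [mul_sub, mul_add, Finset.mul_sum, map_add, map_mul, Complex.conj_ofReal,
    Complex.conj_I]
  rw [← Finset.sum_add_distrib, ← Finset.sum_sub_distrib, ← Finset.sum_add_distrib]
  refine Finset.sum_congr rfl fun α _ => ?_
  linear_combination (-(w α : ℂ) * (w' α : ℂ)) * Complex.I_sq

theorem cdot' (v w v' w' : Fin 16 → ℝ) :
    ∑ α, ((v α : ℂ) + Complex.I * (w α : ℂ)) * ((v' α : ℂ) + Complex.I * (w' α : ℂ)) =
      ((v ⬝ᵥ v' - w ⬝ᵥ w' : ℝ) : ℂ) + Complex.I * ((w ⬝ᵥ v' + v ⬝ᵥ w' : ℝ) : ℂ) := by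
  simp only [dotProduct]
  push_cast
  simp only [mul_add, Finset.mul_sum]
  rw [← Finset.sum_sub_distrib, ← Finset.sum_add_distrib, ← Finset.sum_add_distrib]
  refine Finset.sum_congr rfl fun α _ => ?_
  linear_combination ((w α : ℂ) * (w' α : ℂ)) * Complex.I_sq

theorem cmul (M : Matrix (Fin 16) (Fin 16) ℝ) (v w : Fin 16 → ℝ) (α : Fin 16) :
    ∑ β, (M α β : ℂ) * ((v β : ℂ) + Complex.I * (w β : ℂ)) =
      ((M *ᵥ v) α : ℂ) + Complex.I * ((M *ᵥ w) α : ℂ) := by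
  simp only [Matrix.mulVec, dotProduct]
  push_cast
  rw [Finset.mul_sum, ← Finset.sum_add_distrib]
  exact Finset.sum_congr rfl fun β _ => by ring

end ExS

open ExS Matrix in
theorem exists_spin (γ : Fin 9 → Matrix (Fin 16) (Fin 16) ℝ) (hs : ∀ i, (γ i).transpose = γ i)
    (ha : ∀ i j, γ i * γ j + γ j * γ i = if i = j then 2 else 0) : Nonempty (Spin γ) := by
  obtain ⟨r, h⟩ := exists_r hs ha
  have hlast : (7 : Fin 8) = Fin.last 7 := rfl
  refine ⟨{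
    e := fun α => (r α : ℂ) + Complex.I * ((γ 8 *ᵥ r) α : ℂ)
    u := fun i α => (A γ r i α : ℂ) + Complex.I * (B γ r i α : ℂ)
    t := tt γ r
    e_norm := ?_
    u_eq := ?_
    u7_eq := ?_
    g7 := ?_
    g8 := ?_
    ortho := ?_
    iso := ?_
    compl := ?_
    prod := ?_
    t_swap := h.tt_swap
    t_cyc := h.tt_cyc
    t_norm := h.tt_norm }⟩
  · rw [cdot, h.rr, h.ss, dotProduct_comm r]
    push_cast
    ring
  · intro k α
    rw [cmul, A_cast, B_cast]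
  · intro α
    rw [hlast, A_last, B_last]
    simp only [Pi.neg_apply, Complex.ofReal_neg, map_add, map_mul, Complex.conj_ofReal,
      Complex.conj_I]
    ring
  · intro α
    rw [cmul, h.r7, h.s7]
    simp only [Pi.neg_apply, Complex.ofReal_neg, map_add, map_mul, Complex.conj_ofReal,
      Complex.conj_I]
    ring
  · intro α
    rw [cmul, h.sqv]
    simp only [map_add, map_mul, Complex.conj_ofReal, Complex.conj_I]
    linear_combination (((γ 8 *ᵥ r) α : ℝ) : ℂ) * Complex.I_sq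
  · intro i j
    rw [cdot, h.AA, h.BB, h.AB, h.BA]
    split_ifs
    · push_cast
      ring
    · push_cast
      ring
  · intro i j
    rw [cdot', h.AA, h.BB, h.AB, h.BA]
    push_cast
    ring
  · intro α β
    have h1 := congrArg (fun x : ℝ => (x : ℂ)) (h.compl α β)
    simp only [Complex.ofReal_sum] at h1
    have h2 : ∀ i, ((A γ r i α : ℂ) + Complex.I * (B γ r i α : ℂ)) *
        conj ((A γ r i β : ℂ) + Complex.I * (B γ r i β : ℂ)) +
        conj ((A γ r i α : ℂ) + Complex.I * (B γ r i α : ℂ)) *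
        ((A γ r i β : ℂ) + Complex.I * (B γ r i β : ℂ)) =
        2 * ((A γ r i α * A γ r i β + B γ r i α * B γ r i β : ℝ) : ℂ) := by
      intro i
      simp only [map_add, map_mul, Complex.conj_ofReal, Complex.conj_I]
      push_cast
      linear_combination (-2 * (B γ r i α : ℂ) * (B γ r i β : ℂ)) * Complex.I_sq
    rw [Finset.sum_congr rfl fun i _ => h2 i, ← Finset.mul_sum, h1]
    split_ifs
    · push_cast
      ring
    · simp
  · intro i j α
    rw [cmul, A_cast, B_cast, h.prodA, h.prodB]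
    simp only [A_cast, B_cast]
    have h1 : ∑ k : Fin 7, ((tt γ r k i j : ℝ) : ℂ) * (((γ (e9 k) *ᵥ r) α : ℂ) +
        Complex.I * ((γ (e9 k) *ᵥ (γ 8 *ᵥ r)) α : ℂ)) =
        ((∑ k : Fin 7, tt γ r k i j * (γ (e9 k) *ᵥ r) α : ℝ) : ℂ) +
        Complex.I * ((∑ k : Fin 7, tt γ r k i j * (γ (e9 k) *ᵥ (γ 8 *ᵥ r)) α : ℝ) : ℂ) := by
      push_cast
      rw [Finset.mul_sum, ← Finset.sum_add_distrib]
      exact Finset.sum_congr rfl fun k _ => by ring
    rw [h1]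
    by_cases hij : i = j
    · rw [if_pos hij, if_pos hij, if_pos hij, Complex.ofReal_sub, Complex.ofReal_add]
      linear_combination (-((∑ k : Fin 7, tt γ r k i j *
        (γ (e9 k) *ᵥ (γ 8 *ᵥ r)) α : ℝ) : ℂ)) * Complex.I_sq
    · rw [if_neg hij, if_neg hij, if_neg hij, Complex.ofReal_sub, Complex.ofReal_add]
      push_cast
      linear_combination (-(∑ k : Fin 7, (tt γ r k i j : ℂ) *
        ((γ (e9 k) *ᵥ (γ 8 *ᵥ r)) α : ℂ))) * Complex.I_sq

end Vale.Agent.P353.Ex
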