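import Vale.Agent.P353.Ex.Link

/-! Task EX-03: Fock data from the model.

`c i A = ∑ u_i θ^A`, `a i A = ∑ ū_i θ^A`; the relations `cc, aa, ac` follow from `s.iso`,
`s.ortho` and `M.θ_anticomm`; `adj` from `M.θ_selfAdjoint`.
Vacuum: start from any `v ≠ 0` (`M.nontrivial`) and go through the list of all pairs `(i,A)`; if
`a i A v ≠ 0` replace `v` by `a i A v`.  By induction on the list the result is nonzero and killed
by all processed `a`.  Normalise.  `vacb := Ctop vac` (it is killed by all `c`; it has norm one: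
`‖c_1 ⋯ c_n vac‖ = 1` for distinct `c`'s since `a c v = v` when `a v = 0`), so `pair` is `1 ≠ 0`.
`S_c`, `S_a` from `M.S_rotates` and `hT` (`rotm = adCoeff pauliT`).
`S_vac`: `M.S (Wg M C b) = Eg M C b` (`S_Wg`) is the exponential of a multiple of `Zg M C`, and
`Zg M C vac = 0`: with `θ_α^A = ∑_i (ū_i)_α c_i^A + (u_i)_α a_i^A` (from `s.compl`)
`∑_α θ_α^D θ_α^E = ∑_i (c_i^D a_i^E + a_i^D c_i^E)` and the `c c`, `a a` terms vanish, so
`Zg C = f0 ∑ ε_{CDE} ∑_i c_i^D a_i^E` up to order (no constant as `ε_{CDD} = 0`); it kills `vac`, and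
(written with `a` on the left of `c`) it kills `vacb`.  Every `U ∈ SU(2)` is a product
`Wg 2 α · Wg 1 β · Wg 2 γ` (Euler angles; `Wg 2 α = diag(e^{iα}, e^{-iα})`,
`Wg 1 β = !![cos β, sin β; -sin β, cos β]` in the Pauli basis). -/

open MeasureTheory Filter Topology
open scoped ContDiff ComplexConjugate

namespace Vale.Agent.P353.Ex

variable {F : Type*} [NormedAddCommGroup F] [InnerProductSpace ℂ F]

section CAR

variable {c a : Fin 8 → Fin 3 → F →L[ℂ] F}

/-- product of the operators of a list -/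
noncomputable def vcP (c : Fin 8 → Fin 3 → F →L[ℂ] F) (l : List (Fin 8 × Fin 3)) : F →L[ℂ] F :=
  (l.map fun p => c p.1 p.2).prod

lemma vcP_cons (c : Fin 8 → Fin 3 → F →L[ℂ] F) (q : Fin 8 × Fin 3) (l : List (Fin 8 × Fin 3)) :
    vcP c (q :: l) = c q.1 q.2 * vcP c l := by
  rw [vcP, List.map_cons, List.prod_cons]
  rfl

lemma vc_sq_zero (cc : ∀ i A j B, c i A * c j B + c j B * c i A = 0) (i : Fin 8) (A : Fin 3) :
    c i A * c i A = 0 := by
  have h := cc i A i A
  rw [← two_smul ℂ] at h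
  exact (smul_eq_zero.mp h).resolve_left two_ne_zero

lemma vc_swap (cc : ∀ i A j B, c i A * c j B + c j B * c i A = 0) (i : Fin 8) (A : Fin 3)
    (j : Fin 8) (B : Fin 3) : c i A * c j B = -(c j B * c i A) :=
  eq_neg_of_add_eq_zero_left (cc i A j B)

lemma vc_mem (cc : ∀ i A j B, c i A * c j B + c j B * c i A = 0) (l : List (Fin 8 × Fin 3))
    (p : Fin 8 × Fin 3) (hp : p ∈ l) : c p.1 p.2 * vcP c l = 0 := by
  induction l with
  | nil => simp at hp
  | cons q l ih =>
    rw [vcP_cons, ← mul_assoc]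
    by_cases h : p = q
    · rw [h, vc_sq_zero cc, zero_mul]
    · have h1 := ih ((List.mem_cons.mp hp).resolve_left h)
      rw [vc_swap cc, neg_mul, mul_assoc, h1, mul_zero, neg_zero]

lemma vc_notMem (ac : ∀ i A j B, a i A * c j B + c j B * a i A = if i = j ∧ A = B then 1 else 0)
    {v : F} (hv : ∀ i A, a i A v = 0) (l : List (Fin 8 × Fin 3)) (p : Fin 8 × Fin 3)
    (hp : p ∉ l) : a p.1 p.2 (vcP c l v) = 0 := by
  induction l with
  | nil => exact hv _ _
  | cons q l ih =>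
    have hq : p ≠ q := fun h => hp (h ▸ List.mem_cons_self)
    have hl : p ∉ l := fun h => hp (List.mem_cons_of_mem _ h)
    have h1 := congrArg (fun T : F →L[ℂ] F => T (vcP c l v)) (ac p.1 p.2 q.1 q.2)
    have hne : ¬ (p.1 = q.1 ∧ p.2 = q.2) := fun hh => hq (Prod.ext hh.1 hh.2)
    simp only [_root_.add_apply, mul_apply_eq_comp, if_neg hne, _root_.zero_apply] at h1
    rw [ih hl, map_zero, add_zero] at h1
    rw [vcP_cons]
    exact h1

lemma vc_norm (adj : ∀ i A v w, inner ℂ (c i A v) w = inner ℂ v (a i A w))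
    (ac : ∀ i A j B, a i A * c j B + c j B * a i A = if i = j ∧ A = B then 1 else 0)
    {v : F} (hv : ∀ i A, a i A v = 0) (hn : ‖v‖ = 1) (l : List (Fin 8 × Fin 3))
    (hl : l.Nodup) : ‖vcP c l v‖ = 1 := by
  induction l with
  | nil => exact hn
  | cons q l ih =>
    have hl' := List.nodup_cons.mp hl
    have h0 := ih hl'.2
    set w := vcP c l v with hw
    have h1 := vc_notMem ac hv l q hl'.1
    have h2 := congrArg (fun T : F →L[ℂ] F => T w) (ac q.1 q.2 q.1 q.2)
    simp only [_root_.add_apply, mul_apply_eq_comp, and_self, if_true, one_apply_eq_self] at h2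
    rw [h1, map_zero, add_zero] at h2
    have h3 : vcP c (q :: l) v = c q.1 q.2 w := by rw [vcP_cons]; rfl
    rw [h3]
    have h4 : inner ℂ (c q.1 q.2 w) (c q.1 q.2 w) = inner ℂ w w := by rw [adj, h2]
    rw [inner_self_eq_norm_sq_to_K, inner_self_eq_norm_sq_to_K, h0] at h4
    have h5 : ‖c q.1 q.2 w‖ ^ 2 = 1 ^ 2 := by exact_mod_cast h4
    exact (pow_left_inj₀ (norm_nonneg _) zero_le_one two_ne_zero).1 h5

lemma vc_exists (aa : ∀ i A j B, a i A * a j B + a j B * a i A = 0) {v0 : F} (h0 : v0 ≠ 0)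
    (l : List (Fin 8 × Fin 3)) : ∃ v : F, v ≠ 0 ∧ ∀ p ∈ l, a p.1 p.2 v = 0 := by
  induction l with
  | nil => exact ⟨v0, h0, by simp⟩
  | cons q l ih =>
    obtain ⟨v, hv, h⟩ := ih
    by_cases h1 : a q.1 q.2 v = 0
    · refine ⟨v, hv, fun p hp => ?_⟩
      rcases List.mem_cons.mp hp with rfl | h2
      · exact h1
      · exact h p h2
    · refine ⟨a q.1 q.2 v, h1, fun p hp => ?_⟩
      rcases List.mem_cons.mp hp with rfl | h2
      · exact DFunLike.congr_fun (vc_sq_zero aa p.1 p.2) v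
      · have h3 : a p.1 p.2 (a q.1 q.2 v) = -(a q.1 q.2 (a p.1 p.2 v)) :=
          DFunLike.congr_fun (vc_swap aa p.1 p.2 q.1 q.2) v
        rw [h3, h p h2, map_zero, neg_zero]

lemma vc_vac (aa : ∀ i A j B, a i A * a j B + a j B * a i A = 0) {v0 : F} (h0 : v0 ≠ 0) :
    ∃ v : F, ‖v‖ = 1 ∧ ∀ i A, a i A v = 0 := by
  obtain ⟨v, hv, h⟩ := vc_exists aa h0 (Finset.univ : Finset (Fin 8 × Fin 3)).toList
  have hv' : ‖v‖ ≠ 0 := norm_ne_zero_iff.2 hv
  refine ⟨((‖v‖⁻¹ : ℝ) : ℂ) • v, ?_, fun i A => ?_⟩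
  · rw [norm_smul, Complex.norm_real, norm_inv, norm_norm, inv_mul_cancel₀ hv']
  · rw [map_smul, h (i, A) (Finset.mem_toList.2 (Finset.mem_univ _)), smul_zero]

/-- the list of all creation operators in the order of `Ctop` -/
def vcL : List (Fin 8 × Fin 3) :=
  (List.ofFn fun k : Fin 7 => [(e8 k, (0 : Fin 3)), (e8 k, 1), (e8 k, 2)]).flatten ++
    [(7, 0), (7, 1), (7, 2)]

lemma vcL_nodup : vcL.Nodup := by decide

lemma vcL_mem (p : Fin 8 × Fin 3) : p ∈ vcL := by
  revert p; decide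

lemma vcL_prod (c : Fin 8 → Fin 3 → F →L[ℂ] F) : vcP c vcL =
    (List.ofFn fun k : Fin 7 => c (e8 k) 0 * c (e8 k) 1 * c (e8 k) 2).prod *
      (c 7 0 * c 7 1 * c 7 2) := by
  rw [vcP, vcL, List.map_append, List.prod_append, List.map_flatten, List.prod_flatten,
    List.map_map, List.map_ofFn]
  have h : ∀ x y z : F →L[ℂ] F, [x, y, z].prod = x * y * z := fun x y z => by
    rw [List.prod_cons, List.prod_cons, List.prod_singleton, mul_assoc]
  have h1 : (List.prod ∘ (List.map fun p : Fin 8 × Fin 3 => c p.1 p.2)) ∘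
      (fun k : Fin 7 => [(e8 k, (0 : Fin 3)), (e8 k, 1), (e8 k, 2)]) =
      fun k => c (e8 k) 0 * c (e8 k) 1 * c (e8 k) 2 := funext fun k => h _ _ _
  exact congrArg₂ (· * ·) (congrArg (fun f => (List.ofFn f).prod) h1) (h _ _ _)

lemma vc_Ctop (K : Fk F) : K.Ctop = vcP K.c vcL := by
  rw [vcL_prod, Fk.Ctop]

end CAR

section Mod

variable (M : Model 2 3 F) (s : Spin M.γ)

/-- creation operators -/
noncomputable def vcC (i : Fin 8) (A : Fin 3) : F →L[ℂ] F := ∑ α, s.u i α • M.θ α A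

/-- annihilation operators -/
noncomputable def vcA (i : Fin 8) (A : Fin 3) : F →L[ℂ] F := ∑ α, conj (s.u i α) • M.θ α A

lemma vc_anti (x y : Fin 16 → ℂ) (A B : Fin 3) :
    (∑ α, x α • M.θ α A) * (∑ β, y β • M.θ β B) + (∑ β, y β • M.θ β B) * (∑ α, x α • M.θ α A) =
      if A = B then (∑ α, x α * y α) • (1 : F →L[ℂ] F) else 0 := by
  have h1 : (∑ β, y β • M.θ β B) * (∑ α, x α • M.θ α A) =
      ∑ α, ∑ β, (x α * y β) • (M.θ β B * M.θ α A) := by
    rw [Finset.sum_mul_sum, Finset.sum_comm]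
    refine Finset.sum_congr rfl fun α _ => Finset.sum_congr rfl fun β _ => ?_
    rw [smul_mul_smul_comm, mul_comm (y β)]
  have h2 : (∑ α, x α • M.θ α A) * (∑ β, y β • M.θ β B) =
      ∑ α, ∑ β, (x α * y β) • (M.θ α A * M.θ β B) := by
    rw [Finset.sum_mul_sum]
    refine Finset.sum_congr rfl fun α _ => Finset.sum_congr rfl fun β _ => ?_
    rw [smul_mul_smul_comm]
  rw [h1, h2]
  simp only [← Finset.sum_add_distrib, ← smul_add, M.θ_anticomm]
  by_cases h : A = B
  · simp only [h, and_true, if_true, Finset.sum_smul]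
    refine Finset.sum_congr rfl fun α _ => ?_
    rw [Finset.sum_eq_single α]
    · rw [if_pos rfl]
    · intro β _ hβ
      rw [if_neg (Ne.symm hβ), smul_zero]
    · intro h'; exact absurd (Finset.mem_univ _) h'
  · simp [h]

lemma vc_cc (i : Fin 8) (A : Fin 3) (j : Fin 8) (B : Fin 3) :
    vcC M s i A * vcC M s j B + vcC M s j B * vcC M s i A = 0 := by
  unfold vcC
  rw [vc_anti, s.iso]
  simp

lemma vc_aa (i : Fin 8) (A : Fin 3) (j : Fin 8) (B : Fin 3) :
    vcA M s i A * vcA M s j B + vcA M s j B * vcA M s i A = 0 := by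
  unfold vcA
  rw [vc_anti]
  have h := congrArg conj (s.iso i j)
  rw [map_sum, map_zero] at h
  simp only [map_mul] at h
  rw [h]
  simp

lemma vc_ac (i : Fin 8) (A : Fin 3) (j : Fin 8) (B : Fin 3) :
    vcA M s i A * vcC M s j B + vcC M s j B * vcA M s i A =
      if i = j ∧ A = B then 1 else 0 := by
  unfold vcA vcC
  rw [vc_anti]
  have h := s.ortho j i
  simp only [mul_comm (s.u j _)] at h
  rw [h]
  by_cases h1 : i = j <;> by_cases h2 : A = B
  · rw [if_pos h2, if_pos h1.symm, if_pos ⟨h1, h2⟩, one_smul]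
  · rw [if_neg h2, if_neg fun h => h2 h.2]
  · rw [if_pos h2, if_neg (Ne.symm h1), if_neg fun h => h1 h.1, zero_smul]
  · rw [if_neg h2, if_neg fun h => h2 h.2]

lemma vc_adj (i : Fin 8) (A : Fin 3) (v w : F) :
    inner ℂ (vcC M s i A v) w = inner ℂ v (vcA M s i A w) := by
  simp only [vcC, vcA, _root_.sum_apply, _root_.smul_apply, sum_inner, inner_sum, inner_smul_left,
    inner_smul_right, M.θ_selfAdjoint]

lemma vc_theta (α : Fin 16) (A : Fin 3) :
    M.θ α A = ∑ i, (conj (s.u i α) • vcC M s i A + s.u i α • vcA M s i A) := by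
  have h1 : ∀ i, conj (s.u i α) • vcC M s i A + s.u i α • vcA M s i A =
      ∑ β, (s.u i β * conj (s.u i α) + conj (s.u i β) * s.u i α) • M.θ β A := by
    intro i
    unfold vcC vcA
    rw [Finset.smul_sum, Finset.smul_sum, ← Finset.sum_add_distrib]
    refine Finset.sum_congr rfl fun β _ => ?_
    rw [smul_smul, smul_smul, ← add_smul]
    congr 1
    ring
  simp only [h1]
  rw [Finset.sum_comm]
  simp only [← Finset.sum_smul, s.compl]
  simp

lemma vc_bil (D E : Fin 3) : ∑ α, M.θ α D * M.θ α E =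
    ∑ i, (vcA M s i D * vcC M s i E + vcC M s i D * vcA M s i E) := by
  have h1 : ∀ α, M.θ α D * M.θ α E = ∑ i, ((conj (s.u i α) • M.θ α D) * vcC M s i E +
      (s.u i α • M.θ α D) * vcA M s i E) := by
    intro α
    conv_lhs => rw [vc_theta M s α E]
    rw [Finset.mul_sum]
    refine Finset.sum_congr rfl fun i _ => ?_
    rw [mul_add, mul_smul_comm, mul_smul_comm, smul_mul_assoc, smul_mul_assoc]
  simp only [h1]
  rw [Finset.sum_comm]
  refine Finset.sum_congr rfl fun i _ => ?_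
  rw [Finset.sum_add_distrib, ← Finset.sum_mul, ← Finset.sum_mul]
  rfl

lemma vc_Zg {v : F} (h : ∀ D E, (∑ α, M.θ α D * M.θ α E) v = if D = E then (8 : ℂ) • v else 0)
    (C : Fin 3) : Zg M C v = 0 := by
  have h1 : Zg M C = (1 / 2 : ℂ) • ∑ D, ∑ E, (M.f C D E : ℂ) • ∑ α, M.θ α D * M.θ α E := by
    unfold Zg
    congr 1
    rw [Finset.sum_comm]
    refine Finset.sum_congr rfl fun D _ => ?_
    rw [Finset.sum_comm]
    refine Finset.sum_congr rfl fun E _ => ?_
    rw [Finset.smul_sum]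
  have h2 : ∀ D, M.f C D D = 0 := by
    intro D
    rw [f_eq_eps]
    have : ∀ C D, eps C D D = 0 := by decide
    rw [this]
    simp
  have h3 : ∀ D E, ((M.f C D E : ℂ) • ∑ α, M.θ α D * M.θ α E) v = 0 := by
    intro D E
    rw [_root_.smul_apply, h D E]
    by_cases hDE : D = E
    · rw [hDE, h2, Complex.ofReal_zero, zero_smul]
    · rw [if_neg hDE, smul_zero]
  rw [h1, _root_.smul_apply, _root_.sum_apply, Finset.sum_eq_zero fun D _ => ?_, smul_zero]
  rw [_root_.sum_apply]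
  exact Finset.sum_eq_zero fun E _ => h3 D E

lemma vc_Zg_a {v : F} (hv : ∀ i A, vcA M s i A v = 0) (C : Fin 3) : Zg M C v = 0 := by
  refine vc_Zg M (fun D E => ?_) C
  rw [vc_bil M s, _root_.sum_apply]
  have h1 : ∀ i, (vcA M s i D * vcC M s i E + vcC M s i D * vcA M s i E) v =
      if D = E then v else 0 := by
    intro i
    have h2 := congrArg (fun T : F →L[ℂ] F => T v) (vc_ac M s i D i E)
    simp only [_root_.add_apply, mul_apply_eq_comp, hv, map_zero, add_zero, true_and] at h2 ⊢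
    rw [h2]
    split_ifs <;> rfl
  simp only [h1]
  by_cases h : D = E
  · simp only [h, if_true, Finset.sum_const, Finset.card_univ, Fintype.card_fin]
    rw [← Nat.cast_smul_eq_nsmul ℂ]
    norm_num
  · simp [h]

lemma vc_Zg_c {v : F} (hv : ∀ i A, vcC M s i A v = 0) (C : Fin 3) : Zg M C v = 0 := by
  refine vc_Zg M (fun D E => ?_) C
  rw [vc_bil M s, _root_.sum_apply]
  have h1 : ∀ i, (vcA M s i D * vcC M s i E + vcC M s i D * vcA M s i E) v =
      if D = E then v else 0 := by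
    intro i
    have h2 := congrArg (fun T : F →L[ℂ] F => T v) (vc_ac M s i E i D)
    simp only [_root_.add_apply, mul_apply_eq_comp, hv, map_zero, zero_add, true_and] at h2 ⊢
    rw [h2]
    by_cases h : D = E
    · rw [if_pos h, if_pos h.symm]; rfl
    · rw [if_neg h, if_neg (Ne.symm h)]; rfl
  simp only [h1]
  by_cases h : D = E
  · simp only [h, if_true, Finset.sum_const, Finset.card_univ, Fintype.card_fin]
    rw [← Nat.cast_smul_eq_nsmul ℂ]
    norm_num
  · simp [h]

lemma vc_Eg [CompleteSpace F] (C : Fin 3) {v : F} (hv : Zg M C v = 0) (b : ℝ) :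
    Eg M C b v = v := by
  have h1 : ∀ r : ℝ, HasDerivAt (fun r => Eg M C r v) 0 r := by
    intro r
    have h2 : HasDerivAt (fun r => Eg M C r v)
        ((((Real.sqrt 2 : ℂ) • Zg M C) * Eg M C r) v) r :=
      ((ContinuousLinearMap.apply ℂ F v).restrictScalars ℝ).hasFDerivAt.comp_hasDerivAt r
        (hasDerivAt_Eg M C r)
    rw [Eg_comm, mul_apply_eq_comp, _root_.smul_apply, hv, smul_zero, map_zero] at h2
    exact h2
  have h3 := is_const_of_deriv_eq_zero (fun r => (h1 r).differentiableAt)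
    (fun r => (h1 r).deriv) b 0
  simp only [Eg_zero, one_apply_eq_self] at h3
  exact h3

end Mod

section Euler

variable (M : Model 2 3 F)

lemma vc_sqrt : Complex.I * ((Real.sqrt 2 : ℝ) : ℂ) * ((Real.sqrt 2 : ℝ) : ℂ)⁻¹ = Complex.I := by
  have hs : ((Real.sqrt 2 : ℝ) : ℂ) ≠ 0 := by
    have : Real.sqrt 2 ≠ 0 := by positivity
    exact_mod_cast this
  rw [mul_assoc, mul_inv_cancel₀ hs, mul_one]

lemma vc_Us2 (hT : M.T = pauliT) (x : ℝ) : Us M 2 x =
    !![Complex.exp (x * Complex.I), 0; 0, Complex.exp (-(x * Complex.I))] := by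
  have h1 : Complex.exp (x * Complex.I) = Complex.cos x + Complex.I * Complex.sin x := by
    rw [Complex.exp_mul_I, mul_comm Complex.I]
  have h2 : Complex.exp (-(x * Complex.I)) = Complex.cos x - Complex.I * Complex.sin x := by
    rw [← neg_mul, Complex.exp_mul_I, Complex.cos_neg, Complex.sin_neg]
    ring
  have h3 : Complex.I * ((Real.sqrt 2 : ℝ) : ℂ) * (Real.sin x : ℂ) * ((Real.sqrt 2 : ℝ) : ℂ)⁻¹ =
      Complex.I * Complex.sin x := by
    rw [mul_right_comm, vc_sqrt, Complex.ofReal_sin]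
  rw [h1, h2, Us, hT, pauliT_two, smul_smul, h3, Complex.ofReal_cos]
  ext i j
  fin_cases i <;> fin_cases j <;> simp [sub_eq_add_neg]

lemma vc_Us1 (hT : M.T = pauliT) (x : ℝ) : Us M 1 x =
    !![(Real.cos x : ℂ), (Real.sin x : ℂ); -(Real.sin x : ℂ), (Real.cos x : ℂ)] := by
  have h3 : Complex.I * ((Real.sqrt 2 : ℝ) : ℂ) * (Real.sin x : ℂ) * ((Real.sqrt 2 : ℝ) : ℂ)⁻¹ =
      Complex.I * (Real.sin x : ℂ) := by
    rw [mul_right_comm, vc_sqrt]
  have hI := Complex.I_mul_I
  rw [Us, hT, pauliT_one, smul_smul, h3]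
  ext i j
  fin_cases i <;> fin_cases j
  · simp
  · simp only [Matrix.add_apply, Matrix.smul_apply, smul_eq_mul, Matrix.one_apply, Matrix.of_apply,
      Matrix.cons_val', Matrix.cons_val_zero, Matrix.cons_val_one, Fin.isValue, Fin.zero_eta,
      Fin.mk_one, zero_ne_one, if_false, mul_zero, zero_add, Matrix.cons_val_fin_one]
    linear_combination -(Real.sin x : ℂ) * hI
  · simp only [Matrix.add_apply, Matrix.smul_apply, smul_eq_mul, Matrix.one_apply, Matrix.of_apply,
      Matrix.cons_val', Matrix.cons_val_zero, Matrix.cons_val_one, Fin.isValue, Fin.zero_eta,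
      Fin.mk_one, one_ne_zero, if_false, mul_zero, zero_add, Matrix.cons_val_fin_one]
    linear_combination (Real.sin x : ℂ) * hI
  · simp

/-- the form of the elements of `SU(2)` -/
lemma vc_form (U : SU2) : ∃ p q : ℂ, (U : Matrix (Fin 2) (Fin 2) ℂ) = !![p, q; -conj q, conj p] ∧
    ‖p‖ ^ 2 + ‖q‖ ^ 2 = 1 := by
  obtain ⟨U, hU⟩ := U
  obtain ⟨h1, h2⟩ := Matrix.mem_specialUnitaryGroup_iff.1 hU
  have h3 := Matrix.mem_unitaryGroup_iff.1 h1
  have h4 : Matrix.adjugate U = star U := by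
    calc Matrix.adjugate U = Matrix.adjugate U * (U * star U) := by rw [h3, mul_one]
      _ = (Matrix.adjugate U * U) * star U := by rw [mul_assoc]
      _ = star U := by rw [Matrix.adjugate_mul, h2, one_smul, one_mul]
  rw [Matrix.adjugate_fin_two] at h4
  have h5 := congrFun (congrFun h4 0) 0
  have h6 := congrFun (congrFun h4 1) 0
  simp [Matrix.star_apply] at h5 h6
  refine ⟨U 0 0, U 0 1, ?_, ?_⟩
  · ext i j
    fin_cases i <;> fin_cases j
    · rfl
    · rfl
    · simp [← h6]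
    · simp [h5]
  · rw [Matrix.det_fin_two] at h2
    have h7 : (U 0 0) * conj (U 0 0) + (U 0 1) * conj (U 0 1) = 1 := by
      rw [← h5, ← h6]
      linear_combination h2
    rw [Complex.mul_conj, Complex.mul_conj, Complex.normSq_eq_norm_sq,
      Complex.normSq_eq_norm_sq] at h7
    exact_mod_cast h7

lemma vc_euler (hT : M.T = pauliT) (U : SU2) : ∃ x y z : ℝ,
    U = Wg M 2 x * Wg M 1 y * Wg M 2 z := by
  obtain ⟨p, q, hU, h⟩ := vc_form U
  set y := Real.arccos ‖p‖ with hy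
  have hp1 : ‖p‖ ≤ 1 := by nlinarith only [h, sq_nonneg ‖q‖, norm_nonneg p]
  have hc : Real.cos y = ‖p‖ := Real.cos_arccos (by linarith [norm_nonneg p]) hp1
  have hs : Real.sin y = ‖q‖ := by
    rw [hy, Real.sin_arccos, show 1 - ‖p‖ ^ 2 = ‖q‖ ^ 2 by linarith, Real.sqrt_sq (norm_nonneg q)]
  refine ⟨(p.arg + q.arg) / 2, y, (p.arg - q.arg) / 2, Subtype.ext ?_⟩
  rw [hU]
  show _ = Us M 2 _ * Us M 1 _ * Us M 2 _
  rw [vc_Us2 M hT, vc_Us1 M hT, vc_Us2 M hT, hc, hs]
  have hp : (‖p‖ : ℂ) * Complex.exp (p.arg * Complex.I) = p := Complex.norm_mul_exp_arg_mul_I p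
  have hq : (‖q‖ : ℂ) * Complex.exp (q.arg * Complex.I) = q := Complex.norm_mul_exp_arg_mul_I q
  have hp' : (‖p‖ : ℂ) * Complex.exp (-(p.arg * Complex.I)) = conj p := by
    conv_rhs => rw [← hp]
    rw [map_mul, Complex.conj_ofReal, ← Complex.exp_conj, map_mul, Complex.conj_ofReal,
      Complex.conj_I, mul_neg]
  have hq' : (‖q‖ : ℂ) * Complex.exp (-(q.arg * Complex.I)) = conj q := by
    conv_rhs => rw [← hq]
    rw [map_mul, Complex.conj_ofReal, ← Complex.exp_conj, map_mul, Complex.conj_ofReal,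
      Complex.conj_I, mul_neg]
  rw [Matrix.mul_fin_two, Matrix.mul_fin_two]
  have e1 : Complex.exp (((p.arg + q.arg) / 2 : ℝ) * Complex.I) *
      Complex.exp (((p.arg - q.arg) / 2 : ℝ) * Complex.I) = Complex.exp (p.arg * Complex.I) := by
    rw [← Complex.exp_add]; congr 1; push_cast; ring
  have e2 : Complex.exp (((p.arg + q.arg) / 2 : ℝ) * Complex.I) *
      Complex.exp (-(((p.arg - q.arg) / 2 : ℝ) * Complex.I)) = Complex.exp (q.arg * Complex.I) := by
    rw [← Complex.exp_add]; congr 1; push_cast; ring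
  have e3 : Complex.exp (-(((p.arg + q.arg) / 2 : ℝ) * Complex.I)) *
      Complex.exp (((p.arg - q.arg) / 2 : ℝ) * Complex.I) =
        Complex.exp (-(q.arg * Complex.I)) := by
    rw [← Complex.exp_add]; congr 1; push_cast; ring
  have e4 : Complex.exp (-(((p.arg + q.arg) / 2 : ℝ) * Complex.I)) *
      Complex.exp (-(((p.arg - q.arg) / 2 : ℝ) * Complex.I)) =
        Complex.exp (-(p.arg * Complex.I)) := by
    rw [← Complex.exp_add]; congr 1; push_cast; ring
  ext i j
  fin_cases i <;> fin_cases j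
  · show p = _
    simp only [Matrix.of_apply, Matrix.cons_val', Matrix.cons_val_zero, Fin.zero_eta,
      Matrix.cons_val_fin_one]
    linear_combination -hp - (‖p‖ : ℂ) * e1
  · show q = _
    simp only [Matrix.of_apply, Matrix.cons_val', Matrix.cons_val_zero, Fin.zero_eta,
      Matrix.cons_val_fin_one, Fin.mk_one, Matrix.cons_val_one]
    linear_combination -hq - (‖q‖ : ℂ) * e2
  · show -conj q = _
    simp only [Matrix.of_apply, Matrix.cons_val', Matrix.cons_val_zero, Fin.zero_eta,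
      Matrix.cons_val_fin_one, Fin.mk_one, Matrix.cons_val_one]
    linear_combination hq' + (‖q‖ : ℂ) * e3
  · show conj p = _
    simp only [Matrix.of_apply, Matrix.cons_val', Matrix.cons_val_zero, Fin.zero_eta,
      Matrix.cons_val_fin_one, Fin.mk_one, Matrix.cons_val_one]
    linear_combination -hp' - (‖p‖ : ℂ) * e4

end Euler

lemma vc_S [FiniteDimensional ℂ F] (M : Model 2 3 F) (hT : M.T = pauliT) {v : F}
    (hv : ∀ C, Zg M C v = 0) (U : SU2) : M.S U v = v := by
  have : CompleteSpace F := FiniteDimensional.complete ℂ F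
  obtain ⟨x, y, z, rfl⟩ := vc_euler M hT U
  rw [map_mul, map_mul, S_Wg, S_Wg, S_Wg]
  show Eg M 2 x (Eg M 1 y (Eg M 2 z v)) = v
  rw [vc_Eg M 2 (hv 2), vc_Eg M 1 (hv 1), vc_Eg M 2 (hv 2)]

lemma vc_rot (M : Model 2 3 F) (hT : M.T = pauliT) (y : Fin 16 → ℂ) (U : SU2) (A : Fin 3) :
    M.S U * (∑ α, y α • M.θ α A) =
      ∑ B, ((rotm U B A : ℝ) : ℂ) • ((∑ α, y α • M.θ α B) * M.S U) := by
  rw [Finset.mul_sum]
  have h1 : ∀ α, M.S U * (y α • M.θ α A) =
      ∑ B, ((rotm U B A : ℝ) : ℂ) • ((y α • M.θ α B) * M.S U) := by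
    intro α
    rw [mul_smul_comm, M.S_rotates, Finset.smul_sum]
    refine Finset.sum_congr rfl fun B _ => ?_
    rw [smul_mul_assoc, smul_comm, rotm, hT]
  simp only [h1]
  rw [Finset.sum_comm]
  refine Finset.sum_congr rfl fun B _ => ?_
  rw [← Finset.smul_sum, Finset.sum_mul]

/-- the Fock data of the model -/
noncomputable def vcK [FiniteDimensional ℂ F] (M : Model 2 3 F) (hT : M.T = pauliT)
    (s : Spin M.γ) (v : F) (hv1 : ‖v‖ = 1) (hv2 : ∀ i A, vcA M s i A v = 0) : Fk F where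
  c := vcC M s
  a := vcA M s
  adj := vc_adj M s
  cc := vc_cc M s
  aa := vc_aa M s
  ac := vc_ac M s
  t := s.t
  t_swap := s.t_swap
  t_cyc := s.t_cyc
  t_norm := s.t_norm
  sg := 1
  sg_sq := one_mul 1
  f0 := M.f 0 1 2
  f0_sq := by rw [← pow_two]; exact f_sq M
  vac := v
  vac_norm := hv1
  a_vac := hv2
  vacb := vcP (vcC M s) vcL v
  vacb_norm := vc_norm (vc_adj M s) (vc_ac M s) hv2 hv1 vcL vcL_nodup
  c_vacb := fun i A => DFunLike.congr_fun (vc_mem (vc_cc M s) vcL (i, A) (vcL_mem _)) v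
  S := M.S
  S_isometry := M.S_isometry
  S_continuous := M.S_continuous
  S_c := fun U i A => vc_rot M hT _ U A
  S_a := fun U i A => vc_rot M hT _ U A
  S_vac := fun U => vc_S M hT (vc_Zg_a M s hv2) U
  S_vacb := fun U => vc_S M hT (vc_Zg_c M s fun i A =>
    DFunLike.congr_fun (vc_mem (vc_cc M s) vcL (i, A) (vcL_mem _)) v) U

theorem exists_link (M : Model 2 3 F) (hT : M.T = pauliT) (s : Spin M.γ) :
    ∃ K : Fk F, Link M s K := by
  have hfd : FiniteDimensional ℂ F := M.finiteDimensional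
  obtain ⟨v0, hv0⟩ := M.nontrivial
  obtain ⟨v, hv1, hv2⟩ := vc_vac (vc_aa M s) hv0
  refine ⟨vcK M hT s v hv1 hv2, hT, fun i A => rfl, fun i A => rfl, rfl, rfl,
    fun A B C => f_eq_eps M A B C, rfl, ?_⟩
  set K := vcK M hT s v hv1 hv2 with hK
  have h0 : K.vacb = vcP K.c vcL K.vac := by
    have e1 : K.vacb = vcP (vcC M s) vcL v := by rw [hK, vcK]
    have e2 : K.c = vcC M s := by rw [hK, vcK]
    have e3 : K.vac = v := by rw [hK, vcK]
    rw [e1, e2, e3]
  intro h2
  rw [vc_Ctop, ← h0, inner_self_eq_zero] at h2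
  have h4 := K.vacb_norm
  rw [h2, norm_zero] at h4
  exact zero_ne_one h4

end Vale.Agent.P353.Ex
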