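import Vale.Agent.P353.Ex.Calc

/-! Task EX-07: `(D + dh)² = ν ∑ φ_A L_A`.

`D0 D0 u = ν ∑ φ_A LL_A u`: write `D0 = d + ν ∑ φ_A ι_A`; `d d = 0` (mixed partials commute, `c`'s
anticommute), `d φ_A = φ_A d` (only the antiholomorphic derivative occurs), `{d, ι_A} = L_A - (φ
part of the rotation)`, and the `φ` parts cancel in `∑_A φ_A (e_A × φ)·∂_φ = 0`; `{ι_A, ι_B} = 0`.
`{D0, dh}`: `d(dh) = 0` (symmetric second derivatives), `{ι_A, dh} = L_A h = 0`; `dh dh = 0`. -/

open MeasureTheory Filter Topology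
open scoped ContDiff ComplexConjugate

namespace Vale.Agent.P353.Ex

variable {F : Type*} [NormedAddCommGroup F] [InnerProductSpace ℂ F]

/-! ### algebra of the creation and annihilation operators -/

section car

variable {ι : Type*} [Fintype ι] {c a : ι → (F →L[ℂ] F)}

/-- antisymmetric operators against a symmetric family -/
private lemma sq_l1 (hcc : ∀ α β, c α * c β + c β * c α = 0) {w : ι → ι → F}
    (hw : ∀ α β, w α β = w β α) : ∑ α, ∑ β, c α (c β (w α β)) = 0 := by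
  have h1 : ∀ α β, c α (c β (w α β)) = -(c β (c α (w β α))) := by
    intro α β
    have h2 := congrArg (fun T : F →L[ℂ] F => T (w α β)) (hcc α β)
    have h3 : c α (c β (w α β)) + c β (c α (w α β)) = 0 := h2
    rw [hw β α]
    exact eq_neg_of_add_eq_zero_left h3
  have h4 : ∑ α, ∑ β, c α (c β (w α β)) = -∑ α, ∑ β, c α (c β (w α β)) := by
    calc ∑ α, ∑ β, c α (c β (w α β)) = ∑ α, ∑ β, -(c β (c α (w β α))) :=
          Finset.sum_congr rfl fun α _ => Finset.sum_congr rfl fun β _ => h1 α β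
      _ = -∑ α, ∑ β, c β (c α (w β α)) := by simp only [Finset.sum_neg_distrib]
      _ = -∑ α, ∑ β, c α (c β (w α β)) := by rw [Finset.sum_comm]
  have h5 : (2 : ℂ) • ∑ α, ∑ β, c α (c β (w α β)) = 0 := by
    rw [two_smul]
    nth_rewrite 1 [h4]
    exact neg_add_cancel _
  rcases smul_eq_zero.1 h5 with h6 | h6
  · norm_num at h6
  · exact h6

private lemma sq_l3 [DecidableEq ι] (hcc : ∀ α β, c α * c β + c β * c α = 0)
    (hac : ∀ α β, a α * c β + c β * a α = if α = β then 1 else 0) (p q : ι → ℂ) (v : ι → F) :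
    (∑ α, c α (∑ β, (p β • a β (v α) + q β • c β (v α)))) +
      ∑ β, (p β • a β (∑ α, c α (v α)) + q β • c β (∑ α, c α (v α))) = ∑ α, p α • v α := by
  have h1 : ∀ α β, c α (p β • a β (v α) + q β • c β (v α)) +
      (p β • a β (c α (v α)) + q β • c β (c α (v α))) = if α = β then p β • v α else 0 := by
    intro α β
    have h2 : a β (c α (v α)) + c α (a β (v α)) = if β = α then v α else 0 := by
      have h := congrArg (fun T : F →L[ℂ] F => T (v α)) (hac β α)
      by_cases hb : β = α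
      · rw [if_pos hb] at h ⊢; exact h
      · rw [if_neg hb] at h ⊢; exact h
    have h3 : c α (c β (v α)) + c β (c α (v α)) = 0 :=
      congrArg (fun T : F →L[ℂ] F => T (v α)) (hcc α β)
    rw [map_add, map_smul, map_smul]
    calc p β • c α (a β (v α)) + q β • c α (c β (v α)) +
        (p β • a β (c α (v α)) + q β • c β (c α (v α)))
        = p β • (a β (c α (v α)) + c α (a β (v α))) +
          q β • (c α (c β (v α)) + c β (c α (v α))) := by module
      _ = if α = β then p β • v α else 0 := by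
        rw [h2, h3, smul_zero, add_zero]
        by_cases hb : β = α
        · rw [if_pos hb, if_pos hb.symm]
        · rw [if_neg hb, if_neg (fun h => hb h.symm), smul_zero]
  have h4 : ∑ β, (p β • a β (∑ α, c α (v α)) + q β • c β (∑ α, c α (v α))) =
      ∑ α, ∑ β, (p β • a β (c α (v α)) + q β • c β (c α (v α))) := by
    rw [Finset.sum_comm]
    refine Finset.sum_congr rfl fun β _ => ?_
    rw [map_sum, map_sum, Finset.smul_sum, Finset.smul_sum, ← Finset.sum_add_distrib]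
  rw [h4, ← Finset.sum_add_distrib]
  refine Finset.sum_congr rfl fun α _ => ?_
  rw [map_sum, ← Finset.sum_add_distrib]
  rw [Finset.sum_congr rfl fun β _ => h1 α β, Finset.sum_ite_eq, if_pos (Finset.mem_univ _)]

private lemma sq_l2 [DecidableEq ι] (hcc : ∀ α β, c α * c β + c β * c α = 0)
    (haa : ∀ α β, a α * a β + a β * a α = 0)
    (hac : ∀ α β, a α * c β + c β * a α = if α = β then 1 else 0) (p q : ι → ℂ) (v : F) :
    ∑ α, (p α • a α (∑ β, (p β • a β v + q β • c β v)) +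
      q α • c α (∑ β, (p β • a β v + q β • c β v))) = (∑ α, p α * q α) • v := by
  have h2 : (2 : ℂ) • ∑ α, (p α • a α (∑ β, (p β • a β v + q β • c β v)) +
      q α • c α (∑ β, (p β • a β v + q β • c β v))) = (2 : ℂ) • (∑ α, p α * q α) • v := by
    have h1 : ∀ α β, (p α • a α (p β • a β v + q β • c β v) +
        q α • c α (p β • a β v + q β • c β v)) +
        (p β • a β (p α • a α v + q α • c α v) +
        q β • c β (p α • a α v + q α • c α v)) =
        if α = β then (2 : ℂ) • (p α * q α) • v else 0 := by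
      intro α β
      have e1 : c α (c β v) + c β (c α v) = 0 :=
        congrArg (fun T : F →L[ℂ] F => T v) (hcc α β)
      have e2 : a α (a β v) + a β (a α v) = 0 :=
        congrArg (fun T : F →L[ℂ] F => T v) (haa α β)
      have e3 : a α (c β v) + c β (a α v) = if α = β then v else 0 := by
        have h := congrArg (fun T : F →L[ℂ] F => T v) (hac α β)
        by_cases hb : α = β
        · rw [if_pos hb] at h ⊢; exact h
        · rw [if_neg hb] at h ⊢; exact h
      have e4 : a β (c α v) + c α (a β v) = if α = β then v else 0 := by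
        have h := congrArg (fun T : F →L[ℂ] F => T v) (hac β α)
        by_cases hb : α = β
        · rw [if_pos hb.symm] at h; rw [if_pos hb]; exact h
        · rw [if_neg (fun h => hb h.symm)] at h; rw [if_neg hb]; exact h
      simp only [map_add, map_smul]
      calc _ = (p α * p β) • (a α (a β v) + a β (a α v)) +
            (q α * q β) • (c α (c β v) + c β (c α v)) +
            (p α * q β) • (a α (c β v) + c β (a α v)) +
            (q α * p β) • (a β (c α v) + c α (a β v)) := by module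
        _ = _ := by
          rw [e1, e2, e3, e4]
          by_cases hb : α = β
          · subst hb
            simp only [if_true]
            module
          · simp only [if_neg hb, smul_zero, add_zero]
    rw [two_smul]
    have h3 : ∑ α, (p α • a α (∑ β, (p β • a β v + q β • c β v)) +
        q α • c α (∑ β, (p β • a β v + q β • c β v))) =
        ∑ α, ∑ β, (p α • a α (p β • a β v + q β • c β v) +
          q α • c α (p β • a β v + q β • c β v)) := by
      refine Finset.sum_congr rfl fun α _ => ?_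
      rw [map_sum, map_sum, Finset.smul_sum, Finset.smul_sum, ← Finset.sum_add_distrib]
    rw [h3]
    nth_rewrite 2 [Finset.sum_comm]
    rw [← Finset.sum_add_distrib]
    simp only [← Finset.sum_add_distrib]
    rw [Finset.sum_congr rfl fun α _ => Finset.sum_congr rfl fun β _ => h1 α β]
    simp only [Finset.sum_ite_eq, Finset.mem_univ, if_true]
    rw [← Finset.smul_sum, ← Finset.sum_smul]
  have h4 := congrArg (fun z : F => (2 : ℂ)⁻¹ • z) h2
  simpa only [smul_smul, inv_mul_cancel₀ (two_ne_zero : (2 : ℂ) ≠ 0), one_smul, ← mul_assoc,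
    one_mul] using h4

end car

/-! ### calculus -/

private lemma sq_snd_comm {G : Type*} [NormedAddCommGroup G] [NormedSpace ℝ G] {u : X3 → G}
    (hu : ContDiff ℝ ∞ u) (e e' x : X3) :
    fderiv ℝ (fun y => fderiv ℝ u y e) x e' = fderiv ℝ (fun y => fderiv ℝ u y e') x e := by
  have hd : DifferentiableAt ℝ (fderiv ℝ u) x :=
    ((hu.fderiv_right (m := ∞) (by simp)).differentiable (by simp)) x
  have h1 : ∀ e e' : X3, fderiv ℝ (fun y => fderiv ℝ u y e) x e' =
      fderiv ℝ (fderiv ℝ u) x e' e := by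
    intro e e'
    rw [fderiv_clm_apply hd (differentiableAt_const e)]
    simp
  rw [h1, h1]
  have h2 : IsSymmSndFDerivAt ℝ u x := by
    refine (hu.contDiffAt (x := x)).isSymmSndFDerivAt ?_
    rw [minSmoothness_of_isRCLikeNormedField]
    exact WithTop.coe_le_coe.2 le_top
  exact h2.eq e' e

private lemma sq_diff_fderiv {G : Type*} [NormedAddCommGroup G] [NormedSpace ℝ G] {u : X3 → G}
    (hu : ContDiff ℝ ∞ u) (e : X3) : ContDiff ℝ ∞ (fun y => fderiv ℝ u y e) :=
  (hu.fderiv_right (m := ∞) (by simp)).clm_apply contDiff_const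

namespace Fk

variable (K : Fk F)

private noncomputable def sgi (i : Fin 8) : ℂ := if i = 7 then Complex.I * (K.sg : ℂ) else 0

private noncomputable def gd (α : Fin 8 × Fin 3) (u : X3 → F) (x : X3) : F :=
  pd (f9 α.1) α.2 u x + K.sgi α.1 • pd 8 α.2 u x

private noncomputable def gs (α : Fin 8 × Fin 3) (c : X3 → ℂ) (x : X3) : ℂ :=
  fderiv ℝ c x (EuclideanSpace.single (f9 α.1, α.2) 1) +
    K.sgi α.1 * fderiv ℝ c x (EuclideanSpace.single (8, α.2) 1)

private lemma contDiff_gd (α : Fin 8 × Fin 3) {u : X3 → F} (hu : ContDiff ℝ ∞ u) :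
    ContDiff ℝ ∞ (K.gd α u) := by
  unfold gd
  exact (contDiff_pd hu).add ((contDiff_pd hu).const_smul _)

private lemma contDiff_gs (α : Fin 8 × Fin 3) {c : X3 → ℂ} (hc : ContDiff ℝ ∞ c) :
    ContDiff ℝ ∞ (K.gs α c) := by
  unfold gs
  exact (sq_diff_fderiv hc _).add (contDiff_const.mul (sq_diff_fderiv hc _))

private lemma sq_pd_comm {u : X3 → F} (hu : ContDiff ℝ ∞ u) (i j : Fin 9) (A B : Fin 3) (x : X3) :
    pd i A (pd j B u) x = pd j B (pd i A u) x :=
  sq_snd_comm hu _ _ x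

private lemma gd_add (α : Fin 8 × Fin 3) {u v : X3 → F} {x : X3} (hu : DifferentiableAt ℝ u x)
    (hv : DifferentiableAt ℝ v x) :
    K.gd α (fun y => u y + v y) x = K.gd α u x + K.gd α v x := by
  unfold gd
  rw [pd_add hu hv, pd_add hu hv]
  module

private lemma gd_sum {ι : Type*} (s : Finset ι) (α : Fin 8 × Fin 3) {u : ι → X3 → F} {x : X3}
    (hu : ∀ k ∈ s, DifferentiableAt ℝ (u k) x) :
    K.gd α (fun y => ∑ k ∈ s, u k y) x = ∑ k ∈ s, K.gd α (u k) x := by
  unfold gd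
  rw [pd_sum s hu, pd_sum s hu, Finset.smul_sum, ← Finset.sum_add_distrib]

private lemma gd_clm (α : Fin 8 × Fin 3) (T : F →L[ℂ] F) {u : X3 → F} {x : X3}
    (hu : DifferentiableAt ℝ u x) :
    K.gd α (fun y => T (u y)) x = T (K.gd α u x) := by
  unfold gd
  rw [pd_clm T hu, pd_clm T hu, map_add, map_smul]

private lemma gd_csmul (α : Fin 8 × Fin 3) {c : X3 → ℂ} {u : X3 → F} {x : X3}
    (hc : DifferentiableAt ℝ c x) (hu : DifferentiableAt ℝ u x) :
    K.gd α (fun y => c y • u y) x = K.gs α c x • u x + c x • K.gd α u x := by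
  unfold gd gs
  rw [pd_csmul hc hu, pd_csmul hc hu]
  module

private lemma gs_mul (α : Fin 8 × Fin 3) {c d : X3 → ℂ} {x : X3}
    (hc : DifferentiableAt ℝ c x) (hd : DifferentiableAt ℝ d x) :
    K.gs α (fun y => c y * d y) x = K.gs α c x * d x + c x * K.gs α d x := by
  unfold gs
  rw [fderiv_fun_mul hc hd]
  simp only [add_apply, smul_apply, smul_eq_mul]
  ring

private lemma gs_const_mul (α : Fin 8 × Fin 3) (c : ℂ) {d : X3 → ℂ} {x : X3}
    (hd : DifferentiableAt ℝ d x) :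
    K.gs α (fun y => c * d y) x = c * K.gs α d x := by
  unfold gs
  rw [fderiv_const_mul hd]
  simp only [smul_apply, smul_eq_mul]
  ring

private lemma gs_sum {ι : Type*} (s : Finset ι) (α : Fin 8 × Fin 3) {u : ι → X3 → ℂ} {x : X3}
    (hu : ∀ k ∈ s, DifferentiableAt ℝ (u k) x) :
    K.gs α (fun y => ∑ k ∈ s, u k y) x = ∑ k ∈ s, K.gs α (u k) x := by
  unfold gs
  rw [fderiv_fun_sum hu]
  simp only [sum_apply, Finset.mul_sum, ← Finset.sum_add_distrib]

private lemma gd_comm (α β : Fin 8 × Fin 3) {u : X3 → F} (hu : ContDiff ℝ ∞ u) (x : X3) :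
    K.gd α (K.gd β u) x = K.gd β (K.gd α u) x := by
  have h1 : ∀ (i : Fin 9) (A : Fin 3) (γ : Fin 8 × Fin 3), pd i A (K.gd γ u) x =
      pd i A (pd (f9 γ.1) γ.2 u) x + K.sgi γ.1 • pd i A (pd 8 γ.2 u) x := by
    intro i A γ
    have d1 : DifferentiableAt ℝ (pd (f9 γ.1) γ.2 u) x :=
      ((contDiff_pd hu).differentiable (by simp)) x
    have d2 : DifferentiableAt ℝ (pd 8 γ.2 u) x :=
      ((contDiff_pd hu).differentiable (by simp)) x
    have h2 : pd i A (fun y => K.sgi γ.1 • pd 8 γ.2 u y) x =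
        K.sgi γ.1 • pd i A (pd 8 γ.2 u) x := by
      rw [pd_csmul (differentiableAt_const _) d2]
      simp
    rw [← h2]
    exact pd_add d1 (d2.const_smul _)
  change pd (f9 α.1) α.2 (K.gd β u) x + K.sgi α.1 • pd 8 α.2 (K.gd β u) x =
    pd (f9 β.1) β.2 (K.gd α u) x + K.sgi β.1 • pd 8 β.2 (K.gd α u) x
  rw [h1, h1, h1, h1, sq_pd_comm hu (f9 α.1) (f9 β.1), sq_pd_comm hu (f9 α.1) 8,
    sq_pd_comm hu 8 (f9 β.1), sq_pd_comm hu 8 8 α.2 β.2]
  module

private lemma gs_comm (α β : Fin 8 × Fin 3) {c : X3 → ℂ} (hc : ContDiff ℝ ∞ c) (x : X3) :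
    K.gs α (K.gs β c) x = K.gs β (K.gs α c) x := by
  have h1 : ∀ (e : X3) (γ : Fin 8 × Fin 3), fderiv ℝ (K.gs γ c) x e =
      fderiv ℝ (fun y => fderiv ℝ c y (EuclideanSpace.single (f9 γ.1, γ.2) 1)) x e +
      K.sgi γ.1 * fderiv ℝ (fun y => fderiv ℝ c y (EuclideanSpace.single (8, γ.2) 1)) x e := by
    intro e γ
    have d1 := ((sq_diff_fderiv hc (EuclideanSpace.single (f9 γ.1, γ.2) 1)).differentiable
      (by simp)) x
    have d2 := ((sq_diff_fderiv hc (EuclideanSpace.single (8, γ.2) 1)).differentiable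
      (by simp)) x
    unfold gs
    rw [fderiv_fun_add d1 (d2.const_mul _), fderiv_const_mul d2]
    simp only [add_apply, smul_apply, smul_eq_mul]
  change fderiv ℝ (K.gs β c) x _ + K.sgi α.1 * fderiv ℝ (K.gs β c) x _ =
    fderiv ℝ (K.gs α c) x _ + K.sgi β.1 * fderiv ℝ (K.gs α c) x _
  rw [h1, h1, h1, h1, sq_snd_comm hc (EuclideanSpace.single (f9 β.1, β.2) 1)
      (EuclideanSpace.single (f9 α.1, α.2) 1),
    sq_snd_comm hc (EuclideanSpace.single (8, β.2) 1) (EuclideanSpace.single (f9 α.1, α.2) 1),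
    sq_snd_comm hc (EuclideanSpace.single (f9 β.1, β.2) 1) (EuclideanSpace.single (8, α.2) 1),
    sq_snd_comm hc (EuclideanSpace.single (8, β.2) 1) (EuclideanSpace.single (8, α.2) 1)]
  ring

/-! ### the coordinates -/

private noncomputable def cl (p : Fin 9 × Fin 3) : X3 →L[ℝ] ℂ :=
  Complex.ofRealCLM.comp (EuclideanSpace.proj p : X3 →L[ℝ] ℝ)

private lemma cl_apply (p : Fin 9 × Fin 3) (x : X3) : cl p x = (x p : ℂ) := rfl

private noncomputable def phL (A : Fin 3) : X3 →L[ℝ] ℂ :=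
  cl (7, A) + (Complex.I * (K.sg : ℂ)) • cl (8, A)

private noncomputable def ycL (i : Fin 8) (A : Fin 3) : X3 →L[ℝ] ℂ :=
  if i = 7 then (1 / 2 : ℂ) • (cl (7, A) - (Complex.I * (K.sg : ℂ)) • cl (8, A))
  else cl (f9 i, A)

private lemma ph_eq (A : Fin 3) : K.ph A = fun x => K.phL A x := by
  funext x
  simp only [ph, phL, add_apply, smul_apply, smul_eq_mul, cl_apply]

private lemma gs_clm (α : Fin 8 × Fin 3) (L : X3 →L[ℝ] ℂ) (x : X3) :
    K.gs α (fun y => L y) x = L (EuclideanSpace.single (f9 α.1, α.2) 1) +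
      K.sgi α.1 * L (EuclideanSpace.single (8, α.2) 1) := by
  unfold gs
  have h : fderiv ℝ (fun y => L y) x = L := L.fderiv
  rw [h]

private lemma sgC : (K.sg : ℂ) * (K.sg : ℂ) = 1 := by
  have := K.sg_sq
  exact_mod_cast this

private lemma cl_single (p q : Fin 9 × Fin 3) :
    cl p (EuclideanSpace.single q (1 : ℝ)) = if p = q then 1 else 0 := by
  rw [cl_apply, PiLp.single_apply]
  split_ifs <;> simp

private lemma f9_ne (k : Fin 8) : ¬ (f9 k = 8) := by
  intro h
  have := congrArg Fin.val h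
  simp only [Fin.val_castSucc] at this
  have h2 := k.2
  simp at this
  omega

private lemma f9_ne' (k : Fin 8) : ¬ ((8 : Fin 9) = f9 k) := fun h => f9_ne k h.symm

private lemma f9_seven : (7 : Fin 9) = f9 7 := by decide

private lemma f9_iff (k l : Fin 8) : f9 k = f9 l ↔ k = l := Fin.castSucc_inj

private lemma gs_ph (α : Fin 8 × Fin 3) (A : Fin 3) (x : X3) : K.gs α (K.ph A) x = 0 := by
  rw [ph_eq, gs_clm]
  obtain ⟨i, B⟩ := α
  have hI := Complex.I_mul_I
  have hs := K.sgC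
  simp only [phL, add_apply, smul_apply, smul_eq_mul, cl_single, Prod.mk.injEq, f9_seven, f9_iff,
    f9_ne, f9_ne', false_and, if_false, mul_zero, add_zero, true_and]
  by_cases hi : i = 7
  · subst hi
    by_cases hA : A = B
    · simp only [sgi, if_pos hA, if_true, true_and]
      linear_combination hI * ((K.sg : ℂ) * (K.sg : ℂ)) - hs
    · simp only [hA, and_false, if_false]
      ring
  · have hi' : ¬ (7 = i) := fun h => hi h.symm
    simp only [sgi, if_neg hi, hi', false_and, if_false]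
    ring

private lemma gs_yc (α : Fin 8 × Fin 3) (i : Fin 8) (A : Fin 3) (x : X3) :
    K.gs α (fun y => K.ycL i A y) x = if α = (i, A) then 1 else 0 := by
  rw [gs_clm]
  obtain ⟨j, B⟩ := α
  have hI := Complex.I_mul_I
  have hs := K.sgC
  by_cases hi : i = 7
  · subst hi
    simp only [ycL, if_true, smul_apply, sub_apply, smul_eq_mul, cl_single, Prod.mk.injEq,
      f9_seven, f9_iff, f9_ne, f9_ne', false_and, if_false, true_and]
    by_cases hj : j = 7
    · subst hj
      by_cases hA : A = B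
      · subst hA
        simp only [sgi, if_true, true_and]
        linear_combination (-1 / 2 : ℂ) * hI * ((K.sg : ℂ) * (K.sg : ℂ)) + (1 / 2 : ℂ) * hs
      · have hA' : ¬ (B = A) := fun h => hA h.symm
        simp only [hA, hA', and_false, if_false]
        ring
    · have hj' : ¬ (7 = j) := fun h => hj h.symm
      simp only [sgi, hj, hj', false_and, if_false]
      ring
  · simp only [ycL, if_neg hi, cl_single, Prod.mk.injEq, f9_iff, f9_ne, false_and, if_false,
      mul_zero, add_zero]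
    refine if_congr ?_ rfl rfl
    constructor
    · rintro ⟨rfl, rfl⟩; exact ⟨rfl, rfl⟩
    · rintro ⟨rfl, rfl⟩; exact ⟨rfl, rfl⟩

/-! ### the zeroth order terms -/

private noncomputable def pp (α : Fin 8 × Fin 3) (x : X3) : ℂ :=
  K.nu * ∑ D, K.ph D x * ∑ C, (eps α.2 D C : ℂ) * K.ycL α.1 C x

private noncomputable def qq' (α : Fin 8 × Fin 3) (x : X3) : ℂ :=
  K.gs α (fun y => (K.hh y : ℂ)) x

private lemma contDiff_ph (A : Fin 3) : ContDiff ℝ ∞ (K.ph A) := by
  rw [ph_eq]; exact (K.phL A).contDiff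

private lemma contDiff_hhC : ContDiff ℝ ∞ (fun y => (K.hh y : ℂ)) :=
  Complex.ofRealCLM.contDiff.comp K.contDiff_hh

private lemma contDiff_pp (α : Fin 8 × Fin 3) : ContDiff ℝ ∞ (K.pp α) := by
  unfold pp
  exact contDiff_const.mul (ContDiff.sum fun D _ => (K.contDiff_ph D).mul
    (ContDiff.sum fun C _ => contDiff_const.mul (K.ycL α.1 C).contDiff))

private lemma contDiff_qq' (α : Fin 8 × Fin 3) : ContDiff ℝ ∞ (K.qq' α) :=
  K.contDiff_gs α K.contDiff_hhC

private lemma gs_pp (α β : Fin 8 × Fin 3) (x : X3) :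
    K.gs α (K.pp β) x = if α.1 = β.1 then K.nu * ∑ D, K.ph D x * (eps β.2 D α.2 : ℂ) else 0 := by
  have dph : ∀ D, DifferentiableAt ℝ (K.ph D) x := fun D =>
    ((K.contDiff_ph D).differentiable (by simp)) x
  have dyc : ∀ C, DifferentiableAt ℝ (fun y => K.ycL β.1 C y) x := fun C =>
    (K.ycL β.1 C).differentiableAt
  have d1 : ∀ D, DifferentiableAt ℝ (fun y => ∑ C, (eps β.2 D C : ℂ) * K.ycL β.1 C y) x :=
    fun D => DifferentiableAt.fun_sum fun C _ => (dyc C).const_mul _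
  have d2 : ∀ D, DifferentiableAt ℝ
      (fun y => K.ph D y * ∑ C, (eps β.2 D C : ℂ) * K.ycL β.1 C y) x :=
    fun D => (dph D).mul (d1 D)
  have d3 : DifferentiableAt ℝ
      (fun y => ∑ D, K.ph D y * ∑ C, (eps β.2 D C : ℂ) * K.ycL β.1 C y) x :=
    DifferentiableAt.fun_sum fun D _ => d2 D
  change K.gs α (fun y => K.nu * ∑ D, K.ph D y * ∑ C, (eps β.2 D C : ℂ) * K.ycL β.1 C y) x = _
  rw [gs_const_mul K α K.nu d3, gs_sum K Finset.univ α fun D _ => d2 D]
  have h1 : ∀ D, K.gs α (fun y => K.ph D y * ∑ C, (eps β.2 D C : ℂ) * K.ycL β.1 C y) x =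
      if α.1 = β.1 then K.ph D x * (eps β.2 D α.2 : ℂ) else 0 := by
    intro D
    rw [gs_mul K α (dph D) (d1 D), gs_ph, zero_mul, zero_add,
      gs_sum K Finset.univ α fun C _ => (dyc C).const_mul _]
    have h2 : ∀ C, K.gs α (fun y => (eps β.2 D C : ℂ) * K.ycL β.1 C y) x =
        if α = (β.1, C) then (eps β.2 D C : ℂ) else 0 := by
      intro C
      rw [gs_const_mul K α _ (dyc C), gs_yc]
      split_ifs <;> simp
    rw [Finset.sum_congr rfl fun C _ => h2 C]
    by_cases h : α.1 = β.1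
    · rw [if_pos h, Finset.sum_eq_single α.2]
      · rw [if_pos (Prod.ext h rfl : α = (β.1, α.2))]
      · intro C _ hC
        exact if_neg fun h' => hC (congrArg Prod.snd h').symm
      · intro h'; exact absurd (Finset.mem_univ _) h'
    · rw [if_neg h, Finset.sum_eq_zero, mul_zero]
      intro C _
      exact if_neg fun h' : α = (β.1, C) => h (by rw [h'])
  rw [Finset.sum_congr rfl fun D _ => h1 D]
  split_ifs with h
  · rfl
  · rw [Finset.sum_const_zero, mul_zero]

private lemma ycL_last (C : Fin 3) (x : X3) : K.ycL 7 C x = (1 / 2 : ℂ) * K.phb C x := by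
  simp only [ycL, if_true, smul_apply, sub_apply, smul_eq_mul, cl_apply, phb]

private lemma e8_ne (i : Fin 7) : ¬ (e8 i = 7) := by
  intro h
  have := congrArg Fin.val h
  simp only [Fin.val_castSucc] at this
  have h2 := i.2
  simp at this
  omega

private lemma ycL_cast (i : Fin 7) (C : Fin 3) (x : X3) : K.ycL (e8 i) C x = (x (e9 i, C) : ℂ) := by
  simp only [ycL, if_neg (e8_ne i), cl_apply]

private lemma dd_eq (u : X3 → F) (x : X3) : K.dd u x = ∑ α : Fin 8 × Fin 3, K.c α.1 α.2 (K.gd α u x) := by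
  rw [Fintype.sum_prod_type, Fin.sum_univ_castSucc, dd]
  congr 1
  refine Finset.sum_congr rfl fun i _ => Finset.sum_congr rfl fun A _ => ?_
  simp only [gd, sgi, if_neg (e8_ne i), zero_smul, add_zero]

private lemma pdr_ofReal {g : X3 → ℝ} {x : X3} (hg : DifferentiableAt ℝ g x) (i : Fin 9)
    (A : Fin 3) :
    fderiv ℝ (fun y => ((g y : ℝ) : ℂ)) x (EuclideanSpace.single (i, A) 1) = (pdr i A g x : ℂ) :=
  fderiv_ofReal_comp hg _

private lemma qq'_cast (i : Fin 7) (A : Fin 3) (x : X3) :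
    K.qq' (e8 i, A) x = (K.dhc i A x : ℂ) := by
  have hd : DifferentiableAt ℝ K.hh x := (K.contDiff_hh.differentiable (by simp)) x
  simp only [qq', gs, sgi, if_neg (e8_ne i), zero_mul, add_zero]
  rw [pdr_ofReal hd, pdr_hh]

private lemma qq'_last (A : Fin 3) (x : X3) : K.qq' (7, A) x = 0 := by
  have hd : DifferentiableAt ℝ K.hh x := (K.contDiff_hh.differentiable (by simp)) x
  simp only [qq', gs]
  rw [pdr_ofReal hd, pdr_ofReal hd, pdr_hh_8, ← f9_seven, pdr_hh_7]
  simp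

private lemma sum_eps_split (f : Fin 8 → Fin 3 → Fin 3 → Fin 3 → ℂ) (w : Fin 8 → Fin 3 → F)
    (g : Fin 3 → ℂ) (n : ℂ) :
    ∑ α : Fin 8 × Fin 3, (n * ∑ D, g D * ∑ C, f α.1 α.2 D C) • w α.1 α.2 =
    n • ∑ D, g D • ∑ i, ∑ B, ∑ C, f i B D C • w i B := by
  rw [Fintype.sum_prod_type]
  have h1 : ∀ i B, (n * ∑ D, g D * ∑ C, f i B D C) • w i B =
      n • ∑ D, g D • ∑ C, f i B D C • w i B := by
    intro i B
    rw [mul_smul, Finset.sum_smul]
    congr 1
    refine Finset.sum_congr rfl fun D _ => ?_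
    rw [mul_smul, Finset.sum_smul]
  simp only [h1]
  simp only [← Finset.smul_sum]
  congr 1
  have h2 : ∀ i, ∑ B, ∑ D, g D • ∑ C, f i B D C • w i B =
      ∑ D, ∑ B, g D • ∑ C, f i B D C • w i B := fun i => Finset.sum_comm
  rw [Finset.sum_congr rfl fun i _ => h2 i, Finset.sum_comm]
  refine Finset.sum_congr rfl fun D _ => ?_
  rw [Finset.smul_sum]
  refine Finset.sum_congr rfl fun i _ => ?_
  rw [Finset.smul_sum]

private lemma io_eq (A : Fin 3) (x : X3) (v : F) :
    K.io A x v = ∑ i : Fin 8, ∑ B, ∑ C, ((eps B A C : ℂ) * K.ycL i C x) • K.a i B v := by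
  rw [Fin.sum_univ_castSucc, io, add_apply]
  refine congrArg₂ (· + ·) ?_ ?_
  · simp only [sum_apply, smul_apply]
    refine Finset.sum_congr rfl fun i _ => Finset.sum_congr rfl fun B _ =>
      Finset.sum_congr rfl fun C _ => ?_
    rw [ycL_cast]
  · simp only [sum_apply, smul_apply, Finset.smul_sum]
    refine Finset.sum_congr rfl fun B _ => Finset.sum_congr rfl fun C _ => ?_
    change _ = ((eps B A C : ℂ) * K.ycL 7 C x) • K.a 7 B v
    rw [ycL_last, smul_smul]
    congr 1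
    ring

private lemma zero_eq (x : X3) (v : F) :
    K.nu • (∑ A, K.ph A x • K.io A x v) + K.dh x v =
      ∑ α : Fin 8 × Fin 3, (K.pp α x • K.a α.1 α.2 v + K.qq' α x • K.c α.1 α.2 v) := by
  rw [Finset.sum_add_distrib]
  congr 1
  · unfold pp
    rw [sum_eps_split (fun i B D C => (eps B D C : ℂ) * K.ycL i C x) (fun i B => K.a i B v)
      (fun D => K.ph D x) K.nu]
    congr 1
    refine Finset.sum_congr rfl fun D _ => ?_
    rw [io_eq]
  · rw [Fintype.sum_prod_type, Fin.sum_univ_castSucc, dh]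
    have h : ∑ A, K.qq' (Fin.last 7, A) x • K.c (Fin.last 7) A v = 0 :=
      Finset.sum_eq_zero fun A _ => by
        rw [show (Fin.last 7 : Fin 8) = 7 from rfl, qq'_last, zero_smul]
    rw [h, add_zero, sum_apply]
    refine Finset.sum_congr rfl fun i _ => ?_
    rw [sum_apply]
    refine Finset.sum_congr rfl fun A _ => ?_
    rw [smul_apply, qq'_cast]

private lemma DD_eq (u : X3 → F) (x : X3) :
    K.DD u x = ∑ α : Fin 8 × Fin 3, K.c α.1 α.2 (K.gd α u x) +
      ∑ α : Fin 8 × Fin 3, (K.pp α x • K.a α.1 α.2 (u x) + K.qq' α x • K.c α.1 α.2 (u x)) := by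
  rw [DD, D0, dd_eq, ← zero_eq, add_assoc]

/-- `ι_A h = 0` -/
private lemma sq_s3 (x : X3) : ∑ α, K.pp α x * K.qq' α x = 0 := by
  have h := sum_eps_split (F := ℂ) (fun i B D C => (eps B D C : ℂ) * K.ycL i C x)
    (fun i B => K.qq' (i, B) x) (fun D => K.ph D x) K.nu
  have h2 : ∑ α, K.pp α x * K.qq' α x = ∑ α : Fin 8 × Fin 3,
      (K.nu * ∑ D, K.ph D x * ∑ C, (eps α.2 D C : ℂ) * K.ycL α.1 C x) • K.qq' (α.1, α.2) x := rfl
  rw [h2, h]
  have h3 : ∀ D, ∑ i : Fin 8, ∑ B, ∑ C, ((eps B D C : ℂ) * K.ycL i C x) • K.qq' (i, B) x = 0 := by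
    intro D
    have h4 := K.orb_hh D x
    rw [Fin.sum_univ_castSucc, Fin.sum_univ_castSucc] at h4
    have h5 : ∑ B, ∑ C, (eps B D C : ℝ) * x ((Fin.last 7).castSucc, C) *
        pdr (Fin.last 7).castSucc B K.hh x = 0 :=
      Finset.sum_eq_zero fun B _ => Finset.sum_eq_zero fun C _ => by
        rw [show ((Fin.last 7).castSucc : Fin 9) = 7 from rfl, pdr_hh_7, mul_zero]
    have h6 : ∑ B, ∑ C, (eps B D C : ℝ) * x (Fin.last 8, C) *
        pdr (Fin.last 8) B K.hh x = 0 :=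
      Finset.sum_eq_zero fun B _ => Finset.sum_eq_zero fun C _ => by
        rw [show (Fin.last 8 : Fin 9) = 8 from rfl, pdr_hh_8, mul_zero]
    rw [h5, h6, add_zero, add_zero] at h4
    rw [Fin.sum_univ_castSucc]
    have h7 : ∑ B, ∑ C, ((eps B D C : ℂ) * K.ycL (Fin.last 7) C x) • K.qq' (Fin.last 7, B) x = 0 :=
      Finset.sum_eq_zero fun B _ => Finset.sum_eq_zero fun C _ => by
        rw [show (Fin.last 7 : Fin 8) = 7 from rfl, qq'_last, smul_zero]
    rw [h7, add_zero]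
    have h8 := congrArg (fun r : ℝ => (r : ℂ)) h4
    push_cast at h8
    rw [← h8]
    refine Finset.sum_congr rfl fun i _ => Finset.sum_congr rfl fun B _ =>
      Finset.sum_congr rfl fun C _ => ?_
    rw [ycL_cast, qq'_cast, pdr_hh, smul_eq_mul]
  simp only [h3, smul_zero, Finset.sum_const_zero]

private lemma sq_s4_aux (g : Fin 3 → ℂ) (w : Fin 3 → F) :
    ∑ D, g D • ∑ B, ∑ C, ((eps B D C : ℂ) * ((1 / 2 : ℂ) * g C)) • w B = 0 := by
  simp only [Fin.sum_univ_three]
  simp [eps]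
  module

private lemma sum9 {M : Type*} [AddCommMonoid M] (f : Fin 9 → M) :
    ∑ i, f i = (∑ i : Fin 7, f (e9 i)) + f 7 + f 8 := by
  rw [Fin.sum_univ_castSucc, Fin.sum_univ_castSucc]; rfl

private lemma sum8 {M : Type*} [AddCommMonoid M] (f : Fin 8 → M) :
    ∑ i, f i = (∑ i : Fin 7, f (e8 i)) + f 7 := by
  rw [Fin.sum_univ_castSucc]; rfl

private lemma sq_s4 (u : X3 → F) (x : X3) :
    ∑ α : Fin 8 × Fin 3, K.pp α x • K.gd α u x = K.nu • ∑ D, K.ph D x • orb D u x := by
  unfold pp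
  have h0 := sum_eps_split (fun i B D C => (eps B D C : ℂ) * K.ycL i C x)
    (fun i B => K.gd (i, B) u x) (fun D => K.ph D x) K.nu
  have h0' : ∑ α : Fin 8 × Fin 3, (K.nu * ∑ D, K.ph D x *
      ∑ C, (eps α.2 D C : ℂ) * K.ycL α.1 C x) • K.gd α u x =
      ∑ α : Fin 8 × Fin 3, (K.nu * ∑ D, K.ph D x *
      ∑ C, (eps α.2 D C : ℂ) * K.ycL α.1 C x) • K.gd (α.1, α.2) u x := rfl
  rw [h0', h0]
  congr 1
  have h1 : ∀ D, orb D u x = (∑ i, ∑ B, ∑ C, ((eps B D C : ℂ) * K.ycL i C x) • K.gd (i, B) u x) +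
      ∑ B, ∑ C, ((eps B D C : ℂ) * ((1 / 2 : ℂ) * K.ph C x)) •
        (pd 7 B u x - (Complex.I * (K.sg : ℂ)) • pd 8 B u x) := by
    intro D
    rw [orb, sum9, sum8, add_assoc, add_assoc]
    refine congrArg₂ (· + ·) ?_ ?_
    · refine Finset.sum_congr rfl fun i _ => Finset.sum_congr rfl fun B _ =>
        Finset.sum_congr rfl fun C _ => ?_
      rw [ycL_cast]
      simp only [gd, sgi, if_neg (e8_ne i), zero_smul, add_zero]
    · rw [← Finset.sum_add_distrib, ← Finset.sum_add_distrib]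
      refine Finset.sum_congr rfl fun B _ => ?_
      rw [← Finset.sum_add_distrib, ← Finset.sum_add_distrib]
      refine Finset.sum_congr rfl fun C _ => ?_
      have hs := K.sgC
      have hI := Complex.I_mul_I
      have e1 : K.gd (7, B) u x = pd 7 B u x + (Complex.I * (K.sg : ℂ)) • pd 8 B u x := by
        simp only [gd, sgi, if_true]
        rfl
      rw [ycL_last, e1, phb, ph]
      have e2 : (x (8, C) : ℂ) = (1 / 2 : ℂ) * ((x (7, C) : ℂ) -
          Complex.I * (K.sg : ℂ) * (x (8, C) : ℂ)) * (Complex.I * (K.sg : ℂ)) -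
          (1 / 2 : ℂ) * ((x (7, C) : ℂ) +
          Complex.I * (K.sg : ℂ) * (x (8, C) : ℂ)) * (Complex.I * (K.sg : ℂ)) := by
        linear_combination (K.sg : ℂ) * (K.sg : ℂ) * (x (8, C) : ℂ) * hI - (x (8, C) : ℂ) * hs
      have e3 : ((eps B D C : ℂ) * (x (8, C) : ℂ)) • pd 8 B u x =
          ((eps B D C : ℂ) * ((1 / 2 : ℂ) * ((x (7, C) : ℂ) -
          Complex.I * (K.sg : ℂ) * (x (8, C) : ℂ)) * (Complex.I * (K.sg : ℂ)) -
          (1 / 2 : ℂ) * ((x (7, C) : ℂ) +
          Complex.I * (K.sg : ℂ) * (x (8, C) : ℂ)) * (Complex.I * (K.sg : ℂ)))) • pd 8 B u x := by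
        rw [← e2]
      rw [e3]
      module
  simp only [h1, smul_add, Finset.sum_add_distrib]
  rw [sq_s4_aux, add_zero]

private lemma sq_s5 (x : X3) (v : F) :
    ∑ α : Fin 8 × Fin 3, ∑ β : Fin 8 × Fin 3, K.gs α (K.pp β) x • K.c α.1 α.2 (K.a β.1 β.2 v) =
      K.nu • ∑ D, K.ph D x • K.spin D v := by
  have h1 : ∀ (i : Fin 8) (C : Fin 3), ∑ β : Fin 8 × Fin 3,
      K.gs (i, C) (K.pp β) x • K.c i C (K.a β.1 β.2 v) =
      ∑ B, (K.nu * ∑ D, K.ph D x * (eps B D C : ℂ)) • K.c i C (K.a i B v) := by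
    intro i C
    rw [Fintype.sum_prod_type, Finset.sum_eq_single i]
    · refine Finset.sum_congr rfl fun B _ => ?_
      rw [gs_pp, if_pos rfl]
    · intro j _ hj
      refine Finset.sum_eq_zero fun B _ => ?_
      rw [gs_pp, if_neg (fun h => hj h.symm), zero_smul]
    · intro h; exact absurd (Finset.mem_univ _) h
  rw [Fintype.sum_prod_type]
  simp only [h1]
  have h2 : ∀ D, K.spin D v = ∑ i, ∑ C, ∑ B, (eps B D C : ℂ) • K.c i C (K.a i B v) := by
    intro D
    rw [spin, sum_apply]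
    refine Finset.sum_congr rfl fun i _ => ?_
    rw [sum_apply, Finset.sum_comm]
    refine Finset.sum_congr rfl fun B _ => ?_
    rw [sum_apply]
    rfl
  simp only [h2]
  have h3 : ∀ (i : Fin 8) (C B : Fin 3),
      (K.nu * ∑ D, K.ph D x * (eps B D C : ℂ)) • K.c i C (K.a i B v) =
      ∑ D, K.nu • K.ph D x • (eps B D C : ℂ) • K.c i C (K.a i B v) := by
    intro i C B
    rw [Finset.mul_sum, Finset.sum_smul]
    refine Finset.sum_congr rfl fun D _ => ?_
    rw [smul_smul, smul_smul, mul_assoc]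
  simp only [h3, Finset.smul_sum]
  calc ∑ i : Fin 8, ∑ C, ∑ B, ∑ D, K.nu • K.ph D x • (eps B D C : ℂ) • K.c i C (K.a i B v)
      = ∑ i : Fin 8, ∑ C, ∑ D, ∑ B, K.nu • K.ph D x • (eps B D C : ℂ) • K.c i C (K.a i B v) :=
        Finset.sum_congr rfl fun i _ => Finset.sum_congr rfl fun C _ => Finset.sum_comm
    _ = ∑ i : Fin 8, ∑ D, ∑ C, ∑ B, K.nu • K.ph D x • (eps B D C : ℂ) • K.c i C (K.a i B v) :=
        Finset.sum_congr rfl fun i _ => Finset.sum_comm
    _ = _ := Finset.sum_comm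

private lemma gd_DD (α : Fin 8 × Fin 3) {u : X3 → F} (hu : ContDiff ℝ ∞ u) (x : X3) :
    K.gd α (K.DD u) x = ∑ β : Fin 8 × Fin 3, K.c β.1 β.2 (K.gd α (K.gd β u) x) +
      ((∑ β : Fin 8 × Fin 3, K.gs α (K.pp β) x • K.a β.1 β.2 (u x)) +
      (∑ β : Fin 8 × Fin 3, K.gs α (K.qq' β) x • K.c β.1 β.2 (u x)) +
      ∑ β : Fin 8 × Fin 3, (K.pp β x • K.a β.1 β.2 (K.gd α u x) +
        K.qq' β x • K.c β.1 β.2 (K.gd α u x))) := by
  have du : DifferentiableAt ℝ u x := (hu.differentiable (by simp)) x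
  have dg : ∀ β, DifferentiableAt ℝ (K.gd β u) x := fun β =>
    ((K.contDiff_gd β hu).differentiable (by simp)) x
  have dT : ∀ (T : F →L[ℂ] F) {w : X3 → F}, DifferentiableAt ℝ w x →
      DifferentiableAt ℝ (fun y => T (w y)) x := fun T w hw =>
    (T.restrictScalars ℝ).differentiableAt.comp x hw
  have dp : ∀ β, DifferentiableAt ℝ (K.pp β) x := fun β =>
    ((K.contDiff_pp β).differentiable (by simp)) x
  have dq : ∀ β, DifferentiableAt ℝ (K.qq' β) x := fun β =>
    ((K.contDiff_qq' β).differentiable (by simp)) x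
  have d1 : ∀ β : Fin 8 × Fin 3, DifferentiableAt ℝ (fun y => K.c β.1 β.2 (K.gd β u y)) x :=
    fun β => dT _ (dg β)
  have d2 : ∀ β : Fin 8 × Fin 3, DifferentiableAt ℝ (fun y => K.pp β y • K.a β.1 β.2 (u y)) x :=
    fun β => (dp β).smul (dT _ du)
  have d3 : ∀ β : Fin 8 × Fin 3, DifferentiableAt ℝ (fun y => K.qq' β y • K.c β.1 β.2 (u y)) x :=
    fun β => (dq β).smul (dT _ du)
  have d4 : ∀ β : Fin 8 × Fin 3, DifferentiableAt ℝ
      (fun y => K.pp β y • K.a β.1 β.2 (u y) + K.qq' β y • K.c β.1 β.2 (u y)) x :=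
    fun β => (d2 β).add (d3 β)
  have e : K.DD u = fun y => (∑ β : Fin 8 × Fin 3, K.c β.1 β.2 (K.gd β u y)) +
      ∑ β : Fin 8 × Fin 3, (K.pp β y • K.a β.1 β.2 (u y) + K.qq' β y • K.c β.1 β.2 (u y)) :=
    funext fun y => K.DD_eq u y
  rw [e, gd_add K α (DifferentiableAt.fun_sum fun β _ => d1 β)
    (DifferentiableAt.fun_sum fun β _ => d4 β), gd_sum K Finset.univ α fun β _ => d1 β,
    gd_sum K Finset.univ α fun β _ => d4 β]
  refine congrArg₂ (· + ·) ?_ ?_
  · exact Finset.sum_congr rfl fun β _ => gd_clm K α _ (dg β)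
  · rw [← Finset.sum_add_distrib, ← Finset.sum_add_distrib]
    refine Finset.sum_congr rfl fun β _ => ?_
    rw [gd_add K α (d2 β) (d3 β), gd_csmul K α (dp β) (dT _ du), gd_csmul K α (dq β) (dT _ du),
      gd_clm K α _ du, gd_clm K α _ du]
    abel

theorem DD_DD {u : X3 → F} (hu : ContDiff ℝ ∞ u) (x : X3) :
    K.DD (K.DD u) x = K.nu • ∑ A, K.ph A x • K.LL A u x := by
  have hcc : ∀ α β : Fin 8 × Fin 3, K.c α.1 α.2 * K.c β.1 β.2 + K.c β.1 β.2 * K.c α.1 α.2 = 0 :=
    fun α β => K.cc _ _ _ _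
  have haa : ∀ α β : Fin 8 × Fin 3, K.a α.1 α.2 * K.a β.1 β.2 + K.a β.1 β.2 * K.a α.1 α.2 = 0 :=
    fun α β => K.aa _ _ _ _
  have hac : ∀ α β : Fin 8 × Fin 3, K.a α.1 α.2 * K.c β.1 β.2 + K.c β.1 β.2 * K.a α.1 α.2 =
      if α = β then 1 else 0 := by
    intro α β
    rw [K.ac]
    refine if_congr ?_ rfl rfl
    rw [Prod.ext_iff]
  have t1 : ∑ α : Fin 8 × Fin 3, K.c α.1 α.2
      (∑ β : Fin 8 × Fin 3, K.c β.1 β.2 (K.gd α (K.gd β u) x)) = 0 := by
    have h := sq_l1 (c := fun α : Fin 8 × Fin 3 => K.c α.1 α.2) hcc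
      (w := fun α β => K.gd α (K.gd β u) x) (fun α β => K.gd_comm α β hu x)
    rw [← h]
    exact Finset.sum_congr rfl fun α _ => map_sum _ _ _
  have t3 : ∑ α : Fin 8 × Fin 3, K.c α.1 α.2
      (∑ β : Fin 8 × Fin 3, K.gs α (K.qq' β) x • K.c β.1 β.2 (u x)) = 0 := by
    have h := sq_l1 (c := fun α : Fin 8 × Fin 3 => K.c α.1 α.2) hcc
      (w := fun α β => K.gs α (K.qq' β) x • u x)
      (fun α β => by
        have := K.gs_comm α β K.contDiff_hhC x
        exact congrArg (fun z : ℂ => z • u x) this)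
    rw [← h]
    refine Finset.sum_congr rfl fun α _ => ?_
    rw [map_sum]
    refine Finset.sum_congr rfl fun β _ => ?_
    rw [map_smul (K.c β.1 β.2)]
  have t2 : ∑ α : Fin 8 × Fin 3, K.c α.1 α.2
      (∑ β : Fin 8 × Fin 3, K.gs α (K.pp β) x • K.a β.1 β.2 (u x)) =
      K.nu • ∑ D, K.ph D x • K.spin D (u x) := by
    rw [← sq_s5]
    refine Finset.sum_congr rfl fun α _ => ?_
    rw [map_sum]
    refine Finset.sum_congr rfl fun β _ => ?_
    rw [map_smul]
  have t4 := sq_l3 (c := fun α : Fin 8 × Fin 3 => K.c α.1 α.2)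
    (a := fun α : Fin 8 × Fin 3 => K.a α.1 α.2) hcc hac (fun α => K.pp α x) (fun α => K.qq' α x)
    (fun α => K.gd α u x)
  have t5 := sq_l2 (c := fun α : Fin 8 × Fin 3 => K.c α.1 α.2)
    (a := fun α : Fin 8 × Fin 3 => K.a α.1 α.2) hcc haa hac (fun α => K.pp α x)
    (fun α => K.qq' α x) (u x)
  rw [sq_s3, zero_smul] at t5
  rw [sq_s4] at t4
  have e1 : K.DD (K.DD u) x = (∑ α : Fin 8 × Fin 3, K.c α.1 α.2
      (∑ β : Fin 8 × Fin 3, K.c β.1 β.2 (K.gd α (K.gd β u) x))) +
      (∑ α : Fin 8 × Fin 3, K.c α.1 α.2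
      (∑ β : Fin 8 × Fin 3, K.gs α (K.pp β) x • K.a β.1 β.2 (u x))) +
      (∑ α : Fin 8 × Fin 3, K.c α.1 α.2
      (∑ β : Fin 8 × Fin 3, K.gs α (K.qq' β) x • K.c β.1 β.2 (u x))) +
      ((∑ α : Fin 8 × Fin 3, K.c α.1 α.2 (∑ β : Fin 8 × Fin 3,
        (K.pp β x • K.a β.1 β.2 (K.gd α u x) + K.qq' β x • K.c β.1 β.2 (K.gd α u x)))) +
      ∑ β : Fin 8 × Fin 3, (K.pp β x • K.a β.1 β.2 (∑ α : Fin 8 × Fin 3,
        K.c α.1 α.2 (K.gd α u x)) + K.qq' β x • K.c β.1 β.2 (∑ α : Fin 8 × Fin 3,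
        K.c α.1 α.2 (K.gd α u x)))) +
      ∑ α : Fin 8 × Fin 3, (K.pp α x • K.a α.1 α.2 (∑ β : Fin 8 × Fin 3,
        (K.pp β x • K.a β.1 β.2 (u x) + K.qq' β x • K.c β.1 β.2 (u x))) +
        K.qq' α x • K.c α.1 α.2 (∑ β : Fin 8 × Fin 3,
        (K.pp β x • K.a β.1 β.2 (u x) + K.qq' β x • K.c β.1 β.2 (u x)))) := by
    rw [DD_eq]
    simp only [K.gd_DD _ hu, map_add, Finset.sum_add_distrib]
    rw [K.DD_eq u x]
    simp only [map_add, smul_add, Finset.sum_add_distrib]
    abel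
  rw [e1, t1, t2, t3, t4, t5, zero_add, add_zero, add_zero, ← smul_add, ← Finset.sum_add_distrib]
  congr 1
  refine Finset.sum_congr rfl fun D _ => ?_
  rw [← smul_add, LL, add_comm]

theorem DD_DD_core (hG : K.Gauss) {u : X3 → F} (hu : K.Core u) (x : X3) :
    K.DD (K.DD u) x = 0 := by
  rw [K.DD_DD hu.1 x]
  simp only [hG u hu, smul_zero, Finset.sum_const_zero]

end Fk

end Vale.Agent.P353.Ex
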