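import Vale.Agent.P353.Ex.Induce
import Vale.Agent.P353.Ex.TClosed
import Vale.Agent.P353.Ex.Sq

/-! Task EX-10: `Ψ_1` is weakly closed against the core.

`DD (e^{-h} K_t) = e^{-h} D0 K_t = L_1 (e^{-h} u_0) - L_0 (e^{-h} u_1)`; integrate against the core
function `χ` using `DD_adj`, `LL_adj` and `LL_A χ = 0`. -/

open MeasureTheory Filter Topology
open scoped ContDiff ComplexConjugate

namespace Vale.Agent.P353.Ex

variable {F : Type*} [NormedAddCommGroup F] [InnerProductSpace ℂ F]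

namespace Fk

variable (K : Fk F)

private lemma weak_contDiff_exp {u : X3 → F} (hu : ContDiff ℝ ∞ u) :
    ContDiff ℝ ∞ (fun y => (Real.exp (-K.hh y) : ℂ) • u y) := by
  have h1 : ContDiff ℝ ∞ (fun y => Real.exp (-K.hh y)) := (K.contDiff_hh.neg).exp
  have h2 : ContDiff ℝ ∞ (fun y => ((Real.exp (-K.hh y) : ℝ) : ℂ)) :=
    Complex.ofRealCLM.contDiff.comp h1
  exact h2.smul hu

private lemma weak_LL_zero (hG : K.Gauss) (A : Fin 3) {u χ : X3 → F} (hu : ContDiff ℝ ∞ u)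
    (hχ : K.Core χ) : ∫ x, inner ℂ (K.LL A u x) (χ x) = 0 := by
  rw [K.LL_adj A hu ⟨hχ.1, hχ.2.1⟩]
  simp only [hG χ hχ A, inner_zero_right, integral_zero, neg_zero]

theorem Ps_weak (hG : K.Gauss) (t : ℝ) {χ : X3 → F} (hχ : K.Core χ) :
    ∫ x, inner ℂ (K.Ps t x) (K.flip.DD χ x) = 0 := by
  have hT : Setup.Tst χ := ⟨hχ.1, hχ.2.1⟩
  have h1 := K.DD_adj (K.contDiff_Ps t) hT
  rw [← neg_eq_zero, ← h1]
  have hdiff : ∀ {u : X3 → F}, ContDiff ℝ ∞ u → ∀ x, DifferentiableAt ℝ u x := fun hu x =>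
    (hu.differentiable (by simp)) x
  have h2 : ∀ x, K.DD (K.Ps t) x =
      K.LL 1 (fun y => (Real.exp (-K.hh y) : ℂ) • K.uu t 0 y) x -
        K.LL 0 (fun y => (Real.exp (-K.hh y) : ℂ) • K.uu t 1 y) x := by
    intro x
    rw [K.LL_exp 1 (hdiff (K.contDiff_uu t 0) x), K.LL_exp 0 (hdiff (K.contDiff_uu t 1) x),
      ← smul_sub, ← K.D0_KK K.contDiff_aT K.D0_aT K.dph_aT_0 K.dph_aT_1 t x]
    exact K.DD_exp (hdiff (K.contDiff_KK t) x)
  simp only [h2, inner_sub_left]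
  have hint : ∀ A : Fin 3, ∀ B : Fin 3, Integrable (fun x =>
      inner ℂ (K.LL A (fun y => (Real.exp (-K.hh y) : ℂ) • K.uu t B y) x) (χ x)) := by
    intro A B
    have hc := K.contDiff_LL A (K.weak_contDiff_exp (K.contDiff_uu t B))
    exact hT.inner_int' hc.continuous
  rw [integral_sub (hint 1 0) (hint 0 1),
    K.weak_LL_zero hG 1 (K.weak_contDiff_exp (K.contDiff_uu t 0)) hχ,
    K.weak_LL_zero hG 0 (K.weak_contDiff_exp (K.contDiff_uu t 1)) hχ, sub_zero]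

end Fk

end Vale.Agent.P353.Ex
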