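import Vale.Agent.P353.Ex.Pauli
import Vale.Agent.P353.Ex.Spinor
import Vale.Agent.P353.Ex.Vac
import Vale.Agent.P353.Ex.Weak
import Vale.Agent.P353.Ex.Lim2
import Vale.Agent.P353.Ex.Pos
import Vale.Agent.P353.Ex.Regular

/-! Task EX-27: final assembly. -/

open MeasureTheory Filter Topology
open scoped ContDiff ComplexConjugate

namespace Vale.Agent.P353.Ex

variable {F : Type*} [NormedAddCommGroup F] [InnerProductSpace ℂ F]

theorem fin_pr_apply (x : X3) (i : Fin 9) (A : Fin 3) :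
    pr x (i, A) = if (i = 7 ∨ i = 8) ∧ A ≠ 2 then 0 else x (i, A) := rfl

theorem fin_pr_two (x : X3) (i : Fin 9) : pr x (i, 2) = x (i, 2) := by
  rw [fin_pr_apply, if_neg (fun h => h.2 rfl)]

theorem fin_pr_e9 (x : X3) (i : Fin 7) (A : Fin 3) : pr x (e9 i, A) = x (e9 i, A) := by
  rw [fin_pr_apply, if_neg]
  rintro ⟨h | h, -⟩ <;> revert h <;> fin_cases i <;> decide

theorem fin_continuous_pr : Continuous pr := by
  refine (PiLp.continuous_toLp 2 _).comp (continuous_pi fun p => ?_)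
  split_ifs with h
  · exact continuous_const
  · exact (continuous_apply p).comp (PiLp.continuous_ofLp 2 _)

theorem fin_r3_pr (x : X3) : Fk.r3 (pr x) = Fk.r3 x := by
  simp only [Fk.r3, fin_pr_two]

theorem fin_ze_pr (x : X3) : Fk.ze (pr x) = Fk.ze x := by
  simp only [Fk.ze, fin_r3_pr]

theorem fin_B0_pr (x : X3) : Fk.B0 (pr x) = Fk.B0 x := by
  simp only [Fk.B0, Fk.x3sq, Fk.wsq, Fk.gg, fin_r3_pr, fin_pr_e9]

theorem fin_r3_nonneg (x : X3) : 0 ≤ Fk.r3 x := by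
  unfold Fk.r3; positivity

theorem fin_ze_nonneg (x : X3) : 0 ≤ Fk.ze x := Real.sqrt_nonneg _

theorem fin_ze_sq (x : X3) : Fk.ze x ^ 2 = Fk.r3 x := Real.sq_sqrt (fin_r3_nonneg x)

theorem fin_B0_pos (x : X3) : 0 < Fk.B0 x := Real.exp_pos _

theorem fin_B0_le (x : X3) : Fk.B0 x ≤ 1 := by
  unfold Fk.B0
  rw [Real.exp_le_one_iff]
  have h1 : 0 ≤ Fk.x3sq x := by unfold Fk.x3sq; positivity
  have h2 : 0 ≤ Fk.wsq x := by unfold Fk.wsq; positivity
  have h3 : 0 ≤ Fk.gg x := by unfold Fk.gg; positivity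
  have h4 := fin_r3_nonneg x
  have h5 : 0 ≤ Fk.gg x * Fk.r3 x * Fk.wsq x := by positivity
  have h6 : 0 ≤ Fk.wsq x ^ 2 / 16 := by positivity
  linarith

theorem fin_continuous_coord (p : Fin 9 × Fin 3) : Continuous fun x : X3 => x p :=
  (continuous_apply p).comp (PiLp.continuous_ofLp 2 _)

theorem fin_continuous_r3 : Continuous Fk.r3 := by
  unfold Fk.r3
  exact ((fin_continuous_coord _).pow 2).add ((fin_continuous_coord _).pow 2)

theorem fin_continuous_perp2 : Continuous Fk.perp2 := by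
  unfold Fk.perp2
  exact ((((fin_continuous_coord _).pow 2).add ((fin_continuous_coord _).pow 2)).add
    ((fin_continuous_coord _).pow 2)).add ((fin_continuous_coord _).pow 2)

namespace Fk

variable (K : Fk F)

theorem fin_flip_hh (x : X3) : K.flip.hh x = - K.hh x := by
  simp only [hh, flip, neg_mul, Finset.sum_neg_distrib, mul_neg]

theorem fin_phb_pr (x : X3) : K.phb 2 (pr x) = K.phb 2 x := by
  simp only [phb, fin_pr_two]

theorem fin_norm_phb_two (x : X3) : ‖K.phb 2 x‖ = ze x := by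
  unfold phb ze r3
  have h : K.sg * K.sg = 1 := K.sg_sq
  rw [Complex.norm_eq_sqrt_sq_add_sq]
  congr 1
  simp only [Complex.sub_re, Complex.sub_im, Complex.ofReal_re, Complex.ofReal_im, Complex.mul_re,
    Complex.mul_im, Complex.I_re, Complex.I_im]
  ring_nf
  have h2 : K.sg ^ 2 = 1 := by rw [sq]; exact h
  rw [h2]; ring

theorem fin_norm_dpb_le (A : Fin 3) (v : F) : ‖K.dpb A v‖ ≤ 2 * ‖v‖ := by
  unfold dpb
  rw [smul_apply, norm_smul]
  have h := K.norm_c_le 7 A v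
  have h2 : ‖(2 : ℂ)‖ = 2 := by norm_num
  rw [h2]
  linarith

theorem fin_nu_ne : K.nu ≠ 0 := by
  unfold nu
  have h := K.f0_sq
  have h0 : K.f0 ≠ 0 := by
    rintro h1; rw [h1] at h; norm_num at h
  exact mul_ne_zero Complex.I_ne_zero (Complex.ofReal_ne_zero.mpr h0)

theorem fin_f0_ne : K.f0 ≠ 0 := by
  have h := K.f0_sq
  rintro h1; rw [h1] at h; norm_num at h

theorem fin_nu_sq : K.nu ^ 2 = -2 := by
  unfold nu
  have h := K.f0_sq
  rw [mul_pow, Complex.I_sq, ← Complex.ofReal_pow, sq, h]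
  norm_num

theorem fin_inner_xi (y : X3) :
    inner ℂ (K.flip.xi y) ((Real.exp (-K.hh y) : ℂ) • K.aT y) =
      (1 / 2 : ℂ) * inner ℂ (K.flip.dpb 0 (K.flip.dpb 1 (K.flip.aT y))) (K.aT y) := by
  unfold xi
  have hnu : K.flip.nu = K.nu := rfl
  rw [fin_flip_hh, neg_neg, hnu, fin_nu_sq, inner_smul_left, inner_smul_right, inner_neg_left,
    inner_smul_left]
  have h1 : (conj (Real.exp (K.hh y) : ℂ)) = (Real.exp (K.hh y) : ℂ) := Complex.conj_ofReal _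
  have h2 : conj (1 / (-2) : ℂ) = -(1 / 2) := by
    simp [map_ofNat]
  rw [h1, h2]
  have h3 : (Real.exp (K.hh y) : ℂ) * (Real.exp (-K.hh y) : ℂ) = 1 := by
    rw [← Complex.ofReal_mul, ← Real.exp_add, add_neg_cancel, Real.exp_zero, Complex.ofReal_one]
  linear_combination (1 / 2 * inner ℂ (K.flip.dpb 0 (K.flip.dpb 1 (K.flip.aT y))) (K.aT y) : ℂ) * h3

theorem fin_norm_Gp_le : ∃ C : ℝ, 0 ≤ C ∧ ∀ x, ‖K.Gp x‖ ≤
    C * (ze x * r3 x * (1 + ze x) ^ 2 * B0 x) := by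
  obtain ⟨C1, hC1, h1⟩ := K.exists_bounds
  obtain ⟨C2, hC2, h2⟩ := K.flip.exists_bounds
  refine ⟨4 * (C1 * C2), by positivity, fun x => ?_⟩
  have a1 := (h1 x).1
  have a2 := (h2 x).1
  rw [fin_flip_hh, neg_neg] at a2
  have e1 : 0 < Real.exp (-K.hh x) := Real.exp_pos _
  have e2 : 0 < Real.exp (K.hh x) := Real.exp_pos _
  have e3 : Real.exp (K.hh x) * Real.exp (-K.hh x) = 1 := by
    rw [← Real.exp_add, add_neg_cancel, Real.exp_zero]
  have hz := fin_ze_nonneg x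
  have hb := fin_B0_pos x
  have hb1 := fin_B0_le x
  have b1 : ‖K.flip.dpb 0 (K.flip.dpb 1 (K.flip.aT x))‖ ≤ 4 * ‖K.flip.aT x‖ := by
    have t1 := K.flip.fin_norm_dpb_le 0 (K.flip.dpb 1 (K.flip.aT x))
    have t2 := K.flip.fin_norm_dpb_le 1 (K.flip.aT x)
    linarith
  have b2 : ‖K.Gp x‖ ≤ ze x * (4 * ‖K.flip.aT x‖ * ‖K.aT x‖) := by
    unfold Gp
    rw [norm_mul, fin_norm_phb_two]
    refine mul_le_mul_of_nonneg_left ?_ hz
    exact (norm_inner_le_norm _ _).trans (mul_le_mul_of_nonneg_right b1 (norm_nonneg _))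
  have b3 : ‖K.flip.aT x‖ * ‖K.aT x‖ =
      (Real.exp (K.hh x) * ‖K.flip.aT x‖) * (Real.exp (-K.hh x) * ‖K.aT x‖) := by
    linear_combination (-(‖K.flip.aT x‖ * ‖K.aT x‖)) * e3
  have b4 : ‖K.flip.aT x‖ * ‖K.aT x‖ ≤
      (C2 * ze x * (1 + ze x) * B0 x) * (C1 * ze x * (1 + ze x) * B0 x) := by
    rw [b3]
    exact mul_le_mul a2 a1 (by positivity) (by positivity)
  have b5 : (C2 * ze x * (1 + ze x) * B0 x) * (C1 * ze x * (1 + ze x) * B0 x) =
      C1 * C2 * (ze x ^ 2 * (1 + ze x) ^ 2) * (B0 x * B0 x) := by ring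
  have b6 : C1 * C2 * (ze x ^ 2 * (1 + ze x) ^ 2) * (B0 x * B0 x) ≤
      C1 * C2 * (ze x ^ 2 * (1 + ze x) ^ 2) * (B0 x * 1) := by
    refine mul_le_mul_of_nonneg_left ?_ (by positivity)
    exact mul_le_mul_of_nonneg_left hb1 hb.le
  calc ‖K.Gp x‖ ≤ ze x * (4 * ‖K.flip.aT x‖ * ‖K.aT x‖) := b2
    _ = ze x * 4 * (‖K.flip.aT x‖ * ‖K.aT x‖) := by ring
    _ ≤ ze x * 4 * (C1 * C2 * (ze x ^ 2 * (1 + ze x) ^ 2) * (B0 x * 1)) :=
        mul_le_mul_of_nonneg_left (b4.trans (b5.le.trans b6)) (by positivity)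
    _ = 4 * (C1 * C2) * (ze x * r3 x * (1 + ze x) ^ 2 * B0 x) := by
        rw [← fin_ze_sq x]; ring

theorem fin_Wp_zero {x : X3} (h : r3 x = 0) : K.Wp x = 0 := by
  unfold Wp; rw [h]; ring

theorem fin_Wp_le (hp : K.PairNe) : ∃ C : ℝ, 0 ≤ C ∧ ∀ x, K.Wp x / r3 x ≤
    C * ((1 + ze x) ^ 4 * B0 x) := by
  obtain ⟨C, hC, h⟩ := K.fin_norm_Gp_le
  obtain ⟨σ, hσ, hG⟩ := K.pos
  have hpc : 0 < ‖K.pairc‖ := norm_pos_iff.mpr hp
  have hf : 0 < |K.f0| := abs_pos.mpr K.fin_f0_ne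
  have hσ' : |σ| = 1 := by
    have h1 : |σ| ^ 2 = 1 := by rw [sq_abs, hσ]
    have h2 : 0 ≤ |σ| := abs_nonneg σ
    nlinarith
  set D : ℝ := 32768 * |K.f0| * ‖K.pairc‖ with hD
  have hD0 : 0 < D := by positivity
  refine ⟨C / D, by positivity, fun x => ?_⟩
  have hW := K.Wp_nonneg x
  have e1 : ‖K.Gp x‖ = D * K.Wp x := by
    rw [hG x, norm_mul, Complex.norm_real, Real.norm_eq_abs, abs_mul, abs_mul, abs_mul, hσ',
      abs_of_nonneg hW, abs_of_pos (by norm_num : (0 : ℝ) < 32768), hD]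
    ring
  have e2 : D * K.Wp x ≤ C * (ze x * r3 x * (1 + ze x) ^ 2 * B0 x) := e1 ▸ h x
  have hz := fin_ze_nonneg x
  have hb := fin_B0_pos x
  have hr := fin_r3_nonneg x
  rcases hr.eq_or_lt with h0 | h0
  · rw [← h0, div_zero]; positivity
  · rw [div_le_iff₀ h0]
    have e3 : K.Wp x ≤ C / D * (ze x * r3 x * (1 + ze x) ^ 2 * B0 x) := by
      rw [div_mul_eq_mul_div, le_div_iff₀ hD0]
      linarith
    refine e3.trans ?_
    have e4 : ze x * (1 + ze x) ^ 2 ≤ (1 + ze x) ^ 4 := by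
      nlinarith [sq_nonneg (ze x), mul_nonneg hz hz, mul_nonneg hz (sq_nonneg (ze x)),
        mul_nonneg (mul_nonneg hz hz) (sq_nonneg (ze x))]
    have e5 : C / D * (ze x * r3 x * (1 + ze x) ^ 2 * B0 x) =
        C / D * (r3 x * B0 x) * (ze x * (1 + ze x) ^ 2) := by ring
    have e6 : C / D * ((1 + ze x) ^ 4 * B0 x) * r3 x =
        C / D * (r3 x * B0 x) * (1 + ze x) ^ 4 := by ring
    rw [e5, e6]
    exact mul_le_mul_of_nonneg_left e4 (by positivity)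

theorem fin_J_pos (hp : K.PairNe) :
    0 < ∫ x : X3, Real.exp (-perp2 x) * (K.Wp (pr x) / r3 x) := by
  obtain ⟨C, hC, h⟩ := K.fin_Wp_le hp
  have hmeas : Measurable fun x : X3 => Real.exp (-perp2 x) * (K.Wp (pr x) / r3 x) := by
    refine Measurable.mul ?_ (Measurable.div ?_ ?_)
    · exact (Real.continuous_exp.comp fin_continuous_perp2.neg).measurable
    · exact (K.continuous_Wp.comp fin_continuous_pr).measurable
    · exact fin_continuous_r3.measurable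
  have hnn : ∀ x : X3, 0 ≤ Real.exp (-perp2 x) * (K.Wp (pr x) / r3 x) := fun x =>
    mul_nonneg (Real.exp_pos _).le (div_nonneg (K.Wp_nonneg _) (fin_r3_nonneg x))
  have hint : Integrable fun x : X3 => Real.exp (-perp2 x) * (K.Wp (pr x) / r3 x) := by
    refine ((integrable_J one_pos).const_mul C).mono' hmeas.aestronglyMeasurable
      (Eventually.of_forall fun x => ?_)
    rw [Real.norm_of_nonneg (hnn x)]
    have h1 := h (pr x)
    rw [fin_r3_pr, fin_ze_pr, fin_B0_pr] at h1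
    have h2 := mul_le_mul_of_nonneg_left h1 (Real.exp_pos (-perp2 x)).le
    have h3 : -1 * perp2 x = -perp2 x := by ring
    rw [h3]
    refine h2.trans (le_of_eq ?_)
    ring
  rw [integral_pos_iff_support_of_nonneg hnn hint]
  have hopen : IsOpen {x : X3 | 0 < K.Wp (pr x)} :=
    isOpen_lt continuous_const (K.continuous_Wp.comp fin_continuous_pr)
  have hne : {x : X3 | 0 < K.Wp (pr x)}.Nonempty := by
    obtain ⟨x, hx, hx2⟩ := K.exists_Wp_pos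
    exact ⟨x, by rw [Set.mem_ofPred_eq, ← hx]; exact hx2⟩
  refine (hopen.measure_pos volume hne).trans_le (measure_mono fun x hx => ?_)
  rw [Set.mem_ofPred_eq] at hx
  have h0 : r3 x ≠ 0 := fun h0 => by
    rw [← fin_r3_pr] at h0
    rw [K.fin_Wp_zero h0] at hx
    exact lt_irrefl _ hx
  have h1 : 0 < r3 x := lt_of_le_of_ne (fin_r3_nonneg x) (Ne.symm h0)
  exact (mul_pos (Real.exp_pos _) (div_pos hx h1)).ne'

theorem fin_lim2_ne (hp : K.PairNe) :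
    (∫ x, (Real.exp (-perp2 x) : ℂ) * (-((Real.pi ^ 2 : ℝ) : ℂ) / K.nu) *
        (K.phb 2 x / (r3 x : ℂ)) *
        inner ℂ (K.flip.xi (pr x)) ((Real.exp (-K.hh (pr x)) : ℂ) • K.aT (pr x))) ≠ 0 := by
  obtain ⟨σ, hσ, hG⟩ := K.pos
  have hσ0 : σ ≠ 0 := by rintro rfl; norm_num at hσ
  have hJ := K.fin_J_pos hp
  have hpc : K.pairc ≠ 0 := hp
  have hpi : ((Real.pi ^ 2 : ℝ) : ℂ) ≠ 0 := Complex.ofReal_ne_zero.mpr (by positivity)
  have e : ∀ x : X3, (Real.exp (-perp2 x) : ℂ) * (-((Real.pi ^ 2 : ℝ) : ℂ) / K.nu) *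
        (K.phb 2 x / (r3 x : ℂ)) *
        inner ℂ (K.flip.xi (pr x)) ((Real.exp (-K.hh (pr x)) : ℂ) • K.aT (pr x)) =
      ((-((Real.pi ^ 2 : ℝ) : ℂ) / K.nu) * (1 / 2) * ((σ * 32768 * K.f0 : ℝ) : ℂ) * K.pairc) *
        ((Real.exp (-perp2 x) * (K.Wp (pr x) / r3 x) : ℝ) : ℂ) := by
    intro x
    have h1 := hG (pr x)
    unfold Gp at h1
    rw [fin_inner_xi, ← K.fin_phb_pr x]
    have h2 : (Real.exp (-perp2 x) : ℂ) * (-((Real.pi ^ 2 : ℝ) : ℂ) / K.nu) *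
        (K.phb 2 (pr x) / (r3 x : ℂ)) * ((1 / 2 : ℂ) *
          inner ℂ (K.flip.dpb 0 (K.flip.dpb 1 (K.flip.aT (pr x)))) (K.aT (pr x))) =
        (Real.exp (-perp2 x) : ℂ) * (-((Real.pi ^ 2 : ℝ) : ℂ) / K.nu) * (1 / 2) * (1 / (r3 x : ℂ)) *
        (K.phb 2 (pr x) *
          inner ℂ (K.flip.dpb 0 (K.flip.dpb 1 (K.flip.aT (pr x)))) (K.aT (pr x))) := by
      ring
    rw [h2, h1]
    push_cast
    ring
  simp_rw [e]
  rw [integral_const_mul, integral_complex_ofReal]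
  refine mul_ne_zero (mul_ne_zero (mul_ne_zero (mul_ne_zero (div_ne_zero (neg_ne_zero.mpr hpi)
    K.fin_nu_ne) (by norm_num)) (Complex.ofReal_ne_zero.mpr ?_)) hpc)
    (Complex.ofReal_ne_zero.mpr hJ.ne')
  exact mul_ne_zero (mul_ne_zero hσ0 (by norm_num)) K.fin_f0_ne

end Fk

namespace Fk

variable (K : Fk F) [FiniteDimensional ℂ F]

omit [FiniteDimensional ℂ F] in
theorem flip_flip : K.flip.flip = K := by
  cases K
  simp [flip]

theorem exists_pair_ne (hp : K.PairNe) : ∃ t t' : ℝ, 0 < t ∧ 0 < t' ∧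
    ∫ x, inner ℂ (K.Av (K.flip.Ps t) x) (K.Av (K.Ps t') x) ≠ 0 := by
  have h2 := K.lim2
  have h2' := (h2.eventually_ne (K.fin_lim2_ne hp)).and (eventually_gt_atTop (0 : ℝ))
  obtain ⟨t', ht', ht'0⟩ := h2'.exists
  have h1 := K.flip.lim1 (Φ := K.Av (K.Ps t')) (K.Av_continuous (K.Ps_adm ht'0))
    (K.Av_bound (K.Ps_adm ht'0))
  have h1' := (h1.eventually_ne ht').and (eventually_gt_atTop (0 : ℝ))
  obtain ⟨t, ht, ht0⟩ := h1'.exists
  refine ⟨t, t', ht0, ht'0, ?_⟩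
  rw [K.Av_Av (K.flip.Ps_adm ht0) (K.Ps_adm ht'0)]
  exact mul_ne_zero (Complex.ofReal_ne_zero.mpr c0_pos.ne') ht

omit [FiniteDimensional ℂ F] in
theorem fin_flip_gauss (hG : K.Gauss) : K.flip.Gauss := by
  intro u hu A x
  rw [K.flip_LL]
  exact hG u hu A x

theorem fin_Av_orth (hG : K.Gauss) {t : ℝ} (ht : 0 < t) (χ : X3 → F) (hχ : K.Core χ) :
    ∫ x, inner ℂ (K.Av (K.Ps t) x) (K.flip.DD χ x) = 0 := by
  have hχ' : K.flip.Core χ := hχ
  have h1 : K.flip.Core (K.flip.DD χ) := K.flip.core_DD hχ'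
  rw [K.Av_pair (K.Ps_adm ht) h1.1.continuous h1.2.1 h1.2.2, K.Ps_weak hG t hχ, mul_zero]

theorem exists_weak (hG : K.Gauss) (hp : K.PairNe) :
    ∃ Ψ : Lp F 2 (volume : Measure X3), K.WeakZM Ψ ∧ Ψ ≠ 0 := by
  obtain ⟨t, t', ht, ht', h⟩ := K.exists_pair_ne hp
  refine K.exists_weakZM hG (Ψ₀ := K.Av (K.Ps t')) (Ξ := K.Av (K.flip.Ps t))
    (K.Av_memLp (K.Ps_adm ht')) (K.Av_memLp (K.flip.Ps_adm ht))
    (K.Av_act (K.Ps_adm ht')) (fun χ hχ => K.fin_Av_orth hG ht' χ hχ) (fun χ hχ => ?_) h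
  have h1 := K.flip.fin_Av_orth (K.fin_flip_gauss hG) ht χ hχ
  rw [K.flip_flip] at h1
  exact h1

end Fk

theorem exists_zero_mode (M : Model 2 3 F) :
    ∃ Ψ : Lp F 2 (volume : Measure X3), M.IsZeroEnergyState Ψ ∧ Ψ ≠ 0 := by
  have hfd : FiniteDimensional ℂ F := M.finiteDimensional
  obtain ⟨M', hT, hM'⟩ := exists_pauli M
  refine hM' ?_
  obtain ⟨s⟩ := exists_spin M'.γ M'.γ_symm M'.γ_anticomm
  obtain ⟨K, L⟩ := exists_link M' hT s
  obtain ⟨Ψ, hΨ, hne⟩ := K.exists_weak L.gauss L.pair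
  obtain ⟨u, hu, h1, h2, h3⟩ := K.exists_approx hΨ
  exact ⟨Ψ, L.zes_of_approx hu h1 h2 h3, hne⟩

end Vale.Agent.P353.Ex
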