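import Vale.Agent.P353.BFSSLight
import Vale.Agent.P353.Ex.Final

open MeasureTheory Filter Topology
open scoped ContDiff

namespace Vale.Agent.P353.BFSS

variable {F : Type*} [NormedAddCommGroup F] [InnerProductSpace ℂ F]

/-- existence of a nonzero zero-energy state for `SU(2)` -/
theorem exists_state (M : Model 2 3 F) :
    ∃ Ψ : Conf 3 → F, M.IsZeroEnergyState Ψ ∧ ¬ (∀ᵐ x ∂leb 3, Ψ x = 0) := by
  obtain ⟨Ψ, h1, h2⟩ := Vale.Agent.P353.Ex.exists_zero_mode M.toOld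
  refine ⟨Ψ, ?_, ?_⟩
  · refine (M.zes_iff _ (Lp.memLp _)).mpr ?_
    rw [Lp.toLp_coeFn]
    exact h1
  · intro h3
    refine h2 ?_
    rw [Lp.eq_zero_iff_ae_eq_zero]
    exact h3

end Vale.Agent.P353.BFSS
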