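import Vale.Agent.P353.Ex.Defs

/-! Task EX-05, first part: smoothness, adjoints and the Leibniz rule for `K.DD` and `K.LL`
(does not use the group action). -/

open MeasureTheory Filter Topology
open scoped ContDiff ComplexConjugate

namespace Vale.Agent.P353.Ex

variable {F : Type*} [NormedAddCommGroup F] [InnerProductSpace ℂ F]

namespace Fk

variable (K : Fk F)

private lemma calc_eps1 : ∀ A B C : Fin 3, eps C A B = -eps B A C := by decide

private lemma calc_eps2 : ∀ A C : Fin 3, eps C A C = 0 := by decide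

private lemma calc_smul {φ : X3 → ℂ} (hφ : ContDiff ℝ ∞ φ) {G : Type*} [NormedAddCommGroup G]
    [NormedSpace ℂ G] {T : X3 → G} (hT : ContDiff ℝ ∞ T) : ContDiff ℝ ∞ fun x => φ x • T x :=
  hφ.smul hT

private lemma calc_coordC (p : Fin 9 × Fin 3) : ContDiff ℝ ∞ (fun x : X3 => (x p : ℂ)) :=
  Setup.contDiff_ofReal (Setup.contDiff_coord p)

private lemma calc_ph (A : Fin 3) : ContDiff ℝ ∞ (K.ph A) := by
  unfold ph
  exact (calc_coordC _).add (contDiff_const.mul (calc_coordC _))

private lemma calc_phb (A : Fin 3) : ContDiff ℝ ∞ (K.phb A) := by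
  unfold phb
  exact (calc_coordC _).sub (contDiff_const.mul (calc_coordC _))

theorem contDiff_io (A : Fin 3) : ContDiff ℝ ∞ (K.io A) := by
  unfold io
  refine ContDiff.add (ContDiff.sum fun i _ => ContDiff.sum fun B _ => ContDiff.sum fun C _ => ?_)
    (ContDiff.const_smul (1 / 2 : ℂ) (ContDiff.sum fun B _ => ContDiff.sum fun C _ => ?_))
  · exact calc_smul (contDiff_const.mul (calc_coordC _)) contDiff_const
  · exact calc_smul (contDiff_const.mul (K.calc_phb _)) contDiff_const

theorem contDiff_hh : ContDiff ℝ ∞ K.hh := by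
  unfold hh
  refine contDiff_const.mul (ContDiff.sum fun k _ => ContDiff.sum fun i _ => ContDiff.sum fun j _ => ?_)
  exact ((contDiff_const.mul (Setup.contDiff_coord _)).mul (Setup.contDiff_coord _)).mul
    (Setup.contDiff_coord _)

private lemma calc_dhc (k : Fin 7) (A : Fin 3) : ContDiff ℝ ∞ (K.dhc k A) := by
  unfold dhc
  refine contDiff_const.mul (ContDiff.sum fun B _ => ContDiff.sum fun C _ =>
    ContDiff.sum fun i _ => ContDiff.sum fun j _ => ?_)
  exact (contDiff_const.mul (Setup.contDiff_coord _)).mul (Setup.contDiff_coord _)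

private lemma calc_dh : ContDiff ℝ ∞ K.dh := by
  unfold dh
  refine ContDiff.sum fun k _ => ContDiff.sum fun A _ => ?_
  exact calc_smul (Setup.contDiff_ofReal (K.calc_dhc k A)) contDiff_const

theorem contDiff_D0 {u : X3 → F} (hu : ContDiff ℝ ∞ u) : ContDiff ℝ ∞ (K.D0 u) := by
  unfold D0 dd
  refine ContDiff.add (ContDiff.add (ContDiff.sum fun i _ => ContDiff.sum fun A _ => ?_)
    (ContDiff.sum fun A _ => ?_)) (contDiff_const.smul (ContDiff.sum fun A _ => ?_))
  · exact Setup.contDiff_clm_apply' contDiff_const (contDiff_pd hu)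
  · exact Setup.contDiff_clm_apply' contDiff_const
      ((contDiff_pd hu).add (contDiff_const.smul (contDiff_pd hu)))
  · exact calc_smul (K.calc_ph A) (Setup.contDiff_clm_apply' (K.contDiff_io A) hu)

theorem contDiff_DD {u : X3 → F} (hu : ContDiff ℝ ∞ u) : ContDiff ℝ ∞ (K.DD u) := by
  unfold DD
  exact (K.contDiff_D0 hu).add (Setup.contDiff_clm_apply' K.calc_dh hu)

theorem contDiff_LL (A : Fin 3) {u : X3 → F} (hu : ContDiff ℝ ∞ u) : ContDiff ℝ ∞ (K.LL A u) := by
  unfold LL orb
  refine ContDiff.add (ContDiff.sum fun i _ => ContDiff.sum fun B _ => ContDiff.sum fun C _ => ?_)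
    (Setup.contDiff_clm_apply' contDiff_const hu)
  exact calc_smul (contDiff_const.mul (calc_coordC _)) (contDiff_pd hu)

theorem tst_DD {u : X3 → F} (hu : Setup.Tst u) : Setup.Tst (K.DD u) := by
  refine ⟨K.contDiff_DD hu.1, HasCompactSupport.intro' (K := tsupport u) hu.2
    (isClosed_tsupport u) ?_⟩
  intro x hx
  have h0 : u x = 0 := image_eq_zero_of_notMem_tsupport hx
  have h1 : ∀ i A, pd i A u x = 0 := by
    intro i A
    have : fderiv ℝ u x = 0 := by
      by_contra hne
      exact hx (tsupport_fderiv_subset ℝ (f := u) (subset_tsupport _ hne))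
    simp [pd, this]
  simp [DD, D0, dd, h0, h1]

theorem flip_spin (A : Fin 3) : K.flip.spin A = K.spin A := by
  have h1 : K.flip.spin A = ∑ i : Fin 8, ∑ B, ∑ C, (eps B A C : ℂ) • (K.a i C * K.c i B) := rfl
  rw [h1, spin]
  refine Finset.sum_congr rfl fun i _ => ?_
  have h2 : ∀ B C, (eps B A C : ℂ) • (K.a i C * K.c i B) =
      (eps B A C : ℂ) • (if C = B then (1 : F →L[ℂ] F) else 0) +
        (eps C A B : ℂ) • (K.c i B * K.a i C) := by
    intro B C
    have h3 := K.ac i C i B
    simp only [true_and] at h3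
    rw [calc_eps1 A B C, ← h3]
    push_cast
    module
  simp only [h2, Finset.sum_add_distrib]
  have h5 : ∑ B, ∑ C, (eps B A C : ℂ) • (if C = B then (1 : F →L[ℂ] F) else 0) = 0 := by
    refine Finset.sum_eq_zero fun B _ => Finset.sum_eq_zero fun C _ => ?_
    by_cases h : C = B
    · subst h
      rw [calc_eps2]
      simp
    · simp [h]
  rw [h5, zero_add, Finset.sum_comm]

theorem flip_LL (A : Fin 3) (u : X3 → F) (x : X3) : K.flip.LL A u x = K.LL A u x := by
  simp only [LL, K.flip_spin]


/-! ### adjoints -/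

private lemma calc_adj' (i : Fin 8) (A : Fin 3) (v w : F) :
    inner ℂ (K.a i A v) w = inner ℂ v (K.c i A w) := by
  rw [← inner_conj_symm, ← K.adj i A w v, inner_conj_symm]

private lemma calc_fderiv_inner {u v : X3 → F} {x : X3} (hu : DifferentiableAt ℝ u x)
    (hv : DifferentiableAt ℝ v x) (T : F →L[ℂ] F) (i : Fin 9) (A : Fin 3) :
    fderiv ℝ (fun y => inner ℂ (u y) (T (v y))) x (EuclideanSpace.single (i, A) (1 : ℝ)) =
      inner ℂ (u x) (T (pd i A v x)) + inner ℂ (pd i A u x) (T (v x)) := by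
  have hdT : DifferentiableAt ℝ (fun y => T (v y)) x :=
    (T.restrictScalars ℝ).differentiableAt.comp x hv
  rw [fderiv_inner_apply ℂ hu hdT]
  have := pd_clm (i := i) (A := A) T hv
  unfold pd at this ⊢
  rw [this]

private lemma calc_phb_conj (A : Fin 3) (x : X3) : conj (K.phb A x) = K.ph A x := by
  simp only [phb, ph, map_sub, map_mul, Complex.conj_ofReal, Complex.conj_I]
  ring

private lemma calc_ph_conj (A : Fin 3) (x : X3) : conj (K.ph A x) = K.phb A x := by
  simp only [phb, ph, map_add, map_mul, Complex.conj_ofReal, Complex.conj_I]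
  ring

private lemma calc_flip_phb (A : Fin 3) (x : X3) : K.flip.phb A x = K.ph A x := by
  simp only [phb, ph, flip]
  push_cast
  ring

private lemma calc_flip_ph (A : Fin 3) (x : X3) : K.flip.ph A x = K.phb A x := by
  simp only [phb, ph, flip]
  push_cast
  ring

private lemma calc_io_adj (A : Fin 3) (x : X3) (v w : F) :
    inner ℂ (K.io A x v) w = inner ℂ v (K.flip.io A x w) := by
  have h1 : K.flip.io A x = (∑ i : Fin 7, ∑ B, ∑ C, ((eps B A C : ℂ) * (x (e9 i, C) : ℂ)) •
      K.c (e8 i) B) + (1 / 2 : ℂ) • ∑ B, ∑ C, ((eps B A C : ℂ) * K.ph C x) • K.c 7 B := by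
    rw [io]
    simp only [calc_flip_phb]
    rfl
  rw [h1, io]
  simp only [_root_.add_apply, _root_.sum_apply, _root_.smul_apply, sum_inner, inner_sum,
    inner_add_left, inner_add_right, inner_smul_left, inner_smul_right, K.calc_adj', map_mul,
    Complex.conj_ofReal, map_intCast, K.calc_phb_conj]
  congr 2
  norm_num [Complex.ext_iff]

private lemma calc_flip_dhc (k : Fin 7) (A : Fin 3) (x : X3) :
    K.flip.dhc k A x = -K.dhc k A x := by
  simp only [dhc, flip, mul_neg, neg_mul, Finset.sum_neg_distrib]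

private lemma calc_dh_adj (x : X3) (v w : F) :
    inner ℂ (K.dh x v) w = -inner ℂ v (K.flip.dh x w) := by
  have h1 : K.flip.dh x = -∑ k : Fin 7, ∑ A, ((K.dhc k A x : ℝ) : ℂ) • K.a (e8 k) A := by
    rw [dh]
    simp only [calc_flip_dhc, Complex.ofReal_neg, neg_smul, Finset.sum_neg_distrib]
    rfl
  rw [h1, dh]
  simp only [_root_.neg_apply, inner_neg_right, neg_neg]
  simp only [_root_.sum_apply, _root_.smul_apply, sum_inner, inner_sum, inner_smul_left,
    inner_smul_right, K.adj, Complex.conj_ofReal]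

private lemma calc_spin_adj (A : Fin 3) (v w : F) :
    inner ℂ (K.spin A v) w = -inner ℂ v (K.spin A w) := by
  rw [spin]
  simp only [_root_.sum_apply, _root_.smul_apply, sum_inner, inner_sum, inner_smul_left,
    inner_smul_right, map_intCast, mul_apply_eq_comp, K.adj, K.calc_adj']
  rw [← Finset.sum_neg_distrib]
  refine Finset.sum_congr rfl fun i _ => ?_
  rw [Finset.sum_comm, ← Finset.sum_neg_distrib]
  refine Finset.sum_congr rfl fun B _ => ?_
  rw [← Finset.sum_neg_distrib]
  refine Finset.sum_congr rfl fun C _ => ?_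
  rw [calc_eps1 A B C]
  push_cast
  ring


private lemma calc_cs {u v : X3 → F} (hv : Setup.Tst v) (T : F →L[ℂ] F) :
    HasCompactSupport (fun x => inner ℂ (u x) (T (v x))) := by
  refine hv.2.mono ?_
  intro x hx
  simp only [Function.mem_support] at hx ⊢
  intro h0
  exact hx (by rw [h0, map_zero, inner_zero_right])

private lemma calc_cd {u v : X3 → F} (hu : ContDiff ℝ ∞ u) (hv : Setup.Tst v) (T : F →L[ℂ] F) :
    ContDiff ℝ ∞ (fun x => inner ℂ (u x) (T (v x))) :=
  hu.inner ℂ ((T.restrictScalars ℝ).contDiff.comp hv.1)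

private lemma calc_int {w : X3 → ℂ} (hw : ContDiff ℝ ∞ w) (hc : HasCompactSupport w) (e : X3) :
    Integrable (fun x => fderiv ℝ w x e) :=
  ((hw.continuous_fderiv (by simp)).clm_apply
    continuous_const).integrable_of_hasCompactSupport (hc.fderiv_apply (𝕜 := ℝ) e)

/-- `D` and `K.flip.D` are formal adjoints up to sign; one of the functions has compact support.
(`integral_inner_pd` in `Ana.lean`; use a cut-off equal to one near the support of `v`, or redo the
integration by parts with `v` compactly supported.) -/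
theorem DD_adj {u v : X3 → F} (hu : ContDiff ℝ ∞ u) (hv : Setup.Tst v) :
    ∫ x, inner ℂ (K.DD u x) (v x) = - ∫ x, inner ℂ (u x) (K.flip.DD v x) := by
  have hpt : ∀ x, inner ℂ (K.DD u x) (v x) + inner ℂ (u x) (K.flip.DD v x) =
      (∑ i : Fin 7, ∑ A, fderiv ℝ (fun y => inner ℂ (u y) (K.a (e8 i) A (v y))) x
        (EuclideanSpace.single (e9 i, A) (1 : ℝ))) +
      ∑ A, (fderiv ℝ (fun y => inner ℂ (u y) (K.a 7 A (v y))) x
        (EuclideanSpace.single ((7 : Fin 9), A) (1 : ℝ)) - (Complex.I * (K.sg : ℂ)) *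
        fderiv ℝ (fun y => inner ℂ (u y) (K.a 7 A (v y))) x
        (EuclideanSpace.single ((8 : Fin 9), A) (1 : ℝ))) := by
    intro x
    have hdu : DifferentiableAt ℝ u x := (hu.differentiable (by simp)) x
    have hdv : DifferentiableAt ℝ v x := hv.diff x
    have hf : K.flip.DD v x = (∑ i : Fin 7, ∑ A, K.a (e8 i) A (pd (e9 i) A v x)) +
        (∑ A, K.a 7 A (pd 7 A v x - (Complex.I * (K.sg : ℂ)) • pd 8 A v x)) +
        K.nu • (∑ A, K.phb A x • K.flip.io A x (v x)) + K.flip.dh x (v x) := by
      simp only [DD, D0, dd, calc_flip_ph]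
      congr 3
      simp only [flip, Complex.ofReal_neg, mul_neg, neg_smul, sub_eq_add_neg]
    rw [hf]
    simp only [calc_fderiv_inner hdu hdv, DD, D0, dd, inner_add_left, inner_add_right,
      sum_inner, inner_sum, inner_smul_left, inner_smul_right, K.adj, K.calc_io_adj,
      K.calc_dh_adj, K.calc_ph_conj, map_sub, inner_sub_right, map_smul]
    simp only [nu, map_mul, Complex.conj_I, Complex.conj_ofReal]
    simp only [Finset.sum_add_distrib, Finset.sum_sub_distrib, mul_add, ← Finset.mul_sum]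
    ring
  have hI : ∫ x, (inner ℂ (K.DD u x) (v x) + inner ℂ (u x) (K.flip.DD v x)) = 0 := by
    simp only [hpt]
    have hi : ∀ (T : F →L[ℂ] F) (i : Fin 9) (A : Fin 3), Integrable (fun x =>
        fderiv ℝ (fun y => inner ℂ (u y) (T (v y))) x
        (EuclideanSpace.single (i, A) (1 : ℝ))) := fun T i A =>
      calc_int (calc_cd hu hv T) (calc_cs hv T) _
    have h0 : ∀ (T : F →L[ℂ] F) (i : Fin 9) (A : Fin 3), ∫ x,
        fderiv ℝ (fun y => inner ℂ (u y) (T (v y))) x
        (EuclideanSpace.single (i, A) (1 : ℝ)) = 0 := fun T i A =>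
      integral_fderiv_eq_zero _ ((calc_cd hu hv T).of_le (by simp)) (calc_cs hv T) _
    have hi2 : ∀ A : Fin 3, Integrable (fun x =>
        fderiv ℝ (fun y => inner ℂ (u y) (K.a 7 A (v y))) x
        (EuclideanSpace.single ((7 : Fin 9), A) (1 : ℝ)) - (Complex.I * (K.sg : ℂ)) *
        fderiv ℝ (fun y => inner ℂ (u y) (K.a 7 A (v y))) x
        (EuclideanSpace.single ((8 : Fin 9), A) (1 : ℝ))) := fun A =>
      (hi (K.a 7 A) 7 A).sub ((hi (K.a 7 A) 8 A).const_mul _)
    rw [integral_add (integrable_finsetSum _ fun i _ => integrable_finsetSum _ fun A _ =>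
      hi _ _ _) (integrable_finsetSum _ fun A _ => hi2 A),
      integral_finsetSum _ fun i _ => integrable_finsetSum _ fun A _ => hi _ _ _,
      integral_finsetSum _ fun A _ => hi2 A]
    have h1 : ∀ i : Fin 7, ∫ x, ∑ A, fderiv ℝ (fun y => inner ℂ (u y) (K.a (e8 i) A (v y))) x
        (EuclideanSpace.single (e9 i, A) (1 : ℝ)) = 0 := by
      intro i
      rw [integral_finsetSum _ fun A _ => hi _ _ _]
      exact Finset.sum_eq_zero fun A _ => h0 _ _ _
    have h2 : ∀ A : Fin 3, ∫ x, (fderiv ℝ (fun y => inner ℂ (u y) (K.a 7 A (v y))) x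
        (EuclideanSpace.single ((7 : Fin 9), A) (1 : ℝ)) - (Complex.I * (K.sg : ℂ)) *
        fderiv ℝ (fun y => inner ℂ (u y) (K.a 7 A (v y))) x
        (EuclideanSpace.single ((8 : Fin 9), A) (1 : ℝ))) = 0 := by
      intro A
      rw [integral_sub (hi _ _ _) ((hi _ _ _).const_mul _), integral_const_mul, h0, h0, mul_zero,
        sub_zero]
    simp only [h1, h2, Finset.sum_const_zero, add_zero]
  have i1 : Integrable (fun x => inner ℂ (K.DD u x) (v x)) :=
    hv.inner_int' (K.contDiff_DD hu).continuous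
  have i2 : Integrable (fun x => inner ℂ (u x) (K.flip.DD v x)) :=
    (K.flip.tst_DD hv).inner_int' hu.continuous
  rw [integral_add i1 i2] at hI
  exact eq_neg_of_add_eq_zero_left hI

/-- the gauge generators are antisymmetric -/
theorem LL_adj (A : Fin 3) {u v : X3 → F} (hu : ContDiff ℝ ∞ u) (hv : Setup.Tst v) :
    ∫ x, inner ℂ (K.LL A u x) (v x) = - ∫ x, inner ℂ (u x) (K.LL A v x) := by
  have hcd : ContDiff ℝ ∞ (fun x => inner ℂ (u x) (v x)) := hu.inner ℂ hv.1
  have hcs : HasCompactSupport (fun x => inner ℂ (u x) (v x)) := calc_cs hv 1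
  have hcx : ∀ p : Fin 9 × Fin 3, ContDiff ℝ ∞ (fun x : X3 => (x p : ℂ) * inner ℂ (u x) (v x)) :=
    fun p => (calc_coordC p).mul hcd
  have hsx : ∀ p : Fin 9 × Fin 3, HasCompactSupport
      (fun x : X3 => (x p : ℂ) * inner ℂ (u x) (v x)) := fun p => hcs.mul_left
  have hpt : ∀ x, inner ℂ (K.LL A u x) (v x) + inner ℂ (u x) (K.LL A v x) =
      ∑ i : Fin 9, ∑ B, ∑ C, (eps B A C : ℂ) *
        fderiv ℝ (fun y : X3 => (y (i, C) : ℂ) * inner ℂ (u y) (v y)) x
        (EuclideanSpace.single (i, B) (1 : ℝ)) := by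
    intro x
    have hdu : DifferentiableAt ℝ u x := (hu.differentiable (by simp)) x
    have hdv : DifferentiableAt ℝ v x := hv.diff x
    have hd : ∀ i B C, (eps B A C : ℂ) *
        fderiv ℝ (fun y : X3 => (y (i, C) : ℂ) * inner ℂ (u y) (v y)) x
        (EuclideanSpace.single (i, B) (1 : ℝ)) = (eps B A C : ℂ) * (x (i, C) : ℂ) *
          (inner ℂ (u x) (pd i B v x) + inner ℂ (pd i B u x) (v x)) := by
      intro i B C
      have hm : DifferentiableAt ℝ (fun y : X3 => (y (i, C) : ℂ)) x :=
        ((calc_coordC (i, C)).differentiable (by simp)) x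
      have hr : DifferentiableAt ℝ (fun y : X3 => y (i, C)) x :=
        ((Setup.contDiff_coord (i, C)).differentiable (by simp)) x
      rw [fderiv_fun_mul hm ((hcd.differentiable (by simp)) x)]
      simp only [_root_.add_apply, _root_.smul_apply, smul_eq_mul]
      rw [fderiv_ofReal_comp hr, fderiv_inner_apply ℂ hdu hdv]
      have h1 : fderiv ℝ (fun y : X3 => y (i, C)) x (EuclideanSpace.single (i, B) (1 : ℝ)) =
          if C = B then 1 else 0 := by
        have h2 : fderiv ℝ (fun y : X3 => y (i, C)) x =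
            (EuclideanSpace.proj (𝕜 := ℝ) (i, C) : X3 →L[ℝ] ℝ) :=
          (EuclideanSpace.proj (𝕜 := ℝ) (i, C)).hasFDerivAt.fderiv
        rw [h2]
        simp
      rw [h1]
      by_cases h : C = B
      · subst h
        rw [calc_eps2]
        simp
      · simp only [if_neg h, Complex.ofReal_zero, mul_zero, add_zero]
        unfold pd
        ring
    simp only [hd, LL, orb, inner_add_left, inner_add_right, K.calc_spin_adj, sum_inner,
      inner_sum, inner_smul_left, inner_smul_right, map_mul, map_intCast, Complex.conj_ofReal,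
      mul_add, Finset.sum_add_distrib]
    ring
  have hI : ∫ x, (inner ℂ (K.LL A u x) (v x) + inner ℂ (u x) (K.LL A v x)) = 0 := by
    simp only [hpt]
    have hi : ∀ i B C, Integrable (fun x => (eps B A C : ℂ) *
        fderiv ℝ (fun y : X3 => (y (i, C) : ℂ) * inner ℂ (u y) (v y)) x
        (EuclideanSpace.single (i, B) (1 : ℝ))) := fun i B C =>
      (calc_int (hcx (i, C)) (hsx (i, C)) _).const_mul _
    rw [integral_finsetSum _ fun i _ => integrable_finsetSum _ fun B _ =>
      integrable_finsetSum _ fun C _ => hi i B C]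
    refine Finset.sum_eq_zero fun i _ => ?_
    rw [integral_finsetSum _ fun B _ => integrable_finsetSum _ fun C _ => hi i B C]
    refine Finset.sum_eq_zero fun B _ => ?_
    rw [integral_finsetSum _ fun C _ => hi i B C]
    refine Finset.sum_eq_zero fun C _ => ?_
    rw [integral_const_mul, integral_fderiv_eq_zero _ ((hcx (i, C)).of_le (by simp)) (hsx (i, C)),
      mul_zero]
  have hLv : Continuous (K.LL A v) := (K.contDiff_LL A hv.1).continuous
  have hLs : HasCompactSupport (K.LL A v) := by
    refine HasCompactSupport.intro' (K := tsupport v) hv.2 (isClosed_tsupport v) ?_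
    intro x hx
    have h0 : v x = 0 := image_eq_zero_of_notMem_tsupport hx
    have h1 : ∀ i A, pd i A v x = 0 := by
      intro i A
      have : fderiv ℝ v x = 0 := by
        by_contra hne
        exact hx (tsupport_fderiv_subset ℝ (f := v) (subset_tsupport _ hne))
      simp [pd, this]
    simp [LL, orb, h0, h1]
  have i1 : Integrable (fun x => inner ℂ (K.LL A u x) (v x)) :=
    hv.inner_int' (K.contDiff_LL A hu).continuous
  have i2 : Integrable (fun x => inner ℂ (u x) (K.LL A v x)) := by
    refine (hu.continuous.inner hLv).integrable_of_hasCompactSupport (hLs.mono ?_)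
    intro x hx
    simp only [Function.mem_support] at hx ⊢
    intro h0
    exact hx (by rw [h0, inner_zero_right])
  rw [integral_add i1 i2] at hI
  exact eq_neg_of_add_eq_zero_left hI


/-- Leibniz rule for a real cut-off function -/
theorem DD_smul {χ : X3 → ℝ} {u : X3 → F} {x : X3} (hχ : DifferentiableAt ℝ χ x)
    (hu : DifferentiableAt ℝ u x) :
    K.DD (fun y => (χ y : ℂ) • u y) x = (χ x : ℂ) • K.DD u x +
      ((∑ i : Fin 7, ∑ A, ((pdr (e9 i) A χ x : ℝ) : ℂ) • K.c (e8 i) A (u x)) +
      ∑ A, (((pdr 7 A χ x : ℝ) : ℂ) + Complex.I * (K.sg : ℂ) * ((pdr 8 A χ x : ℝ) : ℂ)) •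
        K.c 7 A (u x)) := by
  have h : ∀ i A, pd i A (fun y => ((χ y : ℝ) : ℂ) • u y) x =
      ((pdr i A χ x : ℝ) : ℂ) • u x + ((χ x : ℝ) : ℂ) • pd i A u x := fun i A => pd_rsmul hχ hu
  simp only [DD, D0, dd, h, map_add, map_smul, smul_add, add_smul, Finset.sum_add_distrib,
    Finset.smul_sum, smul_smul]
  have e1 : ∀ A, K.nu * (K.ph A x * (χ x : ℂ)) = (χ x : ℂ) * (K.nu * K.ph A x) := fun A => by ring
  have e2 : ∀ A : Fin 3, Complex.I * (K.sg : ℂ) * (χ x : ℂ) =
    (χ x : ℂ) * (Complex.I * (K.sg : ℂ)) := fun A => by ring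
  simp only [mul_comm _ (χ x : ℂ), mul_assoc, mul_left_comm _ (χ x : ℂ)]
  abel

end Fk

end Vale.Agent.P353.Ex
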