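import Vale.Agent.P353.Core
import Vale.Agent.P353.Ana
import Vale.Agent.P353.Tools

/-!
# Existence of the `SU(2)` threshold bound state: definitions

Everything is written in terms of *Fock data* `K : Fk F`: creation operators `c i A`
(`i < 8`, `A < 3`), annihilation operators `a i A`, a cross product `t` on `ℝ⁷`, a vacuum `vac`
(killed by all `a`) and a co-vacuum `vacb` (killed by all `c`), a sign `sg = ±1` and the coupling
`f0 = ±√2`.  `K.flip` exchanges `c ↔ a`, `vac ↔ vacb`, `t → -t`, `sg → -sg`.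
-/

open MeasureTheory Filter Topology
open scoped ContDiff ComplexConjugate

namespace Vale.Agent.P353.Ex

/-- the group `SU(2)` -/
abbrev SU2 : Type := Matrix.specialUnitaryGroup (Fin 2) ℂ

/-- `T_A = σ_A / √2` -/
noncomputable def pauliT : Fin 3 → Matrix (Fin 2) (Fin 2) ℂ
  | 0 => ((Real.sqrt 2)⁻¹ : ℂ) • !![0, 1; 1, 0]
  | 1 => ((Real.sqrt 2)⁻¹ : ℂ) • !![0, -Complex.I; Complex.I, 0]
  | 2 => ((Real.sqrt 2)⁻¹ : ℂ) • !![1, 0; 0, -1]

theorem pauliT_zero : pauliT 0 = ((Real.sqrt 2)⁻¹ : ℂ) • !![0, 1; 1, 0] := rfl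

theorem pauliT_one : pauliT 1 = ((Real.sqrt 2)⁻¹ : ℂ) • !![0, -Complex.I; Complex.I, 0] := rfl

theorem pauliT_two : pauliT 2 = ((Real.sqrt 2)⁻¹ : ℂ) • !![1, 0; 0, -1] := rfl

/-- adjoint rotation matrix of `U` in the Pauli basis: `U T_A U* = ∑ B, rotm U B A • T_B` -/
noncomputable def rotm (U : SU2) (B A : Fin 3) : ℝ := adCoeff pauliT U B A

/-- the action of `SU(2)` on the configuration space (rotation of the index `A`) -/
noncomputable def act (U : SU2) (x : X3) : X3 :=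
  WithLp.toLp 2 fun p => ∑ A, rotm U p.2 A * x (p.1, A)

/-- index embeddings -/
abbrev e8 (i : Fin 7) : Fin 8 := i.castSucc
abbrev e9 (i : Fin 7) : Fin 9 := i.castSucc.castSucc
abbrev f9 (i : Fin 8) : Fin 9 := i.castSucc

variable (F : Type*) [NormedAddCommGroup F] [InnerProductSpace ℂ F]

/-- Fock data -/
structure Fk where
  /-- creation operators -/
  c : Fin 8 → Fin 3 → F →L[ℂ] F
  /-- annihilation operators -/
  a : Fin 8 → Fin 3 → F →L[ℂ] F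
  adj : ∀ i A v w, inner ℂ (c i A v) w = inner ℂ v (a i A w)
  cc : ∀ i A j B, c i A * c j B + c j B * c i A = 0
  aa : ∀ i A j B, a i A * a j B + a j B * a i A = 0
  ac : ∀ i A j B, a i A * c j B + c j B * a i A = if i = j ∧ A = B then 1 else 0
  /-- structure constants of the cross product: `(x × y)_k = ∑ i j, t k i j x_i y_j` -/
  t : Fin 7 → Fin 7 → Fin 7 → ℝ
  t_swap : ∀ k i j, t k i j = - t k j i
  t_cyc : ∀ k i j, t k i j = t i j k
  t_norm : ∀ x y : Fin 7 → ℝ, ∑ k, (∑ i, ∑ j, t k i j * x i * y j) ^ 2 =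
    (∑ i, x i ^ 2) * (∑ i, y i ^ 2) - (∑ i, x i * y i) ^ 2
  /-- sign of the complex structure on the `φ` plane -/
  sg : ℝ
  sg_sq : sg * sg = 1
  f0 : ℝ
  f0_sq : f0 * f0 = 2
  vac : F
  vac_norm : ‖vac‖ = 1
  a_vac : ∀ i A, a i A vac = 0
  vacb : F
  vacb_norm : ‖vacb‖ = 1
  c_vacb : ∀ i A, c i A vacb = 0
  /-- the unitary action of `SU(2)` on the Fock space -/
  S : SU2 →* (F →L[ℂ] F)
  S_isometry : ∀ U v, ‖S U v‖ = ‖v‖
  S_continuous : ∀ v, Continuous fun U => S U v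
  S_c : ∀ U i A, S U * c i A = ∑ B, ((rotm U B A : ℝ) : ℂ) • (c i B * S U)
  S_a : ∀ U i A, S U * a i A = ∑ B, ((rotm U B A : ℝ) : ℂ) • (a i B * S U)
  S_vac : ∀ U, S U vac = vac
  S_vacb : ∀ U, S U vacb = vacb

variable {F}

namespace Fk

variable (K : Fk F)

/-- exchange of creation and annihilation operators -/
def flip : Fk F where
  c := K.a
  a := K.c
  adj i A v w := by
    have h := K.adj i A w v
    rw [← inner_conj_symm (K.a i A v) w, ← h, inner_conj_symm]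
  cc := K.aa
  aa := K.cc
  ac i A j B := by
    rw [add_comm, K.ac]
    by_cases h : i = j ∧ A = B
    · rw [if_pos h, if_pos ⟨h.1.symm, h.2.symm⟩]
    · rw [if_neg h, if_neg (fun hh => h ⟨hh.1.symm, hh.2.symm⟩)]
  t k i j := - K.t k i j
  t_swap k i j := by rw [K.t_swap]
  t_cyc k i j := by rw [K.t_cyc]
  t_norm x y := by
    rw [← K.t_norm x y]
    refine Finset.sum_congr rfl fun k _ => ?_
    simp only [neg_mul, Finset.sum_neg_distrib, neg_sq]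
  sg := -K.sg
  sg_sq := by rw [neg_mul_neg, K.sg_sq]
  f0 := K.f0
  f0_sq := K.f0_sq
  vac := K.vacb
  vac_norm := K.vacb_norm
  a_vac := K.c_vacb
  vacb := K.vac
  vacb_norm := K.vac_norm
  c_vacb := K.a_vac
  S := K.S
  S_isometry := K.S_isometry
  S_continuous := K.S_continuous
  S_c := K.S_a
  S_a := K.S_c
  S_vac := K.S_vacb
  S_vacb := K.S_vac

/-- the core: smooth compactly supported gauge covariant functions -/
def Core (u : X3 → F) : Prop :=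
  ContDiff ℝ ∞ u ∧ HasCompactSupport u ∧ ∀ U x, u (act U x) = K.S U (u x)

/-! ### coordinates -/

/-- `φ_A = x_7^A + i sg x_8^A` -/
noncomputable def ph (A : Fin 3) (x : X3) : ℂ :=
  (x (7, A) : ℂ) + Complex.I * (K.sg : ℂ) * (x (8, A) : ℂ)

/-- the complex conjugate of `φ_A` -/
noncomputable def phb (A : Fin 3) (x : X3) : ℂ :=
  (x (7, A) : ℂ) - Complex.I * (K.sg : ℂ) * (x (8, A) : ℂ)

/-- the form `d φ̄_A` -/
noncomputable def dpb (A : Fin 3) : F →L[ℂ] F := (2 : ℂ) • K.c 7 A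

/-- `ν = i f0` -/
noncomputable def nu : ℂ := Complex.I * (K.f0 : ℂ)

/-! ### differential operators -/

/-- `d = ∑_{i<7} c_i^A ∂_i^A + c_7^A (∂_7^A + i sg ∂_8^A)` -/
noncomputable def dd (u : X3 → F) (x : X3) : F :=
  (∑ i : Fin 7, ∑ A, K.c (e8 i) A (pd (e9 i) A u x)) +
    ∑ A, K.c 7 A (pd 7 A u x + (Complex.I * (K.sg : ℂ)) • pd 8 A u x)

/-- `ι_A`: contraction with the vector field of the rotation about `e_A` (of `x_i`, `i<7`, and
`φ̄`): `∑_i (e_A × x_i)^B a_i^B + (1/2) (e_A × φ̄)^B a_7^B` -/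
noncomputable def io (A : Fin 3) (x : X3) : F →L[ℂ] F :=
  (∑ i : Fin 7, ∑ B, ∑ C, ((eps B A C : ℂ) * (x (e9 i, C) : ℂ)) • K.a (e8 i) B) +
    (1 / 2 : ℂ) • ∑ B, ∑ C, ((eps B A C : ℂ) * K.phb C x) • K.a 7 B

/-- spin part of the gauge generator -/
noncomputable def spin (A : Fin 3) : F →L[ℂ] F :=
  ∑ i : Fin 8, ∑ B, ∑ C, (eps B A C : ℂ) • (K.c i C * K.a i B)

/-- orbital part of the gauge generator -/
noncomputable def orb (A : Fin 3) (u : X3 → F) (x : X3) : F :=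
  ∑ i : Fin 9, ∑ B, ∑ C, ((eps B A C : ℂ) * (x (i, C) : ℂ)) • pd i B u x

/-- the gauge generator `L_A` (rotation about `e_A` of everything) -/
noncomputable def LL (A : Fin 3) (u : X3 → F) (x : X3) : F := orb A u x + K.spin A (u x)

/-- `D = d + ν ∑_A φ_A ι_A` -/
noncomputable def D0 (u : X3 → F) (x : X3) : F :=
  K.dd u x + K.nu • ∑ A, K.ph A x • K.io A x (u x)

/-- `h = f0 ⟨x¹ × x², x³⟩` -/
noncomputable def hh (x : X3) : ℝ :=
  K.f0 * ∑ k, ∑ i, ∑ j, K.t k i j * x (e9 i, 0) * x (e9 j, 1) * x (e9 k, 2)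

/-- `∂h/∂x_k^A` -/
noncomputable def dhc (k : Fin 7) (A : Fin 3) (x : X3) : ℝ :=
  K.f0 / 2 * ∑ B, ∑ C, ∑ i, ∑ j, (eps A B C : ℝ) * K.t k i j * x (e9 i, B) * x (e9 j, C)

/-- the operator `dh ∧` -/
noncomputable def dh (x : X3) : F →L[ℂ] F :=
  ∑ k : Fin 7, ∑ A, ((K.dhc k A x : ℝ) : ℂ) • K.c (e8 k) A

/-- `i Q_ε = D + dh` -/
noncomputable def DD (u : X3 → F) (x : X3) : F := K.D0 u x + K.dh x (u x)

/-- the holomorphic derivative `∂/∂φ_A` -/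
noncomputable def dph (A : Fin 3) (u : X3 → F) (x : X3) : F :=
  (1 / 2 : ℂ) • (pd 7 A u x - (Complex.I * (K.sg : ℂ)) • pd 8 A u x)

/-! ### the `T`-level form -/

/-- `|z|²` where `z = φ_3` -/
noncomputable def r3 (x : X3) : ℝ := x (7, 2) ^ 2 + x (8, 2) ^ 2

/-- `|w|² = |x¹|² + |x²|²` -/
noncomputable def wsq (x : X3) : ℝ := ∑ i : Fin 7, (x (e9 i, 0) ^ 2 + x (e9 i, 1) ^ 2)

/-- `|x³|²` (seven components) -/
noncomputable def x3sq (x : X3) : ℝ := ∑ i : Fin 7, x (e9 i, 2) ^ 2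

/-- `|φ_⊥|²` -/
noncomputable def perp2 (x : X3) : ℝ :=
  x (7, 0) ^ 2 + x (8, 0) ^ 2 + x (7, 1) ^ 2 + x (8, 1) ^ 2

/-- `g = (1+|z|²)^{-1/2}` -/
noncomputable def gg (x : X3) : ℝ := (Real.sqrt (1 + r3 x))⁻¹

/-- `q = g z̄` -/
noncomputable def qq (x : X3) : ℂ := (gg x : ℂ) * K.phb 2 x

/-- `q' = ∂q/∂z̄ = (1+|z|²/2) (1+|z|²)^{-3/2}` -/
noncomputable def qp (x : X3) : ℝ := (1 + r3 x / 2) * gg x ^ 3

/-- `s = w·w`, `w = x¹ + i x²` -/
noncomputable def ss (x : X3) : ℂ :=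
  ∑ i : Fin 7, ((x (e9 i, 0) : ℂ) + Complex.I * (x (e9 i, 1) : ℂ)) ^ 2

/-- `ds` -/
noncomputable def ds (x : X3) : F →L[ℂ] F :=
  ∑ i : Fin 7, (2 * ((x (e9 i, 0) : ℂ) + Complex.I * (x (e9 i, 1) : ℂ))) •
    (K.c (e8 i) 0 + Complex.I • K.c (e8 i) 1)

/-- `ds̄` -/
noncomputable def dsb (x : X3) : F →L[ℂ] F :=
  ∑ i : Fin 7, (2 * ((x (e9 i, 0) : ℂ) - Complex.I * (x (e9 i, 1) : ℂ))) •
    (K.c (e8 i) 0 - Complex.I • K.c (e8 i) 1)

/-- `κ = x¹ × x²` -/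
noncomputable def kap (k : Fin 7) (x : X3) : ℝ :=
  ∑ i, ∑ j, K.t k i j * x (e9 i, 0) * x (e9 j, 1)

/-- `dκ` -/
noncomputable def dkap (k : Fin 7) (x : X3) : F →L[ℂ] F :=
  ∑ i, ∑ j, ((K.t k i j : ℂ)) • ((x (e9 j, 1) : ℂ) • K.c (e8 i) 0 + (x (e9 i, 0) : ℂ) • K.c (e8 j) 1)

/-- `b = x³ - f0 κ` -/
noncomputable def bb (k : Fin 7) (x : X3) : ℝ := x (e9 k, 2) - K.f0 * K.kap k x

/-- `db` -/
noncomputable def db (k : Fin 7) (x : X3) : F →L[ℂ] F :=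
  K.c (e8 k) 2 - (K.f0 : ℂ) • K.dkap k x

/-- `μ = x¹·dx² - x²·dx¹` -/
noncomputable def mu (x : X3) : F →L[ℂ] F :=
  ∑ i : Fin 7, ((x (e9 i, 0) : ℂ) • K.c (e8 i) 1 - (x (e9 i, 1) : ℂ) • K.c (e8 i) 0)

/-- `∏_k db_k` -/
noncomputable def bet (x : X3) : F →L[ℂ] F := (List.ofFn fun k : Fin 7 => K.db k x).prod

/-- `∏_k (1 + (2i/m) q dx¹_k dx²_k)` -/
noncomputable def eeT (x : X3) : F →L[ℂ] F :=
  (List.ofFn fun k : Fin 7 => (1 + (2 * Complex.I / (K.f0 : ℂ) * K.qq x) •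
    (K.c (e8 k) 0 * K.c (e8 k) 1) : F →L[ℂ] F)).prod

/-- `2z - (1/m) ds ds̄` -/
noncomputable def tau0 (x : X3) : F →L[ℂ] F :=
  (2 * K.ph 2 x) • (1 : F →L[ℂ] F) - (1 / (K.f0 : ℂ)) • (K.ds x * K.dsb x)

/-- `1 + (i/m) q' dz̄ μ` -/
noncomputable def rho (x : X3) : F →L[ℂ] F :=
  1 + (Complex.I / (K.f0 : ℂ) * (qp x : ℂ)) • (K.dpb 2 * K.mu x)

/-- the exponent `|s|² + |b|² + g |z|² |w|²` -/
noncomputable def expo (x : X3) : ℝ :=
  ‖ss x‖ ^ 2 + (∑ k, K.bb k x ^ 2) + gg x * r3 x * wsq x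

/-- the `T`-level form `α = z τ β E_T` applied to the vacuum -/
noncomputable def aT (x : X3) : F :=
  ((Real.exp (-K.expo x) : ℂ) * K.ph 2 x) •
    (K.tau0 x * K.bet x * K.rho x * K.eeT x) K.vac

/-! ### the induced form -/

/-- the polynomial part of the induced form `K_t` without `e^{-t|φ_⊥|²}` -/
noncomputable def KK0 (t : ℝ) (x : X3) : F :=
  -((1 / K.nu) • K.dph 2 K.aT x) + K.io 1 x (K.io 0 x (K.aT x))
    - (2 * (t : ℂ) / K.nu * K.phb 2 x) • K.aT x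
    - ((t : ℂ) ^ 2 / K.nu ^ 2) • K.dpb 0 (K.dpb 1 (K.aT x))
    + ((t : ℂ) / K.nu) • (K.dpb 0 (K.io 1 x (K.aT x)) - K.dpb 1 (K.io 0 x (K.aT x)))

/-- the induced form `K_t` -/
noncomputable def KK (t : ℝ) (x : X3) : F := (Real.exp (-t * perp2 x) : ℂ) • K.KK0 t x

/-- `Ψ_1 = e^{-h} K_t` -/
noncomputable def Ps (t : ℝ) (x : X3) : F := (Real.exp (-K.hh x) : ℂ) • K.KK t x

/-- the primitives `u_A = e^{-t|φ_⊥|²} (ι_A α - (t/ν) dφ̄_A α)` -/
noncomputable def uu (t : ℝ) (A : Fin 3) (x : X3) : F :=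
  (Real.exp (-t * perp2 x) : ℂ) • (K.io A x (K.aT x) - ((t : ℂ) / K.nu) • K.dpb A (K.aT x))

/-- common Gaussian bound -/
noncomputable def B0 (x : X3) : ℝ :=
  Real.exp (-(x3sq x / 16) - (wsq x ^ 2 / 16) - gg x * r3 x * wsq x)

/-- `|z|` -/
noncomputable def ze (x : X3) : ℝ := Real.sqrt (r3 x)

/-- full product of all creation operators -/
noncomputable def Ctop : F →L[ℂ] F :=
  (List.ofFn fun k : Fin 7 => K.c (e8 k) 0 * K.c (e8 k) 1 * K.c (e8 k) 2).prod *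
    (K.c 7 0 * K.c 7 1 * K.c 7 2)

/-- non-degeneracy of the pairing of the two vacua -/
def PairNe : Prop := inner ℂ K.vacb (K.Ctop K.vac) ≠ 0

/-- the core is annihilated by the gauge generators -/
def Gauss : Prop := ∀ u, K.Core u → ∀ A x, K.LL A u x = 0

end Fk

/-- projection onto `φ_⊥ = 0` -/
noncomputable def pr (x : X3) : X3 :=
  WithLp.toLp 2 fun p => if (p.1 = 7 ∨ p.1 = 8) ∧ p.2 ≠ 2 then 0 else x p

end Vale.Agent.P353.Ex
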