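import Vale.Agent.P353.Ex.Sq
import Vale.Agent.P353.Ex.Cov

/-! Task EX-25: the Hilbert space argument.

`N₁` = closure in `L²` of `{K.DD u : u core}`.  `Ψ = Ψ₀ - proj_{N₁} Ψ₀`.  For core `u, χ`:
`⟨K.DD u, K.flip.DD χ⟩ = -⟨u, flip.DD (flip.DD χ)⟩ = 0` (`DD_DD_core` for `K.flip`, `DD_adj`), so
`⟨Ψ, K.flip.DD χ⟩ = 0`; `⟨Ψ, K.DD χ⟩ = 0` by orthogonality.  `Ψ ≠ 0` since `Ξ ⟂ N₁` and
`⟨Ξ, Ψ₀⟩ ≠ 0`.  Covariant functions form a closed subspace of `L²` containing the core. -/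

open MeasureTheory Filter Topology
open scoped ContDiff ComplexConjugate

namespace Vale.Agent.P353.Ex

variable {F : Type*} [NormedAddCommGroup F] [InnerProductSpace ℂ F]

/-- abstract Hilbert space part -/
theorem hilbert_split {H : Type*} [NormedAddCommGroup H] [InnerProductSpace ℂ H] [CompleteSpace H]
    (S : Set H) (ψ ξ : H) (h : ∀ s ∈ S, inner ℂ ξ s = 0) (h3 : inner ℂ ξ ψ ≠ 0) :
    ∃ Ψ p : H, Ψ = ψ - p ∧ p ∈ (Submodule.span ℂ S).topologicalClosure ∧
      (∀ s ∈ S, inner ℂ Ψ s = 0) ∧ Ψ ≠ 0 := by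
  set N := (Submodule.span ℂ S).topologicalClosure with hN
  have hNc : IsClosed (N : Set H) := (Submodule.span ℂ S).isClosed_topologicalClosure
  have : CompleteSpace N := hNc.completeSpace_coe
  obtain ⟨p, hp, q, hq, hpq⟩ := N.exists_add_mem_mem_orthogonal ψ
  have hSN : ∀ s ∈ S, s ∈ N := fun s hs =>
    (Submodule.span ℂ S).le_topologicalClosure (Submodule.subset_span hs)
  have hξ : N ≤ (ℂ ∙ ξ)ᗮ := by
    refine Submodule.topologicalClosure_minimal _ ?_ (Submodule.isClosed_orthogonal _)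
    refine Submodule.span_le.2 fun s hs => ?_
    exact Submodule.mem_orthogonal_singleton_iff_inner_right.2 (h s hs)
  refine ⟨q, p, by rw [hpq]; abel, hp, ?_, ?_⟩
  · intro s hs
    exact (Submodule.mem_orthogonal' N q).1 hq s (hSN s hs)
  · rintro rfl
    apply h3
    rw [hpq, add_zero]
    exact Submodule.mem_orthogonal_singleton_iff_inner_right.1 (hξ hp)

namespace Fk

variable (K : Fk F) [FiniteDimensional ℂ F]

/-- weak zero modes -/
def WeakZM (Ψ : Lp F 2 (volume : Measure X3)) : Prop :=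
  (∀ U : SU2, ∀ᵐ x, Ψ (act U x) = K.S U (Ψ x)) ∧
    (∀ χ, K.Core χ → ∫ x, inner ℂ (Ψ x) (K.DD χ x) = 0) ∧
    (∀ χ, K.Core χ → ∫ x, inner ℂ (Ψ x) (K.flip.DD χ x) = 0)

theorem hilb_act_mp (U : SU2) : MeasurePreserving (act U) (volume : Measure X3) volume :=
  (actL U).measurePreserving

omit [FiniteDimensional ℂ F] in
theorem hilb_memLp {u : X3 → F} (hu : K.Core u) : MemLp (K.DD u) 2 (volume : Measure X3) :=
  (K.tst_DD ⟨hu.1, hu.2.1⟩ : Setup.Tst (K.DD u)).memLp

omit [FiniteDimensional ℂ F] in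
theorem hilb_inner (f : Lp F 2 (volume : Measure X3)) {g : X3 → F}
    (hg : MemLp g 2 (volume : Measure X3)) :
    inner ℂ f (hg.toLp g) = ∫ x, inner ℂ (f x) (g x) := by
  rw [L2.inner_def]
  refine integral_congr_ae ?_
  filter_upwards [hg.coeFn_toLp] with x hx
  rw [hx]

omit [FiniteDimensional ℂ F] in
theorem hilb_inner' {f g : X3 → F} (hf : MemLp f 2 (volume : Measure X3))
    (hg : MemLp g 2 (volume : Measure X3)) :
    inner ℂ (hf.toLp f) (hg.toLp g) = ∫ x, inner ℂ (f x) (g x) := by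
  rw [hilb_inner]
  refine integral_congr_ae ?_
  filter_upwards [hf.coeFn_toLp] with x hx
  rw [hx]

/-- covariant functions -/
noncomputable def hilbCov (U : SU2) : Submodule ℂ (Lp F 2 (volume : Measure X3)) :=
  LinearMap.ker (((Lp.compMeasurePreservingₗᵢ (E := F) (p := 2) ℂ (act U)
      (hilb_act_mp U)).toContinuousLinearMap -
    (K.S U).compLpL 2 (volume : Measure X3) :
      Lp F 2 (volume : Measure X3) →L[ℂ] Lp F 2 (volume : Measure X3)) :
      Lp F 2 (volume : Measure X3) →ₗ[ℂ] Lp F 2 (volume : Measure X3))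

omit [FiniteDimensional ℂ F] in
theorem hilb_mem_cov {U : SU2} {f : Lp F 2 (volume : Measure X3)} :
    f ∈ K.hilbCov U ↔ ∀ᵐ x, f (act U x) = K.S U (f x) := by
  unfold hilbCov
  rw [LinearMap.mem_ker]
  change Lp.compMeasurePreservingₗᵢ ℂ (act U) (hilb_act_mp U) f -
    (K.S U).compLpL 2 (volume : Measure X3) f = 0 ↔ _
  rw [sub_eq_zero, Lp.ext_iff]
  have h1 : Lp.compMeasurePreservingₗᵢ ℂ (act U) (hilb_act_mp U) f =ᵐ[volume] f ∘ act U :=
    Lp.coeFn_compMeasurePreserving f (hilb_act_mp U)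
  have h2 := (K.S U).coeFn_compLpL (p := 2) (μ := (volume : Measure X3)) f
  constructor
  · intro h
    filter_upwards [h, h1, h2] with x a b c
    rw [← c, ← a, b]
    rfl
  · intro h
    filter_upwards [h, h1, h2] with x a b c
    rw [b, c, ← a]
    rfl

omit [FiniteDimensional ℂ F] in
theorem hilb_cov_closed (U : SU2) : IsClosed (K.hilbCov U : Set (Lp F 2 (volume : Measure X3))) :=
  ContinuousLinearMap.isClosed_ker _

theorem exists_weakZM (hG : K.Gauss) {Ψ₀ Ξ : X3 → F} (h0 : MemLp Ψ₀ 2 (volume : Measure X3))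
    (hX : MemLp Ξ 2 (volume : Measure X3))
    (hc : ∀ U x, Ψ₀ (act U x) = K.S U (Ψ₀ x))
    (h1 : ∀ χ, K.Core χ → ∫ x, inner ℂ (Ψ₀ x) (K.flip.DD χ x) = 0)
    (h2 : ∀ χ, K.Core χ → ∫ x, inner ℂ (Ξ x) (K.DD χ x) = 0)
    (h3 : ∫ x, inner ℂ (Ξ x) (Ψ₀ x) ≠ 0) :
    ∃ Ψ : Lp F 2 (volume : Measure X3), K.WeakZM Ψ ∧ Ψ ≠ 0 := by
  have : CompleteSpace F := FiniteDimensional.complete ℂ F
  have hGf : K.flip.Gauss := by
    intro u hu A x
    rw [K.flip_LL]
    exact hG u hu A x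
  let S : Set (Lp F 2 (volume : Measure X3)) :=
    {f | ∃ (u : X3 → F) (hu : K.Core u), f = (K.hilb_memLp hu).toLp _}
  obtain ⟨Ψ, p, hΨ, hp, horth, hne⟩ := hilbert_split S (h0.toLp Ψ₀) (hX.toLp Ξ)
    (by
      rintro _ ⟨u, hu, rfl⟩
      rw [hilb_inner']
      exact h2 u hu)
    (by
      rw [hilb_inner']
      exact h3)
  refine ⟨Ψ, ⟨fun U => ?_, fun χ hχ => ?_, fun χ hχ => ?_⟩, hne⟩
  · rw [← K.hilb_mem_cov, hΨ]
    refine Submodule.sub_mem _ ?_ ?_
    · rw [K.hilb_mem_cov]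
      have ha := h0.coeFn_toLp
      have hb := (hilb_act_mp U).quasiMeasurePreserving.ae ha
      filter_upwards [ha, hb] with x hx hy
      rw [hx, hy, hc]
    · have : (Submodule.span ℂ S).topologicalClosure ≤ K.hilbCov U := by
        refine Submodule.topologicalClosure_minimal _ ?_ (K.hilb_cov_closed U)
        refine Submodule.span_le.2 ?_
        rintro _ ⟨u, hu, rfl⟩
        refine K.hilb_mem_cov.2 ?_
        have ha := (K.hilb_memLp hu).coeFn_toLp
        have hb := (hilb_act_mp U).quasiMeasurePreserving.ae ha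
        filter_upwards [ha, hb] with x hx hy
        rw [hx, hy]
        exact (K.core_DD hu).2.2 U x
      exact this hp
  · have h4 := horth _ ⟨χ, hχ, rfl⟩
    rwa [hilb_inner] at h4
  · have hfl : MemLp (K.flip.DD χ) 2 (volume : Measure X3) := K.flip.hilb_memLp (u := χ) hχ
    rw [← hilb_inner Ψ hfl, hΨ, inner_sub_left, hilb_inner', h1 χ hχ, zero_sub, neg_eq_zero]
    have : (Submodule.span ℂ S).topologicalClosure ≤ (ℂ ∙ (hfl.toLp _))ᗮ := by
      refine Submodule.topologicalClosure_minimal _ ?_ (Submodule.isClosed_orthogonal _)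
      refine Submodule.span_le.2 ?_
      rintro _ ⟨u, hu, rfl⟩
      refine Submodule.mem_orthogonal_singleton_iff_inner_left.2 ?_
      rw [hilb_inner', K.DD_adj hu.1 (K.flip.tst_DD ⟨hχ.1, hχ.2.1⟩)]
      have h5 : ∀ x, K.flip.DD (K.flip.DD χ) x = 0 := fun x => K.flip.DD_DD_core hGf hχ x
      simp only [h5, inner_zero_right, integral_zero, neg_zero]
    exact Submodule.mem_orthogonal_singleton_iff_inner_left.1 (this hp)

end Fk

end Vale.Agent.P353.Ex
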