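import Vale.Agent.P353.Ex.Calc

/-! Task EX-08: the induction identity `D K_t = L_1 u_0 - L_0 u_1` (indices `A = 0, 1, 2`).

Let `a` be smooth with `D0 a = ν (φ_0 ι_0 a + φ_1 ι_1 a)` and `∂_{φ_0} a = ∂_{φ_1} a = 0`
(`dph`).  Write `L'_A = {d, ι_A}` (so `L'_A = L_A - R_A`, `R_A = (e_A × φ)·∂_φ`,
`{D0, ι_A} = L'_A`), `e = e^{-t|φ_⊥|²}`, `d e = -t (φ_0 dφ̄_0 + φ_1 dφ̄_1) e`,
`{D0, dφ̄_A} = ν (φ × φ̄)_A`, `[L'_0, ι_1] = -ι_2`, `[∂_{φ_2}, D0] = ν ι_2`,
`L_1 dφ̄_0 = dφ̄_0 L_1 + dφ̄_2`, `L_0 dφ̄_1 = dφ̄_1 L_0 - dφ̄_2`,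
`L_1 |φ_⊥|² = φ_0 φ̄_2 + φ_2 φ̄_0`, `L_0 |φ_⊥|² = -φ_1 φ̄_2 - φ_2 φ̄_1`.
Check order by order in `t` (full computation in the team note on P353, section induction).
This has been verified numerically. -/

open MeasureTheory Filter Topology
open scoped ContDiff ComplexConjugate

namespace Vale.Agent.P353.Ex

variable {F : Type*} [NormedAddCommGroup F] [InnerProductSpace ℂ F]

section dc

variable {G : Type*} [NormedAddCommGroup G] [NormedSpace ℂ G]

/-- complex directional derivative -/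
private noncomputable def dcv (v w : X3) (u : X3 → G) (x : X3) : G :=
  fderiv ℝ u x v + Complex.I • fderiv ℝ u x w

private lemma dcv_add (v w : X3) {u u' : X3 → G} {x : X3} (hu : DifferentiableAt ℝ u x)
    (hu' : DifferentiableAt ℝ u' x) :
    dcv v w (fun y => u y + u' y) x = dcv v w u x + dcv v w u' x := by
  rw [dcv, dcv, dcv, fderiv_fun_add hu hu']
  simp only [_root_.add_apply, smul_add]
  abel

private lemma dcv_clm (v w : X3) (T : F →L[ℂ] F) {u : X3 → F} {x : X3} (hu : DifferentiableAt ℝ u x) :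
    dcv v w (fun y => T (u y)) x = T (dcv v w u x) := by
  have h := ((T.restrictScalars ℝ).hasFDerivAt (x := u x)).comp x hu.hasFDerivAt
  have h2 : fderiv ℝ (fun y => T (u y)) x = _ := h.fderiv
  rw [dcv, dcv, h2]
  simp

private lemma dcv_sum {ι : Type*} (s : Finset ι) (v w : X3) {u : ι → X3 → G} {x : X3}
    (hu : ∀ k ∈ s, DifferentiableAt ℝ (u k) x) :
    dcv v w (fun y => ∑ k ∈ s, u k y) x = ∑ k ∈ s, dcv v w (u k) x := by
  simp only [dcv]
  rw [fderiv_fun_sum hu, Finset.sum_add_distrib]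
  simp only [_root_.sum_apply, Finset.smul_sum]

private lemma dcv_smul (v w : X3) {f : X3 → ℂ} {u : X3 → G} {x : X3} (hf : DifferentiableAt ℝ f x)
    (hu : DifferentiableAt ℝ u x) :
    dcv v w (fun y => f y • u y) x = dcv v w f x • u x + f x • dcv v w u x := by
  rw [dcv, dcv, dcv, fderiv_fun_smul hf hu]
  simp only [_root_.add_apply, _root_.smul_apply, ContinuousLinearMap.smulRight_apply, smul_add,
    smul_eq_mul, add_smul, mul_smul]
  rw [smul_comm (f x) Complex.I]
  abel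

private lemma dcv_clm_apply (v w : X3) {T : X3 → F →L[ℂ] F} {u : X3 → F} {x : X3}
    (hT : DifferentiableAt ℝ T x) (hu : DifferentiableAt ℝ u x) :
    dcv v w (fun y => T y (u y)) x = (dcv v w T x) (u x) + T x (dcv v w u x) := by
  have hB : IsBoundedBilinearMap ℝ (fun p : (F →L[ℂ] F) × F => p.1 p.2) := by
    have h := (isBoundedBilinearMap_apply (𝕜 := ℂ) (E := F) (F := F))
    refine ⟨fun a b c => by simp, fun c a b => ?_, fun a b c => by simp, fun c a b => ?_, ?_⟩
    · simp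
    · simp
    · obtain ⟨C, hC, hb⟩ := h.bound
      exact ⟨C, hC, hb⟩
  have h1 := hB.hasFDerivAt (T x, u x)
  have h2 := hT.hasFDerivAt.prodMk hu.hasFDerivAt
  have h3 := h1.comp x h2
  have h4 : fderiv ℝ (fun y => T y (u y)) x = _ := h3.fderiv
  rw [dcv, dcv, dcv, h4]
  simp
  abel

private lemma dcv_contDiff (v w : X3) {u : X3 → G} (hu : ContDiff ℝ ∞ u) : ContDiff ℝ ∞ (dcv v w u) := by
  unfold dcv
  have h := (hu.fderiv_right (m := ∞) (by simp))
  exact (h.clm_apply contDiff_const).add ((h.clm_apply contDiff_const).const_smul Complex.I)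

private lemma dcv_comm (v w v' w' : X3) {u : X3 → G} (hu : ContDiff ℝ ∞ u) (x : X3) :
    dcv v w (dcv v' w' u) x = dcv v' w' (dcv v w u) x := by
  have hs : IsSymmSndFDerivAt ℝ u x := by
    refine (hu.contDiffAt).isSymmSndFDerivAt ?_
    simp only [minSmoothness_of_isRCLikeNormedField]
    exact WithTop.coe_le_coe.mpr le_top
  have hd : Differentiable ℝ (fderiv ℝ u) := (hu.fderiv_right (m := ∞) (by simp)).differentiable
    (by simp)
  have hda : ∀ a, DifferentiableAt ℝ (fun y => fderiv ℝ u y a) x := fun a =>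
    (hd x).clm_apply (differentiableAt_const a)
  have h : ∀ (a b : X3), fderiv ℝ (fun y => fderiv ℝ u y a) x b = fderiv ℝ (fderiv ℝ u) x b a := by
    intro a b
    rw [fderiv_clm_apply (hd x) (differentiableAt_const a)]
    simp
  have key : ∀ v w v' w' : X3, dcv v w (dcv v' w' u) x =
      (fderiv ℝ (fderiv ℝ u) x v v' + Complex.I • fderiv ℝ (fderiv ℝ u) x v w') +
      Complex.I • (fderiv ℝ (fderiv ℝ u) x w v' + Complex.I • fderiv ℝ (fderiv ℝ u) x w w') := by
    intro v w v' w'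
    have e : dcv v' w' u = fun y => fderiv ℝ u y v' + Complex.I • fderiv ℝ u y w' := rfl
    rw [e, dcv, fderiv_fun_add (hda v') ((hda w').fun_const_smul Complex.I),
      fderiv_fun_const_smul (hda w') Complex.I]
    simp only [_root_.add_apply, _root_.smul_apply, h]
  rw [key, key, hs v v', hs v w', hs w v', hs w w']
  simp only [smul_add]
  abel

end dc

namespace Fk

variable (K : Fk F)

/-- the derivations of `d`, `i < 8` -/
private noncomputable def dl (i : Fin 8) (A : Fin 3) {G : Type*} [NormedAddCommGroup G] [NormedSpace ℂ G]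
    (u : X3 → G) (x : X3) : G :=
  dcv (EuclideanSpace.single (f9 i, A) 1)
    (if i = 7 then K.sg • EuclideanSpace.single (8, A) 1 else 0) u x

/-- the derivations `∂/∂φ_A` -/
private noncomputable def dpp (A : Fin 3) {G : Type*} [NormedAddCommGroup G] [NormedSpace ℂ G]
    (u : X3 → G) (x : X3) : G :=
  dcv ((1 / 2 : ℝ) • EuclideanSpace.single (7, A) 1)
    ((-(K.sg / 2)) • EuclideanSpace.single (8, A) 1) u x

/-- the coordinates of `d` -/
private noncomputable def Xc (i : Fin 8) (A : Fin 3) (x : X3) : ℂ :=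
  if i = 7 then (1 / 2) * K.phb A x else (x (f9 i, A) : ℂ)

private lemma dph_eq (A : Fin 3) (u : X3 → F) (x : X3) : K.dph A u x = K.dpp A u x := by
  rw [dph, dpp, dcv, pd, pd, map_smul, map_smul]
  module

private lemma dl_e8 (i : Fin 7) (A : Fin 3) (u : X3 → F) (x : X3) : K.dl (e8 i) A u x = pd (e9 i) A u x := by
  have h : e8 i ≠ 7 := by
    intro h
    have := congrArg Fin.val h
    simp at this
    omega
  rw [dl, dcv, if_neg h, pd, map_zero, smul_zero, add_zero]

private lemma dl_7 (A : Fin 3) (u : X3 → F) (x : X3) :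
    K.dl 7 A u x = pd 7 A u x + (Complex.I * (K.sg : ℂ)) • pd 8 A u x := by
  rw [dl, dcv, if_pos rfl, pd, pd, map_smul]
  have : f9 7 = (7 : Fin 9) := rfl
  rw [this]
  module

private lemma dd_eqI (u : X3 → F) (x : X3) : K.dd u x = ∑ i : Fin 8, ∑ A, K.c i A (K.dl i A u x) := by
  rw [dd, Fin.sum_univ_castSucc (n := 7)]
  congr 1
  · refine Finset.sum_congr rfl fun i _ => Finset.sum_congr rfl fun A _ => ?_
    rw [← K.dl_e8]
  · refine Finset.sum_congr rfl fun A _ => ?_
    have : Fin.last 7 = 7 := rfl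
    rw [this, dl_7]

private lemma Xc_e8 (i : Fin 7) (A : Fin 3) (x : X3) : K.Xc (e8 i) A x = (x (e9 i, A) : ℂ) := by
  have h : e8 i ≠ 7 := by
    intro h
    have := congrArg Fin.val h
    simp at this
    omega
  rw [Xc, if_neg h]

private lemma io_eqI (A : Fin 3) (x : X3) :
    K.io A x = ∑ i : Fin 8, ∑ B, ∑ C, ((eps B A C : ℂ) * K.Xc i C x) • K.a i B := by
  rw [io, Fin.sum_univ_castSucc (n := 7)]
  refine congrArg₂ (· + ·) ?_ ?_
  · refine Finset.sum_congr rfl fun i _ => Finset.sum_congr rfl fun B _ =>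
      Finset.sum_congr rfl fun C _ => ?_
    rw [← K.Xc_e8]
  · rw [Finset.smul_sum]
    refine Finset.sum_congr rfl fun B _ => ?_
    rw [Finset.smul_sum]
    refine Finset.sum_congr rfl fun C _ => ?_
    have : Fin.last 7 = 7 := rfl
    rw [this, Xc, if_pos rfl]
    module


/-! ### derivatives of coordinates -/

private lemma diff_coord (p : Fin 9 × Fin 3) (x : X3) :
    DifferentiableAt ℝ (fun y : X3 => ((y p : ℝ) : ℂ)) x :=
  Complex.ofRealCLM.differentiableAt.comp x
    (EuclideanSpace.proj (𝕜 := ℝ) p : X3 →L[ℝ] ℝ).differentiableAt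

private lemma fderiv_coord (p : Fin 9 × Fin 3) (x v : X3) :
    fderiv ℝ (fun y : X3 => ((y p : ℝ) : ℂ)) x v = ((v p : ℝ) : ℂ) := by
  have h := (Complex.ofRealCLM.hasFDerivAt (x := x p)).comp x
    (EuclideanSpace.proj (𝕜 := ℝ) p : X3 →L[ℝ] ℝ).hasFDerivAt
  have h2 : fderiv ℝ (fun y : X3 => ((y p : ℝ) : ℂ)) x = _ := h.fderiv
  rw [h2]
  simp

private lemma dcv_coord (p : Fin 9 × Fin 3) (v w x : X3) :
    dcv v w (fun y : X3 => ((y p : ℝ) : ℂ)) x = (v p : ℂ) + Complex.I * (w p : ℂ) := by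
  rw [dcv, fderiv_coord, fderiv_coord, smul_eq_mul]

private lemma diff_ph (A : Fin 3) (x : X3) : DifferentiableAt ℝ (K.ph A) x := by
  unfold ph
  exact (diff_coord (7, A) x).add ((diff_coord (8, A) x).const_mul _)

private lemma diff_phb (A : Fin 3) (x : X3) : DifferentiableAt ℝ (K.phb A) x := by
  unfold phb
  exact (diff_coord (7, A) x).sub ((diff_coord (8, A) x).const_mul _)

private lemma dcv_ph (A : Fin 3) (v w x : X3) :
    dcv v w (K.ph A) x = ((v (7, A) : ℂ) + Complex.I * (w (7, A) : ℂ)) +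
      Complex.I * (K.sg : ℂ) * ((v (8, A) : ℂ) + Complex.I * (w (8, A) : ℂ)) := by
  have h : ∀ v : X3, fderiv ℝ (K.ph A) x v = (v (7, A) : ℂ) +
      Complex.I * (K.sg : ℂ) * (v (8, A) : ℂ) := by
    intro v
    unfold ph
    rw [fderiv_fun_add (diff_coord (7, A) x) ((diff_coord (8, A) x).const_mul _),
      fderiv_const_mul (diff_coord (8, A) x)]
    simp only [_root_.add_apply, _root_.smul_apply, fderiv_coord, smul_eq_mul]
  rw [dcv, h, h, smul_eq_mul]
  ring

private lemma dcv_phb (A : Fin 3) (v w x : X3) :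
    dcv v w (K.phb A) x = ((v (7, A) : ℂ) + Complex.I * (w (7, A) : ℂ)) -
      Complex.I * (K.sg : ℂ) * ((v (8, A) : ℂ) + Complex.I * (w (8, A) : ℂ)) := by
  have h : ∀ v : X3, fderiv ℝ (K.phb A) x v = (v (7, A) : ℂ) -
      Complex.I * (K.sg : ℂ) * (v (8, A) : ℂ) := by
    intro v
    unfold phb
    rw [fderiv_fun_sub (diff_coord (7, A) x) ((diff_coord (8, A) x).const_mul _),
      fderiv_const_mul (diff_coord (8, A) x)]
    simp only [_root_.sub_apply, _root_.smul_apply, fderiv_coord, smul_eq_mul]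
  rw [dcv, h, h, smul_eq_mul]
  ring

private lemma sgc : (K.sg : ℂ) * (K.sg : ℂ) = 1 := by
  rw [← Complex.ofReal_mul, K.sg_sq, Complex.ofReal_one]

private lemma single_ap (p q : Fin 9 × Fin 3) :
    ((EuclideanSpace.single p (1 : ℝ) : X3) q) = if q = p then 1 else 0 := by
  exact PiLp.single_apply ..

private lemma dl_ph (i : Fin 8) (A B : Fin 3) (x : X3) : K.dl i A (K.ph B) x = 0 := by
  rw [dl, dcv_ph]
  have hI := Complex.I_mul_I
  have hs := K.sgc
  by_cases hi : i = 7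
  · subst hi
    rw [if_pos rfl]
    have h1 : f9 7 = (7 : Fin 9) := rfl
    rw [h1]
    simp only [PiLp.smul_apply, single_ap, Prod.mk.injEq, smul_eq_mul, Complex.ofReal_mul]
    by_cases h : B = A
    · subst h
      simp
      linear_combination (-1 : ℂ) * hs + (K.sg : ℂ) * (K.sg : ℂ) * hI
    · simp [h]
  · rw [if_neg hi]
    have h7 : (7 : Fin 9) ≠ f9 i := fun h => hi (Fin.castSucc_injective 8 h.symm)
    have h8 : (8 : Fin 9) ≠ f9 i := by
      intro h
      have := congrArg Fin.val h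
      have h2 := i.isLt
      simp at this
      omega
    simp [h7, h8]


private lemma f9_ne7 {i : Fin 8} (hi : i ≠ 7) : (7 : Fin 9) ≠ f9 i :=
  fun h => hi (Fin.castSucc_injective 8 h.symm)

private lemma f9_ne8 (i : Fin 8) : (8 : Fin 9) ≠ f9 i := by
  intro h
  have := congrArg Fin.val h
  have h2 := i.isLt
  simp at this
  omega

private lemma diff_Xc (i : Fin 8) (A : Fin 3) (x : X3) : DifferentiableAt ℝ (K.Xc i A) x := by
  unfold Xc
  by_cases hi : i = 7
  · simp only [if_pos hi]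
    exact (K.diff_phb A x).const_mul _
  · simp only [if_neg hi]
    exact diff_coord (f9 i, A) x

private lemma dl_phb (i : Fin 8) (A B : Fin 3) (x : X3) :
    K.dl i A (K.phb B) x = if i = 7 ∧ A = B then 2 else 0 := by
  rw [dl, dcv_phb]
  have hI := Complex.I_mul_I
  have hs := K.sgc
  by_cases hi : i = 7
  · subst hi
    rw [if_pos rfl]
    have h1 : f9 7 = (7 : Fin 9) := rfl
    rw [h1]
    simp only [PiLp.smul_apply, single_ap, Prod.mk.injEq, smul_eq_mul, Complex.ofReal_mul]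
    by_cases h : A = B
    · subst h
      simp
      linear_combination hs - (K.sg : ℂ) * (K.sg : ℂ) * hI
    · have h' : ¬ B = A := fun hh => h hh.symm
      simp [h, h']
  · rw [if_neg hi]
    simp [f9_ne7 hi, f9_ne8, hi]

private lemma dl_Xc (i : Fin 8) (A : Fin 3) (j : Fin 8) (B : Fin 3) (x : X3) :
    K.dl i A (K.Xc j B) x = if i = j ∧ A = B then 1 else 0 := by
  by_cases hj : j = 7
  · subst hj
    have h : K.Xc 7 B = fun y => (1 / 2 : ℂ) • K.phb B y := by
      funext y; rw [Xc, if_pos rfl, smul_eq_mul]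
    have h2 : K.dl i A (K.Xc 7 B) x = (1 / 2 : ℂ) * K.dl i A (K.phb B) x := by
      rw [h, dl, dcv_smul _ _ (differentiableAt_const _) (K.diff_phb B x), dl, dcv]
      simp
    rw [h2, dl_phb]
    split_ifs <;> norm_num
  · have h : K.Xc j B = fun y : X3 => ((y (f9 j, B) : ℝ) : ℂ) := by
      funext y; rw [Xc, if_neg hj]
    rw [h, dl, dcv_coord]
    have h8 := f9_ne8 j
    by_cases hi : i = 7
    · subst hi
      have h1 : f9 7 = (7 : Fin 9) := rfl
      have h7 := f9_ne7 hj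
      have h7' : ¬ (7 : Fin 8) = j := fun h => hj h.symm
      simp [h1, h7.symm, h8.symm, h7']
    · have hinj : (f9 j = f9 i) ↔ (i = j) :=
        ⟨fun h => (Fin.castSucc_injective 8 h).symm, fun h => by rw [h]⟩
      simp only [if_neg hi, single_ap, Prod.mk.injEq, hinj]
      by_cases h1 : i = j <;> by_cases h2 : A = B
      · simp [h1, h2]
      · have h2' : ¬ B = A := fun h => h2 h.symm
        simp [h2, h2']
      · simp [h1]
      · simp [h1]

private lemma dpp_ph (A B : Fin 3) (x : X3) : K.dpp A (K.ph B) x = if A = B then 1 else 0 := by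
  rw [dpp, dcv_ph]
  have hI := Complex.I_mul_I
  have hs := K.sgc
  simp only [PiLp.smul_apply, single_ap, Prod.mk.injEq, smul_eq_mul, Complex.ofReal_mul]
  by_cases h : A = B
  · subst h
    simp
    linear_combination (1 / 2 : ℂ) * hs - (K.sg : ℂ) * (K.sg : ℂ) / 2 * hI
  · have h' : ¬ B = A := fun hh => h hh.symm
    simp [h, h']

private lemma dpp_phb (A B : Fin 3) (x : X3) : K.dpp A (K.phb B) x = 0 := by
  rw [dpp, dcv_phb]
  have hI := Complex.I_mul_I
  have hs := K.sgc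
  simp only [PiLp.smul_apply, single_ap, Prod.mk.injEq, smul_eq_mul, Complex.ofReal_mul]
  by_cases h : B = A
  · subst h
    simp
    linear_combination (-1 / 2 : ℂ) * hs + (K.sg : ℂ) * (K.sg : ℂ) / 2 * hI
  · simp [h]

private lemma dpp_Xc (A : Fin 3) (j : Fin 8) (B : Fin 3) (x : X3) : K.dpp A (K.Xc j B) x = 0 := by
  by_cases hj : j = 7
  · subst hj
    have h : K.Xc 7 B = fun y => (1 / 2 : ℂ) • K.phb B y := by
      funext y; rw [Xc, if_pos rfl, smul_eq_mul]
    have h2 : K.dpp A (K.Xc 7 B) x = (1 / 2 : ℂ) * K.dpp A (K.phb B) x := by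
      rw [h, dpp, dcv_smul _ _ (differentiableAt_const _) (K.diff_phb B x), dpp, dcv]
      simp
    rw [h2, dpp_phb, mul_zero]
  · have h : K.Xc j B = fun y : X3 => ((y (f9 j, B) : ℝ) : ℂ) := by
      funext y; rw [Xc, if_neg hj]
    rw [h, dpp, dcv_coord]
    have h7 := f9_ne7 hj
    have h8 := f9_ne8 j
    simp [h7.symm, h8.symm]


/-! ### derivatives of the contractions -/

private lemma io_apply (B : Fin 3) (x : X3) (v : F) :
    K.io B x v = ∑ j : Fin 8, ∑ E, ∑ C, ((eps E B C : ℂ) * K.Xc j C x) • K.a j E v := by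
  rw [io_eqI]
  simp only [_root_.sum_apply, _root_.smul_apply]

private lemma diff_io_term (B : Fin 3) {u : X3 → F} {x : X3} (hu : DifferentiableAt ℝ u x) (j : Fin 8)
    (E C : Fin 3) :
    DifferentiableAt ℝ (fun y => ((eps E B C : ℂ) * K.Xc j C y) • K.a j E (u y)) x :=
  ((K.diff_Xc j C x).const_mul _).smul
    (((K.a j E).restrictScalars ℝ).differentiableAt.comp x hu)

private lemma dcv_io (v w : X3) (B : Fin 3) {u : X3 → F} {x : X3} (hu : DifferentiableAt ℝ u x) :
    dcv v w (fun y => K.io B y (u y)) x =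
      (∑ j : Fin 8, ∑ E, ∑ C, ((eps E B C : ℂ) * dcv v w (K.Xc j C) x) • K.a j E (u x)) +
        K.io B x (dcv v w u x) := by
  have h := K.diff_io_term B hu
  have ha : ∀ j E, DifferentiableAt ℝ (fun y => K.a j E (u y)) x := fun j E =>
    ((K.a j E).restrictScalars ℝ).differentiableAt.comp x hu
  simp only [io_apply]
  rw [dcv_sum _ v w fun j _ => DifferentiableAt.fun_sum fun E _ => DifferentiableAt.fun_sum
    fun C _ => h j E C, ← Finset.sum_add_distrib]
  refine Finset.sum_congr rfl fun j _ => ?_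
  rw [dcv_sum _ v w fun E _ => DifferentiableAt.fun_sum fun C _ => h j E C,
    ← Finset.sum_add_distrib]
  refine Finset.sum_congr rfl fun E _ => ?_
  rw [dcv_sum _ v w fun C _ => h j E C, ← Finset.sum_add_distrib]
  refine Finset.sum_congr rfl fun C _ => ?_
  have e : dcv v w (fun y => (eps E B C : ℂ) * K.Xc j C y) x =
      (eps E B C : ℂ) * dcv v w (K.Xc j C) x := by
    have := dcv_smul v w (f := fun _ => (eps E B C : ℂ)) (u := K.Xc j C)
      (differentiableAt_const _) (K.diff_Xc j C x)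
    simp only [smul_eq_mul] at this
    rw [this, dcv]
    simp
  rw [dcv_smul v w ((K.diff_Xc j C x).const_mul _) (ha j E), dcv_clm v w _ hu, e]

private lemma dl_io (i : Fin 8) (A B : Fin 3) {u : X3 → F} {x : X3} (hu : DifferentiableAt ℝ u x) :
    K.dl i A (fun y => K.io B y (u y)) x =
      (∑ E, (eps E B A : ℂ) • K.a i E (u x)) + K.io B x (K.dl i A u x) := by
  have h := K.dcv_io (EuclideanSpace.single (f9 i, A) 1)
    (if i = 7 then K.sg • EuclideanSpace.single (8, A) 1 else 0) B hu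
  rw [dl, h]
  congr 1
  have h2 : ∀ j C, dcv (EuclideanSpace.single (f9 i, A) 1)
    (if i = 7 then K.sg • EuclideanSpace.single (8, A) 1 else 0) (K.Xc j C) x =
      if i = j ∧ A = C then 1 else 0 := fun j C => K.dl_Xc i A j C x
  simp only [h2]
  rw [Finset.sum_eq_single i]
  · refine Finset.sum_congr rfl fun E _ => ?_
    rw [Finset.sum_eq_single A]
    · rw [if_pos ⟨rfl, rfl⟩, mul_one]
    · intro C _ hC
      rw [if_neg (fun h => hC h.2.symm), mul_zero, zero_smul]
    · intro h; exact absurd (Finset.mem_univ _) h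
  · intro j _ hj
    refine Finset.sum_eq_zero fun E _ => Finset.sum_eq_zero fun C _ => ?_
    rw [if_neg (fun h => hj h.1.symm), mul_zero, zero_smul]
  · intro h; exact absurd (Finset.mem_univ _) h

private lemma dpp_io (A B : Fin 3) {u : X3 → F} {x : X3} (hu : DifferentiableAt ℝ u x) :
    K.dpp A (fun y => K.io B y (u y)) x = K.io B x (K.dpp A u x) := by
  have h := K.dcv_io ((1 / 2 : ℝ) • EuclideanSpace.single (7, A) 1)
    ((-(K.sg / 2)) • EuclideanSpace.single (8, A) 1) B hu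
  rw [dpp, h]
  have h2 : ∀ j C, dcv ((1 / 2 : ℝ) • EuclideanSpace.single (7, A) 1)
    ((-(K.sg / 2)) • EuclideanSpace.single (8, A) 1) (K.Xc j C) x = 0 := fun j C =>
      K.dpp_Xc A j C x
  simp only [h2, mul_zero, zero_smul, Finset.sum_const_zero, zero_add]
  rfl

/-! ### algebra of contractions -/

private lemma io_c (A : Fin 3) (x : X3) (j : Fin 8) (B : Fin 3) (v : F) :
    K.io A x (K.c j B v) + K.c j B (K.io A x v) = (∑ C, (eps B A C : ℂ) * K.Xc j C x) • v := by
  have h : ∀ i E, K.a i E (K.c j B v) + K.c j B (K.a i E v) = if i = j ∧ E = B then v else 0 := by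
    intro i E
    have := congrArg (fun T : F →L[ℂ] F => T v) (K.ac i E j B)
    simp only [_root_.add_apply] at this
    have e1 : (K.a i E * K.c j B) v = K.a i E (K.c j B v) := rfl
    have e2 : (K.c j B * K.a i E) v = K.c j B (K.a i E v) := rfl
    rw [e1, e2] at this
    rw [this]
    split_ifs <;> rfl
  rw [io_apply, io_apply]
  simp only [map_sum, map_smul]
  rw [← Finset.sum_add_distrib]
  have h2 : ∀ i, (∑ E, ∑ C, ((eps E A C : ℂ) * K.Xc i C x) • K.a i E (K.c j B v)) +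
      (∑ E, ∑ C, ((eps E A C : ℂ) * K.Xc i C x) • K.c j B (K.a i E v)) =
      ∑ E, ∑ C, ((eps E A C : ℂ) * K.Xc i C x) • (if i = j ∧ E = B then v else 0) := by
    intro i
    rw [← Finset.sum_add_distrib]
    refine Finset.sum_congr rfl fun E _ => ?_
    rw [← Finset.sum_add_distrib]
    refine Finset.sum_congr rfl fun C _ => ?_
    rw [← smul_add, h]
  simp only [h2]
  rw [Finset.sum_eq_single j]
  · rw [Finset.sum_eq_single B]
    · rw [Finset.sum_smul]
      refine Finset.sum_congr rfl fun C _ => ?_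
      rw [if_pos ⟨rfl, rfl⟩]
    · intro E _ hE
      refine Finset.sum_eq_zero fun C _ => ?_
      rw [if_neg (fun h => hE h.2), smul_zero]
    · intro h; exact absurd (Finset.mem_univ _) h
  · intro i _ hi
    refine Finset.sum_eq_zero fun E _ => Finset.sum_eq_zero fun C _ => ?_
    rw [if_neg (fun h => hi h.1), smul_zero]
  · intro h; exact absurd (Finset.mem_univ _) h

private lemma a_io (i : Fin 8) (E : Fin 3) (A : Fin 3) (x : X3) (v : F) :
    K.io A x (K.a i E v) = - K.a i E (K.io A x v) := by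
  have h : ∀ i E j B, K.a i E (K.a j B v) = - K.a j B (K.a i E v) := by
    intro i E j B
    have := congrArg (fun T : F →L[ℂ] F => T v) (K.aa i E j B)
    exact eq_neg_of_add_eq_zero_left this
  rw [io_apply, io_apply]
  simp only [map_sum, map_smul]
  rw [← Finset.sum_neg_distrib]
  refine Finset.sum_congr rfl fun j _ => ?_
  rw [← Finset.sum_neg_distrib]
  refine Finset.sum_congr rfl fun B _ => ?_
  rw [← Finset.sum_neg_distrib]
  refine Finset.sum_congr rfl fun C _ => ?_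
  rw [h j B i E, smul_neg]

private lemma io_io (A B : Fin 3) (x : X3) (v : F) :
    K.io A x (K.io B x v) = - K.io B x (K.io A x v) := by
  rw [K.io_apply B x v, K.io_apply B x (K.io A x v)]
  simp only [map_sum, map_smul]
  rw [← Finset.sum_neg_distrib]
  refine Finset.sum_congr rfl fun j _ => ?_
  rw [← Finset.sum_neg_distrib]
  refine Finset.sum_congr rfl fun B _ => ?_
  rw [← Finset.sum_neg_distrib]
  refine Finset.sum_congr rfl fun C _ => ?_
  rw [a_io, smul_neg]

private lemma io_sq (A : Fin 3) (x : X3) (v : F) : K.io A x (K.io A x v) = 0 := by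
  have h := K.io_io A A x v
  have h2 : (2 : ℂ) • K.io A x (K.io A x v) = 0 := by
    rw [two_smul]; nth_rewrite 1 [h]; exact neg_add_cancel _
  exact (smul_eq_zero.1 h2).resolve_left two_ne_zero


/-! ### `D0` -/

private lemma D0_eq (u : X3 → F) (x : X3) : K.D0 u x = (∑ i : Fin 8, ∑ A, K.c i A (K.dl i A u x)) +
    K.nu • ∑ A, K.ph A x • K.io A x (u x) := by
  rw [D0, dd_eqI]

private lemma D0_add {u v : X3 → F} {x : X3} (hu : DifferentiableAt ℝ u x) (hv : DifferentiableAt ℝ v x) :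
    K.D0 (fun y => u y + v y) x = K.D0 u x + K.D0 v x := by
  have h : ∀ i A, K.dl i A (fun y => u y + v y) x = K.dl i A u x + K.dl i A v x := fun i A =>
    dcv_add _ _ hu hv
  rw [D0_eq, D0_eq, D0_eq]
  simp only [h, map_add, smul_add, Finset.sum_add_distrib]
  abel

private lemma D0_csmul (c : ℂ) {u : X3 → F} {x : X3} (hu : DifferentiableAt ℝ u x) :
    K.D0 (fun y => c • u y) x = c • K.D0 u x := by
  have h : ∀ i A, K.dl i A (fun y => c • u y) x = c • K.dl i A u x := fun i A =>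
    dcv_clm _ _ (c • (1 : F →L[ℂ] F)) hu
  rw [D0_eq, D0_eq]
  simp only [h, map_smul, smul_add, Finset.smul_sum]
  congr 1
  refine Finset.sum_congr rfl fun A _ => ?_
  module

private lemma D0_neg {u : X3 → F} {x : X3} (hu : DifferentiableAt ℝ u x) :
    K.D0 (fun y => - u y) x = - K.D0 u x := by
  have h := K.D0_csmul (-1) hu
  simpa only [neg_smul, one_smul] using h

private lemma D0_sub {u v : X3 → F} {x : X3} (hu : DifferentiableAt ℝ u x) (hv : DifferentiableAt ℝ v x) :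
    K.D0 (fun y => u y - v y) x = K.D0 u x - K.D0 v x := by
  have h := K.D0_add hu hv.fun_neg
  rw [K.D0_neg hv] at h
  simpa only [sub_eq_add_neg] using h

private lemma D0_fsmul {f : X3 → ℂ} {u : X3 → F} {x : X3} (hf : DifferentiableAt ℝ f x)
    (hu : DifferentiableAt ℝ u x) :
    K.D0 (fun y => f y • u y) x = f x • K.D0 u x +
      ∑ i : Fin 8, ∑ A, K.dl i A f x • K.c i A (u x) := by
  have h : ∀ i A, K.dl i A (fun y => f y • u y) x = K.dl i A f x • u x + f x • K.dl i A u x :=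
    fun i A => dcv_smul _ _ hf hu
  rw [D0_eq, D0_eq]
  simp only [h, map_smul, map_add, smul_add, Finset.sum_add_distrib, Finset.smul_sum]
  have e : ∀ A, K.nu • K.ph A x • f x • K.io A x (u x) = f x • K.nu • K.ph A x • K.io A x (u x) := by
    intro A; module
  simp only [e]
  abel

private lemma D0_io (A : Fin 3) {u : X3 → F} {x : X3} (hu : DifferentiableAt ℝ u x) :
    K.D0 (fun y => K.io A y (u y)) x = ((∑ i : Fin 8, ∑ B, ∑ C, ((eps B A C : ℂ) * K.Xc i C x) •
      K.dl i B u x) + K.spin A (u x)) - K.io A x (K.D0 u x) := by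
  rw [D0_eq, D0_eq]
  simp only [K.dl_io _ _ A hu, map_add, map_smul, map_sum]
  have h1 : ∀ i B, K.c i B (K.io A x (K.dl i B u x)) =
      (∑ C, ((eps B A C : ℂ) * K.Xc i C x) • K.dl i B u x) - K.io A x (K.c i B (K.dl i B u x)) := by
    intro i B
    rw [← Finset.sum_smul, ← K.io_c]; abel
  have h2 : ∀ B, K.io B x (K.io A x (u x)) = - K.io A x (K.io B x (u x)) := fun B =>
    K.io_io B A x (u x)
  simp only [h1, h2, smul_neg, Finset.sum_neg_distrib, Finset.sum_add_distrib,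
    Finset.sum_sub_distrib]
  have h3 : K.spin A (u x) = ∑ i : Fin 8, ∑ B, ∑ E, (eps E A B : ℂ) • K.c i B (K.a i E (u x)) := by
    rw [spin]
    simp only [_root_.sum_apply, _root_.smul_apply]
    refine Finset.sum_congr rfl fun i _ => ?_
    rw [Finset.sum_comm]
    rfl
  rw [h3]
  abel

private lemma D0_c (j : Fin 8) (A : Fin 3) {u : X3 → F} {x : X3} (hu : DifferentiableAt ℝ u x) :
    K.D0 (fun y => K.c j A (u y)) x = - K.c j A (K.D0 u x) +
      (K.nu * ∑ B, ∑ C, K.ph B x * ((eps A B C : ℂ) * K.Xc j C x)) • u x := by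
  have h : ∀ i B, K.dl i B (fun y => K.c j A (u y)) x = K.c j A (K.dl i B u x) := fun i B =>
    dcv_clm _ _ (K.c j A) hu
  have hc : ∀ i B v, K.c i B (K.c j A v) = - K.c j A (K.c i B v) := by
    intro i B v
    have := congrArg (fun T : F →L[ℂ] F => T v) (K.cc i B j A)
    exact eq_neg_of_add_eq_zero_left this
  have h1 : ∀ B, K.io B x (K.c j A (u x)) =
      (∑ C, (eps A B C : ℂ) * K.Xc j C x) • u x - K.c j A (K.io B x (u x)) := by
    intro B
    rw [← K.io_c]; abel
  rw [D0_eq, D0_eq]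
  simp only [h, hc, h1, map_add, map_smul, map_sum, Finset.sum_neg_distrib, smul_sub,
    Finset.sum_sub_distrib]
  have h2 : ∑ B, K.ph B x • (∑ C, (eps A B C : ℂ) * K.Xc j C x) • u x =
      (∑ B, ∑ C, K.ph B x * ((eps A B C : ℂ) * K.Xc j C x)) • u x := by
    rw [Finset.sum_smul]
    refine Finset.sum_congr rfl fun B _ => ?_
    rw [smul_smul, Finset.mul_sum]
  rw [h2]
  module

private lemma dpb_apply (A : Fin 3) (v : F) : K.dpb A v = (2 : ℂ) • K.c 7 A v := rfl

private lemma D0_dpb (A : Fin 3) {u : X3 → F} {x : X3} (hu : DifferentiableAt ℝ u x) :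
    K.D0 (fun y => K.dpb A (u y)) x = - K.dpb A (K.D0 u x) +
      (K.nu * ∑ B, ∑ C, (eps A B C : ℂ) * (K.ph B x * K.phb C x)) • u x := by
  have hd : DifferentiableAt ℝ (fun y => K.c 7 A (u y)) x :=
    ((K.c 7 A).restrictScalars ℝ).differentiableAt.comp x hu
  simp only [dpb_apply]
  rw [K.D0_csmul 2 hd, K.D0_c 7 A hu, smul_add, smul_neg, smul_smul]
  congr 2
  rw [Finset.mul_sum, Finset.mul_sum, Finset.mul_sum]
  refine Finset.sum_congr rfl fun B _ => ?_
  rw [Finset.mul_sum, Finset.mul_sum, Finset.mul_sum]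
  refine Finset.sum_congr rfl fun C _ => ?_
  rw [Xc, if_pos rfl]
  ring

private lemma D0_dpp (A : Fin 3) {u : X3 → F} (hu : ContDiff ℝ ∞ u) (x : X3) :
    K.D0 (K.dpp A u) x = K.dpp A (K.D0 u) x - K.nu • K.io A x (u x) := by
  have hud : ∀ x, DifferentiableAt ℝ u x := fun x => (hu.differentiable (by simp)) x
  have hdl : ∀ i B, ContDiff ℝ ∞ (K.dl i B u) := fun i B => dcv_contDiff _ _ hu
  have hio : ∀ B, DifferentiableAt ℝ (fun y => K.io B y (u y)) x := fun B => by
    simp only [io_apply]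
    exact DifferentiableAt.fun_sum fun j _ => DifferentiableAt.fun_sum fun E _ =>
      DifferentiableAt.fun_sum fun C _ => K.diff_io_term B (hud x) j E C
  have h1 : ∀ i B, DifferentiableAt ℝ (fun y => K.c i B (K.dl i B u y)) x := fun i B =>
    ((K.c i B).restrictScalars ℝ).differentiableAt.comp x ((hdl i B).differentiable (by simp) x)
  have e : K.D0 u = fun y => (∑ i : Fin 8, ∑ B, K.c i B (K.dl i B u y)) +
    K.nu • ∑ B, K.ph B y • K.io B y (u y) := by
    funext y; exact K.D0_eq u y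
  have h2 : K.dpp A (fun y => ∑ i : Fin 8, ∑ B, K.c i B (K.dl i B u y)) x =
      ∑ i : Fin 8, ∑ B, K.c i B (K.dl i B (K.dpp A u) x) := by
    rw [dpp, dcv_sum _ _ _ fun i _ => DifferentiableAt.fun_sum fun B _ => h1 i B]
    refine Finset.sum_congr rfl fun i _ => ?_
    rw [dcv_sum _ _ _ fun B _ => h1 i B]
    refine Finset.sum_congr rfl fun B _ => ?_
    rw [dcv_clm _ _ _ ((hdl i B).differentiable (by simp) x)]
    congr 1
    exact dcv_comm _ _ _ _ hu x
  have h3 : ∀ B, K.dpp A (fun y => K.ph B y • K.io B y (u y)) x =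
      (if A = B then (1 : ℂ) else 0) • K.io B x (u x) + K.ph B x • K.io B x (K.dpp A u x) := by
    intro B
    rw [dpp, dcv_smul _ _ (K.diff_ph B x) (hio B)]
    have e1 := K.dpp_ph A B x
    have e2 := K.dpp_io A B (hud x)
    rw [dpp] at e1 e2
    rw [e1, e2]
  have hphio : ∀ B, DifferentiableAt ℝ (fun y => K.ph B y • K.io B y (u y)) x := fun B =>
    (K.diff_ph B x).smul (hio B)
  have h4 : K.dpp A (fun y => K.nu • ∑ B, K.ph B y • K.io B y (u y)) x =
      K.nu • (K.io A x (u x) + ∑ B, K.ph B x • K.io B x (K.dpp A u x)) := by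
    have e1 : K.dpp A (fun y => K.nu • ∑ B, K.ph B y • K.io B y (u y)) x =
        K.nu • K.dpp A (fun y => ∑ B, K.ph B y • K.io B y (u y)) x :=
      dcv_clm (u := fun y => ∑ B, K.ph B y • K.io B y (u y)) _ _ (K.nu • (1 : F →L[ℂ] F))
        (DifferentiableAt.fun_sum fun B _ => hphio B)
    have e2 : K.dpp A (fun y => ∑ B, K.ph B y • K.io B y (u y)) x =
        ∑ B, K.dpp A (fun y => K.ph B y • K.io B y (u y)) x :=
      dcv_sum _ _ _ fun B _ => hphio B
    rw [e1, e2]
    simp only [h3, Finset.sum_add_distrib]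
    congr 2
    rw [Finset.sum_eq_single A]
    · rw [if_pos rfl, one_smul]
    · intro B _ hB
      rw [if_neg (fun h => hB h.symm), zero_smul]
    · intro h; exact absurd (Finset.mem_univ _) h
  have h5 : K.dpp A (K.D0 u) x = K.dpp A (fun y => ∑ i : Fin 8, ∑ B, K.c i B (K.dl i B u y)) x +
      K.dpp A (fun y => K.nu • ∑ B, K.ph B y • K.io B y (u y)) x := by
    rw [e]
    exact dcv_add _ _ (DifferentiableAt.fun_sum fun i _ => DifferentiableAt.fun_sum fun B _ =>
      h1 i B) ((DifferentiableAt.fun_sum fun B _ => hphio B).fun_const_smul _)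
  rw [h5, h2, h4, D0_eq]
  module


/-! ### `L'` and `L` -/

/-- `L'_A = {D0, ι_A}` -/
private noncomputable def Lp (A : Fin 3) (u : X3 → F) (x : X3) : F :=
  (∑ i : Fin 8, ∑ B, ∑ C, ((eps B A C : ℂ) * K.Xc i C x) • K.dl i B u x) + K.spin A (u x)

private lemma spin_apply (A : Fin 3) (v : F) : K.spin A v =
    ∑ i : Fin 8, ∑ B, ∑ C, (eps B A C : ℂ) • K.c i C (K.a i B v) := by
  rw [spin]
  simp only [_root_.sum_apply, _root_.smul_apply]
  rfl

private lemma ac_apply (i : Fin 8) (A : Fin 3) (j : Fin 8) (B : Fin 3) (v : F) :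
    K.a i A (K.c j B v) = (if i = j ∧ A = B then v else 0) - K.c j B (K.a i A v) := by
  have := congrArg (fun T : F →L[ℂ] F => T v) (K.ac i A j B)
  have e1 : (K.a i A * K.c j B + K.c j B * K.a i A) v =
      K.a i A (K.c j B v) + K.c j B (K.a i A v) := rfl
  simp only [e1] at this
  rw [eq_sub_iff_add_eq, this]
  split_ifs <;> rfl

private lemma cc_apply (i : Fin 8) (A : Fin 3) (j : Fin 8) (B : Fin 3) (v : F) :
    K.c i A (K.c j B v) = - K.c j B (K.c i A v) := by
  have := congrArg (fun T : F →L[ℂ] F => T v) (K.cc i A j B)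
  exact eq_neg_of_add_eq_zero_left this

private lemma aa_apply (i : Fin 8) (A : Fin 3) (j : Fin 8) (B : Fin 3) (v : F) :
    K.a i A (K.a j B v) = - K.a j B (K.a i A v) := by
  have := congrArg (fun T : F →L[ℂ] F => T v) (K.aa i A j B)
  exact eq_neg_of_add_eq_zero_left this

private lemma spin_a (A : Fin 3) (j : Fin 8) (D : Fin 3) (v : F) :
    K.spin A (K.a j D v) = K.a j D (K.spin A v) - ∑ E, (eps E A D : ℂ) • K.a j E v := by
  have h : ∀ i B C, K.c i C (K.a i B (K.a j D v)) =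
      K.a j D (K.c i C (K.a i B v)) - (if j = i ∧ D = C then K.a i B v else 0) := by
    intro i B C
    rw [aa_apply, map_neg, ac_apply]
    abel
  rw [spin_apply, spin_apply]
  simp only [h, map_sum, map_smul, smul_sub, Finset.sum_sub_distrib]
  congr 1
  rw [Finset.sum_eq_single j]
  · refine Finset.sum_congr rfl fun E _ => ?_
    rw [Finset.sum_eq_single D]
    · rw [if_pos ⟨rfl, rfl⟩]
    · intro C _ hC
      rw [if_neg (fun h => hC h.2.symm), smul_zero]
    · intro h; exact absurd (Finset.mem_univ _) h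
  · intro i _ hi
    refine Finset.sum_eq_zero fun E _ => Finset.sum_eq_zero fun C _ => ?_
    rw [if_neg (fun h => hi h.1.symm), smul_zero]
  · intro h; exact absurd (Finset.mem_univ _) h

private lemma spin_c (A : Fin 3) (j : Fin 8) (D : Fin 3) (v : F) :
    K.spin A (K.c j D v) = K.c j D (K.spin A v) + ∑ E, (eps D A E : ℂ) • K.c j E v := by
  have h : ∀ i B C, K.c i C (K.a i B (K.c j D v)) =
      K.c j D (K.c i C (K.a i B v)) + (if i = j ∧ B = D then K.c i C v else 0) := by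
    intro i B C
    rw [ac_apply, map_sub, K.cc_apply i C j D, sub_neg_eq_add, add_comm]
    split_ifs
    · rfl
    · rw [map_zero]
  rw [spin_apply, spin_apply]
  simp only [h, map_sum, map_smul, smul_add, Finset.sum_add_distrib]
  congr 1
  rw [Finset.sum_eq_single j]
  · rw [Finset.sum_eq_single D]
    · refine Finset.sum_congr rfl fun C _ => ?_
      rw [if_pos ⟨rfl, rfl⟩]
    · intro B _ hB
      refine Finset.sum_eq_zero fun C _ => ?_
      rw [if_neg (fun h => hB h.2), smul_zero]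
    · intro h; exact absurd (Finset.mem_univ _) h
  · intro i _ hi
    refine Finset.sum_eq_zero fun E _ => Finset.sum_eq_zero fun C _ => ?_
    rw [if_neg (fun h => hi h.1), smul_zero]
  · intro h; exact absurd (Finset.mem_univ _) h

private lemma eps_jac (A B C E : Fin 3) : (∑ B', eps B' A C * eps E B B') - (∑ D, eps D B C * eps E A D) =
    - ∑ G, eps A B G * eps E G C := by
  revert A B C E; decide

private lemma Lp_io (A B : Fin 3) {u : X3 → F} {x : X3} (hu : DifferentiableAt ℝ u x) :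
    K.Lp A (fun y => K.io B y (u y)) x =
      K.io B x (K.Lp A u x) - ∑ G, (eps A B G : ℂ) • K.io G x (u x) := by
  have hs : K.spin A (K.io B x (u x)) = K.io B x (K.spin A (u x)) -
      ∑ j : Fin 8, ∑ E, ∑ C, (∑ D, (eps D B C : ℂ) * (eps E A D : ℂ)) • K.Xc j C x •
        K.a j E (u x) := by
    rw [io_apply, io_apply]
    simp only [map_sum, map_smul, spin_a, smul_sub, Finset.sum_sub_distrib]
    congr 1
    refine Finset.sum_congr rfl fun j _ => ?_
    have e1 : ∀ E C, (∑ D, (eps D B C : ℂ) * (eps E A D : ℂ)) • K.Xc j C x • K.a j E (u x) =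
        ∑ D, ((eps D B C : ℂ) * (eps E A D : ℂ)) • K.Xc j C x • K.a j E (u x) := fun E C =>
      Finset.sum_smul
    simp only [e1, Finset.smul_sum]
    rw [Finset.sum_comm]
    have e2 : ∀ C, ∑ D, ∑ E, ((eps D B C : ℂ) * K.Xc j C x) • (eps E A D : ℂ) • K.a j E (u x) =
        ∑ E, ∑ D, ((eps D B C : ℂ) * (eps E A D : ℂ)) • K.Xc j C x • K.a j E (u x) := by
      intro C
      rw [Finset.sum_comm]
      refine Finset.sum_congr rfl fun E _ => Finset.sum_congr rfl fun D _ => ?_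
      module
    simp only [e2]
    rw [Finset.sum_comm]
  have ho : (∑ i : Fin 8, ∑ E, ∑ C, ((eps E A C : ℂ) * K.Xc i C x) •
      K.dl i E (fun y => K.io B y (u y)) x) =
      (∑ i : Fin 8, ∑ E, ∑ C, (∑ B', (eps B' A C : ℂ) * (eps E B B' : ℂ)) • K.Xc i C x •
        K.a i E (u x)) + K.io B x (∑ i : Fin 8, ∑ E, ∑ C, ((eps E A C : ℂ) * K.Xc i C x) •
          K.dl i E u x) := by
    simp only [K.dl_io _ _ B hu, map_sum, map_smul, smul_add, Finset.sum_add_distrib]
    congr 1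
    refine Finset.sum_congr rfl fun i _ => ?_
    have e1 : ∀ E C, (∑ B', (eps B' A C : ℂ) * (eps E B B' : ℂ)) • K.Xc i C x • K.a i E (u x) =
        ∑ B', ((eps B' A C : ℂ) * (eps E B B' : ℂ)) • K.Xc i C x • K.a i E (u x) := fun E C =>
      Finset.sum_smul
    simp only [e1, Finset.smul_sum]
    rw [Finset.sum_comm]
    have e2 : ∀ C, ∑ D, ∑ E, ((eps D A C : ℂ) * K.Xc i C x) • (eps E B D : ℂ) • K.a i E (u x) =
        ∑ E, ∑ D, ((eps D A C : ℂ) * (eps E B D : ℂ)) • K.Xc i C x • K.a i E (u x) := by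
      intro C
      rw [Finset.sum_comm]
      refine Finset.sum_congr rfl fun E _ => Finset.sum_congr rfl fun D _ => ?_
      module
    simp only [e2]
    rw [Finset.sum_comm]
  rw [Lp, Lp, ho, hs, map_add]
  have hj : (∑ G, (eps A B G : ℂ) • K.io G x (u x)) =
      (∑ j : Fin 8, ∑ E, ∑ C, (∑ D, (eps D B C : ℂ) * (eps E A D : ℂ)) • K.Xc j C x •
        K.a j E (u x)) - ∑ i : Fin 8, ∑ E, ∑ C, (∑ B', (eps B' A C : ℂ) * (eps E B B' : ℂ)) •
          K.Xc i C x • K.a i E (u x) := by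
    have e0 : ∀ G, (eps A B G : ℂ) • K.io G x (u x) = ∑ j : Fin 8, ∑ E, ∑ C,
        ((eps A B G : ℂ) * (eps E G C : ℂ)) • K.Xc j C x • K.a j E (u x) := by
      intro G
      rw [io_apply, Finset.smul_sum]
      refine Finset.sum_congr rfl fun j _ => ?_
      rw [Finset.smul_sum]
      refine Finset.sum_congr rfl fun E _ => ?_
      rw [Finset.smul_sum]
      refine Finset.sum_congr rfl fun C _ => ?_
      module
    simp only [e0]
    rw [Finset.sum_comm, ← Finset.sum_sub_distrib]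
    refine Finset.sum_congr rfl fun j _ => ?_
    rw [Finset.sum_comm, ← Finset.sum_sub_distrib]
    refine Finset.sum_congr rfl fun E _ => ?_
    rw [Finset.sum_comm, ← Finset.sum_sub_distrib]
    refine Finset.sum_congr rfl fun C _ => ?_
    rw [← Finset.sum_smul, ← sub_smul]
    congr 1
    have := congrArg (fun z : ℤ => (z : ℂ)) (eps_jac A B C E)
    push_cast at this
    linear_combination this
  rw [hj]
  abel


private lemma LL_eq (A : Fin 3) (u : X3 → F) (x : X3) :
    K.LL A u x = K.Lp A u x + ∑ B, ∑ C, ((eps B A C : ℂ) * K.ph C x) • K.dpp B u x := by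
  have h : (∑ i : Fin 9, ∑ B, ∑ C, ((eps B A C : ℂ) * (x (i, C) : ℂ)) • pd i B u x) =
      (∑ i : Fin 8, ∑ B, ∑ C, ((eps B A C : ℂ) * K.Xc i C x) • K.dl i B u x) +
        ∑ B, ∑ C, ((eps B A C : ℂ) * K.ph C x) • K.dpp B u x := by
    rw [Fin.sum_univ_castSucc (n := 8), Fin.sum_univ_castSucc (n := 7),
      Fin.sum_univ_castSucc (n := 7), add_assoc, add_assoc]
    refine congrArg₂ (· + ·) ?_ ?_
    · refine Finset.sum_congr rfl fun i _ => Finset.sum_congr rfl fun B _ =>
        Finset.sum_congr rfl fun C _ => ?_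
      rw [← K.dl_e8, ← K.Xc_e8]
    · rw [← Finset.sum_add_distrib, ← Finset.sum_add_distrib]
      refine Finset.sum_congr rfl fun B _ => ?_
      rw [← Finset.sum_add_distrib, ← Finset.sum_add_distrib]
      refine Finset.sum_congr rfl fun C _ => ?_
      have h1 : (Fin.last 7) = (7 : Fin 8) := rfl
      have h2 : (Fin.last 8) = (8 : Fin 9) := rfl
      have h3 : (Fin.castSucc 7 : Fin 9) = 7 := rfl
      rw [h1, h2, h3, dl_7, ← dph_eq, dph, Xc, if_pos rfl, phb, ph]
      have hs := K.sgc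
      have hI := Complex.I_mul_I
      have e : (K.sg : ℂ) * (K.sg : ℂ) * (Complex.I * Complex.I) = -1 := by rw [hs, hI]; ring
      match_scalars
      · linear_combination (0 : ℂ) * e
      · linear_combination ((x (8, C) : ℂ) * (eps B A C : ℂ)) * e
  rw [LL, orb, h, Lp]
  abel

private lemma pd_fsmul {f : X3 → ℂ} {u : X3 → F} {x : X3} (hf : DifferentiableAt ℝ f x)
    (hu : DifferentiableAt ℝ u x) (A : Fin 3) :
    K.LL A (fun y => f y • u y) x = f x • K.LL A u x +
      (∑ i : Fin 9, ∑ B, ∑ C, ((eps B A C : ℂ) * (x (i, C) : ℂ)) *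
        fderiv ℝ f x (EuclideanSpace.single (i, B) 1)) • u x := by
  have h : ∀ i B, pd i B (fun y => f y • u y) x =
      fderiv ℝ f x (EuclideanSpace.single (i, B) 1) • u x + f x • pd i B u x := fun i B =>
    pd_csmul hf hu
  rw [LL, LL, orb, orb]
  simp only [h, smul_add, Finset.sum_add_distrib, map_smul, Finset.smul_sum, Finset.sum_smul,
    smul_smul]
  have e : ∀ (i : Fin 9) (B C : Fin 3), ((eps B A C : ℂ) * (x (i, C) : ℂ) * f x) • pd i B u x =
      (f x * ((eps B A C : ℂ) * (x (i, C) : ℂ))) • pd i B u x := by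
    intro i B C; rw [mul_comm]
  simp only [e]
  abel

private lemma LL_add (A : Fin 3) {u v : X3 → F} {x : X3} (hu : DifferentiableAt ℝ u x)
    (hv : DifferentiableAt ℝ v x) :
    K.LL A (fun y => u y + v y) x = K.LL A u x + K.LL A v x := by
  have h : ∀ i B, pd i B (fun y => u y + v y) x = pd i B u x + pd i B v x := fun i B =>
    pd_add hu hv
  rw [LL, LL, LL, orb, orb, orb]
  simp only [h, smul_add, Finset.sum_add_distrib, map_add]
  abel

private lemma LL_csmul (A : Fin 3) (c : ℂ) {u : X3 → F} {x : X3} (hu : DifferentiableAt ℝ u x) :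
    K.LL A (fun y => c • u y) x = c • K.LL A u x := by
  have h := K.pd_fsmul (f := fun _ => c) (differentiableAt_const c) hu A
  rw [h]
  simp

private lemma LL_sub (A : Fin 3) {u v : X3 → F} {x : X3} (hu : DifferentiableAt ℝ u x)
    (hv : DifferentiableAt ℝ v x) :
    K.LL A (fun y => u y - v y) x = K.LL A u x - K.LL A v x := by
  have h := K.LL_add A hu (v := fun y => (-1 : ℂ) • v y) (hv.fun_const_smul _)
  rw [K.LL_csmul A (-1) hv] at h
  simpa only [neg_smul, one_smul, sub_eq_add_neg] using h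

private lemma LL_c (A : Fin 3) (j : Fin 8) (D : Fin 3) {u : X3 → F} {x : X3}
    (hu : DifferentiableAt ℝ u x) :
    K.LL A (fun y => K.c j D (u y)) x = K.c j D (K.LL A u x) +
      ∑ E, (eps D A E : ℂ) • K.c j E (u x) := by
  have h : ∀ i B, pd i B (fun y => K.c j D (u y)) x = K.c j D (pd i B u x) := fun i B =>
    pd_clm (K.c j D) hu
  rw [LL, LL, orb, orb]
  simp only [h, spin_c, map_add, map_sum, map_smul]
  abel

private lemma LL_dpb (A : Fin 3) (D : Fin 3) {u : X3 → F} {x : X3} (hu : DifferentiableAt ℝ u x) :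
    K.LL A (fun y => K.dpb D (u y)) x = K.dpb D (K.LL A u x) +
      ∑ E, (eps D A E : ℂ) • K.dpb E (u x) := by
  have hd : DifferentiableAt ℝ (fun y => K.c 7 D (u y)) x :=
    ((K.c 7 D).restrictScalars ℝ).differentiableAt.comp x hu
  simp only [dpb_apply]
  rw [K.LL_csmul A 2 hd, K.LL_c A 7 D hu, smul_add, Finset.smul_sum]
  congr 1
  refine Finset.sum_congr rfl fun E _ => ?_
  rw [smul_comm]


/-! ### the exponential -/

private lemma diff_real_coord (p : Fin 9 × Fin 3) (x : X3) : DifferentiableAt ℝ (fun y : X3 => y p) x :=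
  (EuclideanSpace.proj (𝕜 := ℝ) p : X3 →L[ℝ] ℝ).differentiableAt

private lemma fderiv_sq_coord (p : Fin 9 × Fin 3) (x v : X3) :
    fderiv ℝ (fun y : X3 => y p ^ 2) x v = 2 * x p * v p := by
  have h := ((EuclideanSpace.proj (𝕜 := ℝ) p : X3 →L[ℝ] ℝ).hasFDerivAt (x := x)).pow 2
  have h2 : fderiv ℝ (fun y : X3 => y p ^ 2) x = _ := h.fderiv
  rw [h2]
  simp

private lemma diff_perp2 (x : X3) : DifferentiableAt ℝ perp2 x := by
  unfold perp2
  exact ((((diff_real_coord (7, 0) x).fun_pow 2).fun_add ((diff_real_coord (8, 0) x).fun_pow 2)).fun_add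
    ((diff_real_coord (7, 1) x).fun_pow 2)).fun_add ((diff_real_coord (8, 1) x).fun_pow 2)

private lemma fderiv_perp2 (x v : X3) : fderiv ℝ perp2 x v = 2 * (x (7, 0) * v (7, 0) +
    x (8, 0) * v (8, 0) + x (7, 1) * v (7, 1) + x (8, 1) * v (8, 1)) := by
  unfold perp2
  rw [fderiv_fun_add ((((diff_real_coord (7, 0) x).fun_pow 2).fun_add
    ((diff_real_coord (8, 0) x).fun_pow 2)).fun_add ((diff_real_coord (7, 1) x).fun_pow 2))
    ((diff_real_coord (8, 1) x).fun_pow 2), fderiv_fun_add (((diff_real_coord (7, 0) x).fun_pow 2).fun_add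
    ((diff_real_coord (8, 0) x).fun_pow 2)) ((diff_real_coord (7, 1) x).fun_pow 2),
    fderiv_fun_add ((diff_real_coord (7, 0) x).fun_pow 2) ((diff_real_coord (8, 0) x).fun_pow 2)]
  simp only [_root_.add_apply, fderiv_sq_coord]
  ring

private lemma diff_E (t : ℝ) (x : X3) :
    DifferentiableAt ℝ (fun y => ((Real.exp (-t * perp2 y) : ℝ) : ℂ)) x :=
  Complex.ofRealCLM.differentiableAt.comp x ((diff_perp2 x).const_mul (-t)).exp

private lemma fderiv_E (t : ℝ) (x v : X3) :
    fderiv ℝ (fun y => ((Real.exp (-t * perp2 y) : ℝ) : ℂ)) x v =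
      ((Real.exp (-t * perp2 x) : ℝ) : ℂ) * (-(t : ℂ) * ((fderiv ℝ perp2 x v : ℝ) : ℂ)) := by
  have h := (Complex.ofRealCLM.hasFDerivAt (x := Real.exp (-t * perp2 x))).comp x
    ((diff_perp2 x).hasFDerivAt.const_mul (-t)).exp
  have h2 : fderiv ℝ (fun y => ((Real.exp (-t * perp2 y) : ℝ) : ℂ)) x = _ := h.fderiv
  rw [h2]
  simp

private lemma dl_E (i : Fin 8) (A : Fin 3) (t : ℝ) (x : X3) :
    K.dl i A (fun y => ((Real.exp (-t * perp2 y) : ℝ) : ℂ)) x =
      if i = 7 ∧ A ≠ 2 then ((Real.exp (-t * perp2 x) : ℝ) : ℂ) * (-2 * (t : ℂ) * K.ph A x)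
        else 0 := by
  rw [dl, dcv, fderiv_E, fderiv_E, fderiv_perp2, fderiv_perp2]
  by_cases hi : i = 7
  · subst hi
    rw [if_pos rfl]
    have h1 : f9 7 = (7 : Fin 9) := rfl
    rw [h1]
    simp only [PiLp.smul_apply, single_ap, Prod.mk.injEq, smul_eq_mul, ph]
    fin_cases A
    · simp
      ring
    · simp
      ring
    · simp
  · rw [if_neg hi]
    simp [f9_ne7 hi, f9_ne8, hi]

private lemma D0_E (t : ℝ) {u : X3 → F} {x : X3} (hu : DifferentiableAt ℝ u x) :
    K.D0 (fun y => (Real.exp (-t * perp2 y) : ℂ) • u y) x =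
      (Real.exp (-t * perp2 x) : ℂ) • (K.D0 u x - (t : ℂ) • (K.ph 0 x • K.dpb 0 (u x) +
        K.ph 1 x • K.dpb 1 (u x))) := by
  have h := K.D0_fsmul (diff_E t x) hu
  rw [h]
  simp only [dl_E]
  rw [Finset.sum_eq_single 7]
  · rw [Fin.sum_univ_three, if_pos ⟨rfl, by decide⟩, if_pos ⟨rfl, by decide⟩,
      if_neg (by decide), dpb_apply, dpb_apply]
    module
  · intro i _ hi
    refine Finset.sum_eq_zero fun A _ => ?_
    rw [if_neg (fun h => hi h.1), zero_smul]
  · intro h; exact absurd (Finset.mem_univ _) h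

private lemma orb_E (A : Fin 3) (t : ℝ) (x : X3) :
    (∑ i : Fin 9, ∑ B, ∑ C, ((eps B A C : ℂ) * (x (i, C) : ℂ)) *
      fderiv ℝ (fun y => ((Real.exp (-t * perp2 y) : ℝ) : ℂ)) x
        (EuclideanSpace.single (i, B) 1)) =
      ((Real.exp (-t * perp2 x) : ℝ) : ℂ) * (-(t : ℂ) * (2 * ∑ C,
        ((eps 0 A C : ℂ) * ((x (7, 0) : ℂ) * (x (7, C) : ℂ) + (x (8, 0) : ℂ) * (x (8, C) : ℂ)) +
        (eps 1 A C : ℂ) * ((x (7, 1) : ℂ) * (x (7, C) : ℂ) + (x (8, 1) : ℂ) * (x (8, C) : ℂ))))) := by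
  simp only [fderiv_E, fderiv_perp2, single_ap]
  rw [Fin.sum_univ_castSucc (n := 8), Fin.sum_univ_castSucc (n := 7)]
  have h0 : ∀ i : Fin 7, (∑ B, ∑ C, ((eps B A C : ℂ) * (x ((i.castSucc.castSucc : Fin 9), C) : ℂ)) *
      (((Real.exp (-t * perp2 x) : ℝ) : ℂ) * (-(t : ℂ) * (((2 * (x (7, 0) *
        (if ((7 : Fin 9), (0 : Fin 3)) = ((i.castSucc.castSucc : Fin 9), B) then 1 else 0) +
        x (8, 0) * (if ((8 : Fin 9), (0 : Fin 3)) = ((i.castSucc.castSucc : Fin 9), B) then 1 else 0) +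
        x (7, 1) * (if ((7 : Fin 9), (1 : Fin 3)) = ((i.castSucc.castSucc : Fin 9), B) then 1 else 0) +
        x (8, 1) * (if ((8 : Fin 9), (1 : Fin 3)) = ((i.castSucc.castSucc : Fin 9), B) then 1 else 0))
        : ℝ) : ℂ))))) = 0 := by
    intro i
    have h7 : (7 : Fin 9) ≠ i.castSucc.castSucc := by
      intro h
      have := congrArg Fin.val h
      have h2 := i.isLt
      simp at this
      omega
    have h8 := f9_ne8 i.castSucc
    refine Finset.sum_eq_zero fun B _ => Finset.sum_eq_zero fun C _ => ?_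
    simp [h7, h8]
  rw [Finset.sum_congr rfl fun i _ => h0 i, Finset.sum_const_zero, zero_add]
  have h1 : (Fin.last 7).castSucc = (7 : Fin 9) := rfl
  have h2 : (Fin.last 8) = (8 : Fin 9) := rfl
  rw [h1, h2, Fin.sum_univ_three, Fin.sum_univ_three, Fin.sum_univ_three, Fin.sum_univ_three,
    Fin.sum_univ_three, Fin.sum_univ_three, Fin.sum_univ_three, Fin.sum_univ_three,
    Fin.sum_univ_three]
  simp
  ring


/-! ### values of `eps` -/

private lemma ev000 : eps 0 0 0 = 0 := by decide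
private lemma ev001 : eps 0 0 1 = 0 := by decide
private lemma ev002 : eps 0 0 2 = 0 := by decide
private lemma ev010 : eps 0 1 0 = 0 := by decide
private lemma ev011 : eps 0 1 1 = 0 := by decide
private lemma ev012 : eps 0 1 2 = 1 := by decide
private lemma ev020 : eps 0 2 0 = 0 := by decide
private lemma ev021 : eps 0 2 1 = -1 := by decide
private lemma ev022 : eps 0 2 2 = 0 := by decide
private lemma ev100 : eps 1 0 0 = 0 := by decide
private lemma ev101 : eps 1 0 1 = 0 := by decide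
private lemma ev102 : eps 1 0 2 = -1 := by decide
private lemma ev110 : eps 1 1 0 = 0 := by decide
private lemma ev111 : eps 1 1 1 = 0 := by decide
private lemma ev112 : eps 1 1 2 = 0 := by decide
private lemma ev120 : eps 1 2 0 = 1 := by decide
private lemma ev121 : eps 1 2 1 = 0 := by decide
private lemma ev122 : eps 1 2 2 = 0 := by decide
private lemma ev200 : eps 2 0 0 = 0 := by decide
private lemma ev201 : eps 2 0 1 = 1 := by decide
private lemma ev202 : eps 2 0 2 = 0 := by decide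
private lemma ev210 : eps 2 1 0 = -1 := by decide
private lemma ev211 : eps 2 1 1 = 0 := by decide
private lemma ev212 : eps 2 1 2 = 0 := by decide
private lemma ev220 : eps 2 2 0 = 0 := by decide
private lemma ev221 : eps 2 2 1 = 0 := by decide
private lemma ev222 : eps 2 2 2 = 0 := by decide

private lemma nu_ne : K.nu ≠ 0 := by
  rw [nu]
  refine mul_ne_zero Complex.I_ne_zero ?_
  intro h
  have h2 := K.f0_sq
  rw [Complex.ofReal_eq_zero.1 h] at h2
  norm_num at h2

private lemma diff_io (B : Fin 3) {u : X3 → F} {x : X3} (hu : DifferentiableAt ℝ u x) :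
    DifferentiableAt ℝ (fun y => K.io B y (u y)) x := by
  simp only [io_apply]
  exact DifferentiableAt.fun_sum fun j _ => DifferentiableAt.fun_sum fun E _ =>
    DifferentiableAt.fun_sum fun C _ => K.diff_io_term B hu j E C

private lemma diff_dpb (B : Fin 3) {u : X3 → F} {x : X3} (hu : DifferentiableAt ℝ u x) :
    DifferentiableAt ℝ (fun y => K.dpb B (u y)) x :=
  ((K.dpb B).restrictScalars ℝ).differentiableAt.comp x hu

private lemma dpb_dpb (A B : Fin 3) (v : F) : K.dpb A (K.dpb B v) = - K.dpb B (K.dpb A v) := by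
  simp only [dpb_apply, map_smul]
  rw [K.cc_apply 7 A 7 B]
  module

private lemma dpb_sq (A : Fin 3) (v : F) : K.dpb A (K.dpb A v) = 0 := by
  have h := K.dpb_dpb A A v
  have h2 : (2 : ℂ) • K.dpb A (K.dpb A v) = 0 := by
    rw [two_smul]; nth_rewrite 1 [h]; exact neg_add_cancel _
  exact (smul_eq_zero.1 h2).resolve_left two_ne_zero

private lemma D0_io' (A : Fin 3) {u : X3 → F} {x : X3} (hu : DifferentiableAt ℝ u x) :
    K.D0 (fun y => K.io A y (u y)) x = K.Lp A u x - K.io A x (K.D0 u x) := K.D0_io A hu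

section main

variable {a : X3 → F} (h1 : ContDiff ℝ ∞ a)
  (h2 : ∀ x, K.D0 a x = K.nu • (K.ph 0 x • K.io 0 x (a x) + K.ph 1 x • K.io 1 x (a x)))
  (h3 : ∀ x, K.dpp 0 a x = 0) (h4 : ∀ x, K.dpp 1 a x = 0)

include h1 h2

private lemma T1 (x : X3) : K.D0 (fun y => -((1 / K.nu) • K.dpp 2 a y)) x =
    -(K.ph 0 x • K.io 0 x (K.dpp 2 a x) + K.ph 1 x • K.io 1 x (K.dpp 2 a x)) +
      K.io 2 x (a x) := by
  have had : ∀ y, DifferentiableAt ℝ a y := fun y => (h1.differentiable (by simp)) y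
  have hg : ContDiff ℝ ∞ (K.dpp 2 a) := dcv_contDiff _ _ h1
  have hgd : DifferentiableAt ℝ (K.dpp 2 a) x := (hg.differentiable (by simp)) x
  have hp : ∀ A, K.dpp 2 (fun y => K.ph A y • K.io A y (a y)) x =
      (if (2 : Fin 3) = A then (1 : ℂ) else 0) • K.io A x (a x) +
        K.ph A x • K.io A x (K.dpp 2 a x) := by
    intro A
    rw [dpp, dcv_smul _ _ (K.diff_ph A x) (K.diff_io A (had x))]
    have e1 := K.dpp_ph 2 A x
    have e2 := K.dpp_io 2 A (had x)
    rw [dpp] at e1 e2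
    rw [e1, e2]
  have hd : ∀ A, DifferentiableAt ℝ (fun y => K.ph A y • K.io A y (a y)) x := fun A =>
    (K.diff_ph A x).smul (K.diff_io A (had x))
  have e : K.dpp 2 (K.D0 a) x = K.nu • (K.ph 0 x • K.io 0 x (K.dpp 2 a x) +
      K.ph 1 x • K.io 1 x (K.dpp 2 a x)) := by
    have e0 : K.D0 a = fun y => K.nu • (K.ph 0 y • K.io 0 y (a y) + K.ph 1 y • K.io 1 y (a y)) :=
      funext h2
    rw [e0]
    have e1 : K.dpp 2 (fun y => K.nu • (K.ph 0 y • K.io 0 y (a y) + K.ph 1 y • K.io 1 y (a y))) x =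
        K.nu • K.dpp 2 (fun y => K.ph 0 y • K.io 0 y (a y) + K.ph 1 y • K.io 1 y (a y)) x :=
      dcv_clm (u := fun y => K.ph 0 y • K.io 0 y (a y) + K.ph 1 y • K.io 1 y (a y)) _ _
        (K.nu • (1 : F →L[ℂ] F)) ((hd 0).fun_add (hd 1))
    have e2 : K.dpp 2 (fun y => K.ph 0 y • K.io 0 y (a y) + K.ph 1 y • K.io 1 y (a y)) x =
        K.dpp 2 (fun y => K.ph 0 y • K.io 0 y (a y)) x +
        K.dpp 2 (fun y => K.ph 1 y • K.io 1 y (a y)) x := dcv_add _ _ (hd 0) (hd 1)
    rw [e1, e2, hp, hp, if_neg (by decide), if_neg (by decide), zero_smul, zero_smul, zero_add,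
      zero_add]
  rw [K.D0_neg (hgd.fun_const_smul _), K.D0_csmul _ hgd, K.D0_dpp 2 h1 x, e, ← smul_sub, smul_smul,
    one_div, inv_mul_cancel₀ K.nu_ne, one_smul]
  abel

private lemma T2 (x : X3) : K.D0 (fun y => K.io 1 y (K.io 0 y (a y))) x =
    K.Lp 1 (fun y => K.io 0 y (a y)) x - K.Lp 0 (fun y => K.io 1 y (a y)) x -
      K.io 2 x (a x) := by
  have had : ∀ y, DifferentiableAt ℝ a y := fun y => (h1.differentiable (by simp)) y
  rw [K.D0_io 1 (K.diff_io 0 (had x)), K.D0_io 0 (had x), K.Lp_io 0 1 (had x), h2 x,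
    Fin.sum_univ_three, ev010, ev011, ev012]
  simp only [map_sub, map_smul, map_add, io_sq, Int.cast_zero, Int.cast_one, zero_smul, one_smul,
    zero_add, smul_zero]
  have e : K.io 1 x (K.io 0 x (K.io 1 x (a x))) = 0 := by
    rw [K.io_io 0 1, map_neg, io_sq, neg_zero]
  rw [e, Lp, Lp, smul_zero, smul_zero, sub_zero, map_add]
  abel

private lemma T3 (t : ℂ) (x : X3) : K.D0 (fun y => (2 * t / K.nu * K.phb 2 y) • a y) x =
    (2 * t / K.nu) • K.dpb 2 (a x) + (2 * t * K.phb 2 x) • (K.ph 0 x • K.io 0 x (a x) +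
      K.ph 1 x • K.io 1 x (a x)) := by
  have had : ∀ y, DifferentiableAt ℝ a y := fun y => (h1.differentiable (by simp)) y
  have e : (fun y => (2 * t / K.nu * K.phb 2 y) • a y) =
      fun y => (2 * t / K.nu) • (K.phb 2 y • a y) := by
    funext y; rw [smul_smul]
  rw [e, K.D0_csmul _ ((K.diff_phb 2 x).fun_smul (had x)), K.D0_fsmul (K.diff_phb 2 x) (had x), h2 x]
  simp only [dl_phb]
  rw [Finset.sum_eq_single 7]
  · rw [Finset.sum_eq_single 2]
    · rw [if_pos ⟨rfl, rfl⟩, dpb_apply, smul_add, add_comm]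
      congr 1
      rw [smul_smul, smul_smul]
      congr 1
      field_simp [K.nu_ne]
    · intro A _ hA
      rw [if_neg (fun h => hA h.2), zero_smul]
    · intro h; exact absurd (Finset.mem_univ _) h
  · intro i _ hi
    refine Finset.sum_eq_zero fun A _ => ?_
    rw [if_neg (fun h => hi h.1), zero_smul]
  · intro h; exact absurd (Finset.mem_univ _) h

omit h1 h2 in
private lemma W0_eq (x : X3) : (∑ B, ∑ C, (eps 0 B C : ℂ) * (K.ph B x * K.phb C x)) =
    K.ph 1 x * K.phb 2 x - K.ph 2 x * K.phb 1 x := by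
  simp only [Fin.sum_univ_three, ev000, ev001, ev002, ev010, ev011, ev012, ev020, ev021, ev022]
  push_cast
  ring

omit h1 h2 in
private lemma W1_eq (x : X3) : (∑ B, ∑ C, (eps 1 B C : ℂ) * (K.ph B x * K.phb C x)) =
    K.ph 2 x * K.phb 0 x - K.ph 0 x * K.phb 2 x := by
  simp only [Fin.sum_univ_three, ev100, ev101, ev102, ev110, ev111, ev112, ev120, ev121, ev122]
  push_cast
  ring

private lemma T4 (x : X3) : K.D0 (fun y => K.dpb 0 (K.dpb 1 (a y))) x =
    K.nu • ((K.ph 1 x * K.phb 2 x - K.ph 2 x * K.phb 1 x) • K.dpb 1 (a x) -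
      (K.ph 2 x * K.phb 0 x - K.ph 0 x * K.phb 2 x) • K.dpb 0 (a x) +
      K.ph 0 x • K.dpb 0 (K.dpb 1 (K.io 0 x (a x))) +
      K.ph 1 x • K.dpb 0 (K.dpb 1 (K.io 1 x (a x)))) := by
  have had : ∀ y, DifferentiableAt ℝ a y := fun y => (h1.differentiable (by simp)) y
  rw [K.D0_dpb 0 (K.diff_dpb 1 (had x)), K.D0_dpb 1 (had x), K.W0_eq, K.W1_eq, h2 x]
  simp only [map_add, map_neg, map_smul]
  module

private lemma T5 (x : X3) : K.D0 (fun y => K.dpb 0 (K.io 1 y (a y)) - K.dpb 1 (K.io 0 y (a y))) x =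
    K.nu • ((K.ph 1 x * K.phb 2 x - K.ph 2 x * K.phb 1 x) • K.io 1 x (a x) -
      (K.ph 2 x * K.phb 0 x - K.ph 0 x * K.phb 2 x) • K.io 0 x (a x) +
      K.ph 0 x • K.dpb 0 (K.io 1 x (K.io 0 x (a x))) +
      K.ph 1 x • K.dpb 1 (K.io 1 x (K.io 0 x (a x)))) -
    (K.dpb 0 (K.Lp 1 a x) - K.dpb 1 (K.Lp 0 a x)) := by
  have had : ∀ y, DifferentiableAt ℝ a y := fun y => (h1.differentiable (by simp)) y
  have e := K.io_io 0 1 x (a x)
  rw [K.D0_sub (K.diff_dpb 0 (K.diff_io 1 (had x))) (K.diff_dpb 1 (K.diff_io 0 (had x))),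
    K.D0_dpb 0 (K.diff_io 1 (had x)), K.D0_dpb 1 (K.diff_io 0 (had x)), K.D0_io' 1 (had x),
    K.D0_io' 0 (had x), K.W0_eq, K.W1_eq, h2 x]
  simp only [map_add, map_sub, map_neg, map_smul, io_sq, e, smul_zero, map_zero]
  module

omit h1 h2 in
include h3 h4 in
private lemma LL0_eq (x : X3) : K.LL 0 a x = K.Lp 0 a x + K.ph 1 x • K.dpp 2 a x := by
  rw [K.LL_eq]
  simp only [Fin.sum_univ_three, ev000, ev001, ev002, ev100, ev101, ev102, ev200, ev201, ev202,
    h3, h4]
  push_cast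
  module

omit h1 h2 in
include h3 h4 in
private lemma LL1_eq (x : X3) : K.LL 1 a x = K.Lp 1 a x - K.ph 0 x • K.dpp 2 a x := by
  rw [K.LL_eq]
  simp only [Fin.sum_univ_three, ev010, ev011, ev012, ev110, ev111, ev112, ev210, ev211, ev212,
    h3, h4]
  push_cast
  module

omit h2 in
include h3 h4 in
private lemma LL0_io (x : X3) : K.LL 0 (fun y => K.io 1 y (a y)) x =
    K.Lp 0 (fun y => K.io 1 y (a y)) x + K.ph 1 x • K.io 1 x (K.dpp 2 a x) := by
  have had : ∀ y, DifferentiableAt ℝ a y := fun y => (h1.differentiable (by simp)) y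
  rw [K.LL_eq]
  simp only [Fin.sum_univ_three, ev000, ev001, ev002, ev100, ev101, ev102, ev200, ev201, ev202,
    K.dpp_io _ _ (had x), h3, h4]
  push_cast
  simp only [map_zero]
  module

omit h2 in
include h3 h4 in
private lemma LL1_io (x : X3) : K.LL 1 (fun y => K.io 0 y (a y)) x =
    K.Lp 1 (fun y => K.io 0 y (a y)) x - K.ph 0 x • K.io 0 x (K.dpp 2 a x) := by
  have had : ∀ y, DifferentiableAt ℝ a y := fun y => (h1.differentiable (by simp)) y
  rw [K.LL_eq]
  simp only [Fin.sum_univ_three, ev010, ev011, ev012, ev110, ev111, ev112, ev210, ev211, ev212,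
    K.dpp_io _ _ (had x), h3, h4]
  push_cast
  simp only [map_zero]
  module

omit h1 h2 in
private lemma hsum2 (x : X3) (A : Fin 3) : (2 : ℂ) * ((x (7, A) : ℂ) * (x (7, 2) : ℂ) +
    (x (8, A) : ℂ) * (x (8, 2) : ℂ)) = K.ph A x * K.phb 2 x + K.ph 2 x * K.phb A x := by
  have hs := K.sgc
  have hI := Complex.I_mul_I
  have e : (K.sg : ℂ) * (K.sg : ℂ) * (Complex.I * Complex.I) = -1 := by rw [hs, hI]; ring
  rw [ph, ph, phb, phb]
  linear_combination (2 * (x (8, A) : ℂ) * (x (8, 2) : ℂ)) * e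

omit h2 in
include h3 h4 in
/-- the first term on the right hand side -/
private lemma RHS1 (t : ℝ) (x : X3) :
    K.LL 1 (fun y => (Real.exp (-t * perp2 y) : ℂ) • (K.io 0 y (a y) -
      ((t : ℂ) / K.nu) • K.dpb 0 (a y))) x = (Real.exp (-t * perp2 x) : ℂ) •
      ((K.Lp 1 (fun y => K.io 0 y (a y)) x - K.ph 0 x • K.io 0 x (K.dpp 2 a x)) -
        ((t : ℂ) / K.nu) • (K.dpb 0 (K.Lp 1 a x - K.ph 0 x • K.dpp 2 a x) + K.dpb 2 (a x)) -
        ((t : ℂ) * (K.ph 0 x * K.phb 2 x + K.ph 2 x * K.phb 0 x)) •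
          (K.io 0 x (a x) - ((t : ℂ) / K.nu) • K.dpb 0 (a x))) := by
  have had : ∀ y, DifferentiableAt ℝ a y := fun y => (h1.differentiable (by simp)) y
  have hw : DifferentiableAt ℝ (fun y => K.io 0 y (a y) - ((t : ℂ) / K.nu) • K.dpb 0 (a y)) x :=
    (K.diff_io 0 (had x)).fun_sub ((K.diff_dpb 0 (had x)).fun_const_smul _)
  rw [K.pd_fsmul (diff_E t x) hw 1, orb_E 1 t x, K.LL_sub 1 (K.diff_io 0 (had x))
    ((K.diff_dpb 0 (had x)).fun_const_smul _), K.LL_csmul 1 _ (K.diff_dpb 0 (had x)),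
    K.LL_dpb 1 0 (had x), K.LL1_io h1 h3 h4, K.LL1_eq h3 h4]
  simp only [Fin.sum_univ_three, ev010, ev011, ev012, ev110, ev111, ev112]
  have e := K.hsum2 x 0
  push_cast
  rw [← e]
  module

omit h2 in
include h3 h4 in
/-- the second term on the right hand side -/
private lemma RHS2 (t : ℝ) (x : X3) :
    K.LL 0 (fun y => (Real.exp (-t * perp2 y) : ℂ) • (K.io 1 y (a y) -
      ((t : ℂ) / K.nu) • K.dpb 1 (a y))) x = (Real.exp (-t * perp2 x) : ℂ) •
      ((K.Lp 0 (fun y => K.io 1 y (a y)) x + K.ph 1 x • K.io 1 x (K.dpp 2 a x)) -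
        ((t : ℂ) / K.nu) • (K.dpb 1 (K.Lp 0 a x + K.ph 1 x • K.dpp 2 a x) - K.dpb 2 (a x)) +
        ((t : ℂ) * (K.ph 1 x * K.phb 2 x + K.ph 2 x * K.phb 1 x)) •
          (K.io 1 x (a x) - ((t : ℂ) / K.nu) • K.dpb 1 (a x))) := by
  have had : ∀ y, DifferentiableAt ℝ a y := fun y => (h1.differentiable (by simp)) y
  have hw : DifferentiableAt ℝ (fun y => K.io 1 y (a y) - ((t : ℂ) / K.nu) • K.dpb 1 (a y)) x :=
    (K.diff_io 1 (had x)).fun_sub ((K.diff_dpb 1 (had x)).fun_const_smul _)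
  rw [K.pd_fsmul (diff_E t x) hw 0, orb_E 0 t x, K.LL_sub 0 (K.diff_io 1 (had x))
    ((K.diff_dpb 1 (had x)).fun_const_smul _), K.LL_csmul 0 _ (K.diff_dpb 1 (had x)),
    K.LL_dpb 0 1 (had x), K.LL0_io h1 h3 h4, K.LL0_eq h3 h4]
  simp only [Fin.sum_univ_three, ev000, ev001, ev002, ev100, ev101, ev102]
  have e := K.hsum2 x 1
  push_cast
  rw [← e]
  module

end main

theorem D0_KK (h1 : ContDiff ℝ ∞ K.aT)
    (h2 : ∀ x, K.D0 K.aT x = K.nu • (K.ph 0 x • K.io 0 x (K.aT x) + K.ph 1 x • K.io 1 x (K.aT x)))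
    (h3 : ∀ x, K.dph 0 K.aT x = 0) (h4 : ∀ x, K.dph 1 K.aT x = 0) (t : ℝ) (x : X3) :
    K.D0 (K.KK t) x = K.LL 1 (K.uu t 0) x - K.LL 0 (K.uu t 1) x := by
  have h3' : ∀ x, K.dpp 0 K.aT x = 0 := fun x => by rw [← dph_eq]; exact h3 x
  have h4' : ∀ x, K.dpp 1 K.aT x = 0 := fun x => by rw [← dph_eq]; exact h4 x
  have hK : K.KK t = fun y => (Real.exp (-t * perp2 y) : ℂ) •
      (-((1 / K.nu) • K.dpp 2 K.aT y) + K.io 1 y (K.io 0 y (K.aT y))
      - (2 * (t : ℂ) / K.nu * K.phb 2 y) • K.aT y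
      - ((t : ℂ) ^ 2 / K.nu ^ 2) • K.dpb 0 (K.dpb 1 (K.aT y))
      + ((t : ℂ) / K.nu) • (K.dpb 0 (K.io 1 y (K.aT y)) - K.dpb 1 (K.io 0 y (K.aT y)))) := by
    funext y
    rw [KK, KK0, dph_eq]
  have hu0 : K.uu t 0 = fun y => (Real.exp (-t * perp2 y) : ℂ) • (K.io 0 y (K.aT y) -
      ((t : ℂ) / K.nu) • K.dpb 0 (K.aT y)) := rfl
  have hu1 : K.uu t 1 = fun y => (Real.exp (-t * perp2 y) : ℂ) • (K.io 1 y (K.aT y) -
      ((t : ℂ) / K.nu) • K.dpb 1 (K.aT y)) := rfl
  rw [hK, hu0, hu1, K.RHS1 h1 h3' h4' t x, K.RHS2 h1 h3' h4' t x]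
  have t1 := K.T1 h1 h2 x
  have t2 := K.T2 h1 h2 x
  have t3 := K.T3 h1 h2 (t : ℂ) x
  have t4 := K.T4 h1 h2 x
  have t5 := K.T5 h1 h2 x
  generalize K.aT = a at *
  have had : ∀ y, DifferentiableAt ℝ a y := fun y => (h1.differentiable (by simp)) y
  have hg : ContDiff ℝ ∞ (K.dpp 2 a) := dcv_contDiff _ _ h1
  have hgd : DifferentiableAt ℝ (K.dpp 2 a) x := (hg.differentiable (by simp)) x
  have d1 : DifferentiableAt ℝ (fun y => -((1 / K.nu) • K.dpp 2 a y)) x :=
    (hgd.fun_const_smul _).fun_neg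
  have d2 : DifferentiableAt ℝ (fun y => K.io 1 y (K.io 0 y (a y))) x :=
    K.diff_io 1 (K.diff_io 0 (had x))
  have d3 : DifferentiableAt ℝ (fun y => (2 * (t : ℂ) / K.nu * K.phb 2 y) • a y) x :=
    ((K.diff_phb 2 x).const_mul _).fun_smul (had x)
  have d4' : DifferentiableAt ℝ (fun y => K.dpb 0 (K.dpb 1 (a y))) x :=
    K.diff_dpb 0 (K.diff_dpb 1 (had x))
  have d4 : DifferentiableAt ℝ (fun y => ((t : ℂ) ^ 2 / K.nu ^ 2) • K.dpb 0 (K.dpb 1 (a y))) x :=
    d4'.fun_const_smul _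
  have d5' : DifferentiableAt ℝ
      (fun y => K.dpb 0 (K.io 1 y (a y)) - K.dpb 1 (K.io 0 y (a y))) x :=
    (K.diff_dpb 0 (K.diff_io 1 (had x))).fun_sub (K.diff_dpb 1 (K.diff_io 0 (had x)))
  have d5 : DifferentiableAt ℝ (fun y => ((t : ℂ) / K.nu) •
      (K.dpb 0 (K.io 1 y (a y)) - K.dpb 1 (K.io 0 y (a y)))) x := d5'.fun_const_smul _
  rw [K.D0_E t ((((d1.fun_add d2).fun_sub d3).fun_sub d4).fun_add d5),
    K.D0_add (((d1.fun_add d2).fun_sub d3).fun_sub d4) d5,
    K.D0_sub ((d1.fun_add d2).fun_sub d3) d4, K.D0_sub (d1.fun_add d2) d3, K.D0_add d1 d2,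
    K.D0_csmul _ d4', K.D0_csmul _ d5', t1, t2, t3, t4, t5, ← smul_sub]
  congr 1
  have hn := K.nu_ne
  have hq : K.nu * K.nu⁻¹ = 1 := mul_inv_cancel₀ hn
  have z1 := K.dpb_sq 0
  have z2 := K.dpb_sq 1
  have z3 : ∀ v, K.dpb 1 (K.dpb 0 v) = - K.dpb 0 (K.dpb 1 v) := fun v => K.dpb_dpb 1 0 v
  simp only [map_add, map_sub, map_neg, map_smul, z1, z2, z3, smul_zero, div_eq_mul_inv,
    map_zero, neg_zero]
  have c1 : ∀ v : F, ((t : ℂ) * K.nu⁻¹) • K.nu • v = (t : ℂ) • v := by
    intro v; rw [smul_smul, mul_assoc, inv_mul_cancel₀ hn, mul_one]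
  have c2 : ∀ v : F, ((t : ℂ) ^ 2 * (K.nu ^ 2)⁻¹) • K.nu • v = ((t : ℂ) ^ 2 * K.nu⁻¹) • v := by
    intro v
    rw [smul_smul]
    congr 1
    field_simp
  rw [c2, smul_sub _ (K.nu • _), c1]
  generalize K.nu⁻¹ = m
  module

end Fk

end Vale.Agent.P353.Ex
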