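import Vale.Agent.P353.Ex.Bounds
import Vale.Agent.P353.Ex.Av
import Vale.Agent.P353.Ex.TClosed

/-! Task EX-18: first limit `t → ∞` (localisation at `φ_⊥ = 0`).

Change of variables `x = σ_t y`, `σ_t` multiplies the four coordinates `(7,0),(7,1),(8,0),(8,1)` by
`t^{-1/2}` (determinant `t^{-2}`), then dominated convergence: `aT`, `hh`, `B0`, `ze` do not depend
on these coordinates.  Majorant `C (1+ze)⁴ e^{-perp2/2} B0` (`integrable_J`), for `t ≥ 1`. -/

open MeasureTheory Filter Topology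
open scoped ContDiff ComplexConjugate

namespace Vale.Agent.P353.Ex

/-! ### scaling of the coordinates `φ_⊥` -/

/-- multiply the coordinates `φ_⊥` by `r` -/
noncomputable def scl (r : ℝ) (x : X3) : X3 :=
  WithLp.toLp 2 fun p => if (p.1 = 7 ∨ p.1 = 8) ∧ p.2 ≠ 2 then r * x p else x p

lemma scl_apply (r : ℝ) (x : X3) (p : Fin 9 × Fin 3) :
    scl r x p = if (p.1 = 7 ∨ p.1 = 8) ∧ p.2 ≠ 2 then r * x p else x p := rfl

lemma scl_e9 (r : ℝ) (x : X3) (i : Fin 7) (A : Fin 3) : scl r x (e9 i, A) = x (e9 i, A) := by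
  rw [scl_apply, if_neg]
  rintro ⟨h | h, _⟩
  · have := congrArg Fin.val h
    have hi := i.2
    simp only [e9, Fin.val_castSucc] at this
    have h7 : ((7 : Fin 9) : ℕ) = 7 := rfl
    omega
  · have := congrArg Fin.val h
    have hi := i.2
    simp only [e9, Fin.val_castSucc] at this
    have h8 : ((8 : Fin 9) : ℕ) = 8 := rfl
    omega

lemma scl_two (r : ℝ) (x : X3) (i : Fin 9) : scl r x (i, 2) = x (i, 2) := by
  rw [scl_apply, if_neg]
  rintro ⟨_, h⟩
  exact h rfl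

lemma scl_perp (r : ℝ) (x : X3) {i : Fin 9} (hi : i = 7 ∨ i = 8) {A : Fin 3} (hA : A ≠ 2) :
    scl r x (i, A) = r * x (i, A) := by
  rw [scl_apply, if_pos ⟨hi, hA⟩]

lemma scl_zero (x : X3) : scl 0 x = pr x := by
  unfold scl pr
  simp only [zero_mul]

lemma perp2_scl (r : ℝ) (x : X3) : Fk.perp2 (scl r x) = r ^ 2 * Fk.perp2 x := by
  unfold Fk.perp2
  rw [scl_perp r x (Or.inl rfl) (by decide), scl_perp r x (Or.inr rfl) (by decide),
    scl_perp r x (Or.inl rfl) (by decide), scl_perp r x (Or.inr rfl) (by decide)]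
  ring

lemma r3_scl (r : ℝ) (x : X3) : Fk.r3 (scl r x) = Fk.r3 x := by
  unfold Fk.r3
  rw [scl_two, scl_two]

lemma ze_scl (r : ℝ) (x : X3) : Fk.ze (scl r x) = Fk.ze x := by
  unfold Fk.ze
  rw [r3_scl]

lemma gg_scl (r : ℝ) (x : X3) : Fk.gg (scl r x) = Fk.gg x := by
  unfold Fk.gg
  rw [r3_scl]

lemma B0_scl (r : ℝ) (x : X3) : Fk.B0 (scl r x) = Fk.B0 x := by
  unfold Fk.B0 Fk.x3sq Fk.wsq
  simp only [scl_e9, gg_scl, r3_scl]

lemma continuous_scl : Continuous fun p : ℝ × X3 => scl p.1 p.2 := by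
  unfold scl
  refine (PiLp.continuous_toLp 2 _).comp (continuous_pi fun p => ?_)
  by_cases h : (p.1 = 7 ∨ p.1 = 8) ∧ p.2 ≠ 2
  · simp only [if_pos h]
    fun_prop
  · simp only [if_neg h]
    fun_prop

lemma scl_scl (r s : ℝ) (x : X3) : scl r (scl s x) = scl (r * s) x := by
  ext p
  by_cases h : (p.1 = 7 ∨ p.1 = 8) ∧ p.2 ≠ 2
  · rw [scl_apply, scl_apply, scl_apply, if_pos h, if_pos h, if_pos h, mul_assoc]
  · rw [scl_apply, scl_apply, scl_apply, if_neg h, if_neg h, if_neg h]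

lemma scl_one (x : X3) : scl 1 x = x := by
  ext p
  rw [scl_apply]
  split_ifs <;> simp

/-- the scaling as a linear map -/
noncomputable def sclL (r : ℝ) : X3 →ₗ[ℝ] X3 where
  toFun := scl r
  map_add' x y := by
    ext p
    change scl r (x + y) p = scl r x p + scl r y p
    rw [scl_apply, scl_apply, scl_apply]
    split_ifs
    · simp [mul_add]
    · simp
  map_smul' c x := by
    ext p
    change scl r (c • x) p = c * scl r x p
    rw [scl_apply, scl_apply]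
    split_ifs
    · simp only [PiLp.smul_apply, smul_eq_mul]
      ring
    · simp

lemma det_sclL (r : ℝ) : LinearMap.det (sclL r) = r ^ 4 := by
  classical
  rw [← LinearMap.det_toMatrix (EuclideanSpace.basisFun (Fin 9 × Fin 3) ℝ).toBasis]
  have h : LinearMap.toMatrix (EuclideanSpace.basisFun (Fin 9 × Fin 3) ℝ).toBasis
      (EuclideanSpace.basisFun (Fin 9 × Fin 3) ℝ).toBasis (sclL r) =
      Matrix.diagonal fun p : Fin 9 × Fin 3 =>
        if (p.1 = 7 ∨ p.1 = 8) ∧ p.2 ≠ 2 then r else 1 := by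
    ext p q
    rw [LinearMap.toMatrix_apply, Matrix.diagonal_apply]
    simp only [OrthonormalBasis.coe_toBasis, OrthonormalBasis.coe_toBasis_repr_apply,
      EuclideanSpace.basisFun_apply, EuclideanSpace.basisFun_repr]
    change scl r (EuclideanSpace.single q 1) p = _
    rw [scl_apply]
    by_cases hpq : p = q
    · subst hpq
      simp
    · simp [hpq]
  rw [h, Matrix.det_diagonal, Finset.prod_ite, Finset.prod_const, Finset.prod_const_one, mul_one]
  congr 1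

/-- the scaling as a homeomorphism -/
noncomputable def sclH (r : ℝ) (hr : r ≠ 0) : X3 ≃ₜ X3 where
  toFun := scl r
  invFun := scl r⁻¹
  left_inv x := by rw [scl_scl, inv_mul_cancel₀ hr, scl_one]
  right_inv x := by rw [scl_scl, mul_inv_cancel₀ hr, scl_one]
  continuous_toFun := continuous_scl.comp (Continuous.prodMk_right r)
  continuous_invFun := continuous_scl.comp (Continuous.prodMk_right r⁻¹)

lemma integral_scl {r : ℝ} (hr : 0 < r) (f : X3 → ℂ) :
    ∫ x, f x = ∫ y, ((r ^ 4 : ℝ) : ℂ) * f (scl r y) := by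
  have h4 : 0 < r ^ 4 := pow_pos hr 4
  have hdet : LinearMap.det (sclL r) ≠ 0 := by
    rw [det_sclL]
    exact h4.ne'
  have h1 := Measure.map_linearMap_addHaar_eq_smul_addHaar (volume : Measure X3) hdet
  have h2 : ∫ x, f x ∂(Measure.map (sclL r) (volume : Measure X3)) = ∫ y, f (scl r y) :=
    (sclH r hr.ne').measurableEmbedding.integral_map f
  rw [h1, integral_smul_measure, det_sclL, abs_of_pos (inv_pos.2 h4),
    ENNReal.toReal_ofReal (inv_pos.2 h4).le] at h2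
  rw [integral_const_mul, ← h2, Complex.real_smul, ← mul_assoc, ← Complex.ofReal_mul,
    mul_inv_cancel₀ h4.ne', Complex.ofReal_one, one_mul]

variable {F : Type*} [NormedAddCommGroup F] [InnerProductSpace ℂ F]

namespace Fk

variable (K : Fk F)

/-- the leading coefficient of `Ps t` at `φ_⊥ = 0` -/
noncomputable def xi (x : X3) : F :=
  (Real.exp (-K.hh x) : ℂ) • (-((1 / K.nu ^ 2) • K.dpb 0 (K.dpb 1 (K.aT x))))

lemma hh_scl (r : ℝ) (x : X3) : K.hh (scl r x) = K.hh x := by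
  unfold hh
  simp only [scl_e9]

lemma phb_scl (r : ℝ) (x : X3) : K.phb 2 (scl r x) = K.phb 2 x := by
  unfold phb
  simp only [scl_two]

lemma aT_scl (r : ℝ) (x : X3) : K.aT (scl r x) = K.aT x := by
  unfold aT expo tau0 bet rho eeT ds dsb db dkap mu qp qq phb ph ss bb kap wsq
  simp only [scl_e9, scl_two, r3_scl, gg_scl]

lemma norm_nu_inv_le : ‖(1 / K.nu : ℂ)‖ ≤ 1 := by
  have h1 : ‖K.nu‖ ^ 2 = 2 := by
    unfold nu
    rw [norm_mul, Complex.norm_I, one_mul, Complex.norm_real, Real.norm_eq_abs, sq_abs, sq, K.f0_sq]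
  have h2 : 1 ≤ ‖K.nu‖ := by
    by_contra h
    have h0 := norm_nonneg K.nu
    nlinarith
  rw [norm_div, norm_one]
  exact (div_le_one (lt_of_lt_of_le one_pos h2)).2 h2

lemma norm_phb_two (x : X3) : ‖K.phb 2 x‖ = ze x := by
  unfold phb ze r3
  have e : (x (7, 2) : ℂ) - Complex.I * (K.sg : ℂ) * (x (8, 2) : ℂ) =
      ⟨x (7, 2), -(K.sg * x (8, 2))⟩ := by
    apply Complex.ext <;> simp
  rw [e, Complex.norm_eq_sqrt_sq_add_sq]
  congr 1
  have h := K.sg_sq
  linear_combination (x (8, 2) ^ 2) * h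

lemma norm_dpb_le (A : Fin 3) (v : F) : ‖K.dpb A v‖ ≤ 2 * ‖v‖ := by
  unfold dpb
  rw [smul_apply, norm_smul, Complex.norm_ofNat]
  have := K.norm_c_le 7 A v
  linarith

lemma continuous_aT : Continuous K.aT := K.contDiff_aT.continuous

/-- decomposition of `s² Ps t`, `s t = 1` -/
lemma Ps_split (t s : ℝ) (hst : s * t = 1) (x : X3) :
    ((s ^ 2 : ℝ) : ℂ) • K.Ps t x = (Real.exp (-t * perp2 x) : ℂ) •
      (-((1 / K.nu ^ 2) • ((Real.exp (-K.hh x) : ℂ) • K.dpb 0 (K.dpb 1 (K.aT x)))) +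
      (-((((s ^ 2 : ℝ) : ℂ) * (1 / K.nu)) • ((Real.exp (-K.hh x) : ℂ) • K.dph 2 K.aT x)) +
      ((s ^ 2 : ℝ) : ℂ) • ((Real.exp (-K.hh x) : ℂ) • K.io 1 x (K.io 0 x (K.aT x))) -
      ((2 * (s : ℂ)) * (1 / K.nu) * K.phb 2 x) • ((Real.exp (-K.hh x) : ℂ) • K.aT x) +
      ((s : ℂ) * (1 / K.nu)) • ((Real.exp (-K.hh x) : ℂ) •
        (K.dpb 0 (K.io 1 x (K.aT x)) - K.dpb 1 (K.io 0 x (K.aT x)))))) := by
  have h1 : (s : ℂ) * (t : ℂ) = 1 := by
    rw [← Complex.ofReal_mul, hst, Complex.ofReal_one]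
  unfold Ps KK KK0
  have h2 : (s : ℂ) ^ 2 * (t : ℂ) = s := by linear_combination (s : ℂ) * h1
  have h3 : (s : ℂ) ^ 2 * (t : ℂ) ^ 2 = 1 := by linear_combination ((s : ℂ) * t + 1) * h1
  generalize ((Real.exp (-K.hh x) : ℝ) : ℂ) = E
  generalize ((Real.exp (-t * perp2 x) : ℝ) : ℂ) = e
  generalize K.dpb 0 (K.dpb 1 (K.aT x)) = v4
  generalize K.dph 2 K.aT x = v1
  generalize K.io 1 x (K.io 0 x (K.aT x)) = v2
  generalize (K.dpb 0 (K.io 1 x (K.aT x)) - K.dpb 1 (K.io 0 x (K.aT x))) = v5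
  generalize K.aT x = v3
  generalize K.phb 2 x = z
  push_cast
  match_scalars
  · ring
  · ring
  · linear_combination (-(2 / K.nu * z * E * e)) * h2
  · linear_combination (-(E * e / K.nu ^ 2)) * h3
  · linear_combination (1 / K.nu * E * e) * h2

/-- the polynomial-Gaussian majorant -/
noncomputable def WW (x : X3) : ℝ := (1 + ze x) ^ 3 * (1 + Real.sqrt (perp2 x)) ^ 2 * B0 x

lemma ze_nonneg (x : X3) : 0 ≤ ze x := Real.sqrt_nonneg _

lemma perp2_nonneg (x : X3) : 0 ≤ perp2 x := by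
  unfold perp2
  positivity

lemma B0_nonneg (x : X3) : 0 ≤ B0 x := (Real.exp_pos _).le

lemma WW_nonneg (x : X3) : 0 ≤ WW x := by
  unfold WW
  have h5 := ze_nonneg x
  have h6 := B0_nonneg x
  positivity

lemma norm_exp_smul (h : ℝ) (v : F) : ‖((Real.exp h : ℝ) : ℂ) • v‖ = Real.exp h * ‖v‖ := by
  rw [norm_smul, Complex.norm_real, Real.norm_of_nonneg (Real.exp_pos _).le]

/-- the four remainder terms and the leading term -/
lemma exists_Ps_bound : ∃ C : ℝ, 0 ≤ C ∧ ∀ (t s : ℝ) (x : X3), 0 < s → s * t = 1 →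
    ‖((s ^ 2 : ℝ) : ℂ) • K.Ps t x - ((Real.exp (-t * perp2 x) : ℝ) : ℂ) • K.xi x‖ ≤
      Real.exp (-t * perp2 x) * (C * (s * (1 + s)) * WW x) ∧ ‖K.xi x‖ ≤ C * WW x := by
  obtain ⟨C, hC, hb⟩ := K.exists_bounds
  refine ⟨4 * C, by linarith, fun t s x hs hst => ?_⟩
  obtain ⟨h3, h1, h2, h5⟩ := hb x
  have hA : 0 ≤ ze x := ze_nonneg x
  have hq : 0 ≤ Real.sqrt (perp2 x) := Real.sqrt_nonneg _
  have hB := B0_nonneg x
  have hν := K.norm_nu_inv_le
  have hν0 : 0 ≤ ‖(1 / K.nu : ℂ)‖ := norm_nonneg _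
  -- monomials bounded by `WW`
  set A := ze x with hAdef
  set q := Real.sqrt (perp2 x) with hqdef
  have hCB : 0 ≤ C * B0 x := mul_nonneg hC hB
  have hq1 : 1 ≤ (1 + q) ^ 2 := one_le_pow₀ (by linarith)
  have hq2 : (1 + q) ≤ (1 + q) ^ 2 := by nlinarith
  have hA3 : (1 + A) ^ 2 ≤ (1 + A) ^ 3 := pow_le_pow_right₀ (by linarith) (by norm_num)
  have hA2 : A * (1 + A) ≤ (1 + A) ^ 2 := by nlinarith
  have hA4 : A * (A * (1 + A)) ≤ (1 + A) ^ 3 := by nlinarith [mul_nonneg hA hA]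
  have hW : WW x = (1 + A) ^ 3 * (1 + q) ^ 2 * B0 x := rfl
  have hW0 : 0 ≤ C * WW x := by rw [hW]; positivity
  have m1 : C * (1 + A) ^ 2 * B0 x ≤ C * WW x := by
    rw [hW]
    calc C * (1 + A) ^ 2 * B0 x = ((1 + A) ^ 2 * 1) * (C * B0 x) := by ring
      _ ≤ ((1 + A) ^ 3 * (1 + q) ^ 2) * (C * B0 x) := by gcongr
      _ = _ := by ring
  have m2 : C * A * (1 + A) * (1 + q) ^ 2 * B0 x ≤ C * WW x := by
    rw [hW]
    calc C * A * (1 + A) * (1 + q) ^ 2 * B0 x
        = ((A * (1 + A)) * (1 + q) ^ 2) * (C * B0 x) := by ring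
      _ ≤ ((1 + A) ^ 3 * (1 + q) ^ 2) * (C * B0 x) := by gcongr; exact hA2.trans hA3
      _ = _ := by ring
  have m3 : A * (C * A * (1 + A) * B0 x) ≤ C * WW x := by
    rw [hW]
    calc A * (C * A * (1 + A) * B0 x) = ((A * (A * (1 + A))) * 1) * (C * B0 x) := by ring
      _ ≤ ((1 + A) ^ 3 * (1 + q) ^ 2) * (C * B0 x) := by gcongr
      _ = _ := by ring
  have m3' : C * A * (1 + A) * B0 x ≤ C * WW x := by
    rw [hW]
    calc C * A * (1 + A) * B0 x = ((A * (1 + A)) * 1) * (C * B0 x) := by ring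
      _ ≤ ((1 + A) ^ 3 * (1 + q) ^ 2) * (C * B0 x) := by gcongr; exact hA2.trans hA3
      _ = _ := by ring
  have m5 : C * A * (1 + A) * (1 + q) * B0 x ≤ C * WW x := by
    rw [hW]
    calc C * A * (1 + A) * (1 + q) * B0 x
        = ((A * (1 + A)) * (1 + q)) * (C * B0 x) := by ring
      _ ≤ ((1 + A) ^ 3 * (1 + q) ^ 2) * (C * B0 x) := by gcongr; exact hA2.trans hA3
      _ = _ := by ring
  have n1 := h1.trans m1
  have n2 := h2.trans m2
  have n3 : A * (Real.exp (-K.hh x) * ‖K.aT x‖) ≤ C * WW x :=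
    (mul_le_mul_of_nonneg_left h3 hA).trans m3
  have n3' := h3.trans m3'
  have n5 := h5.trans m5
  constructor
  · have e : ((s ^ 2 : ℝ) : ℂ) • K.Ps t x - ((Real.exp (-t * perp2 x) : ℝ) : ℂ) • K.xi x =
        ((Real.exp (-t * perp2 x) : ℝ) : ℂ) •
        (-((((s ^ 2 : ℝ) : ℂ) * (1 / K.nu)) • ((Real.exp (-K.hh x) : ℂ) • K.dph 2 K.aT x)) +
        ((s ^ 2 : ℝ) : ℂ) • ((Real.exp (-K.hh x) : ℂ) • K.io 1 x (K.io 0 x (K.aT x))) -
        ((2 * (s : ℂ)) * (1 / K.nu) * K.phb 2 x) • ((Real.exp (-K.hh x) : ℂ) • K.aT x) +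
        ((s : ℂ) * (1 / K.nu)) • ((Real.exp (-K.hh x) : ℂ) •
          (K.dpb 0 (K.io 1 x (K.aT x)) - K.dpb 1 (K.io 0 x (K.aT x))))) := by
      have e0 : K.xi x = -((1 / K.nu ^ 2) • ((Real.exp (-K.hh x) : ℂ) •
          K.dpb 0 (K.dpb 1 (K.aT x)))) := by
        unfold xi
        rw [smul_neg, smul_comm]
      rw [K.Ps_split t s hst x, smul_add, e0, add_sub_cancel_left]
    rw [e, norm_exp_smul]
    refine mul_le_mul_of_nonneg_left ?_ (Real.exp_pos _).le
    have b1 : ‖(((s ^ 2 : ℝ) : ℂ) * (1 / K.nu)) • ((Real.exp (-K.hh x) : ℂ) • K.dph 2 K.aT x)‖ ≤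
        s ^ 2 * (C * WW x) := by
      rw [norm_smul, norm_exp_smul, norm_mul, Complex.norm_real,
        Real.norm_of_nonneg (by positivity)]
      calc s ^ 2 * ‖1 / K.nu‖ * (Real.exp (-K.hh x) * ‖K.dph 2 K.aT x‖)
          ≤ s ^ 2 * 1 * (C * WW x) := by gcongr
        _ = _ := by ring
    have b2 : ‖((s ^ 2 : ℝ) : ℂ) • ((Real.exp (-K.hh x) : ℂ) • K.io 1 x (K.io 0 x (K.aT x)))‖ ≤
        s ^ 2 * (C * WW x) := by
      rw [norm_smul, norm_exp_smul, Complex.norm_real, Real.norm_of_nonneg (by positivity)]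
      gcongr
    have b3 : ‖((2 * (s : ℂ)) * (1 / K.nu) * K.phb 2 x) • ((Real.exp (-K.hh x) : ℂ) • K.aT x)‖ ≤
        2 * s * (C * WW x) := by
      rw [norm_smul, norm_exp_smul, norm_mul, norm_mul, norm_mul, Complex.norm_real,
        Real.norm_of_nonneg hs.le, norm_phb_two, Complex.norm_ofNat]
      calc 2 * s * ‖1 / K.nu‖ * ze x * (Real.exp (-K.hh x) * ‖K.aT x‖)
          = 2 * s * ‖1 / K.nu‖ * (A * (Real.exp (-K.hh x) * ‖K.aT x‖)) := by rw [hAdef]; ring
        _ ≤ 2 * s * 1 * (C * WW x) := by gcongr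
        _ = _ := by ring
    have b5 : ‖((s : ℂ) * (1 / K.nu)) • ((Real.exp (-K.hh x) : ℂ) •
        (K.dpb 0 (K.io 1 x (K.aT x)) - K.dpb 1 (K.io 0 x (K.aT x))))‖ ≤ s * (C * WW x) := by
      rw [norm_smul, norm_exp_smul, norm_mul, Complex.norm_real, Real.norm_of_nonneg hs.le]
      calc s * ‖1 / K.nu‖ * (Real.exp (-K.hh x) *
            ‖K.dpb 0 (K.io 1 x (K.aT x)) - K.dpb 1 (K.io 0 x (K.aT x))‖)
          ≤ s * 1 * (C * WW x) := by gcongr
        _ = _ := by ring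
    refine (norm_add_le _ _).trans ?_
    refine (add_le_add (norm_sub_le _ _) b5).trans ?_
    refine (add_le_add_left (add_le_add (norm_add_le _ _) b3) _).trans ?_
    rw [norm_neg]
    nlinarith only [b1, b2, hW0, hs, mul_nonneg hs.le hW0, mul_nonneg (mul_nonneg hs.le hs.le) hW0]
  · unfold xi
    rw [norm_exp_smul, norm_neg, norm_smul]
    have hν2 : ‖(1 / K.nu ^ 2 : ℂ)‖ ≤ 1 := by
      have : (1 / K.nu ^ 2 : ℂ) = (1 / K.nu) * (1 / K.nu) := by ring
      rw [this, norm_mul]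
      nlinarith
    have h4 : ‖K.dpb 0 (K.dpb 1 (K.aT x))‖ ≤ 4 * ‖K.aT x‖ := by
      have g1 := K.norm_dpb_le 0 (K.dpb 1 (K.aT x))
      have g2 := K.norm_dpb_le 1 (K.aT x)
      linarith
    have hE := (Real.exp_pos (-K.hh x)).le
    calc Real.exp (-K.hh x) * (‖(1 / K.nu ^ 2 : ℂ)‖ * ‖K.dpb 0 (K.dpb 1 (K.aT x))‖)
        ≤ Real.exp (-K.hh x) * (1 * (4 * ‖K.aT x‖)) := by gcongr
      _ = 4 * (Real.exp (-K.hh x) * ‖K.aT x‖) := by ring
      _ ≤ 4 * (C * WW x) := by linarith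
      _ = 4 * C * WW x := by ring

lemma gauss_two {t : ℝ} (ht : 0 < t) {p : ℝ} (hp : 0 ≤ p) :
    (1 + Real.sqrt p) ^ 2 * Real.exp (-t * p) ≤ (2 + 4 / t) * Real.exp (-(t / 2) * p) := by
  have h1 : Real.exp (-t * p) = Real.exp (-(t / 2) * p) * Real.exp (-(t / 2) * p) := by
    rw [← Real.exp_add]
    congr 1
    ring
  have h2 : t / 2 * p + 1 ≤ Real.exp (t / 2 * p) := Real.add_one_le_exp _
  have h3 : (1 + Real.sqrt p) ^ 2 ≤ (2 + 4 / t) * (t / 2 * p + 1) := by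
    have h4 : Real.sqrt p ^ 2 = p := Real.sq_sqrt hp
    have h5 : (2 + 4 / t) * (t / 2 * p + 1) = t * p + 2 + 2 * p + 4 / t := by
      field_simp
      ring
    have h6 : 0 ≤ 4 / t := by positivity
    have h7 : 0 ≤ t * p := by positivity
    have h8 := sq_nonneg (1 - Real.sqrt p)
    rw [h5]
    linarith only [h4, h6, h7, h8]
  have h4 : Real.exp (t / 2 * p) * Real.exp (-(t / 2) * p) = 1 := by
    rw [← Real.exp_add, neg_mul, add_neg_cancel, Real.exp_zero]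
  rw [h1, ← mul_assoc]
  refine mul_le_mul_of_nonneg_right ?_ (Real.exp_pos _).le
  calc (1 + Real.sqrt p) ^ 2 * Real.exp (-(t / 2) * p)
      ≤ ((2 + 4 / t) * Real.exp (t / 2 * p)) * Real.exp (-(t / 2) * p) := by
        gcongr
        exact h3.trans (by gcongr)
    _ = 2 + 4 / t := by rw [mul_assoc, h4, mul_one]

lemma gauss_three {p : ℝ} (hp : 0 ≤ p) :
    (1 + Real.sqrt p) ^ 3 * Real.exp (-p) ≤ 16 * Real.exp (-(1 / 2) * p) := by
  have h1 : Real.exp (-p) = Real.exp (-(1 / 2) * p) * Real.exp (-(1 / 2) * p) := by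
    rw [← Real.exp_add]
    congr 1
    ring
  have h2 : 1 + 1 / 2 * p + (1 / 2 * p) ^ 2 / 2 ≤ Real.exp (1 / 2 * p) :=
    Real.quadratic_le_exp_of_nonneg (by linarith)
  have h3 : (1 + Real.sqrt p) ^ 3 ≤ 16 * (1 + 1 / 2 * p + (1 / 2 * p) ^ 2 / 2) := by
    have h4 : Real.sqrt p ^ 2 = p := Real.sq_sqrt hp
    have h5 := Real.sqrt_nonneg p
    set u := Real.sqrt p
    rw [← h4]
    nlinarith only [h5, sq_nonneg (u - 1), sq_nonneg (u ^ 2 - u), sq_nonneg (u ^ 2 - 1),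
      mul_nonneg h5 (sq_nonneg (u - 1))]
  have h4 : Real.exp (1 / 2 * p) * Real.exp (-(1 / 2) * p) = 1 := by
    rw [← Real.exp_add, neg_mul, add_neg_cancel, Real.exp_zero]
  rw [h1, ← mul_assoc]
  refine mul_le_mul_of_nonneg_right ?_ (Real.exp_pos _).le
  calc (1 + Real.sqrt p) ^ 3 * Real.exp (-(1 / 2) * p)
      ≤ (16 * Real.exp (1 / 2 * p)) * Real.exp (-(1 / 2) * p) := by
        gcongr
        exact h3.trans (by gcongr)
    _ = 16 := by rw [mul_assoc, h4, mul_one]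

theorem Ps_adm {t : ℝ} (ht : 0 < t) : Adm (K.Ps t) := by
  refine ⟨(K.contDiff_Ps t).continuous, ?_⟩
  obtain ⟨C, hC, hb⟩ := K.exists_Ps_bound
  refine ⟨t ^ 2 * (C * (t⁻¹ * (1 + t⁻¹)) + C) * (2 + 4 / t), t / 2, by linarith, fun x => ?_⟩
  have hs : 0 < t⁻¹ := inv_pos.2 ht
  obtain ⟨h1, h2⟩ := hb t t⁻¹ x hs (inv_mul_cancel₀ ht.ne')
  have hp := perp2_nonneg x
  have hB := B0_nonneg x
  have hz := ze_nonneg x
  set e := Real.exp (-t * perp2 x) with he
  have he0 : 0 < e := Real.exp_pos _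
  have h3 : ‖(((t⁻¹) ^ 2 : ℝ) : ℂ) • K.Ps t x‖ ≤
      e * (C * (t⁻¹ * (1 + t⁻¹)) * WW x) + e * (C * WW x) := by
    have e1 : (((t⁻¹) ^ 2 : ℝ) : ℂ) • K.Ps t x =
        ((((t⁻¹) ^ 2 : ℝ) : ℂ) • K.Ps t x - (e : ℂ) • K.xi x) + (e : ℂ) • K.xi x := by abel
    rw [e1]
    refine (norm_add_le _ _).trans (add_le_add h1 ?_)
    rw [he, norm_exp_smul]
    exact mul_le_mul_of_nonneg_left h2 he0.le
  have h4 : ‖K.Ps t x‖ = t ^ 2 * ‖(((t⁻¹) ^ 2 : ℝ) : ℂ) • K.Ps t x‖ := by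
    rw [norm_smul, Complex.norm_real, Real.norm_of_nonneg (by positivity), ← mul_assoc,
      ← mul_pow, mul_inv_cancel₀ ht.ne', one_pow, one_mul]
  rw [h4]
  calc t ^ 2 * ‖(((t⁻¹) ^ 2 : ℝ) : ℂ) • K.Ps t x‖
      ≤ t ^ 2 * (e * (C * (t⁻¹ * (1 + t⁻¹)) * WW x) + e * (C * WW x)) := by gcongr
    _ = t ^ 2 * (C * (t⁻¹ * (1 + t⁻¹)) + C) *
        ((1 + Real.sqrt (perp2 x)) ^ 2 * e) * ((1 + ze x) ^ 3 * B0 x) := by
        unfold WW
        ring
    _ ≤ t ^ 2 * (C * (t⁻¹ * (1 + t⁻¹)) + C) *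
        ((2 + 4 / t) * Real.exp (-(t / 2) * perp2 x)) * ((1 + ze x) ^ 3 * B0 x) := by
        have h5 := gauss_two ht hp
        exact mul_le_mul_of_nonneg_right (mul_le_mul_of_nonneg_left h5 (by positivity))
          (by positivity)
    _ = _ := by ring

lemma continuous_xi : Continuous K.xi := by
  unfold xi
  have h1 := K.continuous_aT
  have h2 : Continuous K.hh := by
    unfold hh
    fun_prop
  have h3 : Continuous fun x => K.dpb 0 (K.dpb 1 (K.aT x)) :=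
    (K.dpb 0).continuous.comp ((K.dpb 1).continuous.comp h1)
  fun_prop

theorem lim1 {Φ : X3 → F} (hΦ : Continuous Φ)
    (hb : ∃ C, ∀ x, ‖Φ x‖ ≤ C * (1 + Real.sqrt (phsq x))) :
    Tendsto (fun t : ℝ => ∫ x, inner ℂ (K.Ps t x) (Φ x)) atTop
      (𝓝 (∫ x, (Real.exp (-perp2 x) : ℂ) * inner ℂ (K.xi (pr x)) (Φ (pr x)))) := by
  obtain ⟨C, hC, hbd⟩ := K.exists_Ps_bound
  obtain ⟨C', hΦb⟩ := hb
  have hC' : 0 ≤ C' := by
    have h1 := (norm_nonneg _).trans (hΦb 0)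
    have h2 : 0 < 1 + Real.sqrt (phsq 0) := by positivity
    exact nonneg_of_mul_nonneg_left h1 h2
  -- the rescaled integrand
  set r : ℝ → ℝ := fun t => (Real.sqrt t)⁻¹ with hr
  have hr2 : ∀ t, 0 < t → r t ^ 2 = t⁻¹ := fun t ht => by
    rw [hr, inv_pow, Real.sq_sqrt ht.le]
  set f : ℝ → X3 → ℂ := fun t y =>
    inner ℂ (((t⁻¹ ^ 2 : ℝ) : ℂ) • K.Ps t (scl (r t) y)) (Φ (scl (r t) y)) with hf
  have hev : ∀ᶠ t : ℝ in atTop, ∫ x, inner ℂ (K.Ps t x) (Φ x) = ∫ y, f t y := by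
    filter_upwards [eventually_gt_atTop 0] with t ht
    have hr0 : 0 < r t := inv_pos.2 (Real.sqrt_pos.2 ht)
    rw [integral_scl hr0]
    refine integral_congr_ae (Eventually.of_forall fun y => ?_)
    simp only [hf]
    rw [inner_smul_left, Complex.conj_ofReal]
    have h4 : r t ^ 4 = t⁻¹ ^ 2 := by rw [← hr2 t ht]; ring
    rw [h4]
  have hkey : ∀ t, 1 ≤ t → ∀ y, ‖((t⁻¹ ^ 2 : ℝ) : ℂ) • K.Ps t (scl (r t) y) -
      ((Real.exp (-perp2 y) : ℝ) : ℂ) • K.xi (pr y)‖ ≤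
      t⁻¹ * (Real.exp (-perp2 y) * (2 * C * WW y)) ∧
      ‖((t⁻¹ ^ 2 : ℝ) : ℂ) • K.Ps t (scl (r t) y)‖ ≤ Real.exp (-perp2 y) * (3 * C * WW y) := by
    intro t ht y
    have ht0 : 0 < t := by linarith
    have hs : 0 < t⁻¹ := inv_pos.2 ht0
    have hs1 : t⁻¹ ≤ 1 := inv_le_one_of_one_le₀ ht
    have hp := perp2_nonneg y
    obtain ⟨h1, h2⟩ := hbd t t⁻¹ (scl (r t) y) hs (inv_mul_cancel₀ ht0.ne')
    have e1 : -t * perp2 (scl (r t) y) = -perp2 y := by
      rw [perp2_scl, hr2 t ht0]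
      field_simp
    have e2 : K.xi (scl (r t) y) = K.xi (pr y) := by
      rw [← scl_zero]
      unfold xi
      rw [K.hh_scl, K.hh_scl, K.aT_scl, K.aT_scl]
    have e3 : WW (scl (r t) y) ≤ WW y := by
      unfold WW
      rw [ze_scl, B0_scl, perp2_scl, hr2 t ht0]
      have h3 : t⁻¹ * perp2 y ≤ perp2 y := by nlinarith
      have h4 := Real.sqrt_le_sqrt h3
      have h5 := ze_nonneg y
      have h6 := B0_nonneg y
      have h7 := Real.sqrt_nonneg (t⁻¹ * perp2 y)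
      gcongr
    have hW0 := WW_nonneg y
    have hW1 := WW_nonneg (scl (r t) y)
    have hE := (Real.exp_pos (-perp2 y)).le
    rw [e1, e2] at h1
    rw [e2] at h2
    have h8 : C * (t⁻¹ * (1 + t⁻¹)) * WW (scl (r t) y) ≤ t⁻¹ * (2 * C * WW y) := by
      calc C * (t⁻¹ * (1 + t⁻¹)) * WW (scl (r t) y) ≤ C * (t⁻¹ * (1 + 1)) * WW y := by gcongr
        _ = _ := by ring
    have h9 : ‖((t⁻¹ ^ 2 : ℝ) : ℂ) • K.Ps t (scl (r t) y) -
        ((Real.exp (-perp2 y) : ℝ) : ℂ) • K.xi (pr y)‖ ≤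
        t⁻¹ * (Real.exp (-perp2 y) * (2 * C * WW y)) := by
      refine h1.trans ((mul_le_mul_of_nonneg_left h8 hE).trans (le_of_eq ?_))
      ring
    refine ⟨h9, ?_⟩
    have e4 : ((t⁻¹ ^ 2 : ℝ) : ℂ) • K.Ps t (scl (r t) y) =
        (((t⁻¹ ^ 2 : ℝ) : ℂ) • K.Ps t (scl (r t) y) -
        ((Real.exp (-perp2 y) : ℝ) : ℂ) • K.xi (pr y)) +
        ((Real.exp (-perp2 y) : ℝ) : ℂ) • K.xi (pr y) := by abel
    rw [e4]
    refine (norm_add_le _ _).trans ?_
    rw [norm_exp_smul]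
    have h10 : ‖K.xi (pr y)‖ ≤ C * WW y := h2.trans (by gcongr)
    have h11 : t⁻¹ * (Real.exp (-perp2 y) * (2 * C * WW y)) ≤
        1 * (Real.exp (-perp2 y) * (2 * C * WW y)) := by gcongr
    calc _ ≤ 1 * (Real.exp (-perp2 y) * (2 * C * WW y)) + Real.exp (-perp2 y) * (C * WW y) :=
          add_le_add (h9.trans h11) (by gcongr)
      _ = _ := by ring
  have htop : Tendsto (fun t : ℝ => t⁻¹) atTop (𝓝 0) := tendsto_inv_atTop_zero
  have hrt : Tendsto r atTop (𝓝 0) := by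
    have h1 : Tendsto Real.sqrt atTop atTop := Real.tendsto_sqrt_atTop
    exact tendsto_inv_atTop_zero.comp h1
  -- the majorant
  have hint : Integrable fun y : X3 => (3 * C * C' * 16) *
      ((1 + ze y) ^ 4 * Real.exp (-(1 / 2) * perp2 y) * B0 y) :=
    (integrable_J (by norm_num : (0 : ℝ) < 1 / 2)).const_mul _
  have hmain : Tendsto (fun t : ℝ => ∫ y, f t y) atTop
      (𝓝 (∫ x, (Real.exp (-perp2 x) : ℂ) * inner ℂ (K.xi (pr x)) (Φ (pr x)))) := by
    refine tendsto_integral_filter_of_dominated_convergence _ ?_ ?_ hint ?_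
    · filter_upwards with t
      have hc : Continuous fun y => scl (r t) y :=
        continuous_scl.comp (Continuous.prodMk_right (r t))
      have hP := (K.contDiff_Ps t).continuous.comp hc
      have hcont : Continuous (f t) := by
        simp only [hf]
        exact (hP.const_smul _).inner (hΦ.comp hc)
      exact hcont.aestronglyMeasurable
    · filter_upwards [eventually_ge_atTop 1] with t ht
      refine Eventually.of_forall fun y => ?_
      have ht0 : 0 < t := by linarith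
      have hp := perp2_nonneg y
      have hz := ze_nonneg y
      have hB := B0_nonneg y
      have h1 := (hkey t ht y).2
      have h2 : ‖Φ (scl (r t) y)‖ ≤ C' * ((1 + ze y) * (1 + Real.sqrt (perp2 y))) := by
        refine (hΦb _).trans (mul_le_mul_of_nonneg_left ?_ hC')
        have h3 : Real.sqrt (phsq (scl (r t) y)) ≤ Real.sqrt (perp2 y) + ze y := by
          apply Real.sqrt_le_iff.2
          refine ⟨by positivity, ?_⟩
          rw [phsq_eq, perp2_scl, r3_scl, hr2 t ht0]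
          have h4 : Real.sqrt (perp2 y) ^ 2 = perp2 y := Real.sq_sqrt hp
          have h5 : ze y ^ 2 = r3 y := by
            unfold ze
            rw [Real.sq_sqrt]
            unfold r3
            positivity
          have h6 : t⁻¹ * perp2 y ≤ 1 * perp2 y := by
            gcongr
            exact inv_le_one_of_one_le₀ ht
          have h7 : 0 ≤ Real.sqrt (perp2 y) * ze y := by positivity
          nlinarith only [h4, h5, h6, h7]
        have h7 : 0 ≤ Real.sqrt (perp2 y) * ze y := by positivity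
        nlinarith only [h3, h7]
      have hE := (Real.exp_pos (-perp2 y)).le
      have hW := WW_nonneg y
      simp only [hf]
      calc ‖(inner ℂ (((t⁻¹ ^ 2 : ℝ) : ℂ) • K.Ps t (scl (r t) y)) (Φ (scl (r t) y)) : ℂ)‖
          ≤ ‖((t⁻¹ ^ 2 : ℝ) : ℂ) • K.Ps t (scl (r t) y)‖ * ‖Φ (scl (r t) y)‖ :=
            norm_inner_le_norm _ _
        _ ≤ (Real.exp (-perp2 y) * (3 * C * WW y)) *
            (C' * ((1 + ze y) * (1 + Real.sqrt (perp2 y)))) := by gcongr
        _ = (3 * C * C') * (((1 + Real.sqrt (perp2 y)) ^ 3 * Real.exp (-perp2 y)) *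
            ((1 + ze y) ^ 4 * B0 y)) := by
            unfold WW
            ring
        _ ≤ (3 * C * C') * ((16 * Real.exp (-(1 / 2) * perp2 y)) * ((1 + ze y) ^ 4 * B0 y)) := by
            have h5 := gauss_three hp
            exact mul_le_mul_of_nonneg_left (mul_le_mul_of_nonneg_right h5 (by positivity))
              (by positivity)
        _ = _ := by ring
    · refine Eventually.of_forall fun y => ?_
      have h1 : Tendsto (fun t : ℝ => ((t⁻¹ ^ 2 : ℝ) : ℂ) • K.Ps t (scl (r t) y)) atTop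
          (𝓝 (((Real.exp (-perp2 y) : ℝ) : ℂ) • K.xi (pr y))) := by
        rw [tendsto_iff_norm_sub_tendsto_zero]
        have h2 : Tendsto (fun t : ℝ => t⁻¹ * (Real.exp (-perp2 y) * (2 * C * WW y))) atTop
            (𝓝 0) := by
          have := htop.mul_const (Real.exp (-perp2 y) * (2 * C * WW y))
          rwa [zero_mul] at this
        refine squeeze_zero' (Eventually.of_forall fun t => norm_nonneg _) ?_ h2
        filter_upwards [eventually_ge_atTop 1] with t ht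
        exact (hkey t ht y).1
      have h3 : Tendsto (fun t : ℝ => Φ (scl (r t) y)) atTop (𝓝 (Φ (pr y))) := by
        rw [← scl_zero]
        have hc : Continuous fun ρ => Φ (scl ρ y) :=
          hΦ.comp (continuous_scl.comp (Continuous.prodMk_left y))
        exact (hc.tendsto 0).comp hrt
      have h4 := h1.inner (𝕜 := ℂ) h3
      rw [inner_smul_left, Complex.conj_ofReal] at h4
      exact h4
  exact (tendsto_congr' hev).2 hmain

end Fk

end Vale.Agent.P353.Ex
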