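import Vale.Agent.P353.Ex.SpinDef
import Vale.Agent.P353.BridgeA

open MeasureTheory Filter Topology
open scoped ContDiff ComplexConjugate

namespace Vale.Agent.P353.Ex

variable {F : Type*} [NormedAddCommGroup F] [InnerProductSpace ℂ F]

/-- the Fock data `K` come from the model `M` (Pauli basis) and the spinor `s` -/
structure Link (M : Model 2 3 F) (s : Spin M.γ) (K : Fk F) : Prop where
  hT : M.T = pauliT
  c_eq : ∀ i A, K.c i A = ∑ α, s.u i α • M.θ α A
  a_eq : ∀ i A, K.a i A = ∑ α, conj (s.u i α) • M.θ α A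
  t_eq : K.t = s.t
  sg_eq : K.sg = 1
  f_eq : ∀ A B C, M.f A B C = K.f0 * (eps A B C : ℝ)
  S_eq : K.S = M.S
  pair : K.PairNe

end Vale.Agent.P353.Ex
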