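import Vale.Agent.P353.Ex.Defs
import Vale.Agent.P353.Gauge

/-! Task EX-01: reduction to the Pauli basis.

Proof.  `T_A = ∑_B O_{BA} T'_B` with `T' = pauliT` and `O ∈ O(3)`, `O_{BA} = Re tr(T'_B T_A)`.
Put `θ'^B = ∑_A O_{BA} θ^A`, same `γ`, `S`; `f'` = structure constants of `pauliT`
(`f'_{ABC} = √2 ε_{ABC}`, see `Vale.Agent.P353.eps`).  `x' = O x` is a linear isometry of `X3`;
`Q_α (u' ∘ O) = (Q'_α u') ∘ O`, `act` corresponds to `act'`, `form`, `IsCore` and
`IsZeroEnergyState` are transported by composition with the isometry (`LinearIsometryEquiv`,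
measure preserving). -/

open MeasureTheory Filter Topology
open scoped ContDiff ComplexConjugate

namespace Vale.Agent.P353.Ex

variable {F : Type*} [NormedAddCommGroup F] [InnerProductSpace ℂ F]

lemma pauliEx_s : ((Real.sqrt 2)⁻¹ : ℂ) * ((Real.sqrt 2)⁻¹ : ℂ) = 1 / 2 := by
  rw [← mul_inv, sqrt2_sq]
  norm_num

lemma pauliEx_herm (A : Fin 3) : (pauliT A).conjTranspose = pauliT A := by
  fin_cases A <;> ext i j <;> fin_cases i <;> fin_cases j <;>
    simp [pauliT_zero, pauliT_one, pauliT_two, Matrix.conjTranspose_apply]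

lemma pauliEx_trace (A : Fin 3) : (pauliT A).trace = 0 := by
  fin_cases A <;> simp [pauliT_zero, pauliT_one, pauliT_two, Matrix.trace_fin_two]

lemma pauliEx_orth (A B : Fin 3) : (pauliT A * pauliT B).trace = if A = B then 1 else 0 := by
  have h := pauliEx_s
  have hI := Complex.I_mul_I
  fin_cases A <;> fin_cases B <;>
    simp [pauliT_zero, pauliT_one, pauliT_two, Matrix.trace_fin_two] <;>
    first
      | linear_combination 2 * h
      | linear_combination 2 * h - 2 * ((Real.sqrt 2)⁻¹ : ℂ) ^ 2 * hI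

/-- completeness -/
lemma pauliEx_complete (X : Matrix (Fin 2) (Fin 2) ℂ) (h1 : X.conjTranspose = X)
    (h2 : X.trace = 0) : X = ∑ B, (((pauliT B * X).trace.re : ℝ) : ℂ) • pauliT B := by
  obtain ⟨a, p, q, rfl⟩ : ∃ a p q : ℝ, X = !![(a : ℂ), p + q * Complex.I; p - q * Complex.I, -a] := by
    refine ⟨(X 0 0).re, (X 0 1).re, (X 0 1).im, ?_⟩
    have e00 := congrFun (congrFun h1 0) 0
    have e10 := congrFun (congrFun h1 1) 0
    rw [Matrix.conjTranspose_apply, RCLike.star_def] at e00 e10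
    rw [Matrix.trace_fin_two] at h2
    have e1 : X 0 0 = ((X 0 0).re : ℂ) := by
      have := Complex.conj_eq_iff_re.1 e00
      exact this.symm
    have e2 : X 0 1 = ((X 0 1).re : ℂ) + ((X 0 1).im : ℂ) * Complex.I :=
      (Complex.re_add_im _).symm
    have e3 : X 1 0 = ((X 0 1).re : ℂ) - ((X 0 1).im : ℂ) * Complex.I := by
      rw [← e10]
      apply Complex.ext <;> simp
    have e4 : X 1 1 = -((X 0 0).re : ℂ) := by
      rw [← e1]
      linear_combination h2
    ext i j
    fin_cases i <;> fin_cases j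
    · exact e1
    · exact e2
    · exact e3
    · exact e4
  have h := pauliEx_s
  have hI := Complex.I_mul_I
  have hs : Real.sqrt 2 / 2 = (Real.sqrt 2)⁻¹ := Real.sqrt_div_self
  have t0 : (pauliT 0 * !![(a : ℂ), p + q * Complex.I; p - q * Complex.I, -a]).trace.re =
      (Real.sqrt 2)⁻¹ * (2 * p) := by
    simp [pauliT_zero, pauliT_one, pauliT_two, Matrix.trace_fin_two]
    linear_combination (2 * p) * hs
  have t1 : (pauliT 1 * !![(a : ℂ), p + q * Complex.I; p - q * Complex.I, -a]).trace.re =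
      -((Real.sqrt 2)⁻¹ * (2 * q)) := by
    simp [pauliT_zero, pauliT_one, pauliT_two, Matrix.trace_fin_two]
    linear_combination (-2 * q) * hs
  have t2 : (pauliT 2 * !![(a : ℂ), p + q * Complex.I; p - q * Complex.I, -a]).trace.re =
      (Real.sqrt 2)⁻¹ * (2 * a) := by
    simp [pauliT_zero, pauliT_one, pauliT_two, Matrix.trace_fin_two]
    linear_combination (2 * a) * hs
  rw [Fin.sum_univ_three, t0, t1, t2]
  ext i j
  fin_cases i <;> fin_cases j <;>
    simp [pauliT_zero, pauliT_one, pauliT_two]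
  · linear_combination (-2 * (a : ℂ)) * h
  · linear_combination (-2 * (p + q * Complex.I)) * h
  · linear_combination (-2 * (p - q * Complex.I)) * h
  · linear_combination (-2 * (a : ℂ)) * h


/-! ### the change of basis -/

section Alg

variable (M : Model 2 3 F)

/-- the orthogonal matrix of the change of basis -/
noncomputable def pauliExR : Matrix (Fin 3) (Fin 3) ℝ :=
  Matrix.of fun B A => (pauliT B * M.T A).trace.re

lemma pauliEx_T (A : Fin 3) : M.T A = ∑ B, ((pauliExR M B A : ℝ) : ℂ) • pauliT B :=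
  pauliEx_complete _ (M.T_hermitian A) (M.T_traceless A)

lemma pauliEx_RtR : (pauliExR M).transpose * pauliExR M = 1 := by
  ext A C
  have h1 := M.T_orthonormal A C
  rw [pauliEx_T M A, pauliEx_T M C] at h1
  simp only [Finset.sum_mul, Finset.mul_sum, Matrix.trace_sum, Matrix.smul_mul, Matrix.mul_smul,
    Matrix.trace_smul, pauliEx_orth, smul_eq_mul, mul_ite, mul_one, mul_zero,
    Finset.sum_ite_eq', Finset.mem_univ, if_true] at h1
  rw [Matrix.mul_apply, Matrix.one_apply]
  have h2 : (((∑ B, (pauliExR M).transpose A B * pauliExR M B C : ℝ)) : ℂ) =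
      ((if A = C then (1 : ℝ) else 0 : ℝ) : ℂ) := by
    have h3 : ((if A = C then (1 : ℝ) else 0 : ℝ) : ℂ) = if A = C then (1 : ℂ) else 0 := by
      split_ifs <;> simp
    rw [h3, ← h1, Complex.ofReal_sum]
    refine Finset.sum_congr rfl fun B _ => ?_
    rw [Complex.ofReal_mul, Matrix.transpose_apply]
    ring
  exact_mod_cast h2

lemma pauliEx_RRt : pauliExR M * (pauliExR M).transpose = 1 :=
  mul_eq_one_comm.1 (pauliEx_RtR M)

lemma pauliEx_col (A C : Fin 3) : ∑ B, pauliExR M B A * pauliExR M B C = if A = C then 1 else 0 := by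
  have h := congrFun (congrFun (pauliEx_RtR M) A) C
  rw [Matrix.mul_apply, Matrix.one_apply] at h
  exact h

lemma pauliEx_row (A C : Fin 3) : ∑ B, pauliExR M A B * pauliExR M C B = if A = C then 1 else 0 := by
  have h := congrFun (congrFun (pauliEx_RRt M) A) C
  rw [Matrix.mul_apply, Matrix.one_apply] at h
  exact h

variable {V : Type*} [AddCommGroup V] [Module ℂ V]

/-- inversion of the change of basis -/
lemma pauliEx_inv {t t' : Fin 3 → V} (h : ∀ B, t' B = ∑ A, ((pauliExR M B A : ℝ) : ℂ) • t A)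
    (A : Fin 3) : t A = ∑ B, ((pauliExR M B A : ℝ) : ℂ) • t' B := by
  simp only [h, Finset.smul_sum, smul_smul]
  rw [Finset.sum_comm]
  have h1 : ∀ C, ∑ B, (((pauliExR M B A : ℝ) : ℂ) * ((pauliExR M B C : ℝ) : ℂ)) • t C =
      if A = C then t C else 0 := by
    intro C
    rw [← Finset.sum_smul]
    have h2 := pauliEx_col M A C
    have h3 : ∑ B, ((pauliExR M B A : ℝ) : ℂ) * ((pauliExR M B C : ℝ) : ℂ) =
        ((∑ B, pauliExR M B A * pauliExR M B C : ℝ) : ℂ) := by push_cast; rfl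
    rw [h3, h2]
    split_ifs <;> simp
  simp only [h1, Finset.sum_ite_eq, Finset.mem_univ, if_true]

/-- and back -/
lemma pauliEx_inv' {t t' : Fin 3 → V} (h : ∀ A, t A = ∑ B, ((pauliExR M B A : ℝ) : ℂ) • t' B)
    (B : Fin 3) : t' B = ∑ A, ((pauliExR M B A : ℝ) : ℂ) • t A := by
  simp only [h, Finset.smul_sum, smul_smul]
  rw [Finset.sum_comm]
  have h1 : ∀ C, ∑ A, (((pauliExR M B A : ℝ) : ℂ) * ((pauliExR M C A : ℝ) : ℂ)) • t' C =
      if B = C then t' C else 0 := by
    intro C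
    rw [← Finset.sum_smul]
    have h2 := pauliEx_row M B C
    have h3 : ∑ A, ((pauliExR M B A : ℝ) : ℂ) * ((pauliExR M C A : ℝ) : ℂ) =
        ((∑ A, pauliExR M B A * pauliExR M C A : ℝ) : ℂ) := by push_cast; rfl
    rw [h3, h2]
    split_ifs <;> simp
  simp only [h1, Finset.sum_ite_eq, Finset.mem_univ, if_true]

lemma pauliEx_T' (B : Fin 3) : pauliT B = ∑ A, ((pauliExR M B A : ℝ) : ℂ) • M.T A :=
  pauliEx_inv' M (pauliEx_T M) B

/-- triple indices -/
abbrev pauliExI : Type := Fin 3 × Fin 3 × Fin 3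

/-- coefficients of the change of basis of tensors -/
noncomputable def pauliExR3 (p q : pauliExI) : ℝ :=
  pauliExR M p.1 q.1 * pauliExR M p.2.1 q.2.1 * pauliExR M p.2.2 q.2.2

/-- transformed structure constants -/
noncomputable def pauliExf (A B C : Fin 3) : ℝ :=
  ∑ q : pauliExI, pauliExR3 M (A, B, C) q * M.f q.1 q.2.1 q.2.2

lemma pauliEx_sum3 {W : Type*} [AddCommMonoid W] (g : Fin 3 → Fin 3 → Fin 3 → W) :
    ∑ A, ∑ B, ∑ C, g A B C = ∑ p : pauliExI, g p.1 p.2.1 p.2.2 := by
  simp only [Fintype.sum_prod_type]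

/-- invariance of the contraction with `f` -/
lemma pauliEx_contr {K K' : pauliExI → V}
    (h : ∀ q, K q = ∑ p, ((pauliExR3 M p q : ℝ) : ℂ) • K' p) :
    ∑ q : pauliExI, ((M.f q.1 q.2.1 q.2.2 : ℝ) : ℂ) • K q =
      ∑ p : pauliExI, ((pauliExf M p.1 p.2.1 p.2.2 : ℝ) : ℂ) • K' p := by
  simp only [h, Finset.smul_sum, smul_smul]
  rw [Finset.sum_comm]
  refine Finset.sum_congr rfl fun p _ => ?_
  rw [pauliExf, ← Finset.sum_smul]
  congr 1
  push_cast
  refine Finset.sum_congr rfl fun q _ => ?_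
  ring

lemma pauliEx_comm (A B : Fin 3) : pauliT A * pauliT B - pauliT B * pauliT A =
    ∑ C, (Complex.I * (pauliExf M A B C : ℂ)) • pauliT C := by
  have h1 : pauliT A * pauliT B - pauliT B * pauliT A = ∑ A', ∑ B', ∑ C',
      (Complex.I * ((pauliExR M A A' * pauliExR M B B' * M.f A' B' C' : ℝ) : ℂ)) • M.T C' := by
    have h2 : pauliT A * pauliT B - pauliT B * pauliT A = ∑ A', ∑ B',
        ((pauliExR M A A' * pauliExR M B B' : ℝ) : ℂ) • (M.T A' * M.T B' - M.T B' * M.T A') := by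
      conv_lhs => rw [pauliEx_T' M A, pauliEx_T' M B]
      simp only [Finset.sum_mul, Finset.mul_sum, Matrix.smul_mul, Matrix.mul_smul, smul_sub,
        Finset.sum_sub_distrib, smul_smul]
      congr 1
      · rw [Finset.sum_comm]
        refine Finset.sum_congr rfl fun A' _ => Finset.sum_congr rfl fun B' _ => ?_
        rw [Complex.ofReal_mul, mul_comm]
      · refine Finset.sum_congr rfl fun A' _ => Finset.sum_congr rfl fun B' _ => ?_
        rw [Complex.ofReal_mul]
    rw [h2]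
    refine Finset.sum_congr rfl fun A' _ => Finset.sum_congr rfl fun B' _ => ?_
    rw [M.T_comm, Finset.smul_sum]
    refine Finset.sum_congr rfl fun C' _ => ?_
    rw [smul_smul]
    congr 1
    push_cast
    ring
  have h3 : ∀ A' B' C', (Complex.I * ((pauliExR M A A' * pauliExR M B B' * M.f A' B' C' : ℝ) : ℂ)) •
      M.T C' = ∑ C, (Complex.I * ((pauliExR3 M (A, B, C) (A', B', C') * M.f A' B' C' : ℝ) : ℂ)) •
        pauliT C := by
    intro A' B' C'
    conv_lhs => rw [pauliEx_T M C']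
    rw [Finset.smul_sum]
    refine Finset.sum_congr rfl fun C _ => ?_
    rw [smul_smul, pauliExR3]
    congr 1
    push_cast
    ring
  rw [h1, pauliEx_sum3]
  simp only [h3]
  rw [Finset.sum_comm]
  refine Finset.sum_congr rfl fun C _ => ?_
  rw [← Finset.sum_smul, pauliExf]
  congr 1
  push_cast
  rw [Finset.mul_sum]

/-- the adjoint action in the new basis -/
lemma pauliEx_ad (U : SU2) (B A : Fin 3) : adCoeff pauliT U B A =
    ∑ B', ∑ A', pauliExR M B B' * pauliExR M A A' * adCoeff M.T U B' A' := by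
  rw [adCoeff]
  conv_lhs => rw [pauliEx_T' M A, pauliEx_T' M B]
  simp only [Finset.sum_mul, Finset.mul_sum, Matrix.smul_mul, Matrix.mul_smul, Matrix.trace_sum,
    Matrix.trace_smul, smul_smul, Complex.re_sum]
  rw [Finset.sum_comm]
  refine Finset.sum_congr rfl fun B' _ => Finset.sum_congr rfl fun A' _ => ?_
  rw [smul_eq_mul, ← Complex.ofReal_mul, Complex.re_ofReal_mul, adCoeff]
  ring

/-- the new Clifford generators -/
noncomputable def pauliExth (α : Fin 16) (B : Fin 3) : F →L[ℂ] F :=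
  ∑ A, ((pauliExR M B A : ℝ) : ℂ) • M.θ α A

lemma pauliEx_th (α : Fin 16) (A : Fin 3) :
    M.θ α A = ∑ B, ((pauliExR M B A : ℝ) : ℂ) • pauliExth M α B :=
  pauliEx_inv M (t := M.θ α) (t' := pauliExth M α) (fun _ => rfl) A

/-- the model in the Pauli basis -/
noncomputable def pauliExM : Model 2 3 F where
  dim_eq := M.dim_eq
  T := pauliT
  T_hermitian := pauliEx_herm
  T_traceless := pauliEx_trace
  T_orthonormal := pauliEx_orth
  f := pauliExf M
  T_comm := pauliEx_comm M
  γ := M.γ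
  γ_symm := M.γ_symm
  γ_anticomm := M.γ_anticomm
  θ := pauliExth M
  θ_selfAdjoint α A v w := by
    simp only [pauliExth, _root_.sum_apply, _root_.smul_apply, sum_inner, inner_sum,
      inner_smul_left, inner_smul_right, Complex.conj_ofReal, M.θ_selfAdjoint]
  θ_anticomm α A β B := by
    have h1 : pauliExth M α A * pauliExth M β B + pauliExth M β B * pauliExth M α A =
        ∑ A', ∑ B', (((pauliExR M A A' : ℝ) : ℂ) * ((pauliExR M B B' : ℝ) : ℂ)) •
          (M.θ α A' * M.θ β B' + M.θ β B' * M.θ α A') := by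
      simp only [pauliExth, Finset.sum_mul, Finset.mul_sum, smul_mul_smul_comm, smul_add,
        Finset.sum_add_distrib]
      refine congrArg₂ (· + ·) ?_ ?_
      · exact Finset.sum_comm
      · refine Finset.sum_congr rfl fun A' _ => Finset.sum_congr rfl fun B' _ => ?_
        rw [mul_comm]
    rw [h1]
    simp only [M.θ_anticomm]
    by_cases hab : α = β
    · simp only [hab, true_and, smul_ite, smul_zero, Finset.sum_ite_eq, Finset.mem_univ, if_true]
      rw [← Finset.sum_smul]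
      have h2 := pauliEx_row M A B
      have h3 : ∑ C, ((pauliExR M A C : ℝ) : ℂ) * ((pauliExR M B C : ℝ) : ℂ) =
          ((∑ C, pauliExR M A C * pauliExR M B C : ℝ) : ℂ) := by push_cast; rfl
      rw [h3, h2]
      split_ifs <;> simp
    · simp [hab]
  θ_irreducible W h := by
    refine M.θ_irreducible W fun α A v hv => ?_
    rw [pauliEx_th M α A]
    simp only [_root_.sum_apply, _root_.smul_apply]
    exact W.sum_mem fun B _ => W.smul_mem _ (h α B v hv)
  nontrivial := M.nontrivial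
  S := M.S
  S_isometry := M.S_isometry
  S_continuous := M.S_continuous
  S_rotates U α A := by
    have h1 : ∀ B', M.θ α B' * M.S U = ∑ B, ((pauliExR M B B' : ℝ) : ℂ) •
        (pauliExth M α B * M.S U) := by
      intro B'
      conv_lhs => rw [pauliEx_th M α B']
      simp only [Finset.sum_mul, smul_mul_assoc]
    have h2 : M.S U * pauliExth M α A = ∑ A', ∑ B', ∑ B,
        ((pauliExR M B B' * pauliExR M A A' * adCoeff M.T U B' A' : ℝ) : ℂ) •
          (pauliExth M α B * M.S U) := by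
      conv_lhs => rw [pauliExth]
      simp only [Finset.mul_sum, mul_smul_comm, M.S_rotates, h1, Finset.smul_sum, smul_smul]
      refine Finset.sum_congr rfl fun A' _ => Finset.sum_congr rfl fun B' _ =>
        Finset.sum_congr rfl fun B _ => ?_
      refine congrArg (· • _) ?_
      push_cast
      ring
    rw [h2]
    simp only [pauliEx_ad M, Complex.ofReal_sum, Finset.sum_smul]
    rw [Finset.sum_comm]
    refine (Finset.sum_congr rfl fun B' _ => Finset.sum_comm).trans ?_
    rw [Finset.sum_comm]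

lemma pauliExM_T : (pauliExM M).T = pauliT := rfl

/-! ### the isometry -/

omit [NormedAddCommGroup F] [InnerProductSpace ℂ F] in
/-- action of a matrix on the colour index -/
noncomputable def pauliExL (R : Matrix (Fin 3) (Fin 3) ℝ) : X3 →ₗ[ℝ] X3 where
  toFun x := WithLp.toLp 2 fun p => ∑ A, R p.2 A * x (p.1, A)
  map_add' x y := by
    ext p
    simp [mul_add, Finset.sum_add_distrib]
  map_smul' c x := by
    ext p
    simp only [PiLp.smul_apply, smul_eq_mul, RingHom.id_apply, Finset.mul_sum]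
    refine Finset.sum_congr rfl fun A _ => ?_
    ring

omit [NormedAddCommGroup F] [InnerProductSpace ℂ F] in
lemma pauliExL_apply (R : Matrix (Fin 3) (Fin 3) ℝ) (x : X3) (i : Fin 9) (B : Fin 3) :
    pauliExL R x (i, B) = ∑ A, R B A * x (i, A) := rfl

lemma pauliExL_comp (R Q : Matrix (Fin 3) (Fin 3) ℝ) (x : X3) :
    pauliExL R (pauliExL Q x) = pauliExL (R * Q) x := by
  ext ⟨i, B⟩
  simp only [pauliExL_apply, Matrix.mul_apply, Finset.mul_sum, Finset.sum_mul]
  rw [Finset.sum_comm]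
  refine Finset.sum_congr rfl fun A _ => Finset.sum_congr rfl fun C _ => ?_
  ring

lemma pauliExL_one (x : X3) : pauliExL 1 x = x := by
  ext ⟨i, B⟩
  simp [pauliExL_apply, Matrix.one_apply]

lemma pauliExL_norm (x : X3) : ‖pauliExL (pauliExR M) x‖ = ‖x‖ := by
  rw [EuclideanSpace.norm_eq, EuclideanSpace.norm_eq]
  refine congrArg Real.sqrt ?_
  rw [Fintype.sum_prod_type, Fintype.sum_prod_type]
  refine Finset.sum_congr rfl fun i _ => ?_
  simp only [Real.norm_eq_abs, sq_abs, pauliExL_apply]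
  have h1 : ∀ B, (∑ A, pauliExR M B A * x (i, A)) ^ 2 =
      ∑ A, ∑ C, (pauliExR M B A * pauliExR M B C) * (x (i, A) * x (i, C)) := by
    intro B
    rw [sq, Finset.sum_mul_sum]
    refine Finset.sum_congr rfl fun A _ => Finset.sum_congr rfl fun C _ => ?_
    ring
  simp only [h1]
  rw [Finset.sum_comm]
  refine Finset.sum_congr rfl fun A _ => ?_
  rw [Finset.sum_comm]
  simp only [← Finset.sum_mul, pauliEx_col, ite_mul, one_mul, zero_mul, Finset.sum_ite_eq,
    Finset.mem_univ, if_true]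
  ring

/-- the isometry `x ↦ O x` -/
noncomputable def pauliExρ : X3 ≃ₗᵢ[ℝ] X3 where
  toLinearEquiv :=
    { pauliExL (pauliExR M) with
      invFun := pauliExL (pauliExR M).transpose
      left_inv := fun x => by
        show pauliExL (pauliExR M).transpose (pauliExL (pauliExR M) x) = x
        rw [pauliExL_comp, pauliEx_RtR, pauliExL_one]
      right_inv := fun x => by
        show pauliExL (pauliExR M) (pauliExL (pauliExR M).transpose x) = x
        rw [pauliExL_comp, pauliEx_RRt, pauliExL_one] }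
  norm_map' := fun x => pauliExL_norm M x

lemma pauliExρ_apply (x : X3) : pauliExρ M x = pauliExL (pauliExR M) x := rfl

lemma pauliExρ_coord (x : X3) (i : Fin 9) (B : Fin 3) :
    pauliExρ M x (i, B) = ∑ A, pauliExR M B A * x (i, A) := rfl

lemma pauliExρ_inv (x : X3) (i : Fin 9) (A : Fin 3) :
    x (i, A) = ∑ B, pauliExR M B A * pauliExρ M x (i, B) := by
  have h : x = pauliExL (pauliExR M).transpose (pauliExρ M x) := by
    rw [pauliExρ_apply, pauliExL_comp, pauliEx_RtR, pauliExL_one]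
  conv_lhs => rw [h]
  rfl

lemma pauliExρ_act (U : SU2) (x : X3) :
    pauliExρ M (M.act U x) = (pauliExM M).act U (pauliExρ M x) := by
  have h1 : M.act U x = pauliExL (Matrix.of fun B A => adCoeff M.T U B A) x := rfl
  have h2 : (pauliExM M).act U (pauliExρ M x) =
      pauliExL (Matrix.of fun B A => adCoeff pauliT U B A) (pauliExρ M x) := rfl
  have h3 : (Matrix.of fun B A => adCoeff pauliT U B A) =
      pauliExR M * (Matrix.of fun B A => adCoeff M.T U B A) * (pauliExR M).transpose := by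
    ext B A
    rw [Matrix.mul_apply]
    simp only [Matrix.mul_apply, Matrix.of_apply, Matrix.transpose_apply, pauliEx_ad M,
      Finset.sum_mul]
    rw [Finset.sum_comm]
    refine Finset.sum_congr rfl fun A' _ => Finset.sum_congr rfl fun B' _ => ?_
    ring
  rw [h1, h2, h3, pauliExρ_apply, pauliExρ_apply, pauliExL_comp, pauliExL_comp, Matrix.mul_assoc,
    Matrix.mul_assoc, pauliEx_RtR, Matrix.mul_one]

lemma pauliExρ_single (i : Fin 9) (A : Fin 3) :
    pauliExρ M (EuclideanSpace.single (i, A) 1) =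
      ∑ B, pauliExR M B A • (EuclideanSpace.single (i, B) 1 : X3) := by
  ext ⟨j, C⟩
  have h1 : ∀ B : Fin 3, (EuclideanSpace.single (i, B) (1 : ℝ) : X3) (j, C) =
      if j = i ∧ C = B then 1 else 0 := by
    intro B
    rw [PiLp.single_apply]
    simp only [Prod.mk.injEq]
  have h2 : (∑ B, pauliExR M B A • (EuclideanSpace.single (i, B) 1 : X3)) (j, C) =
      ∑ B, pauliExR M B A * (if j = i ∧ C = B then 1 else 0) := by
    rw [WithLp.ofLp_sum, Finset.sum_apply]
    refine Finset.sum_congr rfl fun B _ => ?_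
    rw [PiLp.smul_apply, h1, smul_eq_mul]
  rw [pauliExρ_coord, h2]
  simp only [PiLp.single_apply, Prod.mk.injEq]
  by_cases hj : j = i
  · simp [hj]
  · simp [hj]

lemma pauliEx_pd (u : X3 → F) (i : Fin 9) (A : Fin 3) (x : X3) :
    pd i A (fun y => u (pauliExρ M y)) x =
      ∑ B, ((pauliExR M B A : ℝ) : ℂ) • pd i B u (pauliExρ M x) := by
  have h1 : fderiv ℝ (fun y => u (pauliExρ M y)) x =
      (fderiv ℝ u (pauliExρ M x)).comp ((pauliExρ M).toContinuousLinearEquiv : X3 →L[ℝ] X3) :=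
    (pauliExρ M).toContinuousLinearEquiv.comp_right_fderiv
  rw [pd, h1]
  show (fderiv ℝ u (pauliExρ M x)) (pauliExρ M (EuclideanSpace.single (i, A) 1)) = _
  rw [pauliExρ_single, map_sum]
  refine Finset.sum_congr rfl fun B _ => ?_
  rw [map_smul, pd, Complex.coe_smul]

/-- the potential term -/
lemma pauliEx_slot (q : pauliExI) (y z : Fin 3 → ℝ) (g : ℝ) (t : Fin 3 → V) :
    ∑ p : pauliExI, ((pauliExR3 M p q : ℝ) : ℂ) • (((y p.2.1 * z p.2.2 * g : ℝ) : ℂ) • t p.1) =
      ((((∑ B, pauliExR M B q.2.1 * y B) * (∑ C, pauliExR M C q.2.2 * z C) * g : ℝ)) : ℂ) •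
        ∑ A, ((pauliExR M A q.1 : ℝ) : ℂ) • t A := by
  rw [← pauliEx_sum3 (fun A B C => ((pauliExR3 M (A, B, C) q : ℝ) : ℂ) •
    (((y B * z C * g : ℝ) : ℂ) • t A)), Finset.smul_sum]
  refine Finset.sum_congr rfl fun A _ => ?_
  simp only [smul_smul, ← Finset.sum_smul]
  congr 1
  have h : ∑ B, ∑ C, pauliExR3 M (A, B, C) q * (y B * z C * g) =
      (∑ B, pauliExR M B q.2.1 * y B) * (∑ C, pauliExR M C q.2.2 * z C) * g * pauliExR M A q.1 := by
    rw [Finset.sum_mul_sum, Finset.sum_mul, Finset.sum_mul]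
    refine Finset.sum_congr rfl fun B _ => ?_
    rw [Finset.sum_mul, Finset.sum_mul]
    refine Finset.sum_congr rfl fun C _ => ?_
    rw [pauliExR3]
    ring
  rw [← Complex.ofReal_mul, ← h]
  push_cast
  rfl

lemma pauliEx_pot (f : Fin 3 → Fin 3 → Fin 3 → ℝ) (X : Fin 9 → Fin 3 → ℝ)
    (g : Fin 9 → Fin 9 → Fin 16 → ℝ) (t : Fin 16 → Fin 3 → V) :
    ∑ A, ∑ B, ∑ C, ∑ i, ∑ j, ∑ β, ((f A B C * X i B * X j C * g i j β : ℝ) : ℂ) • t β A =
      ∑ q : pauliExI, ((f q.1 q.2.1 q.2.2 : ℝ) : ℂ) •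
        ∑ i, ∑ j, ∑ β, ((X i q.2.1 * X j q.2.2 * g i j β : ℝ) : ℂ) • t β q.1 := by
  rw [pauliEx_sum3]
  refine Finset.sum_congr rfl fun q _ => ?_
  simp only [Finset.smul_sum, smul_smul]
  refine Finset.sum_congr rfl fun i _ => Finset.sum_congr rfl fun j _ =>
    Finset.sum_congr rfl fun β _ => ?_
  congr 1
  push_cast
  ring

lemma pauliEx_K (g : Fin 9 → Fin 9 → Fin 16 → ℝ) (v : F) (x : X3) (q : pauliExI) :
    ∑ i, ∑ j, ∑ β, ((x (i, q.2.1) * x (j, q.2.2) * g i j β : ℝ) : ℂ) • M.θ β q.1 v =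
      ∑ p : pauliExI, ((pauliExR3 M p q : ℝ) : ℂ) • ∑ i, ∑ j, ∑ β,
        ((pauliExρ M x (i, p.2.1) * pauliExρ M x (j, p.2.2) * g i j β : ℝ) : ℂ) •
          pauliExth M β p.1 v := by
  symm
  simp only [Finset.smul_sum]
  refine Finset.sum_comm.trans (Finset.sum_congr rfl fun i _ => ?_)
  refine Finset.sum_comm.trans (Finset.sum_congr rfl fun j _ => ?_)
  refine Finset.sum_comm.trans (Finset.sum_congr rfl fun β _ => ?_)
  have h1 := pauliEx_slot M q (fun B => pauliExρ M x (i, B)) (fun C => pauliExρ M x (j, C))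
    (g i j β) (fun A => pauliExth M β A v)
  have h2 : M.θ β q.1 v = ∑ A, ((pauliExR M A q.1 : ℝ) : ℂ) • pauliExth M β A v := by
    conv_lhs => rw [pauliEx_th M β q.1]
    simp only [_root_.sum_apply, _root_.smul_apply]
  rw [h1, h2, ← pauliExρ_inv, ← pauliExρ_inv]

lemma pauliEx_Q2 (g : Fin 9 → Fin 9 → Fin 16 → ℝ) (v : F) (x : X3) :
    ∑ A, ∑ B, ∑ C, ∑ i, ∑ j, ∑ β,
      ((M.f A B C * x (i, B) * x (j, C) * g i j β : ℝ) : ℂ) • M.θ β A v =
    ∑ A, ∑ B, ∑ C, ∑ i, ∑ j, ∑ β,
      ((pauliExf M A B C * pauliExρ M x (i, B) * pauliExρ M x (j, C) * g i j β : ℝ) : ℂ) •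
        pauliExth M β A v := by
  have h1 := pauliEx_pot M.f (fun i A => x (i, A)) g (fun β A => M.θ β A v)
  have h2 := pauliEx_pot (pauliExf M) (fun i A => pauliExρ M x (i, A)) g
    (fun β A => pauliExth M β A v)
  have h3 := pauliEx_contr M (K := fun q => ∑ i, ∑ j, ∑ β,
    ((x (i, q.2.1) * x (j, q.2.2) * g i j β : ℝ) : ℂ) • M.θ β q.1 v) (pauliEx_K M g v x)
  exact h1.trans (h3.trans h2.symm)

lemma pauliEx_Q1 (α : Fin 16) (u : X3 → F) (x : X3) :
    ∑ i, ∑ β, ∑ A, ((M.γ i α β : ℝ) : ℂ) • M.θ β A (pd i A (fun y => u (pauliExρ M y)) x) =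
      ∑ i, ∑ β, ∑ A, ((M.γ i α β : ℝ) : ℂ) • pauliExth M β A (pd i A u (pauliExρ M x)) := by
  refine Finset.sum_congr rfl fun i _ => Finset.sum_congr rfl fun β _ => ?_
  simp only [pauliEx_pd, map_sum, map_smul, pauliExth, _root_.sum_apply, _root_.smul_apply]
  rw [← Finset.smul_sum, ← Finset.smul_sum, Finset.sum_comm]

lemma pauliEx_Q (α : Fin 16) (u : X3 → F) (x : X3) :
    M.Q α (fun y => u (pauliExρ M y)) x = (pauliExM M).Q α u (pauliExρ M x) := by
  have e1 : (pauliExM M).γ2 = M.γ2 := rfl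
  have e2 : (pauliExM M).f = pauliExf M := rfl
  have e3 : (pauliExM M).θ = pauliExth M := rfl
  have e4 : (pauliExM M).γ = M.γ := rfl
  rw [Model.Q, Model.Q, e1, e2, e3, e4, pauliEx_Q1,
    pauliEx_Q2 M (fun i j β => M.γ2 i j α β) (u (pauliExρ M x)) x]

lemma pauliExρ_mp : MeasurePreserving (pauliExρ M) (volume : Measure X3) volume :=
  (pauliExρ M).measurePreserving

lemma pauliEx_int {G : Type*} [NormedAddCommGroup G] [NormedSpace ℝ G] (g : X3 → G) :
    ∫ x, g (pauliExρ M x) = ∫ x, g x :=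
  (pauliExρ_mp M).integral_comp (pauliExρ M).toHomeomorph.measurableEmbedding g

lemma pauliEx_form (φ u : X3 → F) :
    M.form (fun x => φ (pauliExρ M x)) (fun x => u (pauliExρ M x)) = (pauliExM M).form φ u := by
  rw [Model.form, Model.form]
  congr 1
  refine Finset.sum_congr rfl fun α _ => ?_
  simp only [pauliEx_Q]
  exact pauliEx_int M fun y => inner ℂ ((pauliExM M).Q α φ y) ((pauliExM M).Q α u y)

lemma pauliEx_core {u : X3 → F} (hu : (pauliExM M).IsCore u) :
    M.IsCore fun x => u (pauliExρ M x) := by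
  refine ⟨hu.1.comp (pauliExρ M).contDiff, hu.2.1.comp_homeomorph (pauliExρ M).toHomeomorph,
    fun U x => ?_⟩
  show u (pauliExρ M (M.act U x)) = M.S U (u (pauliExρ M x))
  rw [pauliExρ_act]
  exact hu.2.2 U (pauliExρ M x)

lemma pauliEx_core' {φ : X3 → F} (hφ : M.IsCore φ) :
    (pauliExM M).IsCore fun x => φ ((pauliExρ M).symm x) := by
  refine ⟨hφ.1.comp (pauliExρ M).symm.contDiff,
    hφ.2.1.comp_homeomorph (pauliExρ M).symm.toHomeomorph, fun U x => ?_⟩
  have h1 : (pauliExρ M).symm ((pauliExM M).act U x) = M.act U ((pauliExρ M).symm x) := by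
    rw [LinearIsometryEquiv.symm_apply_eq, pauliExρ_act, LinearIsometryEquiv.apply_symm_apply]
  show φ ((pauliExρ M).symm ((pauliExM M).act U x)) = M.S U (φ ((pauliExρ M).symm x))
  rw [h1]
  exact hφ.2.2 U ((pauliExρ M).symm x)

end Alg

theorem exists_pauli (M : Model 2 3 F) :
    ∃ M' : Model 2 3 F, M'.T = pauliT ∧
      ((∃ Ψ : Lp F 2 (volume : Measure X3), M'.IsZeroEnergyState Ψ ∧ Ψ ≠ 0) →
        ∃ Ψ : Lp F 2 (volume : Measure X3), M.IsZeroEnergyState Ψ ∧ Ψ ≠ 0) := by
  refine ⟨pauliExM M, rfl, ?_⟩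
  rintro ⟨Ψ, ⟨u, hu, h1, h2, h3⟩, hne⟩
  refine ⟨Lp.compMeasurePreserving (pauliExρ M) (pauliExρ_mp M) Ψ,
    ⟨fun n x => u n (pauliExρ M x), fun n => pauliEx_core M (hu n), ?_, ?_, ?_⟩, ?_⟩
  · refine h1.congr fun n => ?_
    rw [← pauliEx_int M]
    refine integral_congr_ae ?_
    filter_upwards [Lp.coeFn_compMeasurePreserving Ψ (pauliExρ_mp M)] with x hx
    rw [hx]
    rfl
  · refine h2.congr fun p => ?_
    exact (pauliEx_form M (u p.1 - u p.2) (u p.1 - u p.2)).symm
  · intro φ hφ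
    refine (h3 _ (pauliEx_core' M hφ)).congr fun n => ?_
    rw [← pauliEx_form M]
    simp only [LinearIsometryEquiv.symm_apply_apply]
  · intro h0
    apply hne
    have h4 : ‖Lp.compMeasurePreserving (pauliExρ M) (pauliExρ_mp M) Ψ‖ = ‖Ψ‖ :=
      Lp.norm_compMeasurePreserving Ψ (pauliExρ_mp M)
    rw [h0, norm_zero] at h4
    exact norm_eq_zero.1 h4.symm

end Vale.Agent.P353.Ex
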