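import Vale.Agent.P353.Ex.PosDef

/-! Task EX-20: reduction of the pairing to the top form coefficients `A3`, `A2`.

Adjoints of the factors of `K.flip.aT`: `(K.flip.eeT)† = K.eeT`, `(K.flip.rho)† = K.rho`,
`(K.flip.tau0)† = K.tau0`, `(K.flip.bet)† = -∏ (c_k^2 + f0 dκ_k)`, `conj (K.flip.ph 2) = K.ph 2`.
So `G = 4 z̄ z² e^{-expo - expo'} ⟨vacb, E ρ (-∏db⁺) τ c_7^1 c_7^0 τ ∏db ρ E vac⟩`.  Even elements
commute; `∏db⁺ ∏db = -∏(db⁺_k db_k) = -(-2 f0)^7 ∏ (c_k^2 dκ_k)`; `ρ² = 1 + (4i/m) q' c_7^2 μ` and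
the term without `c_7^2` does not contribute (if `Y` (anti)commutes with some `a_j` then
`⟨vacb, Y vac⟩ = ⟨a_j vacb, a_j Y vac⟩ = 0`, using `vacb = c_j a_j vacb`); `τ² = 4z² - (4z/m) ds ds̄`,
`E² = ∏(1 + (4i/m) q X_k Y_k)`, and by degree (again the same lemma, or: terms with too many or
too few `X, Y` vanish) only `4z² (4iq/m)³ e_3 - (4z/m) ds ds̄ (4iq/m)² e_2`, `e_j = B^j/j!`,
contributes.  `m = f0`, `f0² = 2`, `q = g z̄`. -/

open MeasureTheory Filter Topology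
open scoped ContDiff ComplexConjugate

namespace Vale.Agent.P353.Ex

variable {F : Type*} [NormedAddCommGroup F] [InnerProductSpace ℂ F]

/-! ### adjoint pairs -/

/-- `T'` is the adjoint of `T` -/
def PrAdj (T T' : F →L[ℂ] F) : Prop := ∀ v w, inner ℂ (T v) w = inner ℂ v (T' w)

theorem PrAdj.one : PrAdj (1 : F →L[ℂ] F) 1 := fun _ _ => rfl

theorem PrAdj.mul {T T' S S' : F →L[ℂ] F} (h : PrAdj T T') (h' : PrAdj S S') :
    PrAdj (T * S) (S' * T') := fun v w => by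
  rw [mul_apply_eq_comp, mul_apply_eq_comp, h, h']

theorem PrAdj.add {T T' S S' : F →L[ℂ] F} (h : PrAdj T T') (h' : PrAdj S S') :
    PrAdj (T + S) (T' + S') := fun v w => by
  rw [add_apply, add_apply, inner_add_left,
    inner_add_right, h, h']

theorem PrAdj.neg {T T' : F →L[ℂ] F} (h : PrAdj T T') : PrAdj (-T) (-T') := fun v w => by
  rw [neg_apply, neg_apply, inner_neg_left,
    inner_neg_right, h]

theorem PrAdj.sub {T T' S S' : F →L[ℂ] F} (h : PrAdj T T') (h' : PrAdj S S') :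
    PrAdj (T - S) (T' - S') := by
  rw [sub_eq_add_neg, sub_eq_add_neg]
  exact h.add h'.neg

theorem PrAdj.smul {T T' : F →L[ℂ] F} (h : PrAdj T T') (z : ℂ) :
    PrAdj (z • T) ((starRingEnd ℂ z) • T') := fun v w => by
  rw [smul_apply, smul_apply, inner_smul_left,
    inner_smul_right, h]

theorem PrAdj.sum {ι : Type*} (s : Finset ι) {T T' : ι → F →L[ℂ] F}
    (h : ∀ i, PrAdj (T i) (T' i)) : PrAdj (∑ i ∈ s, T i) (∑ i ∈ s, T' i) := by
  classical
  induction s using Finset.induction_on with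
  | empty =>
    intro v w
    simp
  | insert a s ha ih =>
    rw [Finset.sum_insert ha, Finset.sum_insert ha]
    exact (h a).add ih

theorem PrAdj.congr {T T' S' : F →L[ℂ] F} (h : PrAdj T T') (e : T' = S') : PrAdj T S' := e ▸ h

theorem PrAdj.ofFn {n : ℕ} {f g : Fin n → F →L[ℂ] F} (h : ∀ k, PrAdj (f k) (g k)) :
    PrAdj (List.ofFn f).prod ((List.ofFn g).reverse).prod := by
  induction n with
  | zero => simpa using PrAdj.one
  | succ n ih =>
    rw [List.ofFn_succ, List.ofFn_succ, List.reverse_cons, List.prod_cons, List.prod_append,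
      List.prod_singleton]
    exact (h 0).mul (ih fun k => h k.succ)

/-! ### list products -/

theorem pr_smul_ofFn {n : ℕ} (z : ℂ) (f : Fin n → F →L[ℂ] F) :
    (List.ofFn fun k => z • f k).prod = z ^ n • (List.ofFn f).prod := by
  induction n with
  | zero => simp
  | succ n ih =>
    rw [List.ofFn_succ, List.ofFn_succ, List.prod_cons, List.prod_cons, ih, smul_mul_smul_comm,
      pow_succ']

/-- binomial formula for a square zero element -/
theorem pr_binom {R : Type*} [Ring R] [Algebra ℂ R] {p S : R} (h : p * p = 0)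
    (hc : p * S = S * p) (j : ℕ) :
    (p + S) ^ (j + 1) = S ^ (j + 1) + ((j : ℂ) + 1) • (p * S ^ j) := by
  induction j with
  | zero => simp [add_comm]
  | succ j ih =>
    rw [pow_succ', ih]
    have e1 : p * (p * S ^ j) = 0 := by rw [← mul_assoc, h, zero_mul]
    have e2 : S * (p * S ^ j) = p * S ^ (j + 1) := by
      rw [← mul_assoc, ← hc, mul_assoc, ← pow_succ']
    rw [add_mul, mul_add, mul_add, mul_smul_comm, mul_smul_comm, e1, e2, smul_zero, add_zero,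
      ← pow_succ']
    push_cast
    rw [add_smul (((j : ℂ) + 1)) 1 (p * S ^ (j + 1)), one_smul]
    abel

/-- a product of `1 + p_k`, `p_k` commuting of square zero, is an exponential -/
theorem pr_exp {R : Type*} [Ring R] [Algebra ℂ R] {n : ℕ} (f : Fin n → R)
    (h : ∀ k, f k * f k = 0) (hc : ∀ k l, f k * f l = f l * f k) :
    (∑ k, f k) ^ (n + 1) = 0 ∧ (List.ofFn fun k => 1 + f k).prod =
      ∑ j ∈ Finset.range (n + 1), ((j.factorial : ℂ)⁻¹) • (∑ k, f k) ^ j := by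
  induction n with
  | zero => simp
  | succ n ih =>
    obtain ⟨ih1, ih2⟩ := ih (fun k => f k.succ) (fun k => h k.succ) (fun k l => hc k.succ l.succ)
    rw [List.ofFn_succ, List.prod_cons, ih2, Fin.sum_univ_succ]
    set S := ∑ k : Fin n, f k.succ with hS
    have hpS : f 0 * S = S * f 0 := by
      rw [hS, Finset.mul_sum, Finset.sum_mul]
      exact Finset.sum_congr rfl fun k _ => hc 0 k.succ
    constructor
    · rw [pr_binom (h 0) hpS, pow_succ, ih1]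
      simp
    · rw [Finset.sum_range_succ' _ (n + 1)]
      have e1 : ∀ j ∈ Finset.range (n + 1), (((j + 1).factorial : ℂ)⁻¹) • (f 0 + S) ^ (j + 1) =
          (((j + 1).factorial : ℂ)⁻¹) • S ^ (j + 1) + ((j.factorial : ℂ)⁻¹) • (f 0 * S ^ j) := by
        intro j _
        rw [pr_binom (h 0) hpS, smul_add, smul_smul]
        congr 2
        rw [Nat.factorial_succ]
        push_cast
        have h1 : ((j : ℂ) + 1) ≠ 0 := by exact_mod_cast Nat.succ_ne_zero j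
        have h2 : ((j.factorial : ℂ)) ≠ 0 := by exact_mod_cast Nat.factorial_ne_zero j
        field_simp
      rw [Finset.sum_congr rfl e1, Finset.sum_add_distrib, add_mul, one_mul]
      have e2 : ∑ j ∈ Finset.range (n + 1), ((j.factorial : ℂ)⁻¹) • (f 0 * S ^ j) =
          f 0 * ∑ j ∈ Finset.range (n + 1), ((j.factorial : ℂ)⁻¹) • S ^ j := by
        rw [Finset.mul_sum]
        exact Finset.sum_congr rfl fun j _ => (mul_smul_comm _ _ _).symm
      have e3 : ∑ j ∈ Finset.range (n + 1), (((j + 1).factorial : ℂ)⁻¹) • S ^ (j + 1) +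
          (((0 : ℕ).factorial : ℂ)⁻¹) • (f 0 + S) ^ 0 =
          ∑ j ∈ Finset.range (n + 1), ((j.factorial : ℂ)⁻¹) • S ^ j := by
        rw [Finset.sum_range_succ, ih1, smul_zero, add_zero, Finset.sum_range_succ' _ n]
        simp
      rw [e2, ← e3]
      abel

namespace Fk

variable (K : Fk F)

/-! ### odd and even elements -/

/-- the algebra generated by the creation operators -/
def prA : Subalgebra ℂ (F →L[ℂ] F) :=
  Algebra.adjoin ℂ (Set.range fun p : Fin 8 × Fin 3 => K.c p.1 p.2)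

/-- its commutant -/
def prZ : Subalgebra ℂ (F →L[ℂ] F) :=
  Subalgebra.centralizer ℂ (Set.range fun p : Fin 8 × Fin 3 => K.c p.1 p.2)

/-- the span of the creation operators -/
def prV : Submodule ℂ (F →L[ℂ] F) :=
  Submodule.span ℂ (Set.range fun p : Fin 8 × Fin 3 => K.c p.1 p.2)

theorem pr_cV (i : Fin 8) (A : Fin 3) : K.c i A ∈ K.prV :=
  Submodule.subset_span ⟨(i, A), rfl⟩

theorem pr_VA {u : F →L[ℂ] F} (hu : u ∈ K.prV) : u ∈ K.prA := by
  have h : K.prV ≤ Subalgebra.toSubmodule K.prA :=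
    Submodule.span_le.2 fun x hx => Algebra.subset_adjoin hx
  exact h hu

theorem pr_comm {T S : F →L[ℂ] F} (hT : T ∈ K.prZ) (hS : S ∈ K.prA) : T * S = S * T := by
  have h : K.prA ≤ Subalgebra.centralizer ℂ {T} := by
    refine Algebra.adjoin_le ?_
    rintro x hx
    rw [SetLike.mem_coe, Subalgebra.mem_centralizer_iff]
    rintro g rfl
    exact ((Subalgebra.mem_centralizer_iff ℂ).1 hT x hx).symm
  exact (Subalgebra.mem_centralizer_iff ℂ).1 (h hS) T rfl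

theorem pr_anti {u v : F →L[ℂ] F} (hu : u ∈ K.prV) (hv : v ∈ K.prV) : u * v + v * u = 0 := by
  induction hu using Submodule.span_induction with
  | mem x hx =>
    obtain ⟨p, rfl⟩ := hx
    induction hv using Submodule.span_induction with
    | mem y hy =>
      obtain ⟨r, rfl⟩ := hy
      exact K.cc _ _ _ _
    | zero => simp
    | add y z _ _ hy hz =>
      rw [mul_add, add_mul]
      calc _ = (K.c p.1 p.2 * y + y * K.c p.1 p.2) + (K.c p.1 p.2 * z + z * K.c p.1 p.2) := by abel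
        _ = 0 := by rw [hy, hz, add_zero]
    | smul a y _ hy => rw [mul_smul_comm, smul_mul_assoc, ← smul_add, hy, smul_zero]
  | zero => simp
  | add x y _ _ hx hy =>
    rw [add_mul, mul_add]
    calc _ = (x * v + v * x) + (y * v + v * y) := by abel
      _ = 0 := by rw [hx, hy, add_zero]
  | smul a x _ hx => rw [mul_smul_comm, smul_mul_assoc, ← smul_add, hx, smul_zero]

theorem pr_anti' {u v : F →L[ℂ] F} (hu : u ∈ K.prV) (hv : v ∈ K.prV) : u * v = -(v * u) :=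
  eq_neg_of_add_eq_zero_left (K.pr_anti hu hv)

theorem pr_sq {u : F →L[ℂ] F} (hu : u ∈ K.prV) : u * u = 0 := by
  have h := K.pr_anti hu hu
  rw [← two_smul ℂ] at h
  exact (smul_eq_zero.1 h).resolve_left two_ne_zero

theorem pr_mulZ {u v : F →L[ℂ] F} (hu : u ∈ K.prV) (hv : v ∈ K.prV) : u * v ∈ K.prZ := by
  refine (Subalgebra.mem_centralizer_iff ℂ).2 ?_
  rintro _ ⟨p, rfl⟩
  have h1 := K.pr_anti' (K.pr_cV p.1 p.2) hu
  have h2 := K.pr_anti' (K.pr_cV p.1 p.2) hv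
  show K.c p.1 p.2 * (u * v) = u * v * K.c p.1 p.2
  rw [← mul_assoc, h1, neg_mul, mul_assoc, h2, mul_neg, neg_neg, mul_assoc]

theorem pr_mulA {u v : F →L[ℂ] F} (hu : u ∈ K.prV) (hv : v ∈ K.prV) : u * v ∈ K.prA :=
  K.prA.mul_mem (K.pr_VA hu) (K.pr_VA hv)

theorem pr_listA {n : ℕ} {f : Fin n → F →L[ℂ] F} (h : ∀ k, f k ∈ K.prA) :
    (List.ofFn f).prod ∈ K.prA := by
  refine list_prod_mem fun x hx => ?_
  obtain ⟨k, rfl⟩ := (List.mem_ofFn' f x).1 hx
  exact h k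

theorem pr_listZ {n : ℕ} {f : Fin n → F →L[ℂ] F} (h : ∀ k, f k ∈ K.prZ) :
    (List.ofFn f).prod ∈ K.prZ := by
  refine list_prod_mem fun x hx => ?_
  obtain ⟨k, rfl⟩ := (List.mem_ofFn' f x).1 hx
  exact h k

theorem pr_listA' {n : ℕ} {f : Fin n → F →L[ℂ] F} (h : ∀ k, f k ∈ K.prA) :
    ((List.ofFn f).reverse).prod ∈ K.prA := by
  refine list_prod_mem fun x hx => ?_
  obtain ⟨k, rfl⟩ := (List.mem_ofFn' f x).1 (List.mem_reverse.1 hx)
  exact h k

theorem pr_listZ' {n : ℕ} {f : Fin n → F →L[ℂ] F} (h : ∀ k, f k ∈ K.prZ) :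
    ((List.ofFn f).reverse).prod ∈ K.prZ := by
  refine list_prod_mem fun x hx => ?_
  obtain ⟨k, rfl⟩ := (List.mem_ofFn' f x).1 (List.mem_reverse.1 hx)
  exact h k

theorem pr_zip {n : ℕ} {f g : Fin n → F →L[ℂ] F} (hf : ∀ k, f k ∈ K.prA)
    (hg : ∀ k, g k ∈ K.prA) (h : ∀ k, f k * g k ∈ K.prZ) :
    ((List.ofFn f).reverse).prod * (List.ofFn g).prod = (List.ofFn fun k => f k * g k).prod := by
  induction n with
  | zero => simp
  | succ n ih =>
    have ih' := ih (f := fun k => f k.succ) (g := fun k => g k.succ) (fun k => hf _)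
      (fun k => hg _) (fun k => h _)
    rw [List.ofFn_succ, List.ofFn_succ (f := g), List.ofFn_succ (f := fun k => f k * g k),
      List.reverse_cons, List.prod_append, List.prod_singleton, List.prod_cons, List.prod_cons,
      ← ih']
    have hc := K.pr_comm (h 0) (K.pr_listA' (f := fun k => f k.succ) fun k => hf _)
    rw [mul_assoc, ← mul_assoc (f 0) (g 0), ← mul_assoc, ← hc, mul_assoc]

/-! ### number operators -/

/-- number operator of the modes in `S` -/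
noncomputable def prN (S : Finset (Fin 8 × Fin 3)) : F →L[ℂ] F :=
  ∑ p ∈ S, K.c p.1 p.2 * K.a p.1 p.2

theorem pr_N_c (S : Finset (Fin 8 × Fin 3)) (i : Fin 8) (A : Fin 3) :
    K.prN S * K.c i A = K.c i A * K.prN S + (if (i, A) ∈ S then 1 else 0 : ℂ) • K.c i A := by
  have h : ∀ p : Fin 8 × Fin 3, K.c p.1 p.2 * K.a p.1 p.2 * K.c i A =
      K.c i A * (K.c p.1 p.2 * K.a p.1 p.2) + if p = (i, A) then K.c i A else 0 := by
    intro p
    have h1 := K.ac p.1 p.2 i A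
    have h2 := K.cc i A p.1 p.2
    have h3 : K.a p.1 p.2 * K.c i A = (if p.1 = i ∧ p.2 = A then 1 else 0) -
        K.c i A * K.a p.1 p.2 := by rw [← h1]; abel
    have h4 : K.c p.1 p.2 * K.c i A = - (K.c i A * K.c p.1 p.2) := by
      rw [eq_neg_iff_add_eq_zero, add_comm]; exact h2
    rw [mul_assoc, h3, mul_sub, ← mul_assoc (K.c p.1 p.2) (K.c i A), h4]
    by_cases hp : p = (i, A)
    · rw [if_pos hp, if_pos (by rw [hp]; exact ⟨rfl, rfl⟩), hp]
      simp only [mul_one, neg_mul, sub_neg_eq_add, mul_assoc]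
      abel
    · rw [if_neg hp, if_neg (fun hh => hp (Prod.ext hh.1 hh.2))]
      simp only [mul_zero, neg_mul, sub_neg_eq_add, mul_assoc, zero_add, add_zero]
  unfold prN
  rw [Finset.sum_mul, Finset.mul_sum, Finset.sum_congr rfl fun p _ => h p,
    Finset.sum_add_distrib]
  congr 1
  rw [Finset.sum_ite_eq']
  split_ifs <;> simp

theorem pr_N_vac (S : Finset (Fin 8 × Fin 3)) : K.prN S K.vac = 0 := by
  unfold prN
  rw [sum_apply]
  refine Finset.sum_eq_zero fun p _ => ?_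
  rw [mul_apply_eq_comp, K.a_vac, map_zero]

theorem pr_N_vacb (S : Finset (Fin 8 × Fin 3)) : K.prN S K.vacb = (S.card : ℂ) • K.vacb := by
  unfold prN
  rw [sum_apply]
  have h : ∀ p ∈ S, (K.c p.1 p.2 * K.a p.1 p.2) K.vacb = K.vacb := by
    intro p _
    have h1 := congrArg (fun T : F →L[ℂ] F => T K.vacb) (K.ac p.1 p.2 p.1 p.2)
    simp only [add_apply, mul_apply_eq_comp, K.c_vacb,
      map_zero, zero_add, and_self, if_true] at h1
    rw [mul_apply_eq_comp, h1]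
    rfl
  rw [Finset.sum_congr rfl h, Finset.sum_const, ← Nat.cast_smul_eq_nsmul ℂ]

theorem pr_N_adj (S : Finset (Fin 8 × Fin 3)) (v w : F) :
    inner ℂ (K.prN S v) w = inner ℂ v (K.prN S w) := by
  have h : PrAdj (K.prN S) (K.prN S) := by
    unfold prN
    refine PrAdj.sum S fun p => ?_
    have h1 : PrAdj (K.c p.1 p.2) (K.a p.1 p.2) := fun v w => K.adj _ _ v w
    have h2 : PrAdj (K.a p.1 p.2) (K.c p.1 p.2) := fun v w => K.flip.adj _ _ v w
    exact h1.mul h2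
  exact h v w

/-- `Y` has degree `d` in the modes of `S` -/
def PrD (S : Finset (Fin 8 × Fin 3)) (d : ℂ) (Y : F →L[ℂ] F) : Prop :=
  K.prN S * Y = Y * K.prN S + d • Y

variable {K} {S : Finset (Fin 8 × Fin 3)}

theorem PrD.c1 {i : Fin 8} {A : Fin 3} (h : (i, A) ∈ S) : K.PrD S 1 (K.c i A) := by
  have := K.pr_N_c S i A
  rwa [if_pos h] at this

theorem PrD.c0 {i : Fin 8} {A : Fin 3} (h : (i, A) ∉ S) : K.PrD S 0 (K.c i A) := by
  have := K.pr_N_c S i A
  rwa [if_neg h] at this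

theorem PrD.one : K.PrD S 0 1 := by simp [PrD]

theorem PrD.mul {d e : ℂ} {Y Z : F →L[ℂ] F} (hY : K.PrD S d Y) (hZ : K.PrD S e Z) :
    K.PrD S (d + e) (Y * Z) := by
  unfold PrD at *
  rw [← mul_assoc, hY, add_mul, mul_assoc, hZ, mul_add, mul_smul_comm, smul_mul_assoc, add_smul,
    mul_assoc, add_assoc, add_comm (e • _)]

theorem PrD.add {d : ℂ} {Y Z : F →L[ℂ] F} (hY : K.PrD S d Y) (hZ : K.PrD S d Z) :
    K.PrD S d (Y + Z) := by
  unfold PrD at *
  rw [mul_add, hY, hZ, add_mul, smul_add]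
  abel

theorem PrD.smul {d : ℂ} {Y : F →L[ℂ] F} (hY : K.PrD S d Y) (z : ℂ) :
    K.PrD S d (z • Y) := by
  unfold PrD at *
  rw [mul_smul_comm, hY, smul_add, smul_mul_assoc, smul_comm z d]

theorem PrD.neg {d : ℂ} {Y : F →L[ℂ] F} (hY : K.PrD S d Y) : K.PrD S d (-Y) := by
  have := hY.smul (-1)
  rwa [neg_one_smul] at this

theorem PrD.sub {d : ℂ} {Y Z : F →L[ℂ] F} (hY : K.PrD S d Y) (hZ : K.PrD S d Z) :
    K.PrD S d (Y - Z) := by
  rw [sub_eq_add_neg]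
  exact hY.add hZ.neg

theorem PrD.sum {ι : Type*} (s : Finset ι) {d : ℂ} {Y : ι → F →L[ℂ] F}
    (h : ∀ i ∈ s, K.PrD S d (Y i)) : K.PrD S d (∑ i ∈ s, Y i) := by
  unfold PrD
  rw [Finset.mul_sum, Finset.sum_mul, Finset.smul_sum, ← Finset.sum_add_distrib]
  exact Finset.sum_congr rfl fun i hi => h i hi

theorem PrD.pow {d : ℂ} {Y : F →L[ℂ] F} (hY : K.PrD S d Y) (n : ℕ) :
    K.PrD S (n * d) (Y ^ n) := by
  induction n with
  | zero => simpa using PrD.one (K := K) (S := S)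
  | succ n ih =>
    rw [pow_succ]
    have := ih.mul hY
    have e : ((n + 1 : ℕ) : ℂ) * d = n * d + d := by push_cast; ring
    rwa [e]

theorem PrD.ofFn {n : ℕ} {d : ℂ} {f : Fin n → F →L[ℂ] F} (h : ∀ k, K.PrD S d (f k)) :
    K.PrD S (n * d) (List.ofFn f).prod := by
  induction n with
  | zero => simpa using PrD.one (K := K) (S := S)
  | succ n ih =>
    rw [List.ofFn_succ, List.prod_cons]
    have := (h 0).mul (ih fun k => h k.succ)
    have e : ((n + 1 : ℕ) : ℂ) * d = d + n * d := by push_cast; ring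
    rwa [e]

/-- wrong degree: no pairing -/
theorem PrD.zero {d : ℂ} {Y : F →L[ℂ] F} (hY : K.PrD S d Y) (h : d ≠ S.card) :
    inner ℂ K.vacb (Y K.vac) = 0 := by
  have h1 : inner ℂ (K.prN S K.vacb) (Y K.vac) = inner ℂ K.vacb (K.prN S (Y K.vac)) :=
    K.pr_N_adj S _ _
  have h2 : K.prN S (Y K.vac) = d • Y K.vac := by
    have := congrArg (fun T : F →L[ℂ] F => T K.vac) hY
    simp only [add_apply, mul_apply_eq_comp,
      smul_apply, K.pr_N_vac, map_zero, zero_add] at this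
    exact this
  rw [h2, K.pr_N_vacb, inner_smul_left, inner_smul_right] at h1
  have h3 : (starRingEnd ℂ) (S.card : ℂ) = S.card := by simp
  rw [h3, ← sub_eq_zero, ← sub_mul] at h1
  rcases mul_eq_zero.1 h1 with h4 | h4
  · exact absurd (sub_eq_zero.1 h4).symm h
  · exact h4


variable (K) (x : X3)

/-! ### the elements of the pairing -/

theorem pr_cA (i : Fin 8) (A : Fin 3) : K.c i A ∈ K.prA := K.pr_VA (K.pr_cV i A)

theorem pr_muV : K.mu x ∈ K.prV := by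
  unfold mu
  refine Submodule.sum_mem _ fun i _ => Submodule.sub_mem _ ?_ ?_
  · exact Submodule.smul_mem _ _ (K.pr_cV _ _)
  · exact Submodule.smul_mem _ _ (K.pr_cV _ _)

theorem pr_dsV : K.ds x ∈ K.prV := by
  unfold ds
  refine Submodule.sum_mem _ fun i _ => Submodule.smul_mem _ _ (Submodule.add_mem _ ?_ ?_)
  · exact K.pr_cV _ _
  · exact Submodule.smul_mem _ _ (K.pr_cV _ _)

theorem pr_dsbV : K.dsb x ∈ K.prV := by
  unfold dsb
  refine Submodule.sum_mem _ fun i _ => Submodule.smul_mem _ _ (Submodule.sub_mem _ ?_ ?_)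
  · exact K.pr_cV _ _
  · exact Submodule.smul_mem _ _ (K.pr_cV _ _)

theorem pr_dkapV (k : Fin 7) : K.dkap k x ∈ K.prV := by
  unfold dkap
  refine Submodule.sum_mem _ fun i _ => Submodule.sum_mem _ fun j _ =>
    Submodule.smul_mem _ _ (Submodule.add_mem _ ?_ ?_)
  · exact Submodule.smul_mem _ _ (K.pr_cV _ _)
  · exact Submodule.smul_mem _ _ (K.pr_cV _ _)

/-- `c_k² + f0 dκ_k` -/
noncomputable def dbp (k : Fin 7) (x : X3) : F →L[ℂ] F :=
  K.c (e8 k) 2 + (K.f0 : ℂ) • K.dkap k x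

theorem pr_dbV (k : Fin 7) : K.db k x ∈ K.prV := by
  unfold db
  exact Submodule.sub_mem _ (K.pr_cV _ _) (Submodule.smul_mem _ _ (K.pr_dkapV x k))

theorem pr_dbpV (k : Fin 7) : K.dbp k x ∈ K.prV := by
  unfold dbp
  exact Submodule.add_mem _ (K.pr_cV _ _) (Submodule.smul_mem _ _ (K.pr_dkapV x k))

/-- `db⁺_k db_k = -2 f0 c_k² dκ_k` -/
theorem pr_dbp_db (k : Fin 7) :
    K.dbp k x * K.db k x = (-2 * (K.f0 : ℂ)) • (K.c (e8 k) 2 * K.dkap k x) := by
  have h1 := K.pr_sq (K.pr_cV (e8 k) 2)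
  have h2 := K.pr_sq (K.pr_dkapV x k)
  have h3 := K.pr_anti' (K.pr_dkapV x k) (K.pr_cV (e8 k) 2)
  unfold dbp db
  rw [add_mul, mul_sub, mul_sub, h1, smul_mul_assoc, smul_mul_assoc, mul_smul_comm, mul_smul_comm,
    h2, h3, smul_zero, smul_zero, sub_zero, zero_sub, smul_neg, ← sub_eq_add_neg, ← neg_add',
    ← two_smul ℂ, smul_smul, ← neg_smul]
  congr 1
  ring

/-- factors of `E` -/
noncomputable def prz : ℂ := 2 * Complex.I / (K.f0 : ℂ) * K.qq x

theorem pr_XY (k : Fin 7) : K.c (e8 k) 0 * K.c (e8 k) 1 ∈ K.prZ :=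
  K.pr_mulZ (K.pr_cV _ _) (K.pr_cV _ _)

theorem pr_XYA (k : Fin 7) : K.c (e8 k) 0 * K.c (e8 k) 1 ∈ K.prA :=
  K.pr_mulA (K.pr_cV _ _) (K.pr_cV _ _)

theorem pr_facZ (k : Fin 7) (z : ℂ) :
    (1 + z • (K.c (e8 k) 0 * K.c (e8 k) 1) : F →L[ℂ] F) ∈ K.prZ :=
  K.prZ.add_mem K.prZ.one_mem (K.prZ.smul_mem (K.pr_XY k) z)

theorem pr_facA (k : Fin 7) (z : ℂ) :
    (1 + z • (K.c (e8 k) 0 * K.c (e8 k) 1) : F →L[ℂ] F) ∈ K.prA :=
  K.prA.add_mem K.prA.one_mem (K.prA.smul_mem (K.pr_XYA k) z)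

theorem pr_XY_sq (k : Fin 7) :
    (K.c (e8 k) 0 * K.c (e8 k) 1) * (K.c (e8 k) 0 * K.c (e8 k) 1) = 0 := by
  rw [mul_assoc, ← mul_assoc (K.c (e8 k) 1), K.pr_anti' (K.pr_cV (e8 k) 1) (K.pr_cV (e8 k) 0),
    neg_mul, mul_assoc, K.pr_sq (K.pr_cV (e8 k) 1), mul_zero, neg_zero, mul_zero]

/-- `E²` (with the reversed product) is the exponential of `2 z B` -/
theorem pr_EE (z : ℂ) :
    ((List.ofFn fun k : Fin 7 => (1 + z • (K.c (e8 k) 0 * K.c (e8 k) 1) : F →L[ℂ] F)).reverse).prod *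
      (List.ofFn fun k : Fin 7 => (1 + z • (K.c (e8 k) 0 * K.c (e8 k) 1) : F →L[ℂ] F)).prod =
    ∑ j ∈ Finset.range 8, (((j.factorial : ℂ)⁻¹) * (2 * z) ^ j) • K.BB ^ j := by
  rw [K.pr_zip (fun k => K.pr_facA k z) (fun k => K.pr_facA k z)
    (fun k => K.prZ.mul_mem (K.pr_facZ k z) (K.pr_facZ k z))]
  have h : ∀ k : Fin 7, (1 + z • (K.c (e8 k) 0 * K.c (e8 k) 1) : F →L[ℂ] F) *
      (1 + z • (K.c (e8 k) 0 * K.c (e8 k) 1)) = 1 + (2 * z) • (K.c (e8 k) 0 * K.c (e8 k) 1) := by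
    intro k
    rw [mul_add, add_mul, add_mul, smul_mul_smul_comm, K.pr_XY_sq, smul_zero, add_zero, mul_one,
      one_mul, mul_one, add_assoc, ← add_smul, two_mul]
  simp only [h]
  have h2 := (pr_exp (R := F →L[ℂ] F) (fun k : Fin 7 => (2 * z) • (K.c (e8 k) 0 * K.c (e8 k) 1))
    (fun k => by rw [smul_mul_smul_comm, K.pr_XY_sq, smul_zero])
    (fun k l => by
      rw [smul_mul_smul_comm, smul_mul_smul_comm, K.pr_comm (K.pr_XY k) (K.pr_XYA l)])).2
  rw [h2]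
  refine Finset.sum_congr rfl fun j _ => ?_
  rw [← Finset.smul_sum, smul_pow, smul_smul]
  rfl

/-! ### adjoints of the flipped factors -/

theorem pr_adj_a (i : Fin 8) (A : Fin 3) : PrAdj (K.a i A) (K.c i A) :=
  fun v w => K.flip.adj i A v w

theorem pr_adj_mu : PrAdj (K.flip.mu x) (K.mu x) := by
  unfold mu
  refine PrAdj.sum _ fun i => ?_
  refine (((K.pr_adj_a (e8 i) 1).smul _).sub ((K.pr_adj_a (e8 i) 0).smul _)).congr ?_
  rw [Complex.conj_ofReal, Complex.conj_ofReal]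

theorem pr_adj_ds : PrAdj (K.flip.ds x) (K.dsb x) := by
  unfold ds dsb
  refine PrAdj.sum _ fun i => ?_
  refine (((K.pr_adj_a (e8 i) 0).add ((K.pr_adj_a (e8 i) 1).smul _)).smul _).congr ?_
  simp only [map_mul, map_add, Complex.conj_ofReal, Complex.conj_I, map_ofNat]
  rw [neg_smul, neg_mul, ← sub_eq_add_neg, ← sub_eq_add_neg]

theorem pr_adj_dsb : PrAdj (K.flip.dsb x) (K.ds x) := by
  unfold ds dsb
  refine PrAdj.sum _ fun i => ?_
  refine (((K.pr_adj_a (e8 i) 0).sub ((K.pr_adj_a (e8 i) 1).smul _)).smul _).congr ?_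
  simp only [map_mul, map_sub, Complex.conj_ofReal, Complex.conj_I, map_ofNat]
  rw [neg_smul, neg_mul, sub_neg_eq_add, sub_neg_eq_add]

theorem pr_adj_dkap (k : Fin 7) : PrAdj (K.flip.dkap k x) (-K.dkap k x) := by
  unfold dkap
  rw [← Finset.sum_neg_distrib]
  refine PrAdj.sum _ fun i => ?_
  rw [← Finset.sum_neg_distrib]
  refine PrAdj.sum _ fun j => ?_
  refine ((((K.pr_adj_a (e8 i) 0).smul _).add ((K.pr_adj_a (e8 j) 1).smul _)).smul _).congr ?_
  show (starRingEnd ℂ) (((-K.t k i j : ℝ) : ℂ)) • _ = _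
  rw [Complex.conj_ofReal, Complex.conj_ofReal, Complex.conj_ofReal, Complex.ofReal_neg, neg_smul]

theorem pr_adj_db (k : Fin 7) : PrAdj (K.flip.db k x) (K.dbp k x) := by
  unfold db dbp
  refine ((K.pr_adj_a (e8 k) 2).sub ((K.pr_adj_dkap x k).smul _)).congr ?_
  show _ - (starRingEnd ℂ) ((K.f0 : ℝ) : ℂ) • _ = _
  rw [Complex.conj_ofReal, smul_neg, sub_neg_eq_add]

theorem pr_adj_bet : PrAdj (K.flip.bet x) ((List.ofFn fun k : Fin 7 => K.dbp k x).reverse).prod :=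
  PrAdj.ofFn fun k => K.pr_adj_db x k

theorem pr_conj_phb (A : Fin 3) : (starRingEnd ℂ) (K.phb A x) = K.ph A x := by
  unfold ph phb
  simp only [map_sub, map_mul, Complex.conj_ofReal, Complex.conj_I]
  ring

theorem pr_flip_ph (A : Fin 3) : K.flip.ph A x = K.phb A x := by
  show (x (7, A) : ℂ) + Complex.I * ((-K.sg : ℝ) : ℂ) * (x (8, A) : ℂ) = _
  unfold phb
  push_cast
  ring

theorem pr_flip_phb (A : Fin 3) : K.flip.phb A x = K.ph A x := by
  show (x (7, A) : ℂ) - Complex.I * ((-K.sg : ℝ) : ℂ) * (x (8, A) : ℂ) = _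
  unfold ph
  push_cast
  ring

theorem pr_conj_ph (A : Fin 3) : (starRingEnd ℂ) (K.ph A x) = K.phb A x := by
  rw [← K.pr_conj_phb, Complex.conj_conj]

theorem pr_adj_tau : PrAdj (K.flip.tau0 x) (K.tau0 x) := by
  unfold tau0
  refine ((PrAdj.one.smul _).sub (((K.pr_adj_ds x).mul (K.pr_adj_dsb x)).smul _)).congr ?_
  rw [K.pr_flip_ph]
  show _ - (starRingEnd ℂ) (1 / ((K.f0 : ℝ) : ℂ)) • _ = _
  simp only [map_mul, map_div₀, map_one, map_ofNat, Complex.conj_ofReal, K.pr_conj_phb]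

theorem pr_adj_rho : PrAdj (K.flip.rho x) (K.rho x) := by
  unfold rho dpb
  refine (PrAdj.one.add (((((K.pr_adj_a 7 2).smul 2).mul (K.pr_adj_mu x))).smul _)).congr ?_
  show _ + (starRingEnd ℂ) (Complex.I / ((K.f0 : ℝ) : ℂ) * (qp x : ℂ)) • _ = _
  rw [mul_smul_comm, K.pr_anti' (K.pr_muV x) (K.pr_cV 7 2), smul_mul_assoc]
  simp only [map_mul, map_div₀, map_ofNat, Complex.conj_ofReal, Complex.conj_I]
  rw [smul_neg, smul_neg, ← neg_smul]
  congr 2
  ring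

theorem pr_adj_ee : PrAdj (K.flip.eeT x) ((List.ofFn fun k : Fin 7 =>
    (1 + K.prz x • (K.c (e8 k) 0 * K.c (e8 k) 1) : F →L[ℂ] F)).reverse).prod := by
  refine PrAdj.ofFn fun k => ?_
  refine (PrAdj.one.add (((K.pr_adj_a (e8 k) 0).mul (K.pr_adj_a (e8 k) 1)).smul _)).congr ?_
  rw [K.pr_anti' (K.pr_cV (e8 k) 1) (K.pr_cV (e8 k) 0), smul_neg, ← neg_smul]
  congr 2
  unfold prz qq
  rw [K.pr_flip_phb]
  show -(starRingEnd ℂ) (2 * Complex.I / ((K.f0 : ℝ) : ℂ) * _) = _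
  simp only [map_mul, map_div₀, map_ofNat, Complex.conj_ofReal, Complex.conj_I, K.pr_conj_ph]
  ring


/-! ### even elements of the pairing -/

theorem pr_tauZ : K.tau0 x ∈ K.prZ := by
  unfold tau0
  exact K.prZ.sub_mem (K.prZ.smul_mem K.prZ.one_mem _)
    (K.prZ.smul_mem (K.pr_mulZ (K.pr_dsV x) (K.pr_dsbV x)) _)

theorem pr_tauA : K.tau0 x ∈ K.prA := by
  unfold tau0
  exact K.prA.sub_mem (K.prA.smul_mem K.prA.one_mem _)
    (K.prA.smul_mem (K.pr_mulA (K.pr_dsV x) (K.pr_dsbV x)) _)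

theorem pr_rhoZ : K.rho x ∈ K.prZ := by
  unfold rho dpb
  rw [smul_mul_assoc]
  exact K.prZ.add_mem K.prZ.one_mem
    (K.prZ.smul_mem (K.prZ.smul_mem (K.pr_mulZ (K.pr_cV 7 2) (K.pr_muV x)) _) _)

theorem pr_rhoA : K.rho x ∈ K.prA := by
  unfold rho dpb
  rw [smul_mul_assoc]
  exact K.prA.add_mem K.prA.one_mem
    (K.prA.smul_mem (K.prA.smul_mem (K.pr_mulA (K.pr_cV 7 2) (K.pr_muV x)) _) _)

theorem pr_rho_sq : K.rho x * K.rho x =
    1 + (4 * (Complex.I / (K.f0 : ℂ) * (qp x : ℂ))) • (K.c 7 2 * K.mu x) := by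
  unfold rho dpb
  have h : (K.c 7 2 * K.mu x) * (K.c 7 2 * K.mu x) = 0 := by
    rw [mul_assoc, ← mul_assoc (K.mu x), K.pr_anti' (K.pr_muV x) (K.pr_cV 7 2),
      neg_mul, mul_assoc, K.pr_sq (K.pr_muV x), mul_zero, neg_zero, mul_zero]
  rw [smul_mul_assoc, smul_smul, mul_add, add_mul, add_mul, smul_mul_smul_comm, h, smul_zero,
    add_zero, mul_one, one_mul, mul_one, add_assoc, ← add_smul]
  congr 2
  ring

theorem pr_tau_sq : K.tau0 x * K.tau0 x = (4 * K.ph 2 x ^ 2) • (1 : F →L[ℂ] F) -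
    (4 * K.ph 2 x / (K.f0 : ℂ)) • (K.ds x * K.dsb x) := by
  unfold tau0
  have h : (K.ds x * K.dsb x) * (K.ds x * K.dsb x) = 0 := by
    rw [mul_assoc, ← mul_assoc (K.dsb x), K.pr_anti' (K.pr_dsbV x) (K.pr_dsV x),
      neg_mul, mul_assoc, K.pr_sq (K.pr_dsbV x), mul_zero, neg_zero, mul_zero]
  rw [mul_sub, sub_mul, sub_mul, smul_mul_smul_comm, smul_mul_smul_comm, smul_mul_smul_comm,
    smul_mul_smul_comm, h, smul_zero, sub_zero, mul_one, one_mul, mul_one, sub_sub, ← add_smul]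
  congr 2
  · ring
  · ring

/-- rearrangement of the even elements -/
theorem pr_rearr {E' P r t C B E : F →L[ℂ] F} (hE'Z : E' ∈ K.prZ) (hEZ : E ∈ K.prZ) (hrZ : r ∈ K.prZ) (hrA : r ∈ K.prA) (htZ : t ∈ K.prZ)
    (htA : t ∈ K.prA) (hCZ : C ∈ K.prZ) (hCA : C ∈ K.prA) (hP : P ∈ K.prA) (hB : B ∈ K.prA) :
    (E' * r * P * t * C) * (t * B * r * E) = (C * (r * r) * (t * t) * (E' * E)) * (P * B) := by
  have h1 : E' * r * P = P * (E' * r) := K.pr_comm (K.prZ.mul_mem hE'Z hrZ) hP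
  have h2 : (E' * r * t * C * t) * B = B * (E' * r * t * C * t) :=
    K.pr_comm (K.prZ.mul_mem (K.prZ.mul_mem (K.prZ.mul_mem (K.prZ.mul_mem hE'Z hrZ) htZ) hCZ) htZ)
      hB
  have h3 : E' * r * t * C * t * (r * E) = C * (r * r) * (t * t) * (E' * E) := by
    have c1 : E' * r = r * E' := K.pr_comm hE'Z hrA
    have c2 : E' * (t * C * t * r) = (t * C * t * r) * E' := K.pr_comm hE'Z
      (K.prA.mul_mem (K.prA.mul_mem (K.prA.mul_mem htA hCA) htA) hrA)
    have c3 : r * t * C * t * r = C * (r * r) * (t * t) := by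
      have d1 : r * (t * C * t) = (t * C * t) * r := K.pr_comm hrZ
        (K.prA.mul_mem (K.prA.mul_mem htA hCA) htA)
      have d2 : t * C = C * t := K.pr_comm htZ hCA
      have d3 : (t * t) * (r * r) = (r * r) * (t * t) := K.pr_comm (K.prZ.mul_mem htZ htZ)
        (K.prA.mul_mem hrA hrA)
      calc r * t * C * t * r = (r * (t * C * t)) * r := by simp only [mul_assoc]
        _ = (t * C) * t * r * r := by rw [d1]
        _ = C * ((t * t) * (r * r)) := by rw [d2]; simp only [mul_assoc]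
        _ = _ := by rw [d3]; simp only [mul_assoc]
    calc E' * r * t * C * t * (r * E) = (E' * r) * (t * C * t * r) * E := by simp only [mul_assoc]
      _ = r * (E' * (t * C * t * r)) * E := by rw [c1]; simp only [mul_assoc]
      _ = (r * t * C * t * r) * (E' * E) := by rw [c2]; simp only [mul_assoc]
      _ = _ := by rw [c3]
  have h4 : (P * B) * (C * (r * r) * (t * t) * (E' * E)) =
      (C * (r * r) * (t * t) * (E' * E)) * (P * B) :=
    (K.pr_comm (K.prZ.mul_mem (K.prZ.mul_mem (K.prZ.mul_mem hCZ (K.prZ.mul_mem hrZ hrZ))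
      (K.prZ.mul_mem htZ htZ)) (K.prZ.mul_mem hE'Z hEZ)) (K.prA.mul_mem hP hB)).symm
  calc (E' * r * P * t * C) * (t * B * r * E) = (E' * r * P) * t * C * t * B * (r * E) := by
        simp only [mul_assoc]
    _ = P * ((E' * r * t * C * t) * B) * (r * E) := by rw [h1]; simp only [mul_assoc]
    _ = (P * B) * (E' * r * t * C * t * (r * E)) := by rw [h2]; simp only [mul_assoc]
    _ = _ := by rw [h3, h4]

theorem pr_PB : ((List.ofFn fun k : Fin 7 => K.dbp k x).reverse).prod * K.bet x =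
    (-1024 * (K.f0 : ℂ)) • K.zk x := by
  unfold bet zk
  rw [K.pr_zip (fun k => K.pr_VA (K.pr_dbpV x k)) (fun k => K.pr_VA (K.pr_dbV x k))
    (fun k => K.pr_mulZ (K.pr_dbpV x k) (K.pr_dbV x k))]
  simp only [K.pr_dbp_db]
  rw [pr_smul_ofFn]
  congr 1
  have h : (K.f0 : ℂ) * (K.f0 : ℂ) = 2 := by
    rw [← Complex.ofReal_mul, K.f0_sq]; norm_num
  linear_combination (-128 * ((K.f0 : ℂ) ^ 5 + 2 * (K.f0 : ℂ) ^ 3 + 4 * (K.f0 : ℂ))) * h

/-! ### degrees -/

/-- the modes `c_k^A`, `k < 7`, `A < 2` -/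
def prS1 : Finset (Fin 8 × Fin 3) := Finset.univ.filter fun p => p.1 ≠ 7 ∧ p.2 ≠ 2

/-- the mode `c_7^2` -/
def prS2 : Finset (Fin 8 × Fin 3) := {(7, 2)}

theorem pr_card1 : prS1.card = 14 := by decide

theorem pr_card2 : prS2.card = 1 := by decide

theorem pr_mem1 (k : Fin 7) (A : Fin 3) (h : A ≠ 2) : (e8 k, A) ∈ prS1 := by
  simp only [prS1, Finset.mem_filter, Finset.mem_univ, true_and]
  exact ⟨fun h => absurd (congrArg Fin.val h) (by simpa using k.2.ne), h⟩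

theorem pr_nmem2 (k : Fin 7) (A : Fin 3) : (e8 k, A) ∉ prS2 := by
  simp only [prS2, Finset.mem_singleton, Prod.mk.injEq, not_and]
  exact fun h => absurd (congrArg Fin.val h) (by simpa using k.2.ne)

theorem pr_D1 (k : Fin 7) (A : Fin 3) (h : A ≠ 2) : K.PrD prS1 1 (K.c (e8 k) A) :=
  PrD.c1 (pr_mem1 k A h)

theorem pr_D2 (k : Fin 7) (A : Fin 3) : K.PrD prS2 0 (K.c (e8 k) A) :=
  PrD.c0 (pr_nmem2 k A)

theorem pr_D1_c2 (k : Fin 7) : K.PrD prS1 0 (K.c (e8 k) 2) :=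
  PrD.c0 (by simp [prS1])

theorem pr_D1_c7 (A : Fin 3) : K.PrD prS1 0 (K.c 7 A) :=
  PrD.c0 (by simp [prS1])

theorem pr_D1_mu : K.PrD prS1 1 (K.mu x) := by
  unfold mu
  exact PrD.sum _ fun i _ => ((K.pr_D1 i 1 (by decide)).smul _).sub
    ((K.pr_D1 i 0 (by decide)).smul _)

theorem pr_D_ds (S : Finset (Fin 8 × Fin 3)) (d : ℂ)
    (h : ∀ (k : Fin 7) (A : Fin 3), A ≠ 2 → K.PrD S d (K.c (e8 k) A)) : K.PrD S d (K.ds x) := by
  unfold ds
  exact PrD.sum _ fun i _ => ((h i 0 (by decide)).add ((h i 1 (by decide)).smul _)).smul _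

theorem pr_D_dsb (S : Finset (Fin 8 × Fin 3)) (d : ℂ)
    (h : ∀ (k : Fin 7) (A : Fin 3), A ≠ 2 → K.PrD S d (K.c (e8 k) A)) : K.PrD S d (K.dsb x) := by
  unfold dsb
  exact PrD.sum _ fun i _ => ((h i 0 (by decide)).sub ((h i 1 (by decide)).smul _)).smul _

theorem pr_D_dkap (S : Finset (Fin 8 × Fin 3)) (d : ℂ)
    (h : ∀ (k : Fin 7) (A : Fin 3), A ≠ 2 → K.PrD S d (K.c (e8 k) A)) (k : Fin 7) :
    K.PrD S d (K.dkap k x) := by
  unfold dkap
  exact PrD.sum _ fun i _ => PrD.sum _ fun j _ =>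
    (((h i 0 (by decide)).smul _).add ((h j 1 (by decide)).smul _)).smul _

theorem pr_D_BB (S : Finset (Fin 8 × Fin 3)) (d : ℂ)
    (h : ∀ (k : Fin 7) (A : Fin 3), A ≠ 2 → K.PrD S d (K.c (e8 k) A)) :
    K.PrD S (d + d) K.BB := by
  unfold BB
  exact PrD.sum _ fun k _ => (h k 0 (by decide)).mul (h k 1 (by decide))

theorem pr_D_zk (S : Finset (Fin 8 × Fin 3)) (d : ℂ)
    (h : ∀ (k : Fin 7) (A : Fin 3), A ≠ 2 → K.PrD S d (K.c (e8 k) A))
    (h2 : ∀ k : Fin 7, K.PrD S 0 (K.c (e8 k) 2)) :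
    K.PrD S ((7 : ℕ) * (0 + d)) (K.zk x) := by
  unfold zk
  exact PrD.ofFn fun k => (h2 k).mul (K.pr_D_dkap x S d h k)

/-- selection of the power of `B` by degree -/
theorem pr_sel {Q : F →L[ℂ] F} {d j₀ : ℕ} (hQ : K.PrD prS1 d Q) (h : d + 2 * j₀ = 7)
    (hj : j₀ < 8) (z : ℂ) :
    inner ℂ K.vacb ((Q * (∑ j ∈ Finset.range 8, (((j.factorial : ℂ)⁻¹) * z ^ j) • K.BB ^ j) *
      K.zk x) K.vac) =
    (((j₀.factorial : ℂ)⁻¹) * z ^ j₀) * inner ℂ K.vacb ((Q * K.BB ^ j₀ * K.zk x) K.vac) := by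
  rw [Finset.mul_sum, Finset.sum_mul, sum_apply, inner_sum]
  rw [Finset.sum_eq_single_of_mem j₀ (Finset.mem_range.2 hj)]
  · rw [mul_smul_comm, smul_mul_assoc, smul_apply, inner_smul_right]
  · intro j _ hne
    rw [mul_smul_comm, smul_mul_assoc, smul_apply, inner_smul_right]
    have h1 := (hQ.mul ((K.pr_D_BB prS1 1 (fun k A hA => K.pr_D1 k A hA)).pow j)).mul
      (K.pr_D_zk x prS1 1 (fun k A hA => K.pr_D1 k A hA) (fun k => K.pr_D1_c2 k))
    rw [PrD.zero h1, mul_zero]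
    rw [pr_card1]
    intro h2
    have h3 : ((d + 2 * j + 7 : ℕ) : ℂ) = ((14 : ℕ) : ℂ) := by
      rw [← h2]
      push_cast
      ring
    have h4 : d + 2 * j + 7 = 14 := by exact_mod_cast h3
    omega


/-! ### the pairing -/

/-- the reversed product of `E` -/
noncomputable def prEr : F →L[ℂ] F := ((List.ofFn fun k : Fin 7 =>
    (1 + K.prz x • (K.c (e8 k) 0 * K.c (e8 k) 1) : F →L[ℂ] F)).reverse).prod

/-- the reversed product of the `db⁺` -/
noncomputable def prP : F →L[ℂ] F := ((List.ofFn fun k : Fin 7 => K.dbp k x).reverse).prod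

theorem pr_flip_vac : K.flip.vac = K.vacb := rfl

theorem pr_pairing : inner ℂ (K.flip.dpb 0 (K.flip.dpb 1 (K.flip.aT x))) (K.aT x) =
    (((Real.exp (-K.flip.expo x) : ℝ) : ℂ) * K.ph 2 x) * (((Real.exp (-K.expo x) : ℝ) : ℂ) *
      K.ph 2 x) * inner ℂ K.vacb (((K.prEr x * K.rho x * K.prP x * K.tau0 x *
        ((-4 : ℂ) • (K.c 7 0 * K.c 7 1))) * (K.tau0 x * K.bet x * K.rho x * K.eeT x)) K.vac) := by
  have hM : PrAdj (K.flip.tau0 x * K.flip.bet x * K.flip.rho x * K.flip.eeT x)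
      (K.prEr x * (K.rho x * (K.prP x * K.tau0 x))) :=
    (((K.pr_adj_tau x).mul (K.pr_adj_bet x)).mul (K.pr_adj_rho x)).mul (K.pr_adj_ee x)
  have h7 : PrAdj (K.flip.dpb 0 * K.flip.dpb 1) ((-4 : ℂ) • (K.c 7 0 * K.c 7 1)) := by
    refine ((((K.pr_adj_a 7 0).smul 2).mul ((K.pr_adj_a 7 1).smul 2))).congr ?_
    rw [smul_mul_smul_comm, K.pr_anti' (K.pr_cV 7 1) (K.pr_cV 7 0), smul_neg, ← neg_smul]
    congr 1
    simp only [map_ofNat]
    norm_num
  have h := (h7.mul hM) K.vacb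
  have e1 : K.flip.dpb 0 (K.flip.dpb 1 (K.flip.aT x)) =
      (((Real.exp (-K.flip.expo x) : ℝ) : ℂ) * K.phb 2 x) •
        (K.flip.dpb 0 * K.flip.dpb 1 * (K.flip.tau0 x * K.flip.bet x * K.flip.rho x *
          K.flip.eeT x)) K.vacb := by
    unfold aT
    rw [K.pr_flip_ph, map_smul, map_smul, mul_apply_eq_comp (K.flip.dpb 0 * K.flip.dpb 1),
      mul_apply_eq_comp (K.flip.dpb 0), K.pr_flip_vac]
  have e2 : K.aT x = (((Real.exp (-K.expo x) : ℝ) : ℂ) * K.ph 2 x) •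
      (K.tau0 x * K.bet x * K.rho x * K.eeT x) K.vac := rfl
  rw [e1, e2, inner_smul_left, inner_smul_right, h, map_mul, Complex.conj_ofReal, K.pr_conj_phb,
    ← mul_assoc, ← mul_apply_eq_comp]
  simp only [mul_assoc]

theorem pr_value : inner ℂ K.vacb (((K.prEr x * K.rho x * K.prP x * K.tau0 x *
        ((-4 : ℂ) • (K.c 7 0 * K.c 7 1))) * (K.tau0 x * K.bet x * K.rho x * K.eeT x)) K.vac) =
    (4096 * (K.f0 : ℂ)) * (4 * (Complex.I / (K.f0 : ℂ) * (qp x : ℂ))) *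
      ((4 * K.ph 2 x ^ 2) * ((2 * K.prz x) ^ 3 * K.A3 x) -
        (4 * K.ph 2 x / (K.f0 : ℂ)) * ((2 * K.prz x) ^ 2 * K.A2 x)) := by
  have hE : K.eeT x = (List.ofFn fun k : Fin 7 =>
    (1 + K.prz x • (K.c (e8 k) 0 * K.c (e8 k) 1) : F →L[ℂ] F)).prod := rfl
  have hEE : K.prEr x * K.eeT x =
      ∑ j ∈ Finset.range 8, (((j.factorial : ℂ)⁻¹) * (2 * K.prz x) ^ j) • K.BB ^ j := by
    rw [hE]
    exact K.pr_EE (K.prz x)
  have m1 : K.prEr x ∈ K.prZ := K.pr_listZ' fun k => K.pr_facZ k (K.prz x)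
  have m2 : K.eeT x ∈ K.prZ := by
    rw [hE]
    exact K.pr_listZ fun k => K.pr_facZ k (K.prz x)
  have m3 : (-4 : ℂ) • (K.c 7 0 * K.c 7 1) ∈ K.prZ :=
    K.prZ.smul_mem (K.pr_mulZ (K.pr_cV 7 0) (K.pr_cV 7 1)) _
  have m4 : (-4 : ℂ) • (K.c 7 0 * K.c 7 1) ∈ K.prA :=
    K.prA.smul_mem (K.pr_mulA (K.pr_cV 7 0) (K.pr_cV 7 1)) _
  have m5 : K.prP x ∈ K.prA := K.pr_listA' fun k => K.pr_VA (K.pr_dbpV x k)
  have m6 : K.bet x ∈ K.prA := K.pr_listA fun k => K.pr_VA (K.pr_dbV x k)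
  rw [K.pr_rearr m1 m2 (K.pr_rhoZ x) (K.pr_rhoA x) (K.pr_tauZ x) (K.pr_tauA x) m3 m4 m5 m6]
  have hPB : K.prP x * K.bet x = (-1024 * (K.f0 : ℂ)) • K.zk x := K.pr_PB x
  rw [hPB, hEE, K.pr_rho_sq, K.pr_tau_sq]
  set SS := ∑ j ∈ Finset.range 8, (((j.factorial : ℂ)⁻¹) * (2 * K.prz x) ^ j) • K.BB ^ j with hSS
  set al := 4 * (Complex.I / (K.f0 : ℂ) * (qp x : ℂ)) with hal
  set be := 4 * K.ph 2 x ^ 2 with hbe
  set ga := 4 * K.ph 2 x / (K.f0 : ℂ) with hga
  -- expansion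
  have hexp : ((-4 : ℂ) • (K.c 7 0 * K.c 7 1)) * (1 + al • (K.c 7 2 * K.mu x)) *
      (be • (1 : F →L[ℂ] F) - ga • (K.ds x * K.dsb x)) * SS * ((-1024 * (K.f0 : ℂ)) • K.zk x) =
      (4096 * (K.f0 : ℂ)) • ((K.c 7 0 * K.c 7 1) *
        (be • (1 : F →L[ℂ] F) - ga • (K.ds x * K.dsb x)) * SS * K.zk x) +
      ((4096 * (K.f0 : ℂ)) * al) • (be • (K.c777 * K.mu x * SS * K.zk x) -
        ga • (K.c777 * K.mu x * (K.ds x * K.dsb x) * SS * K.zk x)) := by
    have hc : K.c777 = K.c 7 0 * K.c 7 1 * K.c 7 2 := rfl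
    rw [hc]
    simp only [mul_add, add_mul, mul_sub, sub_mul, smul_mul_assoc, mul_smul_comm, smul_smul,
      smul_sub, smul_add, mul_one, mul_assoc]
    match_scalars <;> ring
  rw [hexp, add_apply, inner_add_right, smul_apply, smul_apply, inner_smul_right,
    inner_smul_right, sub_apply, inner_sub_right, smul_apply, smul_apply, inner_smul_right,
    inner_smul_right]
  -- the term without `c_7²`
  have hD7 : ∀ A : Fin 3, A ≠ 2 → K.PrD prS2 0 (K.c 7 A) := fun A hA =>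
    PrD.c0 (by simp [prS2, hA])
  have hds := K.pr_D_ds x prS2 0 (fun k A _ => K.pr_D2 k A)
  have hdsb := K.pr_D_dsb x prS2 0 (fun k A _ => K.pr_D2 k A)
  have hBB := K.pr_D_BB prS2 0 (fun k A _ => K.pr_D2 k A)
  have hzk := K.pr_D_zk x prS2 0 (fun k A _ => K.pr_D2 k A) (fun k => K.pr_D2 k 2)
  have hSSD : K.PrD prS2 0 SS := by
    refine PrD.sum _ fun j _ => ?_
    have := (hBB.pow j).smul (((j.factorial : ℂ)⁻¹) * (2 * K.prz x) ^ j)
    simpa using this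
  have h0 : K.PrD prS2 0 ((K.c 7 0 * K.c 7 1) *
      (be • (1 : F →L[ℂ] F) - ga • (K.ds x * K.dsb x)) * SS * K.zk x) := by
    have h1 : K.PrD prS2 0 (be • (1 : F →L[ℂ] F) - ga • (K.ds x * K.dsb x)) := by
      refine (PrD.one.smul be).sub (PrD.smul ?_ ga)
      simpa using hds.mul hdsb
    have := ((((hD7 0 (by decide)).mul (hD7 1 (by decide))).mul h1).mul hSSD).mul hzk
    simpa using this
  rw [PrD.zero h0 (by rw [pr_card2]; norm_num)]
  -- the other terms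
  have hQ3 : K.PrD prS1 ((1 : ℕ) : ℂ) (K.c777 * K.mu x) := by
    show K.PrD prS1 ((1 : ℕ) : ℂ) (K.c 7 0 * K.c 7 1 * K.c 7 2 * K.mu x)
    have := (((K.pr_D1_c7 0).mul (K.pr_D1_c7 1)).mul (K.pr_D1_c7 2)).mul (K.pr_D1_mu x)
    simpa using this
  have hQ2 : K.PrD prS1 ((3 : ℕ) : ℂ) (K.c777 * K.mu x * (K.ds x * K.dsb x)) := by
    have := hQ3.mul ((K.pr_D_ds x prS1 1 (fun k A hA => K.pr_D1 k A hA)).mul
      (K.pr_D_dsb x prS1 1 (fun k A hA => K.pr_D1 k A hA)))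
    have e : ((1 : ℕ) : ℂ) + (1 + 1) = ((3 : ℕ) : ℂ) := by norm_num
    rwa [e] at this
  rw [K.pr_sel x hQ3 (j₀ := 3) (by norm_num) (by norm_num) (2 * K.prz x),
    K.pr_sel x hQ2 (j₀ := 2) (by norm_num) (by norm_num) (2 * K.prz x)]
  have hA3 : K.A3 x = (1 / 6 : ℂ) * inner ℂ K.vacb ((K.c777 * K.mu x * K.BB ^ 3 * K.zk x) K.vac) := by
    unfold A3
    rw [mul_smul_comm, smul_mul_assoc, smul_apply, inner_smul_right, pow_succ, pow_two]
  have hA2 : K.A2 x = (1 / 2 : ℂ) * inner ℂ K.vacb ((K.c777 * K.mu x * (K.ds x * K.dsb x) *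
      K.BB ^ 2 * K.zk x) K.vac) := by
    unfold A2
    rw [mul_smul_comm, smul_mul_assoc, smul_apply, inner_smul_right, pow_two]
  have f3 : ((Nat.factorial 3 : ℕ) : ℂ) = 6 := by norm_num [Nat.factorial]
  have f2 : ((Nat.factorial 2 : ℕ) : ℂ) = 2 := by norm_num [Nat.factorial]
  rw [hA3, hA2, f3, f2]
  ring

theorem Gp_eq (x : X3) : K.Gp x =
    ((4096 * K.f0 * r3 x ^ 2 * qp x * Real.exp (-K.expo x - K.flip.expo x) : ℝ) : ℂ) *
      (((256 * gg x ^ 3 * r3 x ^ 2 : ℝ) : ℂ) * K.A3 x +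
        ((64 * gg x ^ 2 * r3 x : ℝ) : ℂ) * (Complex.I * K.A2 x)) := by
  unfold Gp
  rw [K.pr_pairing, K.pr_value]
  have hr : ((r3 x : ℝ) : ℂ) = K.ph 2 x * K.phb 2 x := by
    unfold r3 ph phb
    have h1 : (K.sg : ℂ) * (K.sg : ℂ) = 1 := by
      rw [← Complex.ofReal_mul, K.sg_sq, Complex.ofReal_one]
    have h2 := Complex.I_mul_I
    push_cast
    linear_combination ((x (8, 2) : ℂ) ^ 2 * Complex.I * Complex.I) * h1 +
      ((x (8, 2) : ℂ) ^ 2) * h2
  have hf : (K.f0 : ℂ) * (K.f0 : ℂ) = 2 := by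
    rw [← Complex.ofReal_mul, K.f0_sq]; norm_num
  have hf0 : (K.f0 : ℂ) ≠ 0 := by
    intro h
    rw [h] at hf
    norm_num at hf
  have hinv : ((K.f0 : ℂ))⁻¹ = (K.f0 : ℂ) / 2 := by
    rw [inv_eq_iff_eq_inv, inv_div, eq_div_iff hf0, hf]
  have he : ((Real.exp (-K.expo x - K.flip.expo x) : ℝ) : ℂ) =
      ((Real.exp (-K.expo x) : ℝ) : ℂ) * ((Real.exp (-K.flip.expo x) : ℝ) : ℂ) := by
    rw [← Complex.ofReal_mul, ← Real.exp_add, sub_eq_add_neg]
  have hI2 : Complex.I ^ 2 = -1 := Complex.I_sq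
  have hI4 : Complex.I ^ 4 * (K.f0 : ℂ) ^ 5 = 4 * (K.f0 : ℂ) := by
    linear_combination ((Complex.I ^ 2 - 1) * (K.f0 : ℂ) ^ 5) * hI2 +
      ((K.f0 : ℂ) ^ 3 + 2 * (K.f0 : ℂ)) * hf
  have hI3 : Complex.I ^ 3 * (K.f0 : ℂ) ^ 5 = -4 * Complex.I * (K.f0 : ℂ) := by
    linear_combination (Complex.I * (K.f0 : ℂ) ^ 5) * hI2 -
      (Complex.I * ((K.f0 : ℂ) ^ 3 + 2 * (K.f0 : ℂ))) * hf
  unfold prz qq
  rw [Complex.ofReal_mul, he]
  push_cast
  rw [hr]
  simp only [div_eq_mul_inv, hinv]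
  set e1 := Complex.exp (-(K.expo x : ℂ)) with he1
  set e2 := Complex.exp (-(K.flip.expo x : ℂ)) with he2
  linear_combination (262144 * (e1 * e2) * (qp x : ℂ) * K.ph 2 x ^ 4 * K.phb 2 x ^ 4 *
      (gg x : ℂ) ^ 3 * K.A3 x) * hI4 -
    (65536 * (e1 * e2) * (qp x : ℂ) * K.ph 2 x ^ 3 * K.phb 2 x ^ 3 * (gg x : ℂ) ^ 2 *
      K.A2 x) * hI3

end Fk

end Vale.Agent.P353.Ex
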