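import Vale.Agent.P353.Ex.Link

/-! Task EX-04: the supercharges `Q_ε`, `Q_ε̄` in Fock form.

`∑_α e_α Q_α = -i K.DD` and `∑_α ē_α Q_α = -i K.flip.DD`.
Kinetic part: `∑_α e_α γ^i_{αβ} θ_β^A = c_i^A` (`i<7`), `c_7^A` (`i=7`), `i c_7^A` (`i=8`).
Potential: `∑_α e_α γ^{ij}_{αβ} = -(γ^{ij} e)_β` (`γ^{ij}` antisymmetric), and
`γ^{ij} e = i ∑_k t_{kij} γ^k e` for `i≠j<7`, `γ^{i7} e = γ^i ē`, `γ^{i8} e = i γ^i ē` (`conj` of
`γ^i e`), `γ^{78} e = i e`.  With `f_{ABC} = f0 ε_{ABC}`: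
the `(i,j<7)` part is `dh`, the `(i,7),(i,8)` part is `i f0 (φ × x_i)·a_i`, the `(7,8)` part is
`f0 (x_7 × x_8)·a_7 = ν (φ × φ̄)·a_7/2`; together `ν ∑_A φ_A ι_A`.
The second identity is the complex conjugate one (same computation with `ē`, `K.flip`:
`t → -t`, `sg → -1`, `c ↔ a`). -/

open MeasureTheory Filter Topology
open scoped ContDiff ComplexConjugate

namespace Vale.Agent.P353.Ex

variable {F : Type*} [NormedAddCommGroup F] [InnerProductSpace ℂ F]

namespace QeqAux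

/-! ### reordering of sums -/

lemma sum3 {G : Type*} [AddCommMonoid G] {ι κ l : Type*} [Fintype ι] [Fintype κ] [Fintype l]
    (f : ι → κ → l → G) : ∑ i, ∑ j, ∑ k, f i j k = ∑ k, ∑ i, ∑ j, f i j k :=
  (Finset.sum_congr rfl fun _ _ => Finset.sum_comm).trans Finset.sum_comm

lemma sum4 {G : Type*} [AddCommMonoid G] {ι κ l m : Type*} [Fintype ι] [Fintype κ] [Fintype l]
    [Fintype m] (f : ι → κ → l → m → G) :
    ∑ i, ∑ j, ∑ k, ∑ p, f i j k p = ∑ p, ∑ i, ∑ j, ∑ k, f i j k p :=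
  (Finset.sum_congr rfl fun i _ => sum3 (f i)).trans Finset.sum_comm

lemma sum6 {G : Type*} [AddCommMonoid G] {ι κ l m n p : Type*} [Fintype ι] [Fintype κ] [Fintype l]
    [Fintype m] [Fintype n] [Fintype p] (f : ι → κ → l → m → n → p → G) :
    ∑ i, ∑ j, ∑ k, ∑ a, ∑ b, ∑ c, f i j k a b c = ∑ c, ∑ i, ∑ j, ∑ k, ∑ a, ∑ b, f i j k a b c := by
  have h : ∀ i j k, ∑ a, ∑ b, ∑ c, f i j k a b c = ∑ c, ∑ a, ∑ b, f i j k a b c :=
    fun i j k => sum3 (f i j k)
  simp only [h]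
  exact sum4 _

lemma split9 {G : Type*} [AddCommMonoid G] (g : Fin 9 → G) :
    ∑ i, g i = ∑ i : Fin 7, g (e9 i) + g 7 + g 8 := by
  rw [Fin.sum_univ_castSucc, Fin.sum_univ_castSucc]
  rfl

lemma split99 {G : Type*} [AddCommGroup G] (g : Fin 9 → Fin 9 → G) :
    ∑ i, ∑ j, g i j = ∑ i : Fin 7, ∑ j : Fin 7, g (e9 i) (e9 j) +
      ∑ i : Fin 7, (g (e9 i) 7 + g 7 (e9 i) + g (e9 i) 8 + g 8 (e9 i)) + (g 7 8 + g 8 7) +
      (g 7 7 + g 8 8) := by
  simp only [split9, Finset.sum_add_distrib]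
  abel

lemma dist3 {G : Type*} [AddCommMonoid G] (X Y Z : Fin 3 → Fin 3 → Fin 3 → G) :
    ∑ A, ∑ B, ∑ D, (X A B D + Y A B D + Z A B D) =
      ∑ A, ∑ B, ∑ D, X A B D + ∑ A, ∑ B, ∑ D, Y A B D + ∑ A, ∑ B, ∑ D, Z A B D := by
  simp only [Finset.sum_add_distrib]

variable (M : Model 2 3 F)

/-- `∑_β v_β θ_β^A` -/
noncomputable def Th (A : Fin 3) (v : Fin 16 → ℂ) : F →L[ℂ] F := ∑ β, v β • M.θ β A

/-- `γ^i v` -/
noncomputable def gv (i : Fin 9) (v : Fin 16 → ℂ) : Fin 16 → ℂ :=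
  fun α => ∑ β, (M.γ i α β : ℂ) * v β

/-- `γ^{ij} v` -/
noncomputable def g2v (i j : Fin 9) (v : Fin 16 → ℂ) : Fin 16 → ℂ :=
  fun α => ∑ β, (M.γ2 i j α β : ℂ) * v β

lemma Th_apply (A : Fin 3) (v : Fin 16 → ℂ) (w : F) : Th M A v w = ∑ β, v β • M.θ β A w := by
  simp only [Th, _root_.sum_apply, _root_.smul_apply]

lemma Th_add (A : Fin 3) (v v' : Fin 16 → ℂ) : Th M A (v + v') = Th M A v + Th M A v' := by
  simp only [Th, Pi.add_apply, add_smul, Finset.sum_add_distrib]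

lemma Th_smul (A : Fin 3) (c : ℂ) (v : Fin 16 → ℂ) : Th M A (c • v) = c • Th M A v := by
  simp only [Th, Finset.smul_sum, Pi.smul_apply, smul_eq_mul, mul_smul]

lemma Th_neg (A : Fin 3) (v : Fin 16 → ℂ) : Th M A (-v) = -Th M A v := by
  simp only [Th, Pi.neg_apply, neg_smul, Finset.sum_neg_distrib]

lemma Th_zero (A : Fin 3) : Th M A 0 = 0 := by
  simp only [Th, Pi.zero_apply, zero_smul, Finset.sum_const_zero]

lemma Th_sum {ι : Type*} (s : Finset ι) (A : Fin 3) (v : ι → Fin 16 → ℂ) :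
    Th M A (∑ k ∈ s, v k) = ∑ k ∈ s, Th M A (v k) := by
  simp only [Th, Finset.sum_apply, Finset.sum_smul]
  rw [Finset.sum_comm]

lemma gv_smul (i : Fin 9) (c : ℂ) (v : Fin 16 → ℂ) : gv M i (c • v) = c • gv M i v := by
  funext α
  simp only [gv, Pi.smul_apply, smul_eq_mul, Finset.mul_sum]
  exact Finset.sum_congr rfl fun β _ => by ring

lemma gv_conj (i : Fin 9) (v : Fin 16 → ℂ) :
    gv M i (fun α => conj (v α)) = fun α => conj (gv M i v α) := by
  funext α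
  simp only [gv, map_sum, map_mul, Complex.conj_ofReal]

/-- the complexified gamma matrices -/
noncomputable def cg (i : Fin 9) : Matrix (Fin 16) (Fin 16) ℂ :=
  Complex.ofRealHom.mapMatrix (M.γ i)

lemma gv_eq (i : Fin 9) (v : Fin 16 → ℂ) : gv M i v = (cg M i).mulVec v := rfl

lemma cg_anti (i j : Fin 9) : cg M i * cg M j + cg M j * cg M i = if i = j then 2 else 0 := by
  rw [cg, cg, ← map_mul, ← map_mul, ← map_add, M.γ_anticomm]
  split_ifs
  · exact map_ofNat _ 2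
  · exact map_zero _

lemma cg2 (i j : Fin 9) : Complex.ofRealHom.mapMatrix (M.γ2 i j) =
    (1 / 2 : ℂ) • (cg M i * cg M j - cg M j * cg M i) := by
  rw [cg, cg, ← map_mul, ← map_mul, ← map_sub, Model.γ2]
  ext α β
  simp

lemma g2v_eq (i j : Fin 9) (v : Fin 16 → ℂ) :
    g2v M i j v = (1 / 2 : ℂ) • (gv M i (gv M j v) - gv M j (gv M i v)) := by
  have h : g2v M i j v = (Complex.ofRealHom.mapMatrix (M.γ2 i j)).mulVec v := rfl
  rw [h, cg2, Matrix.smul_mulVec, Matrix.sub_mulVec, ← Matrix.mulVec_mulVec,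
    ← Matrix.mulVec_mulVec]
  rfl

lemma gv_anti {i j : Fin 9} (hij : i ≠ j) (v : Fin 16 → ℂ) :
    gv M j (gv M i v) = -gv M i (gv M j v) := by
  have h := congrArg (fun m => m.mulVec v) (cg_anti M i j)
  simp only [if_neg hij, Matrix.add_mulVec, ← Matrix.mulVec_mulVec, Matrix.zero_mulVec] at h
  rw [eq_neg_iff_add_eq_zero, add_comm]
  exact h

lemma gv_sq (i : Fin 9) (v : Fin 16 → ℂ) : gv M i (gv M i v) = v := by
  have h := congrArg (fun m => m.mulVec v) (cg_anti M i i)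
  have h2 : (2 : Matrix (Fin 16) (Fin 16) ℂ) = (2 : ℂ) • 1 := by
    rw [← one_add_one_eq_two, ← one_add_one_eq_two, add_smul, one_smul]
  rw [if_pos rfl, h2] at h
  simp only [Matrix.add_mulVec, ← Matrix.mulVec_mulVec, Matrix.smul_mulVec,
    Matrix.one_mulVec] at h
  have h3 : gv M i (gv M i v) + gv M i (gv M i v) = (2 : ℂ) • v := h
  rw [← two_smul ℂ] at h3
  exact smul_right_injective _ two_ne_zero h3

lemma g2v_ne {i j : Fin 9} (hij : i ≠ j) (v : Fin 16 → ℂ) :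
    g2v M i j v = gv M i (gv M j v) := by
  rw [g2v_eq, gv_anti M hij]
  module

lemma g2v_self (i : Fin 9) (v : Fin 16 → ℂ) : g2v M i i v = 0 := by
  rw [g2v_eq, sub_self, smul_zero]

lemma g2v_swap (i j : Fin 9) (v : Fin 16 → ℂ) : g2v M i j v = -g2v M j i v := by
  rw [g2v_eq, g2v_eq]
  module

lemma gamma_symm (i : Fin 9) (α β : Fin 16) : M.γ i α β = M.γ i β α := by
  have h := congrArg (fun m : Matrix (Fin 16) (Fin 16) ℝ => m β α) (M.γ_symm i)
  simpa only [Matrix.transpose_apply] using h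

lemma gamma2_anti (i j : Fin 9) (α β : Fin 16) : M.γ2 i j α β = -M.γ2 i j β α := by
  have h : (M.γ2 i j).transpose = -M.γ2 i j := by
    rw [Model.γ2, Matrix.transpose_smul, Matrix.transpose_sub, Matrix.transpose_mul,
      Matrix.transpose_mul, M.γ_symm, M.γ_symm]
    module
  have h2 := congrArg (fun m : Matrix (Fin 16) (Fin 16) ℝ => m β α) h
  simpa only [Matrix.transpose_apply, Matrix.neg_apply] using h2

/-- the kinetic part -/
lemma kin (v : Fin 16 → ℂ) (p : Fin 9 → Fin 3 → F) :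
    ∑ α, v α • ((-Complex.I) • ∑ i, ∑ β, ∑ A, ((M.γ i α β : ℝ) : ℂ) • M.θ β A (p i A)) =
      (-Complex.I) • ∑ i, ∑ A, Th M A (gv M i v) (p i A) := by
  have h : ∀ α, v α • ((-Complex.I) • ∑ i, ∑ β, ∑ A, ((M.γ i α β : ℝ) : ℂ) • M.θ β A (p i A)) =
      (-Complex.I) • ∑ i, ∑ A, ∑ β, (v α * ((M.γ i α β : ℝ) : ℂ)) • M.θ β A (p i A) := by
    intro α
    rw [smul_comm]
    congr 1
    rw [Finset.smul_sum]
    refine Finset.sum_congr rfl fun i _ => ?_
    rw [Finset.sum_comm]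
    simp only [Finset.smul_sum, smul_smul]
  rw [Finset.sum_congr rfl fun α _ => h α, ← Finset.smul_sum]
  congr 1
  rw [Finset.sum_comm]
  refine Finset.sum_congr rfl fun i _ => ?_
  rw [Finset.sum_comm]
  refine Finset.sum_congr rfl fun A _ => ?_
  rw [Th_apply, Finset.sum_comm]
  refine Finset.sum_congr rfl fun β _ => ?_
  rw [← Finset.sum_smul]
  congr 1
  rw [gv]
  refine Finset.sum_congr rfl fun α _ => ?_
  rw [gamma_symm M i α β, mul_comm]

/-- the potential part -/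
lemma pot (v : Fin 16 → ℂ) (x : X3) (w : F) :
    ∑ α, v α • (((1 / 2 : ℝ) : ℂ) • ∑ A, ∑ B, ∑ C, ∑ i, ∑ j, ∑ β,
      ((M.f A B C * x (i, B) * x (j, C) * M.γ2 i j α β : ℝ) : ℂ) • M.θ β A w) =
      (-(1 / 2) : ℂ) • ∑ A, ∑ B, ∑ C, ∑ i, ∑ j,
        ((M.f A B C * x (i, B) * x (j, C) : ℝ) : ℂ) • Th M A (g2v M i j v) w := by
  have h : ∀ α, v α • (((1 / 2 : ℝ) : ℂ) • ∑ A, ∑ B, ∑ C, ∑ i, ∑ j, ∑ β,
      ((M.f A B C * x (i, B) * x (j, C) * M.γ2 i j α β : ℝ) : ℂ) • M.θ β A w) =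
      (-(1 / 2) : ℂ) • ∑ A, ∑ B, ∑ C, ∑ i, ∑ j, ∑ β,
      (-(v α) * ((M.f A B C * x (i, B) * x (j, C) * M.γ2 i j α β : ℝ) : ℂ)) • M.θ β A w := by
    intro α
    have e : ((1 / 2 : ℝ) : ℂ) = (1 / 2 : ℂ) := by norm_num
    rw [smul_comm, e]
    simp only [neg_mul, neg_smul, Finset.sum_neg_distrib, smul_neg, neg_neg, Finset.smul_sum,
      smul_smul, mul_assoc]
  rw [Finset.sum_congr rfl fun α _ => h α, ← Finset.smul_sum]
  congr 1
  rw [Finset.sum_comm]
  refine Finset.sum_congr rfl fun A _ => ?_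
  rw [Finset.sum_comm]
  refine Finset.sum_congr rfl fun B _ => ?_
  rw [Finset.sum_comm]
  refine Finset.sum_congr rfl fun C _ => ?_
  rw [Finset.sum_comm]
  refine Finset.sum_congr rfl fun i _ => ?_
  rw [Finset.sum_comm]
  refine Finset.sum_congr rfl fun j _ => ?_
  rw [Th_apply, Finset.sum_comm, Finset.smul_sum]
  refine Finset.sum_congr rfl fun β _ => ?_
  rw [← Finset.sum_smul, smul_smul]
  congr 1
  rw [g2v, Finset.mul_sum]
  refine Finset.sum_congr rfl fun α _ => ?_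
  rw [gamma2_anti M i j α β]
  push_cast
  ring

/-- the data used in the computation -/
structure Sys (K : Fk F) (v : Fin 16 → ℂ) (C A' : Fin 8 → Fin 16 → ℂ) : Prop where
  c_eq : ∀ i B, K.c i B = Th M B (C i)
  a_eq : ∀ i B, K.a i B = Th M B (A' i)
  gk : ∀ k, gv M (e9 k) v = C (e8 k)
  g7 : gv M 7 v = C 7
  g8 : gv M 8 v = (Complex.I * (K.sg : ℂ)) • C 7
  gkk : ∀ i j, gv M (e9 i) (C (e8 j)) =
    (if i = j then v else 0) + Complex.I • ∑ k, (K.t k i j : ℂ) • C (e8 k)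
  gk7 : ∀ i, gv M (e9 i) (C 7) = A' (e8 i)
  a7 : A' 7 = v
  f_eq : ∀ A B C, M.f A B C = K.f0 * (eps A B C : ℝ)

variable {M}
variable {K : Fk F} {v : Fin 16 → ℂ} {C A' : Fin 8 → Fin 16 → ℂ}

lemma e9_ne7 (i : Fin 7) : e9 i ≠ (7 : Fin 9) := by
  intro h
  have := congrArg Fin.val h
  have h2 := i.isLt
  simp [e9] at this
  omega

lemma e9_ne8 (i : Fin 7) : e9 i ≠ (8 : Fin 9) := by
  intro h
  have := congrArg Fin.val h
  have h2 := i.isLt
  simp [e9] at this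
  omega

lemma Sys.kk (H : Sys M K v C A') (i j : Fin 7) : g2v M (e9 i) (e9 j) v =
    Complex.I • ∑ k, (K.t k i j : ℂ) • C (e8 k) := by
  by_cases h : i = j
  · subst h
    rw [g2v_self]
    have : ∀ k, K.t k i i = 0 := fun k => by
      have := K.t_swap k i i
      linarith
    simp [this]
  · have hne : e9 i ≠ e9 j := fun hh =>
      h (Fin.castSucc_injective _ (Fin.castSucc_injective _ hh))
    rw [g2v_ne M hne, H.gk, H.gkk, if_neg h, zero_add]

lemma Sys.k7 (H : Sys M K v C A') (i : Fin 7) : g2v M (e9 i) 7 v = A' (e8 i) := by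
  rw [g2v_ne M (e9_ne7 i), H.g7, H.gk7]

lemma Sys.k8 (H : Sys M K v C A') (i : Fin 7) : g2v M (e9 i) 8 v =
    (Complex.I * (K.sg : ℂ)) • A' (e8 i) := by
  rw [g2v_ne M (e9_ne8 i), H.g8, gv_smul, H.gk7]

lemma Sys.h78 (H : Sys M K v C A') : g2v M 7 8 v = (Complex.I * (K.sg : ℂ)) • A' 7 := by
  rw [g2v_ne M (by decide), H.g8, gv_smul, ← H.g7, gv_sq, H.a7]

lemma eps_vals : eps 0 1 2 = 1 ∧ eps 1 2 0 = 1 ∧ eps 2 0 1 = 1 ∧ eps 0 2 1 = -1 ∧
    eps 2 1 0 = -1 ∧ eps 1 0 2 = -1 ∧ (∀ A B, eps A A B = 0) ∧ (∀ A B, eps A B A = 0) ∧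
    (∀ A B, eps A B B = 0) := by decide

lemma algS2 (f I s : ℂ) (X P Q : Fin 3 → ℂ) (E : Fin 3 → F) :
    (-(1 / 2) : ℂ) • ∑ A, ∑ B, ∑ D, ((f * (eps A B D : ℂ) * X B * P D) • E A +
      (f * (eps A B D : ℂ) * P B * X D) • (-E A) +
      (f * (eps A B D : ℂ) * X B * Q D) • ((I * s) • E A) +
      (f * (eps A B D : ℂ) * Q B * X D) • (-((I * s) • E A))) =
    f • ∑ A, (P A + I * s * Q A) • ∑ B, ∑ D, ((eps B A D : ℂ) * X D) • E B := by
  obtain ⟨h1, h2, h3, h4, h5, h6, h7, h8, h9⟩ := eps_vals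
  simp only [Fin.sum_univ_three, h1, h2, h3, h4, h5, h6, h7, h8, h9]
  push_cast
  module

lemma algS3 (f I s : ℂ) (P Q : Fin 3 → ℂ) (E : Fin 3 → F) :
    (-(1 / 2) : ℂ) • ∑ A, ∑ B, ∑ D, ((f * (eps A B D : ℂ) * P B * Q D) • ((I * s) • E A) +
      (f * (eps A B D : ℂ) * Q B * P D) • (-((I * s) • E A))) =
    f • ∑ A, (P A + I * s * Q A) • ((1 / 2 : ℂ) •
      ∑ B, ∑ D, ((eps B A D : ℂ) * (P D - I * s * Q D)) • E B) := by
  obtain ⟨h1, h2, h3, h4, h5, h6, h7, h8, h9⟩ := eps_vals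
  simp only [Fin.sum_univ_three, h1, h2, h3, h4, h5, h6, h7, h8, h9]
  push_cast
  module

lemma nu_smul (K : Fk F) (w : F) : (-Complex.I) • (K.nu • w) = (K.f0 : ℂ) • w := by
  rw [smul_smul, Fk.nu]
  congr 1
  linear_combination (-(K.f0 : ℂ)) * Complex.I_mul_I

/-- the potential identity -/
lemma Sys.pot_eq (H : Sys M K v C A') (x : X3) (w : F) :
    (-(1 / 2) : ℂ) • ∑ A, ∑ B, ∑ C, ∑ i, ∑ j,
        ((M.f A B C * x (i, B) * x (j, C) : ℝ) : ℂ) • Th M A (g2v M i j v) w =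
      (-Complex.I) • (K.nu • ∑ A, K.ph A x • K.io A x w + K.dh x w) := by
  -- splitting of the sums
  have hs : ∀ A B D, ∑ i, ∑ j,
      ((M.f A B D * x (i, B) * x (j, D) : ℝ) : ℂ) • Th M A (g2v M i j v) w =
      ∑ i : Fin 7, ∑ j : Fin 7, ∑ k : Fin 7,
        ((K.f0 : ℂ) * (eps A B D : ℂ) * x (e9 i, B) * x (e9 j, D) *
          (Complex.I * (K.t k i j : ℂ))) • K.c (e8 k) A w +
      ∑ i : Fin 7, (((K.f0 : ℂ) * (eps A B D : ℂ) * x (e9 i, B) * x (7, D)) • K.a (e8 i) A w +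
        ((K.f0 : ℂ) * (eps A B D : ℂ) * x (7, B) * x (e9 i, D)) • (-(K.a (e8 i) A w)) +
        ((K.f0 : ℂ) * (eps A B D : ℂ) * x (e9 i, B) * x (8, D)) •
          ((Complex.I * (K.sg : ℂ)) • K.a (e8 i) A w) +
        ((K.f0 : ℂ) * (eps A B D : ℂ) * x (8, B) * x (e9 i, D)) •
          (-((Complex.I * (K.sg : ℂ)) • K.a (e8 i) A w))) +
      (((K.f0 : ℂ) * (eps A B D : ℂ) * x (7, B) * x (8, D)) •
          ((Complex.I * (K.sg : ℂ)) • K.a 7 A w) +
        ((K.f0 : ℂ) * (eps A B D : ℂ) * x (8, B) * x (7, D)) •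
          (-((Complex.I * (K.sg : ℂ)) • K.a 7 A w))) := by
    intro A B D
    have hc : ∀ i j, ((M.f A B D * x (i, B) * x (j, D) : ℝ) : ℂ) =
        (K.f0 : ℂ) * (eps A B D : ℂ) * x (i, B) * x (j, D) := by
      intro i j
      rw [H.f_eq]
      push_cast
      ring
    simp only [hc]
    rw [split99]
    have h77 : Th M A (g2v M 7 7 v) w = 0 := by rw [g2v_self, Th_zero]; rfl
    have h88 : Th M A (g2v M 8 8 v) w = 0 := by rw [g2v_self, Th_zero]; rfl
    rw [h77, h88, smul_zero, smul_zero, add_zero, add_zero]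
    have hkk : ∀ i j, Th M A (g2v M (e9 i) (e9 j) v) w =
        ∑ k, (Complex.I * (K.t k i j : ℂ)) • K.c (e8 k) A w := by
      intro i j
      rw [H.kk, Th_smul, Th_sum, _root_.smul_apply, _root_.sum_apply, Finset.smul_sum]
      refine Finset.sum_congr rfl fun k _ => ?_
      rw [Th_smul, _root_.smul_apply, smul_smul, H.c_eq]
    have h7 : ∀ i, Th M A (g2v M (e9 i) 7 v) w = K.a (e8 i) A w := by
      intro i; rw [H.k7, H.a_eq]
    have h7' : ∀ i, Th M A (g2v M 7 (e9 i) v) w = -(K.a (e8 i) A w) := by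
      intro i; rw [g2v_swap, H.k7, Th_neg, H.a_eq]; rfl
    have h8 : ∀ i, Th M A (g2v M (e9 i) 8 v) w = (Complex.I * (K.sg : ℂ)) • K.a (e8 i) A w := by
      intro i; rw [H.k8, H.a_eq, Th_smul]; rfl
    have h8' : ∀ i, Th M A (g2v M 8 (e9 i) v) w =
        -((Complex.I * (K.sg : ℂ)) • K.a (e8 i) A w) := by
      intro i; rw [g2v_swap, H.k8, Th_neg, H.a_eq, Th_smul]; rfl
    have h78 : Th M A (g2v M 7 8 v) w = (Complex.I * (K.sg : ℂ)) • K.a 7 A w := by
      rw [H.h78, H.a_eq, Th_smul]; rfl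
    have h87 : Th M A (g2v M 8 7 v) w = -((Complex.I * (K.sg : ℂ)) • K.a 7 A w) := by
      rw [g2v_swap, H.h78, Th_neg, H.a_eq, Th_smul]; rfl
    simp only [hkk, h7, h7', h8, h8', h78, h87]
    congr 2
    refine Finset.sum_congr rfl fun i _ => Finset.sum_congr rfl fun j _ => ?_
    rw [Finset.smul_sum]
    refine Finset.sum_congr rfl fun k _ => ?_
    rw [smul_smul]
  simp only [hs]
  rw [dist3, smul_add, smul_add, smul_add, nu_smul]
  -- the three parts
  have e1 : (-(1 / 2) : ℂ) • ∑ A, ∑ B, ∑ D, ∑ i : Fin 7, ∑ j : Fin 7, ∑ k : Fin 7,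
        ((K.f0 : ℂ) * (eps A B D : ℂ) * x (e9 i, B) * x (e9 j, D) *
          (Complex.I * (K.t k i j : ℂ))) • K.c (e8 k) A w = (-Complex.I) • K.dh x w := by
    rw [sum6, Fk.dh, _root_.sum_apply, Finset.smul_sum, Finset.smul_sum]
    refine Finset.sum_congr rfl fun k _ => ?_
    rw [_root_.sum_apply, Finset.smul_sum, Finset.smul_sum]
    refine Finset.sum_congr rfl fun A _ => ?_
    simp only [← Finset.sum_smul]
    rw [_root_.smul_apply, smul_smul, smul_smul]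
    congr 1
    rw [Fk.dhc]
    push_cast
    simp only [Finset.mul_sum]
    refine Finset.sum_congr rfl fun B _ => Finset.sum_congr rfl fun D _ =>
      Finset.sum_congr rfl fun i _ => Finset.sum_congr rfl fun j _ => ?_
    ring
  have e2 : (-(1 / 2) : ℂ) • ∑ A, ∑ B, ∑ D, ∑ i : Fin 7,
      (((K.f0 : ℂ) * (eps A B D : ℂ) * x (e9 i, B) * x (7, D)) • K.a (e8 i) A w +
        ((K.f0 : ℂ) * (eps A B D : ℂ) * x (7, B) * x (e9 i, D)) • (-(K.a (e8 i) A w)) +
        ((K.f0 : ℂ) * (eps A B D : ℂ) * x (e9 i, B) * x (8, D)) •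
          ((Complex.I * (K.sg : ℂ)) • K.a (e8 i) A w) +
        ((K.f0 : ℂ) * (eps A B D : ℂ) * x (8, B) * x (e9 i, D)) •
          (-((Complex.I * (K.sg : ℂ)) • K.a (e8 i) A w))) =
      (K.f0 : ℂ) • ∑ A, K.ph A x • ∑ i : Fin 7, ∑ B, ∑ D,
        ((eps B A D : ℂ) * (x (e9 i, D) : ℂ)) • K.a (e8 i) B w := by
    rw [sum4, Finset.smul_sum]
    have e : ∀ A, K.ph A x • ∑ i : Fin 7, ∑ B, ∑ D,
        ((eps B A D : ℂ) * (x (e9 i, D) : ℂ)) • K.a (e8 i) B w =
        ∑ i : Fin 7, K.ph A x • ∑ B, ∑ D,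
        ((eps B A D : ℂ) * (x (e9 i, D) : ℂ)) • K.a (e8 i) B w := fun A => Finset.smul_sum
    rw [Finset.sum_congr rfl fun A _ => e A, Finset.sum_comm, Finset.smul_sum]
    refine Finset.sum_congr rfl fun i _ => ?_
    exact algS2 (K.f0 : ℂ) Complex.I (K.sg : ℂ) (fun B => (x (e9 i, B) : ℂ))
      (fun B => (x (7, B) : ℂ)) (fun B => (x (8, B) : ℂ)) (fun A => K.a (e8 i) A w)
  have e3 : (-(1 / 2) : ℂ) • ∑ A, ∑ B, ∑ D,
      (((K.f0 : ℂ) * (eps A B D : ℂ) * x (7, B) * x (8, D)) •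
          ((Complex.I * (K.sg : ℂ)) • K.a 7 A w) +
        ((K.f0 : ℂ) * (eps A B D : ℂ) * x (8, B) * x (7, D)) •
          (-((Complex.I * (K.sg : ℂ)) • K.a 7 A w))) =
      (K.f0 : ℂ) • ∑ A, K.ph A x • ((1 / 2 : ℂ) • ∑ B, ∑ D,
        ((eps B A D : ℂ) * K.phb D x) • K.a 7 B w) :=
    algS3 (K.f0 : ℂ) Complex.I (K.sg : ℂ)
      (fun B => (x (7, B) : ℂ)) (fun B => (x (8, B) : ℂ)) (fun A => K.a 7 A w)
  have e4 : (K.f0 : ℂ) • ∑ A, K.ph A x • K.io A x w =
      (K.f0 : ℂ) • ∑ A, K.ph A x • ∑ i : Fin 7, ∑ B, ∑ D,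
        ((eps B A D : ℂ) * (x (e9 i, D) : ℂ)) • K.a (e8 i) B w +
      (K.f0 : ℂ) • ∑ A, K.ph A x • ((1 / 2 : ℂ) • ∑ B, ∑ D,
        ((eps B A D : ℂ) * K.phb D x) • K.a 7 B w) := by
    rw [← smul_add, ← Finset.sum_add_distrib]
    congr 1
    refine Finset.sum_congr rfl fun A _ => ?_
    rw [← smul_add]
    congr 1
  rw [e1, e2, e3, e4]
  abel

end QeqAux

open QeqAux in
/-- the supercharge of a system in Fock form -/
theorem QeqAux.Sys.Q_eq {M : Model 2 3 F} {K : Fk F} {v : Fin 16 → ℂ}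
    {C A' : Fin 8 → Fin 16 → ℂ} (H : Sys M K v C A') (u : X3 → F) (x : X3) :
    ∑ α, v α • M.Q α u x = (-Complex.I) • K.DD u x := by
  have h : ∀ α, v α • M.Q α u x =
      v α • ((-Complex.I) • ∑ i, ∑ β, ∑ A, ((M.γ i α β : ℝ) : ℂ) • M.θ β A (pd i A u x)) +
      v α • (((1 / 2 : ℝ) : ℂ) • ∑ A, ∑ B, ∑ C, ∑ i, ∑ j, ∑ β,
      ((M.f A B C * x (i, B) * x (j, C) * M.γ2 i j α β : ℝ) : ℂ) • M.θ β A (u x)) := by
    intro α
    rw [Model.Q, smul_add]
  rw [Finset.sum_congr rfl fun α _ => h α, Finset.sum_add_distrib,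
    kin M v (fun i A => pd i A u x), pot, H.pot_eq, Fk.DD, Fk.D0, ← smul_add, add_assoc]
  congr 2
  rw [split9, Fk.dd, add_assoc]
  congr 1
  · refine Finset.sum_congr rfl fun i _ => Finset.sum_congr rfl fun A _ => ?_
    rw [H.gk, H.c_eq]
  · rw [← Finset.sum_add_distrib]
    refine Finset.sum_congr rfl fun A _ => ?_
    rw [H.g7, H.g8, Th_smul, ← H.c_eq, map_add, map_smul]
    rfl

open QeqAux in
theorem Link.Q_eq {M : Model 2 3 F} {s : Spin M.γ} {K : Fk F} (L : Link M s K) (u : X3 → F)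
    (x : X3) : ∑ α, s.e α • M.Q α u x = (-Complex.I) • K.DD u x := by
  have H : Sys M K s.e s.u (fun i α => conj (s.u i α)) :=
    { c_eq := fun i B => L.c_eq i B
      a_eq := fun i B => L.a_eq i B
      gk := fun k => funext fun α => (s.u_eq k α).symm
      g7 := funext fun α => (s.g7 α).trans (s.u7_eq α).symm
      g8 := by
        funext α
        rw [L.sg_eq, Pi.smul_apply, s.u7_eq, smul_eq_mul, Complex.ofReal_one, mul_one]
        exact s.g8 α
      gkk := by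
        intro i j
        funext α
        refine (s.prod i j α).trans ?_
        rw [L.t_eq]
        simp only [Pi.add_apply, Pi.smul_apply, Finset.sum_apply, smul_eq_mul]
        split_ifs <;> rfl
      gk7 := by
        intro i
        have h7 : s.u 7 = fun α => conj (s.e α) := funext s.u7_eq
        rw [h7, gv_conj]
        funext α
        exact congrArg _ (s.u_eq i α).symm
      a7 := funext fun α => by
        rw [s.u7_eq, Complex.conj_conj]
      f_eq := L.f_eq }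
  exact H.Q_eq u x

open QeqAux in
theorem Link.Qb_eq {M : Model 2 3 F} {s : Spin M.γ} {K : Fk F} (L : Link M s K) (u : X3 → F)
    (x : X3) : ∑ α, conj (s.e α) • M.Q α u x = (-Complex.I) • K.flip.DD u x := by
  have h7 : s.u 7 = fun α => conj (s.e α) := funext s.u7_eq
  have H : Sys M K.flip (fun α => conj (s.e α)) (fun i α => conj (s.u i α)) s.u :=
    { c_eq := fun i B => L.a_eq i B
      a_eq := fun i B => L.c_eq i B
      gk := by
        intro k
        rw [gv_conj]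
        funext α
        exact congrArg _ (s.u_eq k α).symm
      g7 := by
        rw [gv_conj]
        funext α
        exact congrArg _ ((s.g7 α).trans (s.u7_eq α).symm)
      g8 := by
        rw [gv_conj]
        funext α
        have h := s.g8 α
        change conj (∑ β, (M.γ 8 α β : ℂ) * s.e β) = (Complex.I * ((-K.sg : ℝ) : ℂ)) * conj (s.u 7 α)
        rw [h, L.sg_eq, s.u7_eq, map_mul, Complex.conj_I]
        push_cast
        ring
      gkk := by
        intro i j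
        rw [gv_conj]
        funext α
        change conj (∑ β, (M.γ (e9 i) α β : ℂ) * s.u (e8 j) β) = _
        rw [s.prod i j α, map_add, map_mul, Complex.conj_I, map_sum]
        have ht : ∀ k, K.flip.t k i j = -s.t k i j := fun k => by
          change -K.t k i j = _
          rw [L.t_eq]
        simp only [ht, Pi.add_apply, Pi.smul_apply, Finset.sum_apply, smul_eq_mul, map_mul,
          Complex.conj_ofReal]
        push_cast
        simp only [neg_mul, Finset.sum_neg_distrib, mul_neg]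
        congr 1
        split_ifs
        · rfl
        · exact map_zero _
      gk7 := by
        intro i
        have : (fun α => conj (s.u 7 α)) = s.e := by
          rw [h7]
          funext α
          exact Complex.conj_conj _
        change gv M (e9 i) (fun α => conj (s.u 7 α)) = _
        rw [this]
        exact funext fun α => (s.u_eq i α).symm
      a7 := h7
      f_eq := L.f_eq }
  exact H.Q_eq u x

end Vale.Agent.P353.Ex
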