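import Vale.Agent.P353.Ex.Group

/-! Task EX-14: the integral over the group.

`perp2 (act U⁻¹ x) = |φ_R × n|² + |φ_I × n|²`, `n_B = rotm U B 2`, `φ_R = x_7`, `φ_I = x_8`.  Take
the longer of the two vectors, `m`, `|m|² ≥ phsq/2`; rotate it to `|m| e_2` with `exists_rot`,
`gU_left` (the isometry `L` preserves the measure and `‖v‖`), so the integrand is at most
`exp(-s |m|² (1 - n_2²))`, `1 - n_2² = 4|a|²|b|²/|v|⁴`.  By the symmetry `a ↔ b` integrate over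
`|b| ≤ |a|`, where `4|a|²|b|²/|v|⁴ ≥ |b|²/|a|²`, and
`∫ e^{-|a|²} ∫ e^{-s|m|²|b|²/|a|²} d²b d²a = π²/(s|m|²)`.  Together with the trivial bound `π²` this
gives `C/(1 + s phsq)`. -/

open MeasureTheory Filter Topology
open scoped ContDiff ComplexConjugate

namespace Vale.Agent.P353.Ex

theorem sph_continuous_va : Continuous va := by
  have h : ∀ i : Fin 4, Continuous fun v : V4 => v i := fun i =>
    (EuclideanSpace.proj (𝕜 := ℝ) i).continuous
  exact Complex.equivRealProdCLM.symm.continuous.comp ((h 0).prodMk (h 1))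

theorem sph_continuous_vb : Continuous vb := by
  have h : ∀ i : Fin 4, Continuous fun v : V4 => v i := fun i =>
    (EuclideanSpace.proj (𝕜 := ℝ) i).continuous
  exact Complex.equivRealProdCLM.symm.continuous.comp ((h 2).prodMk (h 3))

/-- the parametrisation `ℂ × ℂ ≃ V4` -/
noncomputable def sphMk : (ℂ × ℂ) ≃ₜ V4 where
  toFun p := WithLp.toLp 2 ![p.1.re, p.1.im, p.2.re, p.2.im]
  invFun v := (va v, vb v)
  left_inv p := by
    ext <;> rfl
  right_inv v := by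
    ext i; fin_cases i <;> rfl
  continuous_toFun := by
    refine (PiLp.continuous_toLp 2 _).comp (continuous_pi fun i => ?_)
    fin_cases i
    · exact Complex.continuous_re.comp continuous_fst
    · exact Complex.continuous_im.comp continuous_fst
    · exact Complex.continuous_re.comp continuous_snd
    · exact Complex.continuous_im.comp continuous_snd
  continuous_invFun := sph_continuous_va.prodMk sph_continuous_vb

theorem va_sphMk (p : ℂ × ℂ) : va (sphMk p) = p.1 := rfl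

theorem vb_sphMk (p : ℂ × ℂ) : vb (sphMk p) = p.2 := rfl

theorem sphMk_eta (v : V4) : sphMk (va v, vb v) = v := sphMk.right_inv v

theorem norm_sphMk (p : ℂ × ℂ) : ‖sphMk p‖ ^ 2 = ‖p.1‖ ^ 2 + ‖p.2‖ ^ 2 := by
  rw [norm_sq_eq, va_sphMk, vb_sphMk]

/-- `sphMk` as a linear isometry -/
noncomputable def sphL : WithLp 2 (ℂ × ℂ) ≃ₗᵢ[ℝ] V4 where
  toFun p := sphMk p.ofLp
  invFun v := WithLp.toLp 2 (va v, vb v)
  map_add' p q := by
    ext i; fin_cases i <;> rfl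
  map_smul' c p := by
    ext i
    fin_cases i
    · exact (Complex.smul_re c p.ofLp.1)
    · exact (Complex.smul_im c p.ofLp.1)
    · exact (Complex.smul_re c p.ofLp.2)
    · exact (Complex.smul_im c p.ofLp.2)
  left_inv p := rfl
  right_inv v := sphMk_eta v
  norm_map' p := by
    have h : ‖sphMk p.ofLp‖ ^ 2 = ‖p‖ ^ 2 := by
      rw [norm_sphMk, WithLp.prod_norm_sq_eq_of_L2]; rfl
    exact (sq_eq_sq₀ (norm_nonneg _) (norm_nonneg _)).1 h

theorem sphMk_mp : MeasurePreserving sphMk volume volume :=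
  sphL.measurePreserving.comp (WithLp.volume_preserving_toLp ℂ ℂ)

theorem sph_integral {E : Type*} [NormedAddCommGroup E] [NormedSpace ℝ E] (Φ : V4 → E) :
    ∫ v, Φ v = ∫ p : ℂ × ℂ, Φ (sphMk p) :=
  (sphMk_mp.integral_comp sphMk.measurableEmbedding Φ).symm

theorem sph_integrable {E : Type*} [NormedAddCommGroup E] {Φ : V4 → E} :
    Integrable (fun p : ℂ × ℂ => Φ (sphMk p)) ↔ Integrable Φ :=
  sphMk_mp.integrable_comp_emb sphMk.measurableEmbedding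

theorem sph_gauss_int {W : Type*} [NormedAddCommGroup W] [InnerProductSpace ℝ W]
    [FiniteDimensional ℝ W] [MeasurableSpace W] [BorelSpace W] {b : ℝ} (hb : 0 < b) :
    Integrable fun v : W => Real.exp (-b * ‖v‖ ^ 2) := by
  have h := (GaussianFourier.integrable_cexp_neg_mul_sq_norm_add (V := W) (b := (b : ℂ))
    (by simpa using hb) 0 0).norm
  refine h.congr (Eventually.of_forall fun v => ?_)
  simp only [zero_mul, add_zero, Complex.norm_exp]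
  congr 1
  norm_cast

theorem integrable_gauss4 : Integrable fun v : V4 => Real.exp (-‖v‖ ^ 2) := by
  simpa using sph_gauss_int (W := V4) one_pos

theorem sph_gauss_val {b : ℝ} (hb : 0 < b) : ∫ v : ℂ, Real.exp (-b * ‖v‖ ^ 2) = Real.pi / b := by
  rw [GaussianFourier.integral_rexp_neg_mul_sq_norm hb, Complex.finrank_real_complex]
  norm_num

/-- `(1 + |a|²) e^{-|a|²}` is integrable -/
theorem sph_gauss_one : Integrable fun a : ℂ => (1 + ‖a‖ ^ 2) * Real.exp (-‖a‖ ^ 2) := by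
  refine ((sph_gauss_int (W := ℂ) (b := 1 / 2) (by norm_num)).const_mul 2).mono'
    (by fun_prop) (Eventually.of_forall fun a => ?_)
  rw [Real.norm_of_nonneg (by positivity)]
  have h1 : -‖a‖ ^ 2 = ‖a‖ ^ 2 * -(1 / 2) + -(1 / 2) * ‖a‖ ^ 2 := by ring
  have h2 := Real.add_one_le_exp (‖a‖ ^ 2 * (1 / 2))
  have h3 : Real.exp (‖a‖ ^ 2 * (1 / 2)) * Real.exp (‖a‖ ^ 2 * -(1 / 2)) = 1 := by
    rw [← Real.exp_add]; simp
  rw [h1, Real.exp_add, ← mul_assoc]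
  refine mul_le_mul_of_nonneg_right ?_ (Real.exp_nonneg _)
  have h4 : 0 < Real.exp (‖a‖ ^ 2 * -(1 / 2)) := Real.exp_pos _
  calc (1 + ‖a‖ ^ 2) * Real.exp (‖a‖ ^ 2 * -(1 / 2))
      ≤ (2 * Real.exp (‖a‖ ^ 2 * (1 / 2))) * Real.exp (‖a‖ ^ 2 * -(1 / 2)) := by
        refine mul_le_mul_of_nonneg_right ?_ h4.le
        linarith only [h2]
    _ = 2 := by rw [mul_assoc, h3, mul_one]

theorem sph_gauss_two : Integrable fun a : ℂ => ‖a‖ ^ 2 * Real.exp (-‖a‖ ^ 2) := by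
  refine sph_gauss_one.mono' (by fun_prop) (Eventually.of_forall fun a => ?_)
  rw [Real.norm_of_nonneg (by positivity)]
  have h := Real.exp_pos (-‖a‖ ^ 2)
  nlinarith only [h]

theorem sph_gauss_two_val : ∫ a : ℂ, ‖a‖ ^ 2 * Real.exp (-‖a‖ ^ 2) = Real.pi := by
  have h := Complex.integral_rpow_mul_exp_neg_rpow (p := 2) (q := 2) (by norm_num) (by norm_num)
  have h2 : ((2 : ℝ) + 2) / 2 = ((1 : ℕ) : ℝ) + 1 := by norm_num
  rw [h2, Real.Gamma_nat_eq_factorial] at h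
  simp only [Real.rpow_two] at h
  rw [h]
  norm_num



/-- the model integrand on `|b| ≤ |a|` -/
noncomputable def sphH (σ : ℝ) (p : ℂ × ℂ) : ℝ :=
  Real.exp (-‖p.1‖ ^ 2) * Real.exp (-(1 + σ / ‖p.1‖ ^ 2) * ‖p.2‖ ^ 2)

theorem sphH_nonneg (σ : ℝ) (p : ℂ × ℂ) : 0 ≤ sphH σ p := by
  unfold sphH; positivity

theorem measurable_sphH (σ : ℝ) : Measurable (sphH σ) := by
  unfold sphH
  fun_prop

theorem sph_gauss_prod : Integrable fun p : ℂ × ℂ =>
    Real.exp (-‖p.1‖ ^ 2) * Real.exp (-‖p.2‖ ^ 2) := by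
  have h : Integrable fun a : ℂ => Real.exp (-‖a‖ ^ 2) := by
    simpa using sph_gauss_int (W := ℂ) one_pos
  exact h.mul_prod h

theorem integrable_sphH {σ : ℝ} (hσ : 0 ≤ σ) : Integrable (sphH σ) := by
  refine sph_gauss_prod.mono' (measurable_sphH σ).aestronglyMeasurable
    (Eventually.of_forall fun p => ?_)
  rw [Real.norm_of_nonneg (sphH_nonneg σ p), sphH]
  refine mul_le_mul_of_nonneg_left (Real.exp_le_exp.2 ?_) (Real.exp_nonneg _)
  have h : 0 ≤ σ / ‖p.1‖ ^ 2 * ‖p.2‖ ^ 2 := by positivity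
  linarith only [h]

theorem sph_ae_ne_zero : ∀ᵐ a : ℂ, a ≠ 0 := by
  rw [ae_iff]
  simp

theorem integral_sphH_le {σ : ℝ} (hσ : 0 ≤ σ) :
    ∫ p, sphH σ p ≤ Real.pi * (∫ a : ℂ, (1 + ‖a‖ ^ 2) * Real.exp (-‖a‖ ^ 2)) / (1 + σ) := by
  have h1 : ∫ p, sphH σ p = ∫ a : ℂ, ∫ b : ℂ, sphH σ (a, b) := integral_prod _ (integrable_sphH hσ)
  have h2 : ∀ a : ℂ, ∫ b : ℂ, sphH σ (a, b) =
      Real.exp (-‖a‖ ^ 2) * (Real.pi / (1 + σ / ‖a‖ ^ 2)) := by
    intro a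
    simp only [sphH]
    rw [integral_const_mul, sph_gauss_val (by positivity)]
  rw [h1, mul_div_right_comm, ← integral_const_mul]
  refine integral_mono_of_nonneg (Eventually.of_forall fun a => ?_) (sph_gauss_one.const_mul _) ?_
  · exact integral_nonneg fun b => sphH_nonneg _ _
  · filter_upwards [sph_ae_ne_zero] with a ha
    have ha : 0 < ‖a‖ ^ 2 := by positivity
    simp only [h2]
    rw [mul_comm (Real.exp _), ← mul_assoc]
    refine mul_le_mul_of_nonneg_right ?_ (Real.exp_nonneg _)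
    rw [div_mul_eq_mul_div, div_le_div_iff₀ (by positivity) (by positivity)]
    have h3 : 0 ≤ σ / ‖a‖ ^ 2 := by positivity
    have h4 : σ / ‖a‖ ^ 2 * ‖a‖ ^ 2 = σ := div_mul_cancel₀ _ ha.ne'
    rw [mul_assoc]
    refine mul_le_mul_of_nonneg_left ?_ Real.pi_pos.le
    nlinarith only [h3, h4, ha]

theorem sph_ratio {A B : ℝ} (hA : 0 ≤ A) (hB : 0 ≤ B) (h : B ≤ A) :
    B / A ≤ 4 * A * B / (A + B) ^ 2 := by
  rcases hA.eq_or_lt with h0 | h0
  · have hB0 : B = 0 := le_antisymm (h0 ▸ h) hB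
    rw [hB0]; simp
  · rw [div_le_div_iff₀ h0 (by positivity)]
    have h1 : (A + B) ^ 2 ≤ (2 * A) ^ 2 := pow_le_pow_left₀ (by positivity) (by linarith only [h]) 2
    nlinarith only [mul_le_mul_of_nonneg_left h1 hB]

theorem sph_ratio_exp {A B σ : ℝ} (hσ : 0 ≤ σ) (hA : 0 ≤ A) (hB : 0 ≤ B) (h : B ≤ A) :
    Real.exp (-(A + B)) * Real.exp (-σ * (4 * A * B / (A + B) ^ 2)) ≤
      Real.exp (-A) * Real.exp (-(1 + σ / A) * B) := by
  rw [← Real.exp_add, ← Real.exp_add]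
  refine Real.exp_le_exp.2 ?_
  have h1 := mul_le_mul_of_nonneg_left (sph_ratio hA hB h) hσ
  have h2 : σ / A * B = σ * (B / A) := by ring
  linarith only [h1, h2]

theorem sph_pt {A B σ : ℝ} (hσ : 0 ≤ σ) (hA : 0 ≤ A) (hB : 0 ≤ B) :
    Real.exp (-(A + B)) * Real.exp (-σ * (4 * A * B / (A + B) ^ 2)) ≤
      Real.exp (-A) * Real.exp (-(1 + σ / A) * B) + Real.exp (-B) * Real.exp (-(1 + σ / B) * A) := by
  rcases le_total B A with h | h
  · refine (sph_ratio_exp hσ hA hB h).trans (le_add_of_nonneg_right (by positivity))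
  · have h1 := sph_ratio_exp hσ hB hA h
    rw [add_comm B A, mul_right_comm 4 B A] at h1
    exact h1.trans (le_add_of_nonneg_left (by positivity))

/-- the bound for the model integral -/
theorem sph_core_bound : ∃ C : ℝ, 0 ≤ C ∧ ∀ σ : ℝ, 0 ≤ σ →
    ∫ v : V4, Real.exp (-‖v‖ ^ 2) * Real.exp (-σ * (4 * ‖va v‖ ^ 2 * ‖vb v‖ ^ 2 / ‖v‖ ^ 4)) ≤
      C / (1 + σ) := by
  set D := ∫ a : ℂ, (1 + ‖a‖ ^ 2) * Real.exp (-‖a‖ ^ 2) with hD
  have hD0 : 0 ≤ D := integral_nonneg fun a => by positivity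
  refine ⟨2 * (Real.pi * D), by positivity, fun σ hσ => ?_⟩
  rw [sph_integral]
  have hsw : Integrable fun p : ℂ × ℂ => sphH σ p.swap := (integrable_sphH hσ).swap
  have key : ∫ p : ℂ × ℂ, Real.exp (-‖sphMk p‖ ^ 2) * Real.exp (-σ * (4 * ‖va (sphMk p)‖ ^ 2 *
      ‖vb (sphMk p)‖ ^ 2 / ‖sphMk p‖ ^ 4)) ≤ ∫ p : ℂ × ℂ, (sphH σ p + sphH σ p.swap) := by
    refine integral_mono_of_nonneg (Eventually.of_forall fun p => by positivity)
      ((integrable_sphH hσ).add hsw) (Eventually.of_forall fun p => ?_)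
    have h4 : ‖sphMk p‖ ^ 4 = (‖p.1‖ ^ 2 + ‖p.2‖ ^ 2) ^ 2 := by
      rw [← norm_sphMk]; ring
    simp only [va_sphMk, vb_sphMk]
    rw [h4, norm_sphMk]
    exact sph_pt hσ (sq_nonneg _) (sq_nonneg _)
  refine key.trans ?_
  rw [integral_add (integrable_sphH hσ) hsw]
  have h5 : ∫ p : ℂ × ℂ, sphH σ p.swap = ∫ p, sphH σ p := integral_prod_swap (sphH σ)
  have h6 := integral_sphH_le hσ
  rw [h5, mul_div_assoc]
  linarith only [h6]


theorem sph_unit (U : SU2) : ∑ B, rotm U B 2 ^ 2 = 1 := by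
  have h := rotm_orth U 2 2
  rw [if_pos rfl] at h
  rw [← h]
  exact Finset.sum_congr rfl fun B _ => by rw [sq]

theorem sph_cs (U : SU2) (x : X3) (j : Fin 9) :
    (act U⁻¹ x (j, 2)) ^ 2 ≤ ∑ A, x (j, A) ^ 2 := by
  rw [act_inv_two]
  have h := Finset.sum_mul_sq_le_sq_mul_sq Finset.univ (fun B => rotm U B 2) fun B => x (j, B)
  rwa [sph_unit, one_mul] at h

theorem sph_rot (x : X3) (i : Fin 9) (hi : 0 < ∑ A, x (i, A) ^ 2) : ∃ U0 : SU2, ∀ v : V4, v ≠ 0 →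
    (act (U0 * gU v)⁻¹ x (i, 2)) ^ 2 =
      (∑ A, x (i, A) ^ 2) * ((‖va v‖ ^ 2 - ‖vb v‖ ^ 2) / ‖v‖ ^ 2) ^ 2 := by
  set P := ∑ A, x (i, A) ^ 2 with hP
  have hs : Real.sqrt P ^ 2 = P := Real.sq_sqrt hi.le
  have hs0 : Real.sqrt P ≠ 0 := (Real.sqrt_pos.2 hi).ne'
  obtain ⟨U0, hU0⟩ := exists_rot (fun B => x (i, B) / Real.sqrt P) (by
    simp only [div_pow]
    rw [← Finset.sum_div, ← hP, hs, div_self hi.ne'])
  refine ⟨U0, fun v hv => ?_⟩
  have h1 : act (U0 * gU v)⁻¹ x (i, 2) = Real.sqrt P * rotm (gU v) 2 2 := by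
    rw [act_inv_two]
    have h2 : ∀ B, rotm (U0 * gU v) B 2 * x (i, B) =
        Real.sqrt P * ∑ C, (rotm U0 B 2 * rotm U0 B C) * rotm (gU v) C 2 := by
      intro B
      have h3 : x (i, B) = Real.sqrt P * rotm U0 B 2 := by
        rw [hU0]; field_simp
      rw [rotm_mul, h3, Finset.sum_mul, Finset.mul_sum]
      exact Finset.sum_congr rfl fun C _ => by ring
    simp only [h2]
    rw [← Finset.mul_sum, Finset.sum_comm]
    congr 1
    have h4 : ∀ C, ∑ B, (rotm U0 B 2 * rotm U0 B C) * rotm (gU v) C 2 =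
        if 2 = C then rotm (gU v) C 2 else 0 := by
      intro C
      rw [← Finset.sum_mul, rotm_orth, ite_mul, one_mul, zero_mul]
    simp only [h4]
    rw [Finset.sum_ite_eq, if_pos (Finset.mem_univ _)]
  rw [h1, rotm_gU_22 v hv, mul_pow, hs]

theorem sph_perp_nonneg (y : X3) : 0 ≤ Fk.perp2 y := by
  unfold Fk.perp2; positivity

theorem sph_perp_ge (x : X3) (i j : Fin 9) (hij : (i = 7 ∧ j = 8) ∨ (i = 8 ∧ j = 7)) (W : SU2)
    {κ : ℝ} (h : (act W⁻¹ x (i, 2)) ^ 2 = (∑ A, x (i, A) ^ 2) * κ) :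
    (∑ A, x (i, A) ^ 2) * (1 - κ) ≤ Fk.perp2 (act W⁻¹ x) := by
  have h1 : phsq x = (∑ A, x (i, A) ^ 2) + ∑ A, x (j, A) ^ 2 := by
    unfold phsq
    rw [Finset.sum_add_distrib]
    rcases hij with ⟨rfl, rfl⟩ | ⟨rfl, rfl⟩
    · rfl
    · rw [add_comm]
  have h2 : Fk.r3 (act W⁻¹ x) = (act W⁻¹ x (i, 2)) ^ 2 + (act W⁻¹ x (j, 2)) ^ 2 := by
    unfold Fk.r3
    rcases hij with ⟨rfl, rfl⟩ | ⟨rfl, rfl⟩
    · rfl
    · rw [add_comm]
  have h3 := phsq_eq (act W⁻¹ x)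
  rw [phsq_act, h1, h2, h] at h3
  have h4 := sph_cs W x j
  linarith only [h3, h4]

theorem sph_alg {v : V4} (hv : v ≠ 0) :
    1 - ((‖va v‖ ^ 2 - ‖vb v‖ ^ 2) / ‖v‖ ^ 2) ^ 2 = 4 * ‖va v‖ ^ 2 * ‖vb v‖ ^ 2 / ‖v‖ ^ 4 := by
  have h : ‖v‖ ^ 2 ≠ 0 := by positivity
  have h4 : ‖v‖ ^ 4 = (‖v‖ ^ 2) ^ 2 := by ring
  rw [h4]
  rw [norm_sq_eq] at h ⊢
  field_simp
  ring

theorem sph_bound_aux {C : ℝ} (hC : ∀ σ : ℝ, 0 ≤ σ →
    ∫ v : V4, Real.exp (-‖v‖ ^ 2) * Real.exp (-σ * (4 * ‖va v‖ ^ 2 * ‖vb v‖ ^ 2 / ‖v‖ ^ 4)) ≤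
      C / (1 + σ)) {s : ℝ} (hs : 0 < s) (x : X3) (i j : Fin 9)
    (hij : (i = 7 ∧ j = 8) ∨ (i = 8 ∧ j = 7)) :
    ∫ v : V4, Real.exp (-‖v‖ ^ 2) * Real.exp (-s * Fk.perp2 (act (gU v)⁻¹ x)) ≤
      C / (1 + s * ∑ A, x (i, A) ^ 2) := by
  set P := ∑ A, x (i, A) ^ 2 with hP
  have hP0 : 0 ≤ P := Finset.sum_nonneg fun A _ => sq_nonneg _
  have hint : ∀ σ : ℝ, 0 ≤ σ → Integrable fun v : V4 => Real.exp (-‖v‖ ^ 2) *
      Real.exp (-σ * (4 * ‖va v‖ ^ 2 * ‖vb v‖ ^ 2 / ‖v‖ ^ 4)) := by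
    intro σ hσ
    have hva := sph_continuous_va.measurable
    have hvb := sph_continuous_vb.measurable
    refine integrable_gauss4.mono' (by fun_prop) (Eventually.of_forall fun v => ?_)
    rw [Real.norm_of_nonneg (by positivity)]
    refine mul_le_of_le_one_right (Real.exp_nonneg _) (Real.exp_le_one_iff.2 ?_)
    have : 0 ≤ σ * (4 * ‖va v‖ ^ 2 * ‖vb v‖ ^ 2 / ‖v‖ ^ 4) := by positivity
    linarith only [this]
  rcases hP0.eq_or_lt with h0 | h0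
  · rw [← h0, mul_zero]
    refine le_trans ?_ (hC 0 le_rfl)
    refine integral_mono_of_nonneg (Eventually.of_forall fun v => by positivity) (hint 0 le_rfl)
      (Eventually.of_forall fun v => ?_)
    refine mul_le_mul_of_nonneg_left (Real.exp_le_exp.2 ?_) (Real.exp_nonneg _)
    have h1 := mul_nonneg hs.le (sph_perp_nonneg (act (gU v)⁻¹ x))
    linarith only [h1]
  · obtain ⟨U0, hU0⟩ := sph_rot x i h0
    obtain ⟨L, hL⟩ := gU_left U0
    have h1 := L.measurePreserving.integral_comp L.toHomeomorph.measurableEmbedding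
      (fun v : V4 => Real.exp (-‖v‖ ^ 2) * Real.exp (-s * Fk.perp2 (act (gU v)⁻¹ x)))
    rw [← h1]
    refine le_trans ?_ (hC (s * P) (by positivity))
    refine integral_mono_of_nonneg (Eventually.of_forall fun v => by positivity)
      (hint (s * P) (by positivity)) ?_
    filter_upwards [(show ∀ᵐ v : V4, v ≠ 0 by rw [ae_iff]; simp)] with v hv
    rw [hL v hv, L.norm_map]
    refine mul_le_mul_of_nonneg_left (Real.exp_le_exp.2 ?_) (Real.exp_nonneg _)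
    have h2 := sph_perp_ge x i j hij (U0 * gU v) (hU0 v hv)
    rw [sph_alg hv, ← hP] at h2
    have h3 := mul_le_mul_of_nonneg_left h2 hs.le
    linarith only [h3]

theorem sph_bound : ∃ C : ℝ, 0 ≤ C ∧ ∀ s : ℝ, 0 < s → ∀ x : X3,
    ∫ v : V4, Real.exp (-‖v‖ ^ 2) * Real.exp (-s * Fk.perp2 (act (gU v)⁻¹ x)) ≤
      C / (1 + s * phsq x) := by
  obtain ⟨C, hC0, hC⟩ := sph_core_bound
  refine ⟨2 * C, by positivity, fun s hs x => ?_⟩
  have h1 : phsq x = (∑ A, x (7, A) ^ 2) + ∑ A, x (8, A) ^ 2 := by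
    unfold phsq
    rw [Finset.sum_add_distrib]
  have key : ∀ P Q : ℝ, 0 ≤ P → 0 ≤ Q → Q ≤ P → C / (1 + s * P) ≤ 2 * C / (1 + s * (P + Q)) := by
    intro P Q hP hQ hPQ
    rw [div_le_div_iff₀ (by positivity) (by positivity)]
    have h2 : 1 + s * (P + Q) ≤ 2 * (1 + s * P) := by
      have := mul_le_mul_of_nonneg_left hPQ hs.le
      linarith only [this]
    have h3 := mul_le_mul_of_nonneg_left h2 hC0
    linarith only [h3]
  have h7 : 0 ≤ ∑ A, x (7, A) ^ 2 := Finset.sum_nonneg fun A _ => sq_nonneg _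
  have h8 : 0 ≤ ∑ A, x (8, A) ^ 2 := Finset.sum_nonneg fun A _ => sq_nonneg _
  rw [h1]
  rcases le_total (∑ A, x (8, A) ^ 2) (∑ A, x (7, A) ^ 2) with h | h
  · exact (sph_bound_aux hC hs x 7 8 (Or.inl ⟨rfl, rfl⟩)).trans (key _ _ h7 h8 h)
  · rw [add_comm (∑ A, x (7, A) ^ 2)]
    exact (sph_bound_aux hC hs x 8 7 (Or.inr ⟨rfl, rfl⟩)).trans (key _ _ h8 h7 h)

theorem sph_limit0 {r : ℝ} (hr : 0 < r) {f : V4 → ℂ} (hf : ∀ v, v ≠ 0 → ContinuousAt f v)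
    (hb : ∃ C, ∀ v, ‖f v‖ ≤ C) :
    Tendsto (fun t : ℝ => ∫ v : V4, ((Real.exp (-‖v‖ ^ 2) *
      Real.exp (-t * (4 * ‖va v‖ ^ 2 * ‖vb v‖ ^ 2 / ‖v‖ ^ 4 * r)) : ℝ) : ℂ) * f v) atTop (𝓝 0) := by
  have _ := hf
  obtain ⟨C, hC0, hC⟩ := sph_core_bound
  obtain ⟨M, hM⟩ := hb
  have hM0 : 0 ≤ M := (norm_nonneg _).trans (hM 0)
  have hlim : Tendsto (fun t : ℝ => M * (C / (1 + t * r))) atTop (𝓝 0) := by
    rw [← mul_zero M]
    refine Tendsto.const_mul M (Tendsto.div_atTop tendsto_const_nhds ?_)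
    exact tendsto_atTop_add_const_left _ _ (tendsto_id.atTop_mul_const hr)
  refine squeeze_zero_norm' ?_ hlim
  filter_upwards [eventually_ge_atTop 0] with t ht
  refine (norm_integral_le_integral_norm _).trans ?_
  have h1 := hC (t * r) (by positivity)
  have hva := sph_continuous_va.measurable
  have hvb := sph_continuous_vb.measurable
  refine le_trans ?_ (mul_le_mul_of_nonneg_left h1 hM0)
  rw [← integral_const_mul]
  refine integral_mono_of_nonneg (Eventually.of_forall fun v => norm_nonneg _) ?_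
    (Eventually.of_forall fun v => ?_)
  · refine Integrable.const_mul (integrable_gauss4.mono' (by fun_prop)
      (Eventually.of_forall fun v => ?_)) M
    rw [Real.norm_of_nonneg (by positivity)]
    refine mul_le_of_le_one_right (Real.exp_nonneg _) (Real.exp_le_one_iff.2 ?_)
    have : 0 ≤ t * r * (4 * ‖va v‖ ^ 2 * ‖vb v‖ ^ 2 / ‖v‖ ^ 4) := by positivity
    linarith only [this]
  · simp only [norm_mul, Complex.norm_real]
    rw [Real.norm_of_nonneg (Real.exp_nonneg _), Real.norm_of_nonneg (Real.exp_nonneg _), mul_comm]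
    have h2 : -t * (4 * ‖va v‖ ^ 2 * ‖vb v‖ ^ 2 / ‖v‖ ^ 4 * r) =
        -(t * r) * (4 * ‖va v‖ ^ 2 * ‖vb v‖ ^ 2 / ‖v‖ ^ 4) := by ring
    rw [h2]
    exact mul_le_mul_of_nonneg_right (hM v) (by positivity)


/-! ### the concentration lemma -/

/-- the half weight -/
noncomputable def sphW (v : V4) : ℝ :=
  if ‖vb v‖ < ‖va v‖ then 1 else if ‖vb v‖ = ‖va v‖ then 1 / 2 else 0

theorem measurable_sphW : Measurable sphW :=
  Measurable.ite (measurableSet_lt sph_continuous_vb.norm.measurable sph_continuous_va.norm.measurable)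
    measurable_const (Measurable.ite (measurableSet_eq_fun sph_continuous_vb.norm.measurable
      sph_continuous_va.norm.measurable) measurable_const measurable_const)

theorem sphW_add {v w : V4} (h1 : ‖va w‖ = ‖vb v‖) (h2 : ‖vb w‖ = ‖va v‖) :
    sphW v + sphW w = 1 := by
  unfold sphW
  rw [h1, h2]
  rcases lt_trichotomy ‖vb v‖ ‖va v‖ with h | h | h
  · rw [if_pos h, if_neg h.not_gt, if_neg h.ne', add_zero]
  · rw [if_neg h.not_lt, if_pos h, if_neg h.not_gt, if_pos h.symm]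
    norm_num
  · rw [if_neg h.not_gt, if_neg h.ne', if_pos h, zero_add]

theorem sphW_nonneg (v : V4) : 0 ≤ sphW v := by
  unfold sphW
  split_ifs <;> norm_num

theorem sphW_le_one (v : V4) : sphW v ≤ 1 := by
  unfold sphW
  split_ifs <;> norm_num

/-- the concentrating kernel -/
noncomputable def sphG (r t : ℝ) (v : V4) : ℝ := Real.exp (-‖v‖ ^ 2) *
  (t * Real.exp (-t * (4 * ‖va v‖ ^ 2 * ‖vb v‖ ^ 2 / ‖v‖ ^ 4 * r)))

theorem measurable_sphG (r t : ℝ) : Measurable (sphG r t) := by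
  have hva := sph_continuous_va.measurable
  have hvb := sph_continuous_vb.measurable
  unfold sphG
  fun_prop

theorem sphG_nonneg {r t : ℝ} (ht : 0 ≤ t) (v : V4) : 0 ≤ sphG r t v := by
  unfold sphG; positivity

theorem sphG_le {r t : ℝ} (hr : 0 ≤ r) (ht : 0 ≤ t) (v : V4) :
    sphG r t v ≤ t * Real.exp (-‖v‖ ^ 2) := by
  unfold sphG
  rw [mul_comm t (Real.exp (-‖v‖ ^ 2))]
  refine mul_le_mul_of_nonneg_left ?_ (Real.exp_nonneg _)
  refine mul_le_of_le_one_right ht (Real.exp_le_one_iff.2 ?_)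
  have : 0 ≤ t * (4 * ‖va v‖ ^ 2 * ‖vb v‖ ^ 2 / ‖v‖ ^ 4 * r) := by positivity
  linarith only [this]

theorem sph_int_mul {r t : ℝ} (hr : 0 ≤ r) (ht : 0 ≤ t) {f : V4 → ℂ} (hf : Measurable f) {M : ℝ}
    (hM : ∀ v, ‖f v‖ ≤ M) {w : V4 → ℝ} (hw : Measurable w) (hw0 : ∀ v, 0 ≤ w v)
    (hw1 : ∀ v, w v ≤ 1) : Integrable fun v => ((w v * sphG r t v : ℝ) : ℂ) * f v := by
  have hM0 : 0 ≤ M := (norm_nonneg _).trans (hM 0)
  refine (integrable_gauss4.const_mul (t * M)).mono'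
    ((Complex.measurable_ofReal.comp (hw.mul (measurable_sphG r t))).mul hf).aestronglyMeasurable
    (Eventually.of_forall fun v => ?_)
  rw [norm_mul, Complex.norm_real, Real.norm_of_nonneg (mul_nonneg (hw0 v) (sphG_nonneg ht v))]
  have h1 : w v * sphG r t v ≤ 1 * (t * Real.exp (-‖v‖ ^ 2)) :=
    mul_le_mul (hw1 v) (sphG_le hr ht v) (sphG_nonneg ht v) zero_le_one
  calc w v * sphG r t v * ‖f v‖ ≤ (1 * (t * Real.exp (-‖v‖ ^ 2))) * M :=
        mul_le_mul h1 (hM v) (norm_nonneg _) (by positivity)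
    _ = t * M * Real.exp (-‖v‖ ^ 2) := by ring

theorem sph_half {r t : ℝ} (hr : 0 ≤ r) (ht : 0 ≤ t) {f : V4 → ℂ} (hf : Measurable f) {M : ℝ}
    (hM : ∀ v, ‖f v‖ ≤ M) (R : V4 ≃ₗᵢ[ℝ] V4) (ha : ∀ v, ‖va (R v)‖ = ‖vb v‖)
    (hb : ∀ v, ‖vb (R v)‖ = ‖va v‖) (hR : ∀ v, f (R v) = f v) :
    ∫ v, ((sphG r t v : ℝ) : ℂ) * f v = 2 * ∫ v, ((sphW v * sphG r t v : ℝ) : ℂ) * f v := by
  have h1 : ∀ v, ((sphG r t v : ℝ) : ℂ) * f v = ((sphW v * sphG r t v : ℝ) : ℂ) * f v +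
      ((sphW (R v) * sphG r t v : ℝ) : ℂ) * f v := by
    intro v
    rw [← add_mul, ← Complex.ofReal_add, ← add_mul, sphW_add (ha v) (hb v), one_mul]
  have h2 := R.measurePreserving.integral_comp R.toHomeomorph.measurableEmbedding
    (fun v => ((sphW v * sphG r t v : ℝ) : ℂ) * f v)
  have h3 : ∀ v, sphG r t (R v) = sphG r t v := by
    intro v
    unfold sphG
    rw [ha, hb, R.norm_map, mul_right_comm 4]
  simp only [h3, hR] at h2
  simp only [h1]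
  rw [integral_add (sph_int_mul hr ht hf hM measurable_sphW sphW_nonneg sphW_le_one)
    (sph_int_mul (w := fun v => sphW (R v)) hr ht hf hM
      (measurable_sphW.comp R.continuous.measurable) (fun v => sphW_nonneg _)
      fun v => sphW_le_one _)]
  rw [show (∫ v, ((sphW (R v) * sphG r t v : ℝ) : ℂ) * f v) =
    ∫ v, ((sphW v * sphG r t v : ℝ) : ℂ) * f v from h2, two_mul]

/-- the rescaled point -/
noncomputable def sphP (t : ℝ) (p : ℂ × ℂ) : V4 := sphMk (p.1, (‖p.1‖ / Real.sqrt t) • p.2)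

theorem sph_cov {Φ : V4 → ℂ} (hΦ : Integrable Φ) {t : ℝ} (ht : 0 < t)
    (hK : Integrable fun p : ℂ × ℂ => ((‖p.1‖ ^ 2 / t : ℝ) : ℂ) * Φ (sphP t p)) :
    ∫ v, Φ v = ∫ p : ℂ × ℂ, ((‖p.1‖ ^ 2 / t : ℝ) : ℂ) * Φ (sphP t p) := by
  have e1 : ∫ p : ℂ × ℂ, Φ (sphMk p) = ∫ a : ℂ, ∫ b : ℂ, Φ (sphMk (a, b)) :=
    integral_prod _ (sph_integrable.2 hΦ)
  have e2 : ∫ p : ℂ × ℂ, ((‖p.1‖ ^ 2 / t : ℝ) : ℂ) * Φ (sphP t p) =
      ∫ a : ℂ, ∫ b : ℂ, ((‖a‖ ^ 2 / t : ℝ) : ℂ) * Φ (sphP t (a, b)) := integral_prod _ hK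
  rw [sph_integral, e1, e2]
  refine integral_congr_ae ?_
  filter_upwards [sph_ae_ne_zero] with a ha
  have ha : 0 < ‖a‖ := norm_pos_iff.2 ha
  have h1 := Measure.integral_comp_smul (volume : Measure ℂ) (fun b => Φ (sphMk (a, b)))
    (‖a‖ / Real.sqrt t)
  simp only [sphP]
  rw [integral_const_mul, h1, Complex.finrank_real_complex, div_pow, Real.sq_sqrt ht.le,
    abs_of_nonneg (by positivity), Complex.real_smul, ← mul_assoc, ← Complex.ofReal_mul,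
    mul_inv_cancel₀ (by positivity), Complex.ofReal_one, one_mul]

theorem sph_dom {r t : ℝ} (hr : 0 < r) (ht : 0 < t) {f : V4 → ℂ} {M : ℝ}
    (hM : ∀ v, ‖f v‖ ≤ M) (p : ℂ × ℂ) :
    ‖((‖p.1‖ ^ 2 / t : ℝ) : ℂ) * (((sphW (sphP t p) * sphG r t (sphP t p) : ℝ) : ℂ) *
      f (sphP t p))‖ ≤ M * (‖p.1‖ ^ 2 * Real.exp (-‖p.1‖ ^ 2) * Real.exp (-r * ‖p.2‖ ^ 2)) := by
  have hM0 : 0 ≤ M := (norm_nonneg _).trans (hM 0)
  have hw : 0 ≤ sphW (sphP t p) * sphG r t (sphP t p) :=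
    mul_nonneg (sphW_nonneg _) (sphG_nonneg ht.le _)
  rw [norm_mul, norm_mul, Complex.norm_real, Complex.norm_real, Real.norm_of_nonneg (by positivity),
    Real.norm_of_nonneg hw]
  rcases eq_or_ne p.1 0 with h0 | h0
  · rw [h0]; simp
  have ha : 0 < ‖p.1‖ ^ 2 := by positivity
  have hB : ‖(‖p.1‖ / Real.sqrt t) • p.2‖ ^ 2 = ‖p.1‖ ^ 2 * (‖p.2‖ ^ 2 / t) := by
    rw [norm_smul, Real.norm_of_nonneg (by positivity), mul_pow, div_pow, Real.sq_sqrt ht.le]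
    ring
  have key : sphW (sphP t p) * sphG r t (sphP t p) ≤
      t * (Real.exp (-‖p.1‖ ^ 2) * Real.exp (-r * ‖p.2‖ ^ 2)) := by
    by_cases hle : ‖vb (sphP t p)‖ ≤ ‖va (sphP t p)‖
    · have h4 : ‖sphP t p‖ ^ 4 = (‖p.1‖ ^ 2 + ‖p.1‖ ^ 2 * (‖p.2‖ ^ 2 / t)) ^ 2 := by
        rw [show ‖sphP t p‖ ^ 4 = (‖sphP t p‖ ^ 2) ^ 2 by ring, sphP, norm_sphMk, hB]
      have h5 := sph_ratio_exp (A := ‖p.1‖ ^ 2) (B := ‖p.1‖ ^ 2 * (‖p.2‖ ^ 2 / t))
        (σ := t * r) (by positivity) ha.le (by positivity) (by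
          rw [← hB]; exact pow_le_pow_left₀ (norm_nonneg _) hle 2)
      have h6 : -(1 + t * r / ‖p.1‖ ^ 2) * (‖p.1‖ ^ 2 * (‖p.2‖ ^ 2 / t)) =
          -(‖p.1‖ ^ 2 * (‖p.2‖ ^ 2 / t)) + -r * ‖p.2‖ ^ 2 := by
        field_simp
        ring
      have h7 : sphG r t (sphP t p) = t * (Real.exp (-(‖p.1‖ ^ 2 + ‖p.1‖ ^ 2 * (‖p.2‖ ^ 2 / t))) *
          Real.exp (-(t * r) * (4 * ‖p.1‖ ^ 2 * (‖p.1‖ ^ 2 * (‖p.2‖ ^ 2 / t)) /
            (‖p.1‖ ^ 2 + ‖p.1‖ ^ 2 * (‖p.2‖ ^ 2 / t)) ^ 2))) := by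
        unfold sphG
        rw [h4]
        simp only [sphP]
        rw [norm_sphMk, va_sphMk, vb_sphMk, hB, mul_left_comm]
        congr 3
        ring
      calc sphW (sphP t p) * sphG r t (sphP t p) ≤ 1 * sphG r t (sphP t p) :=
            mul_le_mul_of_nonneg_right (sphW_le_one _) (sphG_nonneg ht.le _)
        _ = sphG r t (sphP t p) := one_mul _
        _ ≤ t * (Real.exp (-‖p.1‖ ^ 2) *
              Real.exp (-(1 + t * r / ‖p.1‖ ^ 2) * (‖p.1‖ ^ 2 * (‖p.2‖ ^ 2 / t)))) := by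
            rw [h7]
            exact mul_le_mul_of_nonneg_left h5 ht.le
        _ ≤ t * (Real.exp (-‖p.1‖ ^ 2) * Real.exp (-r * ‖p.2‖ ^ 2)) := by
            rw [h6]
            refine mul_le_mul_of_nonneg_left (mul_le_mul_of_nonneg_left (Real.exp_le_exp.2 ?_)
              (Real.exp_nonneg _)) ht.le
            have : 0 ≤ ‖p.1‖ ^ 2 * (‖p.2‖ ^ 2 / t) := by positivity
            linarith only [this]
    · have h8 : sphW (sphP t p) = 0 := by
        unfold sphW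
        rw [if_neg fun h => hle h.le, if_neg fun h => hle h.le]
      rw [h8, zero_mul]
      positivity
  calc ‖p.1‖ ^ 2 / t * (sphW (sphP t p) * sphG r t (sphP t p) * ‖f (sphP t p)‖)
      ≤ ‖p.1‖ ^ 2 / t * (t * (Real.exp (-‖p.1‖ ^ 2) * Real.exp (-r * ‖p.2‖ ^ 2)) * M) := by
        refine mul_le_mul_of_nonneg_left ?_ (by positivity)
        exact mul_le_mul key (hM _) (norm_nonneg _) (by positivity)
    _ = M * (‖p.1‖ ^ 2 * Real.exp (-‖p.1‖ ^ 2) * Real.exp (-r * ‖p.2‖ ^ 2)) := by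
        field_simp

theorem continuous_sphP (t : ℝ) : Continuous (sphP t) := by
  unfold sphP
  exact sphMk.continuous.comp (continuous_fst.prodMk
    ((continuous_fst.norm.div_const _).smul continuous_snd))

theorem sph_lim_pt {r : ℝ} {f : V4 → ℂ} {f0 : ℂ} {p : ℂ × ℂ} (hp : p.1 ≠ 0)
    (hf : ContinuousAt f (sphMk (p.1, 0))) (hf0 : f (sphMk (p.1, 0)) = f0) :
    Tendsto (fun t : ℝ => ((‖p.1‖ ^ 2 / t : ℝ) : ℂ) * (((sphW (sphP t p) * sphG r t (sphP t p) : ℝ) :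
      ℂ) * f (sphP t p))) atTop
      (𝓝 (((‖p.1‖ ^ 2 * Real.exp (-‖p.1‖ ^ 2) * Real.exp (-(4 * r) * ‖p.2‖ ^ 2) : ℝ) : ℂ) * f0)) := by
  have ha : 0 < ‖p.1‖ := norm_pos_iff.2 hp
  -- the point converges
  have hP : Tendsto (fun t : ℝ => sphP t p) atTop (𝓝 (sphMk (p.1, 0))) := by
    have h1 : Tendsto (fun t : ℝ => (p.1, (‖p.1‖ / Real.sqrt t) • p.2)) atTop (𝓝 (p.1, (0 : ℂ))) := by
      refine tendsto_const_nhds.prodMk_nhds ?_
      rw [← zero_smul ℝ p.2]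
      exact (Tendsto.div_atTop tendsto_const_nhds Real.tendsto_sqrt_atTop).smul_const _
    exact (sphMk.continuous.tendsto _).comp h1
  have hfP : Tendsto (fun t : ℝ => f (sphP t p)) atTop (𝓝 f0) := hf0 ▸ hf.tendsto.comp hP
  have hn : Tendsto (fun t : ℝ => ‖sphP t p‖ ^ 2) atTop (𝓝 (‖p.1‖ ^ 2)) := by
    have h1 := (hP.norm).pow 2
    rwa [norm_sphMk, norm_zero, zero_pow two_ne_zero, add_zero] at h1
  have hvb : Tendsto (fun t : ℝ => ‖vb (sphP t p)‖) atTop (𝓝 0) := by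
    have h1 := ((sph_continuous_vb.tendsto _).comp hP).norm
    rwa [vb_sphMk, norm_zero] at h1
  have hreal : Tendsto (fun t : ℝ => ‖p.1‖ ^ 2 * Real.exp (-‖sphP t p‖ ^ 2) *
      Real.exp (-(4 * ‖p.1‖ ^ 2 * (‖p.1‖ ^ 2 * ‖p.2‖ ^ 2) / (‖sphP t p‖ ^ 2) ^ 2 * r))) atTop
      (𝓝 (‖p.1‖ ^ 2 * Real.exp (-‖p.1‖ ^ 2) * Real.exp (-(4 * r) * ‖p.2‖ ^ 2))) := by
    have h2 : -(4 * r) * ‖p.2‖ ^ 2 =
        -(4 * ‖p.1‖ ^ 2 * (‖p.1‖ ^ 2 * ‖p.2‖ ^ 2) / (‖p.1‖ ^ 2) ^ 2 * r) := by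
      field_simp
    rw [h2]
    refine (tendsto_const_nhds.mul ((Real.continuous_exp.tendsto _).comp hn.neg)).mul
      ((Real.continuous_exp.tendsto _).comp ?_)
    exact ((tendsto_const_nhds.div (hn.pow 2) (by positivity)).mul_const r).neg
  have hc := ((Complex.continuous_ofReal.tendsto _).comp hreal).mul hfP
  refine hc.congr' ?_
  filter_upwards [eventually_gt_atTop 0, hvb.eventually (gt_mem_nhds ha)] with t ht hlt
  have hW : sphW (sphP t p) = 1 := by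
    unfold sphW
    rw [if_pos (by simpa only [sphP, va_sphMk] using hlt)]
  have hB : t * ‖vb (sphP t p)‖ ^ 2 = ‖p.1‖ ^ 2 * ‖p.2‖ ^ 2 := by
    simp only [sphP, vb_sphMk]
    rw [norm_smul, Real.norm_of_nonneg (by positivity), mul_pow, div_pow, Real.sq_sqrt ht.le]
    field_simp
  have hva : va (sphP t p) = p.1 := rfl
  simp only [Function.comp_apply]
  rw [← mul_assoc ((‖p.1‖ ^ 2 / t : ℝ) : ℂ), ← Complex.ofReal_mul, hW, one_mul, ← hB]
  congr 2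
  unfold sphG
  rw [hva]
  have h5 : -t * (4 * ‖p.1‖ ^ 2 * ‖vb (sphP t p)‖ ^ 2 / ‖sphP t p‖ ^ 4 * r) =
      -(4 * ‖p.1‖ ^ 2 * (t * ‖vb (sphP t p)‖ ^ 2) / (‖sphP t p‖ ^ 2) ^ 2 * r) := by
    ring
  rw [h5]
  field_simp

/-- the concentration lemma used in the limit `t → ∞` -/
theorem sph_limit {r : ℝ} (hr : 0 < r) {f : V4 → ℂ} (hf : ∀ v, v ≠ 0 → ContinuousAt f v)
    (hb : ∃ C, ∀ v, ‖f v‖ ≤ C) (f0 : ℂ) (hT : ∀ v, v ≠ 0 → vb v = 0 → f v = f0)
    (hW : ∀ R : V4 ≃ₗᵢ[ℝ] V4, (∀ v, v ≠ 0 → gU (R v) = gU v * Wel) → ∀ v, v ≠ 0 → f (R v) = f v) :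
    Tendsto (fun t : ℝ => ∫ v : V4, ((Real.exp (-‖v‖ ^ 2) *
      (t * Real.exp (-t * (4 * ‖va v‖ ^ 2 * ‖vb v‖ ^ 2 / ‖v‖ ^ 4 * r))) : ℝ) : ℂ) * f v) atTop
      (𝓝 (((Real.pi ^ 2 / (2 * r) : ℝ) : ℂ) * f0)) := by
  classical
  obtain ⟨M, hM⟩ := hb
  have hM0 : 0 ≤ M := (norm_nonneg _).trans (hM 0)
  obtain ⟨R, hR1, hRa, hRb⟩ := gU_right
  -- a measurable version of `f`
  set g : V4 → ℂ := ({0}ᶜ : Set V4).piecewise f (fun _ => 0) with hg
  have hgf : ∀ v, v ≠ 0 → g v = f v := fun v hv => Set.piecewise_eq_of_mem _ _ _ hv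
  have hg0 : g 0 = 0 := Set.piecewise_eq_of_notMem _ _ _ (by simp)
  have hgm : Measurable g := by
    refine ContinuousOn.measurable_piecewise ?_ continuousOn_const (measurableSet_singleton 0).compl
    exact fun v hv => (hf v hv).continuousWithinAt
  have hgM : ∀ v, ‖g v‖ ≤ M := by
    intro v
    rcases eq_or_ne v 0 with rfl | hv
    · rw [hg0, norm_zero]; exact hM0
    · rw [hgf v hv]; exact hM v
  have hgR : ∀ v, g (R v) = g v := by
    intro v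
    rcases eq_or_ne v 0 with rfl | hv
    · rw [map_zero]
    · rw [hgf v hv, hgf (R v) (by simpa using hv), hW R hR1 v hv]
  have hgc : ∀ v, v ≠ 0 → ContinuousAt g v := by
    intro v hv
    refine (hf v hv).congr ?_
    filter_upwards [isOpen_ne.mem_nhds hv] with w hw using (hgf w hw).symm
  have hd : Integrable fun p : ℂ × ℂ =>
      M * (‖p.1‖ ^ 2 * Real.exp (-‖p.1‖ ^ 2) * Real.exp (-r * ‖p.2‖ ^ 2)) :=
    (sph_gauss_two.mul_prod (sph_gauss_int hr)).const_mul M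
  have hmeas : ∀ t : ℝ, AEStronglyMeasurable (fun p : ℂ × ℂ => ((‖p.1‖ ^ 2 / t : ℝ) : ℂ) *
      (((sphW (sphP t p) * sphG r t (sphP t p) : ℝ) : ℂ) * g (sphP t p))) volume := by
    intro t
    have h1 : Measurable fun p : ℂ × ℂ => ((‖p.1‖ ^ 2 / t : ℝ) : ℂ) := by fun_prop
    have h2 : Measurable fun v : V4 => (((sphW v * sphG r t v : ℝ) : ℂ) * g v) :=
      (Complex.measurable_ofReal.comp (measurable_sphW.mul (measurable_sphG r t))).mul hgm
    exact (h1.mul (h2.comp (continuous_sphP t).measurable)).aestronglyMeasurable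
  have hlim : Tendsto (fun t : ℝ => ∫ p : ℂ × ℂ, ((‖p.1‖ ^ 2 / t : ℝ) : ℂ) *
      (((sphW (sphP t p) * sphG r t (sphP t p) : ℝ) : ℂ) * g (sphP t p))) atTop
      (𝓝 (∫ p : ℂ × ℂ, ((‖p.1‖ ^ 2 * Real.exp (-‖p.1‖ ^ 2) *
        Real.exp (-(4 * r) * ‖p.2‖ ^ 2) : ℝ) : ℂ) * f0)) := by
    refine tendsto_integral_filter_of_dominated_convergence _ (Eventually.of_forall hmeas) ?_ hd ?_
    · filter_upwards [eventually_gt_atTop 0] with t ht
      exact Eventually.of_forall fun p => sph_dom hr ht hgM p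
    · have h3 : ∀ᵐ p : ℂ × ℂ, p.1 ≠ 0 := by
        have h4 : ∀ᵐ p : ℂ × ℂ, p.1 ∈ ({0}ᶜ : Set ℂ) :=
          Measure.quasiMeasurePreserving_fst.ae (sph_ae_ne_zero)
        exact h4
      filter_upwards [h3] with p hp
      have hne : sphMk (p.1, 0) ≠ 0 := by
        intro h
        apply hp
        have h5 := norm_sphMk (p.1, 0)
        rw [h] at h5
        simpa using h5.symm
      exact sph_lim_pt hp (hgc _ hne) (by rw [hgf _ hne]; exact hT _ hne rfl)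
  have hval : ∫ p : ℂ × ℂ, ((‖p.1‖ ^ 2 * Real.exp (-‖p.1‖ ^ 2) *
        Real.exp (-(4 * r) * ‖p.2‖ ^ 2) : ℝ) : ℂ) * f0 =
      ((Real.pi ^ 2 / (4 * r) : ℝ) : ℂ) * f0 := by
    rw [integral_mul_const, integral_complex_ofReal]
    congr 2
    have h6 := integral_prod_mul (μ := (volume : Measure ℂ)) (ν := (volume : Measure ℂ))
      (fun a : ℂ => ‖a‖ ^ 2 * Real.exp (-‖a‖ ^ 2)) (fun c : ℂ => Real.exp (-(4 * r) * ‖c‖ ^ 2))
    rw [sph_gauss_two_val, sph_gauss_val (by positivity)] at h6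
    rw [Measure.volume_eq_prod, h6]
    ring
  rw [hval] at hlim
  have hlim2 := hlim.const_mul 2
  have hfin : (2 : ℂ) * (((Real.pi ^ 2 / (4 * r) : ℝ) : ℂ) * f0) =
      ((Real.pi ^ 2 / (2 * r) : ℝ) : ℂ) * f0 := by
    rw [← mul_assoc, ← Complex.ofReal_ofNat, ← Complex.ofReal_mul]
    congr 2
    field_simp
    norm_num
  rw [hfin] at hlim2
  refine hlim2.congr' ?_
  filter_upwards [eventually_gt_atTop 0] with t ht
  have e1 : ∫ v : V4, ((Real.exp (-‖v‖ ^ 2) *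
      (t * Real.exp (-t * (4 * ‖va v‖ ^ 2 * ‖vb v‖ ^ 2 / ‖v‖ ^ 4 * r))) : ℝ) : ℂ) * f v =
      ∫ v : V4, ((sphG r t v : ℝ) : ℂ) * g v := by
    refine integral_congr_ae ?_
    filter_upwards [(show ∀ᵐ v : V4, v ≠ 0 by rw [ae_iff]; simp)] with v hv
    rw [hgf v hv]
    rfl
  rw [e1, sph_half hr.le ht.le hgm hgM R hRa hRb hgR, sph_cov
    (sph_int_mul hr.le ht.le hgm hgM measurable_sphW sphW_nonneg sphW_le_one) ht
    (hd.mono' (hmeas t) (Eventually.of_forall fun p => sph_dom hr ht hgM p))]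

end Vale.Agent.P353.Ex
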