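import Vale.Agent.P353.Ex.Defs

open MeasureTheory Filter Topology
open scoped ContDiff ComplexConjugate

namespace Vale.Agent.P353.Ex

/-- a complex unit spinor `e` with `γ⁷ e = ē`, `γ⁸ e = i ē`, its frame `u_k = γ^k e` (`k < 7`),
`u_7 = ē`, and the cross product `t` on `ℝ⁷` it defines -/
structure Spin (γ : Fin 9 → Matrix (Fin 16) (Fin 16) ℝ) where
  e : Fin 16 → ℂ
  u : Fin 8 → Fin 16 → ℂ
  t : Fin 7 → Fin 7 → Fin 7 → ℝ
  e_norm : ∑ α, e α * conj (e α) = 1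
  u_eq : ∀ k α, u (e8 k) α = ∑ β, (γ (e9 k) α β : ℂ) * e β
  u7_eq : ∀ α, u 7 α = conj (e α)
  g7 : ∀ α, ∑ β, (γ 7 α β : ℂ) * e β = conj (e α)
  g8 : ∀ α, ∑ β, (γ 8 α β : ℂ) * e β = Complex.I * conj (e α)
  ortho : ∀ i j, ∑ α, u i α * conj (u j α) = if i = j then 1 else 0
  iso : ∀ i j, ∑ α, u i α * u j α = 0
  compl : ∀ α β, ∑ i, (u i α * conj (u i β) + conj (u i α) * u i β) = if α = β then 1 else 0
  prod : ∀ i j : Fin 7, ∀ α, ∑ β, (γ (e9 i) α β : ℂ) * u (e8 j) β =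
    (if i = j then e α else 0) + Complex.I * ∑ k, (t k i j : ℂ) * u (e8 k) α
  t_swap : ∀ k i j, t k i j = - t k j i
  t_cyc : ∀ k i j, t k i j = t i j k
  t_norm : ∀ x y : Fin 7 → ℝ, ∑ k, (∑ i, ∑ j, t k i j * x i * y j) ^ 2 =
    (∑ i, x i ^ 2) * (∑ i, y i ^ 2) - (∑ i, x i * y i) ^ 2

end Vale.Agent.P353.Ex
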